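import Mathlib
import Crest.Agent.R018.Core_74
import Crest.Agent.R018.Kum_568
import Crest.Agent.R018.LocDef_31

-- ▼ part R018/PLog_814
section

/-!
# The `l`-adic logarithm on `ℤ_[l]ˣ` (row 18, helper814)

`exists_log`: for odd `l` there is a continuous homomorphism `L : ℤ_[l]ˣ →* Multiplicative ℤ_[l]`
whose kernel consists of the elements `u` with `u ^ (l - 1) = 1`.
-/

set_option autoImplicit false

open Filter Topology Finset

namespace Crest.Agent.R018.PLogx814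

variable {l : ℕ} [hl : Fact l.Prime]

/-- principal units -/
def PU (u : ℤ_[l]) : Prop := (l : ℤ_[l]) ∣ u - 1

theorem norm_le_of_dvd {a b : ℤ_[l]} (h : a ∣ b) : ‖b‖ ≤ ‖a‖ := by
  obtain ⟨c, rfl⟩ := h
  rw [norm_mul]
  exact mul_le_of_le_one_right (norm_nonneg _) (PadicInt.norm_le_one c)

theorem PU.norm_le {u : ℤ_[l]} (h : PU u) : ‖u - 1‖ ≤ (l : ℝ)⁻¹ := by
  have := norm_le_of_dvd h
  rwa [PadicInt.norm_p] at this

theorem pu_iff {u : ℤ_[l]} : PU u ↔ PadicInt.toZMod u = 1 := by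
  rw [PU, ← sub_eq_zero, ← map_one (PadicInt.toZMod (p := l)), ← map_sub, ← RingHom.mem_ker,
    PadicInt.ker_toZMod, PadicInt.maximalIdeal_eq_span_p, Ideal.mem_span_singleton]

theorem PU.pow {u : ℤ_[l]} (h : PU u) (n : ℕ) : PU (u ^ n) := by
  rw [pu_iff] at *
  rw [map_pow, h, one_pow]

theorem PU.mul {u v : ℤ_[l]} (h : PU u) (h' : PU v) : PU (u * v) := by
  rw [pu_iff] at *
  rw [map_mul, h, h', one_mul]

/-- `Σ_{i<l} y^i = l * unit` -/
theorem norm_geom (hodd : l ≠ 2) {y : ℤ_[l]} (h : PU y) :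
    ‖∑ i ∈ range l, y ^ i‖ = (l : ℝ)⁻¹ := by
  obtain ⟨b, hb⟩ := h
  have hy : y = 1 + (l : ℤ_[l]) * b := by rw [← hb]; ring
  have h1 := odd_sq_dvd_geom_sum₂_sub (R := ℤ_[l]) (p := l) (1 : ℤ_[l]) b
    (hl.out.odd_of_ne_two hodd)
  simp only [one_pow, mul_one] at h1
  rw [← hy] at h1
  have h2 := norm_le_of_dvd h1
  rw [norm_pow, PadicInt.norm_p] at h2
  have hl1 : (1 : ℝ) < l := by exact_mod_cast hl.out.one_lt
  have hlt : ‖(∑ i ∈ range l, y ^ i) - (l : ℤ_[l])‖ < ‖(l : ℤ_[l])‖ := by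
    rw [PadicInt.norm_p]
    refine h2.trans_lt ?_
    rw [pow_two]
    exact mul_lt_of_lt_one_left (by positivity) (inv_lt_one_of_one_lt₀ hl1)
  have h3 : ∑ i ∈ range l, y ^ i = ((∑ i ∈ range l, y ^ i) - (l : ℤ_[l])) + (l : ℤ_[l]) := by
    ring
  rw [h3, PadicInt.norm_add_eq_max_of_ne hlt.ne, max_eq_right hlt.le, PadicInt.norm_p]

theorem norm_pow_l (hodd : l ≠ 2) {y : ℤ_[l]} (h : PU y) :
    ‖y ^ l - 1‖ = ‖y - 1‖ * (l : ℝ)⁻¹ := by
  rw [← geom_sum_mul, norm_mul, norm_geom hodd h, mul_comm]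

theorem norm_pow_pow (hodd : l ≠ 2) {y : ℤ_[l]} (h : PU y) (n : ℕ) :
    ‖y ^ l ^ n - 1‖ = ‖y - 1‖ * ((l : ℝ)⁻¹) ^ n := by
  induction n with
  | zero => simp
  | succ n ih =>
    rw [pow_succ, pow_mul, norm_pow_l hodd (h.pow _), ih, pow_succ]
    ring

theorem norm_diff {y : ℤ_[l]} :
    ‖(y ^ l - 1) - (l : ℤ_[l]) * (y - 1)‖ ≤ ‖y - 1‖ ^ 2 := by
  have h1 : (y - 1) ^ 2 ∣ (y ^ l - 1) - (l : ℤ_[l]) * (y - 1) := by
    rw [← geom_sum_mul, ← sub_mul, pow_two]
    refine mul_dvd_mul ?_ dvd_rfl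
    have : (∑ i ∈ range l, y ^ i) - (l : ℤ_[l]) = ∑ i ∈ range l, (y ^ i - 1) := by
      rw [Finset.sum_sub_distrib]; simp
    rw [this]
    exact Finset.dvd_sum fun i _ => sub_one_dvd_pow_sub_one y i
  have := norm_le_of_dvd h1
  rwa [norm_pow] at this

/-- the approximations of the logarithm -/
noncomputable def f (n : ℕ) (u : ℤ_[l]) : ℚ_[l] := ((u : ℚ_[l]) ^ l ^ n - 1) / (l : ℚ_[l]) ^ n

theorem l_ne : (l : ℚ_[l]) ≠ 0 := by
  exact_mod_cast hl.out.ne_zero

theorem norm_f (hodd : l ≠ 2) {u : ℤ_[l]} (h : PU u) (n : ℕ) : ‖f n u‖ = ‖u - 1‖ := by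
  have h1 := norm_pow_pow hodd h n
  have h2 : (u : ℚ_[l]) ^ l ^ n - 1 = ((u ^ l ^ n - 1 : ℤ_[l]) : ℚ_[l]) := by push_cast; rfl
  rw [f, norm_div, norm_pow, Padic.norm_p, h2, PadicInt.padic_norm_e_of_padicInt, h1]
  have : (0 : ℝ) < (l : ℝ)⁻¹ ^ n := by
    have : (0 : ℝ) < l := by exact_mod_cast hl.out.pos
    positivity
  rw [mul_div_assoc, div_self this.ne', mul_one]

theorem norm_step (hodd : l ≠ 2) {u : ℤ_[l]} (h : PU u) (n : ℕ) :
    ‖f (n + 1) u - f n u‖ ≤ (l : ℝ)⁻¹ * ((l : ℝ)⁻¹) ^ n := by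
  have hl0 : (0 : ℝ) < l := by exact_mod_cast hl.out.pos
  have h1 := norm_diff (l := l) (y := u ^ l ^ n)
  have h2 : f (n + 1) u - f n u =
      (((u ^ l ^ n) ^ l - 1 - (l : ℤ_[l]) * (u ^ l ^ n - 1) : ℤ_[l]) : ℚ_[l]) /
        (l : ℚ_[l]) ^ (n + 1) := by
    rw [f, f, pow_succ l n, pow_mul]
    push_cast
    rw [pow_succ]
    have := l_ne (l := l)
    field_simp
  rw [h2, norm_div, norm_pow, Padic.norm_p, PadicInt.padic_norm_e_of_padicInt]
  rw [norm_pow_pow hodd h n] at h1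
  rw [div_le_iff₀ (by positivity)]
  refine h1.trans ?_
  have h3 := h.norm_le
  have h4 : ‖u - 1‖ ^ 2 ≤ (l : ℝ)⁻¹ ^ 2 := pow_le_pow_left₀ (norm_nonneg _) h3 2
  calc (‖u - 1‖ * (l : ℝ)⁻¹ ^ n) ^ 2 = ‖u - 1‖ ^ 2 * ((l : ℝ)⁻¹ ^ n) ^ 2 := by ring
    _ ≤ (l : ℝ)⁻¹ ^ 2 * ((l : ℝ)⁻¹ ^ n) ^ 2 := by gcongr
    _ = (l : ℝ)⁻¹ * (l : ℝ)⁻¹ ^ n * (l : ℝ)⁻¹ ^ (n + 1) := by ring

theorem exists_lim (hodd : l ≠ 2) {u : ℤ_[l]} (h : PU u) :
    ∃ a : ℚ_[l], Tendsto (fun n => f n u) atTop (𝓝 a) := by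
  have hl1 : (l : ℝ)⁻¹ < 1 := inv_lt_one_of_one_lt₀ (by exact_mod_cast hl.out.one_lt)
  refine cauchySeq_tendsto_of_complete
    (cauchySeq_of_le_geometric (l : ℝ)⁻¹ (l : ℝ)⁻¹ hl1 fun n => ?_)
  rw [dist_comm, dist_eq_norm]
  exact norm_step hodd h n

open Classical in
/-- the logarithm of a principal unit -/
noncomputable def L0 (hodd : l ≠ 2) (u : ℤ_[l]) : ℚ_[l] :=
  if h : PU u then (exists_lim hodd h).choose else 0

theorem L0_spec (hodd : l ≠ 2) {u : ℤ_[l]} (h : PU u) :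
    Tendsto (fun n => f n u) atTop (𝓝 (L0 hodd u)) := by
  rw [L0, dif_pos h]
  exact (exists_lim hodd h).choose_spec

theorem norm_L0 (hodd : l ≠ 2) {u : ℤ_[l]} (h : PU u) : ‖L0 hodd u‖ = ‖u - 1‖ := by
  have h1 := (L0_spec hodd h).norm
  refine tendsto_nhds_unique h1 ?_
  simp_rw [norm_f hodd h]
  exact tendsto_const_nhds

theorem L0_mul (hodd : l ≠ 2) {u v : ℤ_[l]} (h : PU u) (h' : PU v) :
    L0 hodd (u * v) = L0 hodd u + L0 hodd v := by
  have h1 := L0_spec hodd (h.mul h')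
  have hl1 : (l : ℝ)⁻¹ < 1 := inv_lt_one_of_one_lt₀ (by exact_mod_cast hl.out.one_lt)
  have h0 : Tendsto (fun n : ℕ => (l : ℚ_[l]) ^ n) atTop (𝓝 0) := by
    apply tendsto_pow_atTop_nhds_zero_of_norm_lt_one
    rw [Padic.norm_p]; exact hl1
  have h2 : Tendsto (fun n => (l : ℚ_[l]) ^ n * (f n u * f n v) + (f n u + f n v)) atTop
      (𝓝 (0 * (L0 hodd u * L0 hodd v) + (L0 hodd u + L0 hodd v))) :=
    (h0.mul ((L0_spec hodd h).mul (L0_spec hodd h'))).add
      ((L0_spec hodd h).add (L0_spec hodd h'))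
  rw [zero_mul, zero_add] at h2
  refine tendsto_nhds_unique h1 (h2.congr fun n => ?_)
  have := l_ne (l := l)
  rw [f, f, f]
  push_cast
  field_simp
  ring

theorem pu_pow (u : ℤ_[l]ˣ) : PU ((u : ℤ_[l]) ^ (l - 1)) := by
  rw [pu_iff, map_pow]
  apply ZMod.pow_card_sub_one_eq_one
  have : IsUnit (PadicInt.toZMod (u : ℤ_[l])) := u.isUnit.map _
  exact this.ne_zero

theorem norm_L0_le (hodd : l ≠ 2) (u : ℤ_[l]ˣ) : ‖L0 hodd ((u : ℤ_[l]) ^ (l - 1))‖ ≤ 1 := by
  rw [norm_L0 hodd (pu_pow u)]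
  exact PadicInt.norm_le_one _

/-- the logarithm of `u ^ (l - 1)`, as a function -/
noncomputable def Lf (hodd : l ≠ 2) (u : ℤ_[l]ˣ) : ℤ_[l] :=
  ⟨L0 hodd ((u : ℤ_[l]) ^ (l - 1)), norm_L0_le hodd u⟩

theorem Lf_mul (hodd : l ≠ 2) (u v : ℤ_[l]ˣ) : Lf hodd (u * v) = Lf hodd u + Lf hodd v := by
  apply Subtype.ext
  change L0 hodd (((u * v : ℤ_[l]ˣ) : ℤ_[l]) ^ (l - 1)) = _
  rw [Units.val_mul, mul_pow, L0_mul hodd (pu_pow u) (pu_pow v)]
  rfl

/-- the logarithm of `u ^ (l - 1)` -/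
noncomputable def Lg (hodd : l ≠ 2) : ℤ_[l]ˣ →* Multiplicative ℤ_[l] :=
  MonoidHom.mk' (fun u => Multiplicative.ofAdd (Lf hodd u))
    (fun u v => by rw [Lf_mul, ofAdd_add])

theorem norm_Lg (hodd : l ≠ 2) (u : ℤ_[l]ˣ) :
    ‖(Lg hodd u).toAdd‖ = ‖(u : ℤ_[l]) ^ (l - 1) - 1‖ := by
  rw [← norm_L0 hodd (pu_pow u)]
  rfl

theorem Lg_eq_one_iff (hodd : l ≠ 2) (u : ℤ_[l]ˣ) : Lg hodd u = 1 ↔ u ^ (l - 1) = 1 := by
  have h := norm_Lg hodd u
  constructor
  · intro h1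
    rw [h1, toAdd_one, norm_zero, eq_comm, norm_eq_zero, sub_eq_zero] at h
    ext1
    simpa using h
  · intro h1
    have h2 : (u : ℤ_[l]) ^ (l - 1) = 1 := by rw [← Units.val_pow_eq_pow_val, h1, Units.val_one]
    rw [h2, sub_self, norm_zero, norm_eq_zero] at h
    exact h

theorem continuous_Lg (hodd : l ≠ 2) : Continuous (Lg hodd) := by
  apply continuous_of_continuousAt_one
  rw [ContinuousAt, map_one]
  have h1 : Tendsto (fun u : ℤ_[l]ˣ => ‖(u : ℤ_[l]) ^ (l - 1) - 1‖) (𝓝 1) (𝓝 0) := by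
    have : Continuous (fun u : ℤ_[l]ˣ => ‖(u : ℤ_[l]) ^ (l - 1) - 1‖) :=
      (((Units.continuous_val).pow _).sub continuous_const).norm
    have h2 := this.tendsto 1
    simpa using h2
  have h3 : Tendsto (fun u : ℤ_[l]ˣ => (Lg hodd u).toAdd) (𝓝 1) (𝓝 (0 : ℤ_[l])) := by
    rw [tendsto_zero_iff_norm_tendsto_zero]
    simp_rw [norm_Lg hodd]
    exact h1
  exact h3


end Crest.Agent.R018.PLogx814
end

-- ▼ part R018/ConsD_814
section

/-!
# Row 18, consequence (D) of the CORE (helper814)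

`CD_holds : LocT → BadFinite → CC → Deg1Thm → F1 → F2 → F5 → F6 → CD`.
-/

set_option autoImplicit false

open NumberField Pointwise
open Crest.NumberTheoryR

namespace Crest.Agent.R018.ConsDx814

open Crest.Agent.R018.EndDefx924 (Om)
open Crest.Agent.R018.Placesx484
open Crest.Agent.R018.Corex74

/-! ### roots of unity and cyclotomic characters -/

theorem root_mem_Sv {ζ : Om} {n : ℕ} (hn : n ≠ 0) (h : ζ ^ n = 1) : ζ ∈ Sv := by
  have : NeZero n := ⟨hn⟩
  have key : ∀ E : SvFam, ζ ∈ (E.1 : Set Om) := by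
    rintro ⟨E, hE1, hE2⟩
    obtain ⟨μ, hμ⟩ := Kumx568.exists_primitiveRoot hE2 n hn
    have h1 : IsPrimitiveRoot (μ : Om) n :=
      hμ.map_of_injective (f := algebraMap E Om) (algebraMap E Om).injective
    obtain ⟨i, _, hi⟩ := h1.eq_pow_of_pow_eq_one h
    rw [← hi]
    exact pow_mem μ.2 i
  have h2 : ζ ∈ ((Sv : IntermediateField ℚ Om) : Set Om) := by
    rw [Sv, IntermediateField.coe_iInf, Set.mem_iInter]
    exact key
  exact h2

instance enough_Om (l : ℕ) [hl : Fact l.Prime] (n : ℕ) : HasEnoughRootsOfUnity Om (l ^ n) := by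
  have : NeZero (l ^ n) := ⟨(pow_pos hl.out.pos n).ne'⟩
  infer_instance

instance enough_Sv (l : ℕ) [hl : Fact l.Prime] (n : ℕ) : HasEnoughRootsOfUnity Sv (l ^ n) := by
  have h0 : l ^ n ≠ 0 := (pow_pos hl.out.pos n).ne'
  have : NeZero (l ^ n) := ⟨h0⟩
  refine ⟨?_, rootsOfUnity.isCyclic _ _⟩
  obtain ⟨ζ, hζ⟩ := HasEnoughRootsOfUnity.exists_primitiveRoot Om (l ^ n)
  exact ⟨⟨ζ, root_mem_Sv h0 hζ.pow_eq_one⟩,
    IsPrimitiveRoot.of_map_of_injective (f := algebraMap Sv Om) hζ (algebraMap Sv Om).injective⟩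

section chi

variable (l : ℕ) [hl : Fact l.Prime]

/-- the cyclotomic character of `BB` -/
noncomputable def chiB : BB →* ℤ_[l]ˣ :=
  (cyclotomicCharacter Om l).comp (MulSemiringAction.toRingAut BB Om)

/-- the cyclotomic character of `SG` -/
noncomputable def chiS : SG →* ℤ_[l]ˣ :=
  (cyclotomicCharacter Sv l).comp (MulSemiringAction.toRingAut SG Sv)

theorem continuous_chiB : Continuous (chiB l) := cyclotomicCharacter.continuous l ℚ Om

theorem continuous_chiS : Continuous (chiS l) := cyclotomicCharacter.continuous l ℚ Sv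

theorem chiB_spec (g : BB) {n : ℕ} {ζ : Om} (h : ζ ^ l ^ n = 1) :
    g ζ = ζ ^ (PadicInt.toZModPow n (chiB l g : ℤ_[l])).val :=
  cyclotomicCharacter.spec l (L := Om) (MulSemiringAction.toRingAut BB Om g) ζ h

theorem chiS_spec (s : SG) {n : ℕ} {ζ : Sv} (h : ζ ^ l ^ n = 1) :
    s ζ = ζ ^ (PadicInt.toZModPow n (chiS l s : ℤ_[l])).val :=
  cyclotomicCharacter.spec l (L := Sv) (MulSemiringAction.toRingAut SG Sv s) ζ h

theorem ext_of_pow {L : Type*} [Field L] [∀ i, HasEnoughRootsOfUnity L (l ^ i)] (x y : ℤ_[l])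
    (h : ∀ (n : ℕ) (ζ : L), ζ ^ l ^ n = 1 →
      ζ ^ (PadicInt.toZModPow n x).val = ζ ^ (PadicInt.toZModPow n y).val) : x = y := by
  refine PadicInt.ext_of_toZModPow.mp fun n => ?_
  obtain ⟨ζ, hζ⟩ := HasEnoughRootsOfUnity.exists_primitiveRoot L (l ^ n)
  have h1 := h n ζ hζ.pow_eq_one
  have : NeZero (l ^ n) := ⟨(pow_pos hl.out.pos n).ne'⟩
  exact ZMod.val_injective _ (hζ.pow_inj (ZMod.val_lt _) (ZMod.val_lt _) h1)

theorem cycEq_iff (g : BB) (s : SG) : CycEq l g s ↔ chiS l s = chiB l g := by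
  constructor
  · intro h
    ext1
    apply ext_of_pow l (L := Sv)
    intro n ζ hζ
    have h1 := h n ζ hζ
    have hζ' : (ζ : Om) ^ l ^ n = 1 := by exact_mod_cast congrArg (algebraMap Sv Om) hζ
    rw [chiS_spec l s hζ, chiB_spec l g hζ'] at h1
    exact_mod_cast h1
  · intro h n ζ hζ
    have hζ' : (ζ : Om) ^ l ^ n = 1 := by exact_mod_cast congrArg (algebraMap Sv Om) hζ
    rw [chiS_spec l s hζ, chiB_spec l g hζ', h]
    rfl

theorem toZModPow_natCast_pow {L : Type*} [Field L] (x : ℕ) (n : ℕ) {ζ : L} (hζ : ζ ^ l ^ n = 1) :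
    ζ ^ (PadicInt.toZModPow n (x : ℤ_[l])).val = ζ ^ x := by
  rw [map_natCast, ZMod.val_natCast]
  exact (pow_eq_pow_mod x hζ).symm

theorem chiB_eq_of_act {P : Place Om} (hP : P.rchar ≠ l) {g : BB} {q : ℕ} (h : Act P g q) :
    (chiB l g : ℤ_[l]) = q := by
  apply ext_of_pow l (L := Om)
  intro n ζ hζ
  rw [toZModPow_natCast_pow l q n hζ, ← chiB_spec l g hζ]
  refine P.frob_root h (n := l ^ n) ?_ hζ
  intro hd
  exact hP ((Nat.prime_dvd_prime_iff_eq P.rchar_prime hl.out).1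
    (P.rchar_prime.dvd_of_dvd_pow hd))

theorem chiS_eq_of_act {P : Place Sv} (hP : P.rchar ≠ l) {g : SG} {q : ℕ} (h : Act P g q) :
    (chiS l g : ℤ_[l]) = q := by
  apply ext_of_pow l (L := Sv)
  intro n ζ hζ
  rw [toZModPow_natCast_pow l q n hζ, ← chiS_spec l g hζ]
  refine P.frob_root h (n := l ^ n) ?_ hζ
  intro hd
  exact hP ((Nat.prime_dvd_prime_iff_eq P.rchar_prime hl.out).1
    (P.rchar_prime.dvd_of_dvd_pow hd))

/-- `ψ_l = (χ₂ ∘ α) / χ₁` -/
noncomputable def psi (D : Dat) : D.G →* ℤ_[l]ˣ :=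
  ((chiS l).comp D.α) / ((chiB l).comp D.G.subtype)

theorem psi_apply (D : Dat) (g : D.G) : psi l D g = chiS l (D.α g) / chiB l (g : BB) := rfl

theorem continuous_psi (D : Dat) : Continuous (psi l D) := by
  have h1 : Continuous fun g : D.G => chiS l (D.α g) := (continuous_chiS l).comp D.cont
  have h2 : Continuous fun g : D.G => chiB l (g : BB) :=
    (continuous_chiB l).comp continuous_subtype_val
  exact h1.div' h2

theorem psi_eq_one_iff (D : Dat) (g : D.G) : psi l D g = 1 ↔ CycEq l (g : BB) (D.α g) := by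
  rw [psi_apply, div_eq_one, cycEq_iff]

/-- reduction of `chiS` modulo `l` -/
noncomputable def chiS1 : SG →* (ZMod l)ˣ :=
  (Units.map (PadicInt.toZMod (p := l) : ℤ_[l] →* ZMod l)).comp (chiS l)

theorem chiS1_apply (s : SG) :
    ((chiS1 l s : (ZMod l)ˣ) : ZMod l) = PadicInt.toZMod (chiS l s : ℤ_[l]) := rfl

theorem isOpen_ker_chiS1 : IsOpen ((chiS1 l).ker : Set SG) := by
  have h1 : ((chiS1 l).ker : Set SG) =
      (fun s : SG => (chiS l s : ℤ_[l])) ⁻¹' (Metric.ball (1 : ℤ_[l]) 1) := by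
    ext s
    rw [SetLike.mem_coe, MonoidHom.mem_ker, Set.mem_preimage, mem_ball_iff_norm, ← Units.val_inj,
      chiS1_apply, Units.val_one, ← PLogx814.pu_iff, PLogx814.PU, PadicInt.norm_lt_one_iff_dvd]
  rw [h1]
  exact Metric.isOpen_ball.preimage (Units.continuous_val.comp (continuous_chiS l))

end chi

/-! ### the arithmetic: residue degree one -/

theorem eq_one_of_orderOf {l f : ℕ} [hl : Fact l.Prime] (hl5 : 5 ≤ l) (hf : 0 < f)
    (hr : ∀ r : ℕ, r.Prime → r ≤ f → r ∣ l - 1) (x : (ZMod l)ˣ) (hx : orderOf (x ^ f) = l - 1) :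
    f = 1 := by
  by_contra hf1
  have hrp : f.minFac.Prime := Nat.minFac_prime hf1
  have h1 : f.minFac ∣ l - 1 := hr _ hrp (Nat.minFac_le hf)
  obtain ⟨m, hm⟩ := Nat.minFac_dvd f
  obtain ⟨k, hk⟩ := h1
  have h2 : (x ^ f) ^ k = 1 := by
    have : x ^ (l - 1) = 1 := ZMod.units_pow_card_sub_one_eq_one l x
    calc (x ^ f) ^ k = (x ^ (l - 1)) ^ m := by
          rw [← pow_mul, ← pow_mul, hk]
          congr 1
          conv_lhs => rw [hm]
          ring
      _ = 1 := by rw [this, one_pow]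
  have h3 : l - 1 ∣ k := by rw [← hx]; exact orderOf_dvd_of_pow_eq_one h2
  have hk0 : 0 < k := by
    rcases Nat.eq_zero_or_pos k with h | h
    · rw [h, mul_zero] at hk; omega
    · exact h
  have h4 := Nat.le_of_dvd hk0 h3
  have h5 : 2 ≤ f.minFac := hrp.two_le
  have h6 : 2 * k ≤ l - 1 := by rw [hk]; exact Nat.mul_le_mul_right k h5
  omega

/-! ### places over a prime -/

theorem exists_place {E : Type*} [Field E] [CharZero E] {q : ℕ} (hq : q.Prime) :
    ∃ Q : Place E, Q.rchar = q := by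
  have h1 : Ideal.span {(q : 𝓞 E)} ≠ ⊤ := by
    intro h
    rw [Ideal.span_singleton_eq_top] at h
    obtain ⟨u, hu⟩ := h.exists_right_inv
    have h2 : (q : E) * (u : E) = 1 := by
      have := congrArg (algebraMap (𝓞 E) E) hu
      simpa using this
    have hq0 : (q : E) ≠ 0 := by exact_mod_cast hq.ne_zero
    have h3 : (u : E) = algebraMap ℚ E ((q : ℚ)⁻¹) := by
      rw [map_inv₀, map_natCast]
      exact eq_inv_of_mul_eq_one_right h2
    have h4 : IsIntegral ℤ ((q : ℚ)⁻¹) := by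
      have h5 : IsIntegral ℤ (algebraMap ℚ E ((q : ℚ)⁻¹)) := by
        rw [← h3]
        exact NumberField.RingOfIntegers.isIntegral_coe u
      exact (isIntegral_algebraMap_iff (algebraMap ℚ E).injective).1 h5
    obtain ⟨m, hm⟩ := IsIntegrallyClosed.isIntegral_iff.1 h4
    have hqQ : (q : ℚ) ≠ 0 := by exact_mod_cast hq.ne_zero
    have h6 : (q : ℚ) * m = 1 := by
      have : (m : ℚ) = (q : ℚ)⁻¹ := by simpa using hm
      rw [this, mul_inv_cancel₀ hqQ]
    have h7 : (q : ℤ) * m = 1 := by exact_mod_cast h6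
    have h8 : IsUnit (q : ℤ) := IsUnit.of_mul_eq_one m h7
    exact (Nat.prime_iff_prime_int.1 hq).not_isUnit h8
  obtain ⟨I, hI, hI2⟩ := Ideal.exists_le_maximal _ h1
  have h2 : (q : 𝓞 E) ∈ I := hI2 (Ideal.mem_span_singleton_self _)
  let Q : Place E :=
    { ideal := I
      isPrime := hI.isPrime
      ne_bot := by
        rintro rfl
        rw [Ideal.mem_bot] at h2
        have h3 := congrArg (algebraMap (𝓞 E) E) h2
        rw [map_natCast, map_zero] at h3
        have : (q : E) ≠ 0 := by exact_mod_cast hq.ne_zero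
        exact this h3 }
  exact ⟨Q, Q.rchar_eq_of_mem hq h2⟩

/-! ### finiteness of the targets of places of bounded residue characteristic -/

theorem cor_unique (hLoc : LocT) {D : Dat} {l : ℕ} (hl : l.Prime) (hl2 : l ≠ 2) {P : Place Om}
    (hP : Hit D l P) {Q Q' : Place Sv} (h : Cor D P Q) (h' : Cor D P Q') : Q = Q' := by
  obtain ⟨Q0, -, -, hu, -⟩ := hLoc D l hl hl2 P hP
  rw [hu Q h, hu Q' h']

/-- only finitely many `q` are hit by places of bounded residue characteristic -/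
theorem finite_target (hLoc : LocT) (hF5 : F5) (hF6 : F6) (D : Dat) {l : ℕ} (hl : l.Prime)
    (hl2 : l ≠ 2) (B : ℕ) : {q : ℕ | ∃ (P : Place Om) (Q : Place Sv), Hit D l P ∧ Cor D P Q ∧
      P.rchar ≤ B ∧ Q.rchar = q}.Finite := by
  classical
  have hfin : Finite (BB ⧸ D.G) := Subgroup.quotient_finite_of_isOpen D.G D.isOpen_G
  have h0 : ∀ p : ℕ, ∃ P0 : Place Om, p.Prime → P0.rchar = p := by
    intro p
    by_cases hp : p.Prime
    · obtain ⟨P0, h⟩ := exists_place (E := Om) hp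
      exact ⟨P0, fun _ => h⟩
    · obtain ⟨P0, h⟩ := exists_place (E := Om) Nat.prime_two
      exact ⟨P0, fun h => absurd h hp⟩
  choose P0 hP0 using h0
  have h1 : ∀ P : Place Om, ∃ b : BB, b • P0 P.rchar = P := fun P =>
    hF5.2 _ _ (hP0 _ P.rchar_prime)
  choose b hb using h1
  let A : Set ℕ := {q : ℕ | ∃ (P : Place Om) (Q : Place Sv), Hit D l P ∧ Cor D P Q ∧
      P.rchar ≤ B ∧ Q.rchar = q}
  change A.Finite
  have h2 : ∀ q : A, ∃ (P : Place Om) (Q : Place Sv), Hit D l P ∧ Cor D P Q ∧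
      P.rchar ≤ B ∧ Q.rchar = (q : ℕ) := fun q => q.2
  choose P Q hH hC hB hq using h2
  let Φ : A → Fin (B + 1) × (BB ⧸ D.G) := fun q =>
    (⟨(P q).rchar, Nat.lt_succ_of_le (hB q)⟩, QuotientGroup.mk (b (P q))⁻¹)
  have hΦ : Function.Injective Φ := by
    intro q q' h
    rw [Prod.ext_iff] at h
    obtain ⟨h3, h4⟩ := h
    have h5 : (P q).rchar = (P q').rchar := congrArg Fin.val h3
    have h6 : (b (P q')) * (b (P q))⁻¹ ∈ D.G := by
      have := QuotientGroup.eq.1 h4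
      have h7 := D.G.inv_mem this
      simpa using h7
    let s : D.G := ⟨_, h6⟩
    have h8 : (s : BB) • P q = P q' := by
      change (b (P q') * (b (P q))⁻¹) • P q = P q'
      have h12 : (b (P q))⁻¹ • P q = P0 (P q).rchar := by rw [inv_smul_eq_iff, hb]
      rw [mul_smul, h12, h5, hb]
    have h9 := (hF6 D l (P q) (Q q) s).2 (hC q)
    rw [h8] at h9
    have h10 := cor_unique hLoc hl hl2 (hH q') (hC q') h9
    have h11 : (Q q').rchar = (Q q).rchar := by rw [h10, Place.rchar_smul]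
    rw [hq, hq] at h11
    exact Subtype.ext h11.symm
  have : Finite A := Finite.of_injective Φ hΦ
  exact Set.toFinite A

/-! ### degree one primes of `S₁(l)` -/

section main

variable {l : ℕ} [hl : Fact l.Prime]

/-- for `l ∈ 𝓛` there are hit places of residue degree one above arbitrarily large targets -/
theorem exists_deg_one (hLoc : LocT) (hBad : BadFinite) (hCC : CC) (hF1 : F1) (hF2 : F2)
    (D : Dat) (hND : ND D) (hl5 : 5 ≤ l) (hLL : ∀ r : ℕ, r.Prime → r ≤ D.G.index → r ∣ l - 1)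
    (N : ℕ) : ∃ (P : Place Om) (Q : Place Sv) (σ : D.G), N < Q.rchar ∧ Hit D l P ∧ Cor D P Q ∧
      fdeg D.G P = 1 ∧ FrobL D.G P (σ : BB) ∧ psi l D σ = 1 := by
  have hl2 : l ≠ 2 := by omega
  obtain ⟨B1, hB1⟩ := hBad D l hl.out hl2
  obtain ⟨B2, hB2⟩ := hCC D hND (chiS1 l).ker inferInstance (isOpen_ker_chiS1 l)
  obtain ⟨x, hx⟩ := IsCyclic.exists_ofOrder_eq_natCard (α := (ZMod l)ˣ)
  have hcard : Nat.card (ZMod l)ˣ = l - 1 := by
    rw [Nat.card_eq_fintype_card, ZMod.card_units_eq_totient, Nat.totient_prime hl.out]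
  rw [hcard] at hx
  obtain ⟨q, hqM, hqp, hqx⟩ :=
    Nat.forall_exists_prime_gt_and_eq_mod (q := l) x.isUnit (max (max B1 B2) (max N l))
  have hq1 : B1 < q := lt_of_le_of_lt ((le_max_left _ _).trans (le_max_left _ _)) hqM
  have hq2 : B2 < q := lt_of_le_of_lt ((le_max_right _ _).trans (le_max_left _ _)) hqM
  have hq3 : N < q := lt_of_le_of_lt ((le_max_left _ _).trans (le_max_right _ _)) hqM
  have hq4 : l < q := lt_of_le_of_lt ((le_max_right _ _).trans (le_max_right _ _)) hqM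
  obtain ⟨Q, hQ⟩ := exists_place (E := Sv) hqp
  obtain ⟨P, hHit, hCor⟩ := hB1 Q (by rw [hQ]; exact hq1)
  obtain ⟨hf0, hfi, ⟨σ, hσ⟩, -⟩ := hF1 D.G D.isOpen_G P
  obtain ⟨φ, -, hφ⟩ := hF2.1 Q
  have hφ' : Act Q φ Q.rchar := hφ
  obtain ⟨j, hj⟩ := hB2 P Q l hl.out hl2 hHit hCor (by rw [hQ]; exact hq2) ⟨σ, hσ.1⟩ hσ φ hφ'
  -- compatibility on the decomposition group
  obtain ⟨Q0, hC0, -, hu0, hcyc⟩ := hLoc D l hl.out hl2 P hHit
  have hσP : σ • P = P := by
    have h1 : LocDefx31.FPow P P.rchar (fdeg D.G P) σ := hσ.2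
    exact h1.smul_eq P.rchar_prime.ne_zero
  have hpsi : psi l D ⟨σ, hσ.1⟩ = 1 := (psi_eq_one_iff l D _).2 (hcyc ⟨σ, hσ.1⟩ hσP)
  have hchi : chiS l (D.α ⟨σ, hσ.1⟩) = chiB l σ := by
    rw [psi_apply, div_eq_one] at hpsi
    exact hpsi
  have hPl : P.rchar ≠ l := hHit.1
  have hQl : Q.rchar ≠ l := by rw [hQ]; exact hq4.ne'
  have h2 : (chiB l σ : ℤ_[l]) = ((P.rchar ^ fdeg D.G P : ℕ) : ℤ_[l]) :=
    chiB_eq_of_act l hPl hσ.2
  have h3 : (chiS l φ : ℤ_[l]) = (Q.rchar : ℤ_[l]) := chiS_eq_of_act l hQl hφ'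
  -- modulo `l`
  have hpl : IsUnit (P.rchar : ZMod l) := by
    rw [ZMod.isUnit_iff_coprime]
    exact (Nat.coprime_primes P.rchar_prime hl.out).2 hPl
  obtain ⟨y, hy⟩ := hpl
  have h4 : chiS1 l (D.α ⟨σ, hσ.1⟩) = y ^ fdeg D.G P := by
    ext1
    rw [chiS1_apply, hchi, h2, map_natCast, Nat.cast_pow, Units.val_pow_eq_pow_val, hy]
  have h5 : chiS1 l φ = x := by
    ext1
    rw [chiS1_apply, h3, map_natCast, hQ, hqx]
  have h6 : (y ^ fdeg D.G P) ^ j = x := by
    rw [MonoidHom.mem_ker, map_mul, map_inv, map_pow, inv_mul_eq_one, h4, h5] at hj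
    exact hj
  have h7 : orderOf (y ^ fdeg D.G P) = l - 1 := by
    apply Nat.dvd_antisymm
    · rw [← hcard]; exact orderOf_dvd_natCard _
    · rw [← hx, ← h6]; exact orderOf_pow_dvd j
  have h8 : fdeg D.G P = 1 :=
    eq_one_of_orderOf hl5 hf0 (fun r hr hrf => hLL r hr (hrf.trans hfi)) y h7
  exact ⟨P, Q, ⟨σ, hσ.1⟩, by rw [hQ]; exact hq3, hHit, hCor, h8, hσ, hpsi⟩

end main

/-- **(D)** -/
theorem CD_holds (hLoc : LocT) (hBad : BadFinite) (hCC : CC) (hDeg : Deg1Thm) (hF1 : F1)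
    (hF2 : F2) (hF5 : F5) (hF6 : F6) : CD := by
  intro D hND l hl hl5 hLL
  have hl' : Fact l.Prime := ⟨hl⟩
  have hl2 : l ≠ 2 := by omega
  have h1 : (PLogx814.Lg (l := l) hl2).comp (psi l D) = 1 := by
    refine hDeg D.G D.isOpen_G l hl2 _
      ((PLogx814.continuous_Lg hl2).comp (continuous_psi l D)) fun B => ?_
    by_contra hcon
    push Not at hcon
    have hfin := finite_target hLoc hF5 hF6 D hl hl2 B
    obtain ⟨M, hM⟩ := hfin.bddAbove
    obtain ⟨P, Q, σ, hQ, hHit, hCor, hf, hσ, hpsi⟩ :=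
      exists_deg_one hLoc hBad hCC hF1 hF2 D hND hl5 hLL M
    have h2 : P.rchar ≤ B := by
      by_contra h3
      push Not at h3
      apply hcon P σ h3 hf hσ
      rw [MonoidHom.comp_apply, hpsi, map_one]
    have h3 : Q.rchar ≤ M := hM ⟨P, Q, hHit, hCor, h2, rfl⟩
    omega
  refine ⟨l - 1, by omega, fun g => ?_⟩
  have h2 : PLogx814.Lg (l := l) hl2 (psi l D g) = 1 := by
    have := congrArg (fun f => f g) h1
    simpa using this
  rw [PLogx814.Lg_eq_one_iff, psi_apply, div_pow, div_eq_one] at h2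
  rw [cycEq_iff, map_pow, map_pow]
  exact h2


end Crest.Agent.R018.ConsDx814
end

-- ▼ part R018/BadPhi_933
section

/-!
# Row 18: calculus of translates of a probe, construction of bad `φ` (helper933)
-/

set_option autoImplicit false

open NumberField Pointwise
open Crest.NumberTheoryR

namespace Crest.Agent.R018.BadPhix933

open Crest.Agent.R018.EndDefx924 (Om)
open Crest.Agent.R018.Placesx484
open Crest.Agent.R018.Corex74

section sqrt

theorem mem_iInf' {ι : Type*} (S : ι → IntermediateField ℚ Om) (w : Om) :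
    w ∈ (⨅ i, S i) ↔ ∀ i, w ∈ S i := by
  rw [← SetLike.mem_coe, IntermediateField.coe_iInf]
  simp

/-- `ℚ^solv` is closed under `n`-th roots -/
theorem exists_pow_eq (n : ℕ) (hn : n ≠ 0) (y : Sv) : ∃ z : Sv, z ^ n = y := by
  classical
  obtain ⟨w, hw⟩ := IsAlgClosed.exists_pow_nat_eq (y : Om) (Nat.pos_of_ne_zero hn)
  have hmem : w ∈ Sv := by
    unfold Sv
    rw [mem_iInf']
    intro E
    have hy : (y : Om) ∈ E.1 := by
      have := y.2
      unfold Sv at this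
      rw [mem_iInf'] at this
      exact this E
    rcases eq_or_ne w 0 with rfl | hw0
    · exact zero_mem _
    obtain ⟨z, hz⟩ := Kumx568.exists_pow_eq E.2.2 n hn ⟨(y : Om), hy⟩
    obtain ⟨ζ, hζ⟩ := Kumx568.exists_primitiveRoot E.2.2 n hn
    have hz' : ((z : E.1) : Om) ^ n = y := by
      have := congrArg (fun t : E.1 => (t : Om)) hz
      simpa using this
    have hz0 : ((z : E.1) : Om) ≠ 0 := by
      intro h0
      rw [h0, zero_pow hn] at hz'
      rw [← hz'] at hw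
      exact hw0 (pow_eq_zero_iff hn |>.1 hw)
    have hζ' : IsPrimitiveRoot ((ζ : E.1) : Om) n :=
      hζ.map_of_injective (f := algebraMap E.1 Om) (algebraMap E.1 Om).injective
    have h1 : (w / (z : Om)) ^ n = 1 := by
      rw [div_pow, hw, hz', div_self]
      rw [← hz']
      exact pow_ne_zero _ hz0
    have : NeZero n := ⟨hn⟩
    obtain ⟨i, -, hi⟩ := hζ'.eq_pow_of_pow_eq_one h1
    have h2 : w = (z : Om) * (ζ : Om) ^ i := by
      rw [hi]; field_simp
    rw [h2]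
    exact mul_mem z.2 (pow_mem ζ.2 i)
  exact ⟨⟨w, hmem⟩, Subtype.ext (by simpa using hw)⟩

theorem exists_sqrt (y : Sv) : ∃ z : Sv, z ^ 2 = y := exists_pow_eq 2 two_ne_zero y

theorem exists_I : ∃ i : Sv, i ^ 2 = -1 := exists_sqrt _

/-- an element of order two does not fix `i` -/
theorem eq_one_of_sq {v : SG} (hv : v * v = 1) {i : Sv} (hi : i ^ 2 = -1) (hvi : v i = i) :
    v = 1 := by
  ext y
  by_contra hne
  have hvv : ∀ t : Sv, v (v t) = t := fun t => by
    rw [← AlgEquiv.mul_apply, hv]; rfl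
  obtain ⟨b, hb⟩ := exists_sqrt (y - v y)
  have hz0 : y - v y ≠ 0 := fun h => hne (by
    have : v y = y := (sub_eq_zero.1 h).symm
    simp [this])
  have hb0 : b ≠ 0 := by
    rintro rfl
    apply hz0
    rw [← hb]; simp
  have h1 : (v b) ^ 2 = (i * b) ^ 2 := by
    rw [← map_pow, hb, mul_pow, hi, hb, map_sub, hvv]; ring
  rcases sq_eq_sq_iff_eq_or_eq_neg.1 h1 with h2 | h2
  · have h3 := hvv b
    rw [h2, map_mul, hvi, h2, ← mul_assoc, ← sq, hi] at h3
    have h4 : (2 : Sv) * b = 0 := by linear_combination -h3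
    exact hb0 ((mul_eq_zero.1 h4).resolve_left two_ne_zero)
  · have h3 := hvv b
    rw [h2, map_neg, map_mul, hvi, h2, mul_neg, neg_neg, ← mul_assoc, ← sq, hi] at h3
    have h4 : (2 : Sv) * b = 0 := by linear_combination -h3
    exact hb0 ((mul_eq_zero.1 h4).resolve_left two_ne_zero)

end sqrt

section isopen

theorem isOpen_stab (z : Sv) : IsOpen {g : SG | g z = z} := by
  have h : {g : SG | g z = z} = (IntermediateField.adjoin ℚ {z}).fixingSubgroup := by
    ext g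
    simp only [Set.mem_ofPred_eq, SetLike.mem_coe, IntermediateField.mem_fixingSubgroup_iff]
    constructor
    · intro hg y hy
      have : IntermediateField.adjoin ℚ {z} ≤ IntermediateField.fixedField
          (Subgroup.zpowers g) := by
        rw [IntermediateField.adjoin_le_iff, Set.singleton_subset_iff]
        intro ⟨s, k, hk⟩
        have hs : ∀ k : ℤ, (g ^ k) z = z := by
          intro k
          induction k with
          | zero => simp
          | succ n ih =>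
            rw [zpow_add_one, AlgEquiv.mul_apply, hg, ih]
          | pred n ih =>
            have hg' : g⁻¹ z = z := by
              rw [AlgEquiv.coe_inv, AlgEquiv.symm_apply_eq, hg]
            rw [zpow_sub_one, AlgEquiv.mul_apply, hg', ih]
        show s • z = z
        have hk' : g ^ k = s := hk
        rw [← hk']
        exact hs k
      exact this hy ⟨g, Subgroup.mem_zpowers g⟩
    · intro hg
      exact hg z (IntermediateField.mem_adjoin_simple_self ℚ z)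
  rw [h]
  have : FiniteDimensional ℚ (IntermediateField.adjoin ℚ {z}) :=
    IntermediateField.adjoin.finiteDimensional (Algebra.IsIntegral.isIntegral z)
  exact IntermediateField.fixingSubgroup_isOpen _

theorem V2_le (V : Subgroup SG) (x : Sv) : V2 V x ≤ V := fun _ h => h.1

theorem isOpen_V2 (V : Subgroup SG) (hV : IsOpen (V : Set SG)) (x : Sv) :
    IsOpen (V2 V x : Set SG) := by
  classical
  -- the set of square roots of conjugates of `x` is finite
  set T : Set Sv := {z : Sv | ∃ γ : SG, z ^ 2 = γ x} with hT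
  have hfin : T.Finite := by
    have hroots : {y : Sv | ∃ γ : SG, y = γ x} ⊆ ((minpoly ℚ x).aroots Sv).toFinset := by
      rintro y ⟨γ, rfl⟩
      have hx : IsIntegral ℚ x := Algebra.IsIntegral.isIntegral x
      simp only [Finset.mem_coe, Multiset.mem_toFinset, Polynomial.mem_aroots]
      refine ⟨minpoly.ne_zero hx, ?_⟩
      rw [show (γ x : Sv) = (γ : Sv →ₐ[ℚ] Sv) x from rfl, Polynomial.aeval_algHom_apply,
        minpoly.aeval, map_zero]
    have h1 : {y : Sv | ∃ γ : SG, y = γ x}.Finite := (Finset.finite_toSet _).subset hroots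
    have h2 : T ⊆ ⋃ y ∈ {y : Sv | ∃ γ : SG, y = γ x}, {z : Sv | z ^ 2 = y} := by
      rintro z ⟨γ, hγ⟩
      simp only [Set.mem_iUnion]
      exact ⟨γ x, ⟨γ, rfl⟩, hγ⟩
    refine (h1.biUnion fun y _ => ?_).subset h2
    obtain ⟨z0, hz0⟩ := exists_sqrt y
    refine (Set.toFinite {z0, -z0}).subset ?_
    intro z hz
    have : z ^ 2 = z0 ^ 2 := by rw [hz0]; exact hz
    exact sq_eq_sq_iff_eq_or_eq_neg.1 this
  have heq : (V2 V x : Set SG) = (V : Set SG) ∩ ⋂ z ∈ T, {g : SG | g z = z} := by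
    ext g
    simp only [SetLike.mem_coe, Set.mem_inter_iff, Set.mem_iInter, Set.mem_ofPred_eq]
    constructor
    · rintro ⟨h1, h2⟩
      refine ⟨h1, ?_⟩
      rintro z ⟨γ, hγ⟩
      exact h2 γ z hγ
    · rintro ⟨h1, h2⟩
      exact ⟨h1, fun γ z hγ => h2 z ⟨γ, hγ⟩⟩
  rw [heq]
  exact hV.inter (hfin.isOpen_biInter fun z _ => isOpen_stab z)

end isopen

section calculus

variable {V : Subgroup SG} [hV : V.Normal] {x : Sv} {l : ℕ} [Fact l.Prime]

theorem cj_mem (V : Subgroup SG) [V.Normal] (x : Sv) (γ : SG) (n : V2 V x) :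
    γ⁻¹ * n * γ ∈ V2 V x := by
  simpa using (V2_normal V x).conj_mem n n.2 γ⁻¹

/-- conjugation of an element of `V₂` -/
noncomputable def cj (γ : SG) (n : V2 V x) : V2 V x := ⟨γ⁻¹ * n * γ, cj_mem V x γ n⟩

@[simp] theorem coe_cj (γ : SG) (n : V2 V x) : ((cj γ n : V2 V x) : SG) = γ⁻¹ * n * γ := rfl

theorem act_apply (γ : SG) (f : V2 V x → ℤ_[l]) (n : V2 V x) : act γ f n = f (cj γ n) := rfl

theorem tr_apply (p : Probe V x l) (γ : SG) (n : V2 V x) :
    tr p γ n = Multiplicative.toAdd (p.ψ (cj γ n)) := rfl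

theorem act_mul (g h : SG) (f : V2 V x → ℤ_[l]) : act (g * h) f = act g (act h f) := by
  funext n
  rw [act_apply, act_apply, act_apply]
  exact congrArg f (Subtype.ext (by simp only [coe_cj]; group))


theorem act_add (g : SG) (f f' : V2 V x → ℤ_[l]) : act g (f + f') = act g f + act g f' := rfl

theorem act_smul (g : SG) (c : ℤ_[l]) (f : V2 V x → ℤ_[l]) : act g (c • f) = c • act g f := rfl

theorem act_zero (g : SG) : act g (0 : V2 V x → ℤ_[l]) = 0 := rfl

theorem act_sum {ι : Type*} (g : SG) (s : Finset ι) (f : ι → V2 V x → ℤ_[l]) :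
    act g (∑ i ∈ s, f i) = ∑ i ∈ s, act g (f i) := by
  classical
  induction s using Finset.induction_on with
  | empty => simp [act_zero]
  | insert a s ha ih => rw [Finset.sum_insert ha, Finset.sum_insert ha, act_add, ih]

theorem act_tr (p : Probe V x l) (g γ : SG) : act g (tr p γ) = tr p (g * γ) := by
  funext n
  rw [act_apply, tr_apply, tr_apply]
  exact congrArg (fun t => Multiplicative.toAdd (p.ψ t))
    (Subtype.ext (by simp only [coe_cj]; group))

theorem tr_mul_pos (p : Probe V x l) (γ a : SG) (ha : a ∈ V) (hpos : ∀ z : Sv, z ^ 2 = x → a z = z) :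
    tr p (γ * a) = tr p γ := by
  funext n
  rw [tr_apply, tr_apply]
  have h := p.eig_pos a ha hpos (cj γ n)
  rw [← h]
  exact congrArg (fun t => Multiplicative.toAdd (p.ψ t))
    (Subtype.ext (by simp only [coe_cj]; group))

theorem tr_mul_neg (p : Probe V x l) (γ a : SG) (ha : a ∈ V)
    (hneg : ∀ z : Sv, z ^ 2 = x → a z = -z) : tr p (γ * a) = -tr p γ := by
  funext n
  rw [tr_apply, Pi.neg_apply, tr_apply]
  have h := p.eig_neg a ha hneg (cj γ n)
  rw [← toAdd_inv, ← h]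
  exact congrArg (fun t => Multiplicative.toAdd (p.ψ t))
    (Subtype.ext (by simp only [coe_cj]; group))

theorem tr_map_mul (p : Probe V x l) (γ : SG) (n n' : V2 V x) :
    tr p γ (n * n') = tr p γ n + tr p γ n' := by
  rw [tr_apply, tr_apply, tr_apply, ← toAdd_mul, ← map_mul]
  exact congrArg (fun t => Multiplicative.toAdd (p.ψ t))
    (Subtype.ext (by simp only [coe_cj, Subgroup.coe_mul]; group))


theorem tr_ne_zero (p : Probe V x l) (γ : SG) : tr p γ ≠ 0 := by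
  intro h
  apply p.ne_one
  ext n
  have h1 := congrFun h (cj γ⁻¹ n)
  rw [tr_apply, Pi.zero_apply] at h1
  have h2 : cj γ (cj γ⁻¹ n) = n := by
    apply Subtype.ext
    simp only [coe_cj]
    group
  rw [h2] at h1
  simpa using h1


/-- the action of elements of `V₂` is trivial on `tr p γ` -/
theorem act_tr_of_mem (p : Probe V x l) (γ : SG) {v : SG} (hv : v ∈ V2 V x) :
    act v (tr p γ) = tr p γ := by
  funext n
  rw [act_apply, tr_apply, tr_apply]
  have h1 : cj γ (cj v n) = (cj γ ⟨v, hv⟩)⁻¹ * cj γ n * cj γ ⟨v, hv⟩ := by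
    apply Subtype.ext
    simp only [coe_cj, Subgroup.coe_mul, InvMemClass.coe_inv]
    group
  have h2 : p.ψ (cj γ (cj v n)) = p.ψ (cj γ n) := by
    rw [h1, map_mul, map_mul, map_inv, mul_comm, mul_inv_cancel_left]
  rw [h2]

end calculus

end Crest.Agent.R018.BadPhix933
end

-- ▼ part R018/BadPhiB_933
section

/-!
# Row 18: independence of translates, periodic sums, values on decomposition groups (helper933)
-/

set_option autoImplicit false

open NumberField Pointwise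
open Crest.NumberTheoryR

namespace Crest.Agent.R018.BadPhiBx933

open Crest.Agent.R018.EndDefx924 (Om)
open Crest.Agent.R018.Placesx484
open Crest.Agent.R018.Corex74
open Crest.Agent.R018.BadPhix933

section sign

variable {V : Subgroup SG} [hV : V.Normal] {x : Sv} {l : ℕ} [Fact l.Prime]

theorem conj_fix (hx : Gen V x) (γ : SG) {a : SG} (ha : a ∈ V) : a (γ x) = γ x := by
  have h1 : γ⁻¹ * a * γ ∈ V := by simpa using hV.conj_mem a ha γ⁻¹
  have h2 := hx.2.1 _ h1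
  have h3 : a (γ x) = γ ((γ⁻¹ * a * γ) x) := by
    rw [← AlgEquiv.mul_apply, ← AlgEquiv.mul_apply]
    congr 1
    group
  rw [h3, h2]

theorem sign_cases (hx : Gen V x) {γ : SG} {z : Sv} (hz : z ^ 2 = γ x) {a : SG} (ha : a ∈ V) :
    a z = z ∨ a z = -z := by
  apply sq_eq_sq_iff_eq_or_eq_neg.1
  rw [← map_pow, hz, conj_fix hx γ ha]

theorem all_of_one {γ : SG} {z0 : Sv} (hz0 : z0 ^ 2 = γ x) {a : SG} (h : a z0 = z0) :
    ∀ z : Sv, z ^ 2 = γ x → a z = z := by
  intro z hz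
  have h1 : z ^ 2 = z0 ^ 2 := by rw [hz, hz0]
  rcases sq_eq_sq_iff_eq_or_eq_neg.1 h1 with rfl | rfl
  · exact h
  · rw [map_neg, h]

theorem neg_of_one {γ : SG} {z0 : Sv} (hz0 : z0 ^ 2 = γ x) {a : SG} (h : a z0 = -z0) :
    ∀ z : Sv, z ^ 2 = γ x → a z = -z := by
  intro z hz
  have h1 : z ^ 2 = z0 ^ 2 := by rw [hz, hz0]
  rcases sq_eq_sq_iff_eq_or_eq_neg.1 h1 with rfl | rfl
  · exact h
  · rw [map_neg, h]

/-- `tr p (a γ)` for `a ∈ V` fixing the square roots of `γ x` -/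
theorem tr_mul_left_pos (p : Probe V x l) (γ a : SG) (ha : a ∈ V)
    (hpos : ∀ z : Sv, z ^ 2 = γ x → a z = z) : tr p (a * γ) = tr p γ := by
  have h1 : γ⁻¹ * a * γ ∈ V := by simpa using hV.conj_mem a ha γ⁻¹
  have h2 : a * γ = γ * (γ⁻¹ * a * γ) := by group
  rw [h2]
  apply tr_mul_pos p γ _ h1
  intro z hz
  have h3 := hpos (γ z) (by rw [← map_pow, hz])
  rw [AlgEquiv.mul_apply, AlgEquiv.mul_apply, h3, ← AlgEquiv.mul_apply, inv_mul_cancel]
  rfl

theorem tr_mul_left_neg (p : Probe V x l) (γ a : SG) (ha : a ∈ V)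
    (hneg : ∀ z : Sv, z ^ 2 = γ x → a z = -z) : tr p (a * γ) = -tr p γ := by
  have h1 : γ⁻¹ * a * γ ∈ V := by simpa using hV.conj_mem a ha γ⁻¹
  have h2 : a * γ = γ * (γ⁻¹ * a * γ) := by group
  rw [h2]
  apply tr_mul_neg p γ _ h1
  intro z hz
  have h3 := hneg (γ z) (by rw [← map_pow, hz])
  rw [AlgEquiv.mul_apply, AlgEquiv.mul_apply, h3, map_neg, ← AlgEquiv.mul_apply, inv_mul_cancel]
  rfl

open Classical in
/-- the sign of `a` on the square roots of `γ x` -/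
noncomputable def eps (x : Sv) (l : ℕ) [Fact l.Prime] (a γ : SG) : ℤ_[l] :=
  if ∀ z : Sv, z ^ 2 = γ x → a z = z then 1 else -1

theorem act_eps (hx : Gen V x) (p : Probe V x l) (γ a : SG) (ha : a ∈ V) :
    act a (tr p γ) = eps x l a γ • tr p γ := by
  rw [act_tr]
  unfold eps
  split_ifs with h
  · rw [one_smul, tr_mul_left_pos p γ a ha h]
  · rw [neg_smul, one_smul]
    apply tr_mul_left_neg p γ a ha
    obtain ⟨z0, hz0⟩ := exists_sqrt (γ x)
    rcases sign_cases hx hz0 ha with h1 | h1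
    · exact absurd (all_of_one hz0 h1) h
    · exact neg_of_one hz0 h1

theorem exists_eps_ne (hx : Gen V x) {γ γ' : SG} (hne : γ⁻¹ * γ' ∉ V) :
    ∃ a ∈ V, eps x l a γ ≠ eps x l a γ' := by
  classical
  have hxne : γ x ≠ γ' x := by
    intro h
    apply hne
    apply hx.2.2.1
    rw [AlgEquiv.mul_apply, ← h, ← AlgEquiv.mul_apply, inv_mul_cancel]
    rfl
  obtain ⟨z, hz⟩ := exists_sqrt (γ x)
  obtain ⟨z', hz'⟩ := exists_sqrt (γ' x)
  have hT := hx.2.2.2 {γ x, γ' x} ⟨γ x, by simp⟩ (by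
    intro y hy
    rcases Finset.mem_insert.1 hy with rfl | hy
    · exact ⟨γ, rfl⟩
    · exact ⟨γ', Finset.mem_singleton.1 hy⟩)
  have h1 : ¬ ∀ v ∈ V, v (z * z') = z * z' := by
    intro h
    apply hT
    refine ⟨z * z', h, ?_⟩
    rw [Finset.prod_pair hxne, mul_pow, hz, hz']
  push Not at h1
  obtain ⟨a, ha, hne'⟩ := h1
  have hz0 : z ≠ 0 := by
    rintro rfl
    apply hne'
    simp
  have hz0' : z' ≠ 0 := by
    rintro rfl
    apply hne'
    simp
  have two_ne : (1 : ℤ_[l]) ≠ -1 := by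
    intro h
    have h2 : (2 : ℤ_[l]) = 0 := by linear_combination h
    exact two_ne_zero h2
  refine ⟨a, ha, ?_⟩
  have nn : ∀ {w : Sv}, w ≠ 0 → w ≠ -w := by
    intro w hw h
    have h2 : (2 : Sv) * w = 0 := by linear_combination h
    exact hw ((mul_eq_zero.1 h2).resolve_left two_ne_zero)
  rcases sign_cases hx hz ha with h2 | h2 <;> rcases sign_cases hx hz' ha with h3 | h3
  · exact absurd (by rw [map_mul, h2, h3]) hne'
  · have e1 : eps x l a γ = 1 := by
      unfold eps; rw [if_pos (all_of_one hz h2)]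
    have e2 : eps x l a γ' = -1 := by
      unfold eps
      rw [if_neg]
      intro h
      exact nn hz0' ((h z' hz').symm.trans h3)
    rw [e1, e2]
    exact two_ne
  · have e1 : eps x l a γ = -1 := by
      unfold eps
      rw [if_neg]
      intro h
      exact nn hz0 ((h z hz).symm.trans h2)
    have e2 : eps x l a γ' = 1 := by
      unfold eps; rw [if_pos (all_of_one hz' h3)]
    rw [e1, e2]
    exact two_ne.symm
  · exact absurd (by rw [map_mul, h2, h3]; ring) hne'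

/-- **independence** of the translates over distinct cosets of `V` -/
theorem indep (hx : Gen V x) (p : Probe V x l) {ι : Type*} (s : Finset ι) (γ : ι → SG)
    (hd : ∀ i ∈ s, ∀ j ∈ s, i ≠ j → (γ i)⁻¹ * γ j ∉ V) (c : ι → ℤ_[l])
    (h0 : ∑ i ∈ s, c i • tr p (γ i) = 0) : ∀ i ∈ s, c i = 0 := by
  classical
  induction s using Finset.induction_on generalizing c with
  | empty => simp
  | insert j s hj ih =>
    have key : ∀ i ∈ s, c i = 0 := by
      intro i hi
      have hij : i ≠ j := fun h => hj (h ▸ hi)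
      obtain ⟨a, ha, hne⟩ := exists_eps_ne (l := l) hx
        (hd i (Finset.mem_insert_of_mem hi) j (Finset.mem_insert_self j s) hij)
      have h1 : ∑ k ∈ insert j s, (c k * (eps x l a (γ k) - eps x l a (γ j))) • tr p (γ k) = 0 := by
        have h2 : act a (∑ i ∈ insert j s, c i • tr p (γ i)) -
            eps x l a (γ j) • (∑ i ∈ insert j s, c i • tr p (γ i)) = 0 := by
          rw [h0, act_zero, smul_zero, sub_zero]
        rw [← h2, act_sum, Finset.smul_sum, ← Finset.sum_sub_distrib]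
        refine Finset.sum_congr rfl fun k _ => ?_
        rw [act_smul, act_eps hx p (γ k) a ha, smul_smul, smul_smul, ← sub_smul]
        congr 1
        ring
      rw [Finset.sum_insert hj, sub_self, mul_zero, zero_smul, zero_add] at h1
      have h3 := ih (fun i hi j hj => hd i (Finset.mem_insert_of_mem hi) j
        (Finset.mem_insert_of_mem hj)) _ h1 i hi
      exact (mul_eq_zero.1 h3).resolve_right (sub_ne_zero.2 hne)
    intro i hi
    rcases Finset.mem_insert.1 hi with rfl | hi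
    · rw [Finset.sum_insert hj, Finset.sum_eq_zero (fun k hk => by rw [key k hk, zero_smul]),
        add_zero] at h0
      by_contra hne
      exact tr_ne_zero p (γ i) ((smul_eq_zero.1 h0).resolve_left hne)
    · exact key i hi

end sign

section periodic

/-- a sum over a period is invariant under shifts -/
theorem sum_shift {M : Type*} [AddCommGroup M] (F : ℕ → M) (o : ℕ) (hF : ∀ j, F (j + o) = F j)
    (k : ℕ) : ∑ j ∈ Finset.range o, F (j + k) = ∑ j ∈ Finset.range o, F j := by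
  induction k with
  | zero => simp
  | succ k ih =>
    rw [← ih]
    have h1 : ∑ j ∈ Finset.range (o + 1), F (j + k) =
        ∑ j ∈ Finset.range o, F (j + (k + 1)) + F (0 + k) := by
      rw [Finset.sum_range_succ']
      congr 1
      exact Finset.sum_congr rfl fun j _ => by congr 1; ring
    have h2 : ∑ j ∈ Finset.range (o + 1), F (j + k) =
        ∑ j ∈ Finset.range o, F (j + k) + F (o + k) := Finset.sum_range_succ _ _
    have h3 : F (o + k) = F (0 + k) := by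
      rw [show o + k = (0 + k) + o by ring, hF]
    rw [h3] at h2
    exact add_right_cancel (h1.symm.trans h2)

variable {V : Subgroup SG} [hV : V.Normal] {x : Sv} {l : ℕ} [Fact l.Prime]

/-- `Σ_{j < o} c_j g^j γ ψ` -/
noncomputable def psum (p : Probe V x l) (g γ : SG) (o : ℕ) (c : ℕ → ℤ_[l]) : V2 V x → ℤ_[l] :=
  ∑ j ∈ Finset.range o, c j • tr p (g ^ j * γ)

theorem psum_mem (p : Probe V x l) (g γ : SG) (o : ℕ) (c : ℕ → ℤ_[l]) :
    psum p g γ o c ∈ Submodule.span ℤ_[l] (Set.range (tr p)) :=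
  Submodule.sum_mem _ fun j _ => Submodule.smul_mem _ _ (Submodule.subset_span ⟨_, rfl⟩)

theorem act_psum (p : Probe V x l) (g γ : SG) (o : ℕ) (c : ℕ → ℤ_[l]) (hgo : g ^ o ∈ V)
    (hfix : ∀ z : Sv, z ^ 2 = γ x → (g ^ o) z = z) (hc : ∀ j, c (j + o) = c j) (k : ℕ)
    (hk : ∀ j, c (j + k) = c j) : act (g ^ k) (psum p g γ o c) = psum p g γ o c := by
  unfold psum
  rw [act_sum]
  set F : ℕ → (V2 V x → ℤ_[l]) := fun j => c j • tr p (g ^ j * γ) with hFdef
  have hF : ∀ j, F (j + o) = F j := by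
    intro j
    simp only [hFdef, hc]
    congr 1
    rw [pow_add, mul_assoc, ← act_tr p (g ^ j), tr_mul_left_pos p γ (g ^ o) hgo hfix, act_tr]
  rw [← sum_shift F o hF k]
  refine Finset.sum_congr rfl fun j _ => ?_
  rw [act_smul, act_tr]
  simp only [hFdef, hk]
  rw [← mul_assoc, ← pow_add, add_comm k j]

theorem act_psum_mul (p : Probe V x l) (g γ : SG) (o : ℕ) (c : ℕ → ℤ_[l]) (hgo : g ^ o ∈ V)
    (hfix : ∀ z : Sv, z ^ 2 = γ x → (g ^ o) z = z) (hc : ∀ j, c (j + o) = c j) (k : ℕ)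
    (hk : ∀ j, c (j + k) = c j) (m : ℕ) (hm : k ∣ m) :
    act (g ^ m) (psum p g γ o c) = psum p g γ o c := by
  obtain ⟨n, rfl⟩ := hm
  apply act_psum p g γ o c hgo hfix hc
  intro j
  induction n with
  | zero => simp
  | succ n ih => rw [Nat.mul_succ, ← add_assoc, hk, ih]

theorem pow_coset (g γ : SG) (o : ℕ) (hmin : ∀ j, 0 < j → j < o → g ^ j ∉ V) {i j : ℕ}
    (hi : i < o) (hj : j < o) (hij : i ≠ j) : (g ^ i * γ)⁻¹ * (g ^ j * γ) ∉ V := by
  intro h
  have h1 : g⁻¹ ^ i * g ^ j ∈ V := by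
    have := hV.conj_mem _ h γ
    rw [mul_inv_rev] at this
    convert this using 1
    rw [inv_pow]; group
  rcases lt_or_gt_of_ne hij with h2 | h2
  · apply hmin (j - i) (by omega) (by omega)
    convert h1 using 1
    rw [inv_pow, eq_inv_mul_iff_mul_eq, ← pow_add]
    congr 1
    omega
  · apply hmin (i - j) (by omega) (by omega)
    have h3 := V.inv_mem h1
    convert h3 using 1
    rw [mul_inv_rev, inv_pow, inv_inv, eq_inv_mul_iff_mul_eq, ← pow_add]
    congr 1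
    omega

theorem psum_ne_zero (hx : Gen V x) (p : Probe V x l) (g γ : SG) (o : ℕ) (c : ℕ → ℤ_[l])
    (hmin : ∀ j, 0 < j → j < o → g ^ j ∉ V) (j0 : ℕ) (hj0 : j0 < o) (hc : c j0 ≠ 0) :
    psum p g γ o c ≠ 0 := by
  intro h
  exact hc (indep hx p (Finset.range o) (fun j => g ^ j * γ) (fun i hi j hj hij =>
    pow_coset g γ o hmin (Finset.mem_range.1 hi) (Finset.mem_range.1 hj) hij) c h j0
    (Finset.mem_range.2 hj0))

end periodic

section value

variable {V : Subgroup SG} [hV : V.Normal] {x : Sv} {l : ℕ} [Fact l.Prime]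

/-- conjugation as a homomorphism -/
noncomputable def cjHom (V : Subgroup SG) [V.Normal] (x : Sv) (γ : SG) : V2 V x →* V2 V x where
  toFun := cj γ
  map_one' := Subtype.ext (by simp)
  map_mul' a b := Subtype.ext (by simp only [coe_cj, Subgroup.coe_mul]; group)

theorem continuous_cj (γ : SG) : Continuous (cj γ : V2 V x → V2 V x) := by
  apply Continuous.subtype_mk
  exact (continuous_const.mul continuous_subtype_val).mul continuous_const

/-- `tr p γ` as a homomorphism -/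
noncomputable def trHom (p : Probe V x l) (γ : SG) : V2 V x →* Multiplicative ℤ_[l] :=
  p.ψ.comp (cjHom V x γ)

theorem trHom_apply (p : Probe V x l) (γ : SG) (n : V2 V x) :
    Multiplicative.toAdd (trHom p γ n) = tr p γ n := rfl

theorem continuous_trHom (p : Probe V x l) (γ : SG) : Continuous (trHom p γ) :=
  p.cont.comp (continuous_cj γ)

/-- `tr p γ` kills inertia -/
theorem tr_inertia (hF7 : F7) (hVo : IsOpen (V : Set SG)) (p : Probe V x l) (γ : SG)
    (Q : Place Sv) (hQ : Q.rchar ≠ l) (n : V2 V x)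
    (hn : ∀ y : 𝓞 Sv, (n : SG) • y - y ∈ Q.ideal) : tr p γ n = 0 := by
  have := hF7 (V2 V x) (isOpen_V2 V hVo x) l (trHom p γ) (continuous_trHom p γ) Q hQ n hn
  rw [← trHom_apply, this]
  rfl

theorem smul_mem_of_fix {Q : Place Sv} {h : SG} (hh : h • Q = Q) {y : 𝓞 Sv} (hy : y ∈ Q.ideal) :
    h • y ∈ Q.ideal := by
  have := (Place.smul_mem_smul_ideal h Q y).2 hy
  rwa [hh] at this

/-- an element acting as `x ↦ x ^ m` on the residue field stabilizes the place -/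
theorem act_stab {E H : Type*} [Field E] [CharZero E] [Algebra.IsAlgebraic ℚ E] [Group H]
    [MulSemiringAction H E]
    {Q : Place E} {g : H} {m : ℕ} (h : Act Q g m) (hm : m ≠ 0) : g • Q = Q := by
  have h1 : (g⁻¹ • Q).ideal ≥ Q.ideal := by
    intro y hy
    rw [Place.mem_smul_ideal, inv_inv]
    have h2 := h y
    have h3 : y ^ m ∈ Q.ideal := Ideal.pow_mem_of_mem _ hy m (Nat.pos_of_ne_zero hm)
    have := Ideal.add_mem _ h2 h3
    rwa [sub_add_cancel] at this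
  have h2 : Q = g⁻¹ • Q := Place.ext_of_ideal_le h1
  rw [eq_inv_smul_iff] at h2
  exact h2

theorem Act.pow {E H : Type*} [Field E] [CharZero E] [Group H] [MulSemiringAction H E]
    {Q : Place E} {g : H} {m : ℕ} (h : Act Q g m) (j : ℕ) : Act Q (g ^ j) (m ^ j) := by
  induction j with
  | zero =>
    intro y
    simp
  | succ j ih =>
    intro y
    have h1 := ih (g • y)
    have h2 := h y
    rw [pow_succ, mul_smul]
    have h3 : (g • y) ^ (m ^ j) - y ^ (m ^ (j + 1)) ∈ Q.ideal := by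
      rw [pow_succ m, mul_comm (m ^ j) m, pow_mul y]
      exact Ideal.mem_of_dvd _ (sub_dvd_pow_sub_pow _ _ _) h2
    have := Ideal.add_mem _ h1 h3
    rwa [sub_add_sub_cancel] at this

/-- conjugating `h ∈ D_Q ∩ V₂` by a Frobenius power does not change `tr p γ` -/
theorem tr_cj (hF7 : F7) (hVo : IsOpen (V : Set SG)) (p : Probe V x l) (γ : SG)
    {Q : Place Sv} (hQ : Q.rchar ≠ l) {d : SG} {m : ℕ} (hm : m ≠ 0) (hd : Act Q d m)
    {h : V2 V x} (hh : (h : SG) • Q = Q) : tr p γ (cj d h) = tr p γ h := by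
  have hdQ : d • Q = Q := act_stab hd hm
  have hdQ' : d⁻¹ • Q = Q := by rw [inv_smul_eq_iff, hdQ]
  have h1 : ∀ y : 𝓞 Sv, ((cj d h * h⁻¹ : V2 V x) : SG) • y - y ∈ Q.ideal := by
    intro y
    have e1 : ((cj d h * h⁻¹ : V2 V x) : SG) = d⁻¹ * ((h : SG) * d * (h : SG)⁻¹) := by
      simp only [coe_cj, Subgroup.coe_mul, InvMemClass.coe_inv]; group
    have h2 : ((h : SG) * d * (h : SG)⁻¹) • y - d • y ∈ Q.ideal := by
      have h3 := smul_mem_of_fix hh (hd ((h : SG)⁻¹ • y))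
      rw [smul_sub, smul_pow', smul_inv_smul] at h3
      have h4 := hd y
      have h5 := Ideal.sub_mem _ h3 h4
      rw [sub_sub_sub_cancel_right] at h5
      rw [mul_smul, mul_smul]
      exact h5
    have h6 := smul_mem_of_fix hdQ' h2
    rw [smul_sub, inv_smul_smul, ← mul_smul, ← e1] at h6
    exact h6
  have h2 := tr_inertia hF7 hVo p γ Q hQ _ h1
  have h3 := tr_map_mul p γ (cj d h * h⁻¹) h
  rw [inv_mul_cancel_right, h2, zero_add] at h3
  exact h3

/-- `tr p (g γ) h = tr p γ h` if `g = d v` with `d` a Frobenius power at `Q`, `v ∈ V₂`,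
and `h ∈ D_Q ∩ V₂` -/
theorem tr_mul_left_apply (hF7 : F7) (hVo : IsOpen (V : Set SG)) (p : Probe V x l) (γ : SG)
    {Q : Place Sv} (hQ : Q.rchar ≠ l) {d g : SG} {m : ℕ} (hm : m ≠ 0) (hd : Act Q d m)
    (hg : d⁻¹ * g ∈ V2 V x) {h : V2 V x} (hh : (h : SG) • Q = Q) :
    tr p (g * γ) h = tr p γ h := by
  have e : g = d * (d⁻¹ * g) := by group
  rw [← act_tr, e, act_mul, act_tr_of_mem p γ hg, act_apply, tr_cj hF7 hVo p γ hQ hm hd hh]

/-- value of a periodic sum on `D_Q ∩ V₂` -/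
theorem psum_apply (hF7 : F7) (hVo : IsOpen (V : Set SG)) (p : Probe V x l) (g γ : SG) (o : ℕ)
    (c : ℕ → ℤ_[l]) {Q : Place Sv} (hQ : Q.rchar ≠ l) {φ : SG} (hφ : Act Q φ Q.rchar)
    (hg : φ⁻¹ * g ∈ V2 V x) {h : V2 V x} (hh : (h : SG) • Q = Q) :
    psum p g γ o c h = (∑ j ∈ Finset.range o, c j) * tr p γ h := by
  unfold psum
  rw [Finset.sum_apply, Finset.sum_mul]
  refine Finset.sum_congr rfl fun j _ => ?_
  rw [Pi.smul_apply, smul_eq_mul]
  congr 1
  have hq : Q.rchar ≠ 0 := Q.rchar_prime.ne_zero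
  refine tr_mul_left_apply hF7 hVo p γ hQ (pow_ne_zero j hq) (Act.pow hφ j) ?_ hh
  have hn : (V2 V x).Normal := V2_normal V x
  have h1 : (QuotientGroup.mk (φ ^ j) : SG ⧸ V2 V x) = QuotientGroup.mk (g ^ j) := by
    rw [QuotientGroup.mk_pow, QuotientGroup.mk_pow, QuotientGroup.eq.2 hg]
  exact QuotientGroup.eq.1 h1

end value

end Crest.Agent.R018.BadPhiBx933
end

-- ▼ part R018/CA_933

/-!
# Row 18: consequence (A) (helper933)
-/

set_option autoImplicit false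

open NumberField Pointwise
open Crest.NumberTheoryR

namespace Crest.Agent.R018.CAx933

open Crest.Agent.R018.EndDefx924 (Om)
open Crest.Agent.R018.Placesx484
open Crest.Agent.R018.Corex74
open Crest.Agent.R018.BadPhix933
open Crest.Agent.R018.BadPhiBx933

section tools

theorem exists_pow_mem (H : Subgroup SG) (hn : H.Normal) (hH : IsOpen (H : Set SG)) (g : SG) :
    ∃ k : ℕ, 0 < k ∧ g ^ k ∈ H := by
  have hfin : Finite (SG ⧸ H) := Subgroup.quotient_finite_of_isOpen H hH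
  have : Fintype (SG ⧸ H) := Fintype.ofFinite _
  refine ⟨Fintype.card (SG ⧸ H), Fintype.card_pos, ?_⟩
  have h1 : (QuotientGroup.mk g : SG ⧸ H) ^ Fintype.card (SG ⧸ H) = 1 := pow_card_eq_one
  rw [← QuotientGroup.mk_pow] at h1
  exact (QuotientGroup.eq_one_iff _).1 h1

/-- divisibility by the minimal exponent -/
theorem dvd_of_pow_mem {G : Type*} [Group G] (R : Subgroup G) (g : G) (f : ℕ) (hf : 0 < f)
    (hfR : g ^ f ∈ R) (hmin : ∀ j, 0 < j → j < f → g ^ j ∉ R) {m : ℕ} (hm : g ^ m ∈ R) : f ∣ m := by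
  by_contra hd
  have h1 : 0 < m % f := Nat.pos_of_ne_zero fun h => hd (Nat.dvd_of_mod_eq_zero h)
  apply hmin (m % f) h1 (Nat.mod_lt _ hf)
  have h2 : g ^ m = (g ^ f) ^ (m / f) * g ^ (m % f) := by
    rw [← pow_mul, ← pow_add, Nat.div_add_mod]
  rw [h2] at hm
  exact (R.mul_mem_cancel_left (R.pow_mem hfR _)).1 hm

/-- the pigeonhole principle for properties of cosets holding for arbitrarily large bounds -/
theorem pigeonhole {C : Type*} [Finite C] (P : ℕ → C → Prop) (hmono : ∀ B B' c, B ≤ B' →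
    P B' c → P B c) (h : ∀ B, ∃ c, P B c) : ∃ c, ∀ B, P B c := by
  classical
  by_contra hcon
  push Not at hcon
  choose b hb using hcon
  have : Fintype C := Fintype.ofFinite C
  obtain ⟨c, hc⟩ := h (Finset.univ.sup b)
  exact hb c (hmono _ _ c (Finset.le_sup (Finset.mem_univ c)) hc)

/-- **LEMMA G**, uniform in `g` -/
theorem lemmaG_unif (hLG : LemmaG) (D : Dat) (V : Subgroup SG) [V.Normal]
    (hVo : IsOpen (V : Set SG)) (hND : NDat D V)
    (hVN : ∀ v ∈ V, ∃ (k : BB) (hk : k ∈ N1 D), αN D k hk = v)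
    (x : Sv) (hx : Gen V x) (l : ℕ) [Fact l.Prime] (hl : l ≠ 2) (p : Probe V x l)
    (φ : V2 V x → ℤ_[l]) (hφ : φ ∈ Submodule.span ℤ_[l] (Set.range (tr p))) (hne : φ ≠ 0) :
    ∃ B : ℕ, ∀ (P : Place Om), B < P.rchar → ∀ σ : D.G, FrobL D.G P (σ : BB) →
      ∀ g : SG, act g φ = φ → (D.α σ)⁻¹ * g ∈ V2 V x →
      ∀ (k : ℕ) (hk : (D.α σ) ^ k ∈ V2 V x), 0 < k → φ ⟨(D.α σ) ^ k, hk⟩ ≠ 0 := by
  classical
  have hfin : Finite (SG ⧸ V2 V x) :=
    Subgroup.quotient_finite_of_isOpen (V2 V x) (isOpen_V2 V hVo x)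
  have : Fintype (SG ⧸ V2 V x) := Fintype.ofFinite _
  have key : ∀ c : SG ⧸ V2 V x, ∃ B : ℕ, ∀ (P : Place Om), B < P.rchar → ∀ σ : D.G,
      FrobL D.G P (σ : BB) → (QuotientGroup.mk (D.α σ) : SG ⧸ V2 V x) = c →
      (∃ g : SG, QuotientGroup.mk g = c ∧ act g φ = φ) →
      ∀ (k : ℕ) (hk : (D.α σ) ^ k ∈ V2 V x), 0 < k → φ ⟨(D.α σ) ^ k, hk⟩ ≠ 0 := by
    intro c
    by_cases h : ∃ g : SG, (QuotientGroup.mk g : SG ⧸ V2 V x) = c ∧ act g φ = φ
    · obtain ⟨g, hgc, hg⟩ := h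
      obtain ⟨B, hB⟩ := hLG D V hVo hND hVN x hx l hl p φ hφ hne g hg
      refine ⟨B, fun P hP σ hσ hc _ k hk hk0 => hB P hP σ hσ ?_ k hk hk0⟩
      exact QuotientGroup.eq.1 (hc.trans hgc.symm)
    · exact ⟨0, fun P _ σ _ _ h' => absurd h' h⟩
  choose B hB using key
  refine ⟨Finset.univ.sup B, fun P hP σ hσ g hg hσg k hk hk0 => ?_⟩
  exact hB (QuotientGroup.mk g) P (lt_of_le_of_lt (Finset.le_sup (Finset.mem_univ _)) hP) σ hσ
    (QuotientGroup.eq.2 hσg) ⟨g, rfl, hg⟩ k hk hk0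

theorem V_le_range (D : Dat) (V : Subgroup SG)
    (hVN : ∀ v ∈ V, ∃ (k : BB) (hk : k ∈ N1 D), αN D k hk = v) : V ≤ D.α.range := by
  intro v hv
  obtain ⟨k, hk, h⟩ := hVN v hv
  exact ⟨⟨k, N1_le D hk⟩, h⟩

theorem V2_inf_le (V : Subgroup SG) (x₁ x₂ : Sv) : V2 V x₁ ⊓ V2 V x₂ ≤ V2 V (x₁ * x₂) := by
  rintro g ⟨h1, h2⟩
  refine ⟨h1.1, fun γ z hz => ?_⟩
  obtain ⟨z₁, hz₁⟩ := exists_sqrt (γ x₁)
  obtain ⟨z₂, hz₂⟩ := exists_sqrt (γ x₂)
  have e1 := h1.2 γ z₁ hz₁
  have e2 := h2.2 γ z₂ hz₂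
  have h3 : z ^ 2 = (z₁ * z₂) ^ 2 := by rw [hz, mul_pow, hz₁, hz₂, map_mul]
  rcases sq_eq_sq_iff_eq_or_eq_neg.1 h3 with rfl | rfl
  · rw [map_mul, e1, e2]
  · rw [map_neg, map_mul, e1, e2]

/-- the sign trick for one element -/
theorem sign_trick (V : Subgroup SG) [V.Normal] {x₁ x₂ : Sv} (hx₁ : Gen V x₁) (hx₂ : Gen V x₂)
    (hx₁₂ : Gen V (x₁ * x₂)) (a : SG) (ha : a ∈ V) :
    ∃ x : Sv, Gen V x ∧ V2 V x₁ ⊓ V2 V x₂ ≤ V2 V x ∧
      ∀ z : Sv, z ^ 2 = (1 : SG) x → a z = z := by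
  obtain ⟨z₁, hz₁⟩ := exists_sqrt ((1 : SG) x₁)
  obtain ⟨z₂, hz₂⟩ := exists_sqrt ((1 : SG) x₂)
  rcases sign_cases hx₁ hz₁ ha with h1 | h1
  · exact ⟨x₁, hx₁, inf_le_left, all_of_one hz₁ h1⟩
  · rcases sign_cases hx₂ hz₂ ha with h2 | h2
    · exact ⟨x₂, hx₂, inf_le_right, all_of_one hz₂ h2⟩
    · refine ⟨x₁ * x₂, hx₁₂, V2_inf_le V x₁ x₂, all_of_one (z0 := z₁ * z₂) ?_ ?_⟩
      · rw [mul_pow, hz₁, hz₂, map_mul]
      · rw [map_mul, h1, h2]; ring

end tools

theorem ca_of (hNL : NDLevel) (hLG : LemmaG) (hPE : ProbeEx) (hLoc : LocT) (hBF : BadFinite)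
    (hF1 : F1) (hF3 : F3) (hF4 : F4) (hF5 : F5) (hF6 : F6) (hF7 : F7) (hF8 : F8) (hF9 : F9) :
    CA := by
  classical
  intro D hND
  by_contra hsurj
  obtain ⟨s, hs⟩ : ∃ s : SG, s ∉ D.α.range := by
    unfold Function.Surjective at hsurj
    push Not at hsurj
    obtain ⟨s, hs⟩ := hsurj
    exact ⟨s, fun ⟨d, hd⟩ => hs d hd⟩
  obtain ⟨i, hi⟩ := exists_I
  obtain ⟨V, hVn, hVo, hVV', hNDat, hVN⟩ := hNL D hND (MulAction.stabilizer SG i) (isOpen_stab i)
  have hVR : V ≤ D.α.range := V_le_range D V hVN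
  have hinv : ∀ v ∈ V, v * v = 1 → v = 1 := fun v hv hvv => eq_one_of_sq hvv hi (hVV' hv)
  obtain ⟨x₁, x₂, hx₁, hx₂, hx₁₂⟩ := hF9 V hVn hVo
  set W0 : Subgroup SG := V2 V x₁ ⊓ V2 V x₂ with hW0
  have hn1 : (V2 V x₁).Normal := V2_normal V x₁
  have hn2 : (V2 V x₂).Normal := V2_normal V x₂
  have hW0n : W0.Normal := inferInstance
  have hW0o : IsOpen (W0 : Set SG) := (isOpen_V2 V hVo x₁).inter (isOpen_V2 V hVo x₂)
  have hW0V : W0 ≤ V := inf_le_left.trans (V2_le V x₁)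
  have hfin : Finite (SG ⧸ W0) := Subgroup.quotient_finite_of_isOpen W0 hW0o
  -- the element `g`
  obtain ⟨c0, hc0⟩ := pigeonhole (C := SG ⧸ W0)
    (fun B c => ∃ (Q : Place Sv) (φ : SG), B < Q.rchar ∧ Act Q φ Q.rchar ∧
      (QuotientGroup.mk φ : SG ⧸ W0) = c ∧ ∃ j : ℕ, (φ ^ j)⁻¹ * s ∈ W0)
    (fun B B' c hBB' ⟨Q, φ, h1, h2⟩ => ⟨Q, φ, lt_of_le_of_lt hBB' h1, h2⟩)
    (fun B => by
      obtain ⟨Q, φ, h1, h2, -, h3⟩ := hF8 W0 hW0n hW0o s B
      exact ⟨QuotientGroup.mk φ, Q, φ, h1, h2, rfl, h3⟩)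
  obtain ⟨g, rfl⟩ := QuotientGroup.mk_surjective c0
  have hg : ∀ B : ℕ, ∃ (Q : Place Sv) (φ : SG), B < Q.rchar ∧ Act Q φ Q.rchar ∧ φ⁻¹ * g ∈ W0 := by
    intro B
    obtain ⟨Q, φ, h1, h2, h3, -⟩ := hc0 B
    exact ⟨Q, φ, h1, h2, QuotientGroup.eq.1 h3⟩
  have hgR : g ∉ D.α.range := by
    intro hgR
    obtain ⟨Q, φ, h1, h2, h3, j, hj⟩ := hc0 0
    have h4 : φ⁻¹ * g ∈ D.α.range := hVR (hW0V (QuotientGroup.eq.1 h3))
    have h5 : φ ∈ D.α.range := by
      have := D.α.range.mul_mem hgR (D.α.range.inv_mem h4)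
      rwa [mul_inv_rev, inv_inv, mul_inv_cancel_left] at this
    have h6 := D.α.range.mul_mem (D.α.range.pow_mem h5 j) (hVR (hW0V hj))
    rw [mul_inv_cancel_left] at h6
    exact hs h6
  -- minimal exponents
  have hexo : ∃ k, 0 < k ∧ g ^ k ∈ V := exists_pow_mem V hVn hVo g
  set o := Nat.find hexo with ho
  have ho0 : 0 < o := (Nat.find_spec hexo).1
  have hoV : g ^ o ∈ V := (Nat.find_spec hexo).2
  have homin : ∀ j, 0 < j → j < o → g ^ j ∉ V := fun j hj hjo hjV => Nat.find_min hexo hjo ⟨hj, hjV⟩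
  have hexf : ∃ k, 0 < k ∧ g ^ k ∈ D.α.range := ⟨o, ho0, hVR hoV⟩
  set f := Nat.find hexf with hf
  have hf0 : 0 < f := (Nat.find_spec hexf).1
  have hfR : g ^ f ∈ D.α.range := (Nat.find_spec hexf).2
  have hfmin : ∀ j, 0 < j → j < f → g ^ j ∉ D.α.range :=
    fun j hj hjo hjV => Nat.find_min hexf hjo ⟨hj, hjV⟩
  have hfo : f ∣ o := dvd_of_pow_mem _ g f hf0 hfR hfmin (hVR hoV)
  have hf2 : 2 ≤ f := by
    by_contra h
    have h1 : f = 1 := by omega
    rw [h1, pow_one] at hfR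
    exact hgR hfR
  -- the sign trick
  obtain ⟨x, hx, hW0x, hfix⟩ := sign_trick V hx₁ hx₂ hx₁₂ (g ^ o) hoV
  -- the probe
  obtain ⟨L0, hL0⟩ := hPE V hVo hinv x hx
  obtain ⟨l, hlL, hlp⟩ := Nat.exists_infinite_primes (L0 + 3)
  have : Fact l.Prime := ⟨hlp⟩
  have hl2 : l ≠ 2 := by omega
  obtain ⟨p⟩ := hL0 l (by omega)
  -- the bad `φ`
  set a : ℕ → ℤ_[l] := fun j => if f ∣ j then 1 else 0 with ha
  have haf : ∀ j, a (j + f) = a j := by
    intro j
    simp only [ha, Nat.dvd_add_self_right]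
  have hao : ∀ j, a (j + o) = a j := by
    intro j
    simp only [ha]
    congr 1
    exact propext (Nat.dvd_add_iff_left hfo).symm
  set c : ℕ → ℤ_[l] := fun j => a j - a (j + (f - 1)) with hc
  have hcf : ∀ j, c (j + f) = c j := by
    intro j
    simp only [hc]
    rw [haf, show j + f + (f - 1) = j + (f - 1) + f by ring, haf]
  have hco : ∀ j, c (j + o) = c j := by
    intro j
    simp only [hc]
    rw [hao, show j + o + (f - 1) = j + (f - 1) + o by ring, hao]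
  have hcsum : ∑ j ∈ Finset.range o, c j = 0 := by
    simp only [hc]
    rw [Finset.sum_sub_distrib, sum_shift a o hao (f - 1), sub_self]
  have hc0' : c 0 ≠ 0 := by
    have h1 : ¬ f ∣ (f - 1) := fun h => by
      have := Nat.le_of_dvd (by omega) h
      omega
    simp only [hc, ha, zero_add, dvd_zero, if_true, if_neg h1, sub_zero]
    exact one_ne_zero
  have hne : psum p g 1 o c ≠ 0 := psum_ne_zero hx p g 1 o c homin 0 ho0 hc0'
  obtain ⟨B1, hB1⟩ := lemmaG_unif hLG D V hVo hNDat hVN x hx l hl2 p (psum p g 1 o c)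
    (psum_mem p g 1 o c) hne
  -- the bounds
  obtain ⟨M, hM⟩ := (ConsDx814.finite_target hLoc hF5 hF6 D Nat.prime_five (by norm_num) B1).bddAbove
  obtain ⟨B3, hB3⟩ := hF3 W0 hW0o
  obtain ⟨B5, hB5⟩ := hBF D 5 Nat.prime_five (by norm_num)
  obtain ⟨Q, φ, hQ, hφ, hφg⟩ := hg (max (max M B3) (max B5 l))
  have hQM : M < Q.rchar := lt_of_le_of_lt ((le_max_left _ _).trans (le_max_left _ _)) hQ
  have hQ3 : B3 < Q.rchar := lt_of_le_of_lt ((le_max_right _ _).trans (le_max_left _ _)) hQ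
  have hQ5 : B5 < Q.rchar := lt_of_le_of_lt ((le_max_left _ _).trans (le_max_right _ _)) hQ
  have hQl : l < Q.rchar := lt_of_le_of_lt ((le_max_right _ _).trans (le_max_right _ _)) hQ
  obtain ⟨P, hHit, hCor⟩ := hB5 Q hQ5
  have hP : B1 < P.rchar := by
    by_contra h
    have h1 : Q.rchar ≤ M := hM ⟨P, Q, hHit, hCor, not_lt.1 h, rfl⟩
    omega
  obtain ⟨-, -, ⟨σ, hσ⟩, -⟩ := hF1 D.G D.isOpen_G P
  set σ' : D.G := ⟨σ, hσ.1⟩ with hσ'
  have hσP : σ • P = P := act_stab hσ.2 (pow_ne_zero _ P.rchar_prime.ne_zero)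
  have hαQ : D.α σ' • Q = Q := hCor σ' hσP
  obtain ⟨j, hj⟩ := hF4 W0 hW0n hW0o Q (hB3 Q hQ3) φ hφ (D.α σ') hαQ
  have hmk : (QuotientGroup.mk (D.α σ') : SG ⧸ W0) = QuotientGroup.mk (g ^ j) := by
    have h1 : (QuotientGroup.mk (φ ^ j) : SG ⧸ W0) = QuotientGroup.mk (D.α σ') :=
      QuotientGroup.eq.2 hj
    have h2 : (QuotientGroup.mk φ : SG ⧸ W0) = QuotientGroup.mk g := QuotientGroup.eq.2 hφg
    rw [← h1, QuotientGroup.mk_pow, QuotientGroup.mk_pow, h2]
  have hσg : (D.α σ')⁻¹ * g ^ j ∈ W0 := QuotientGroup.eq.1 hmk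
  have hjR : g ^ j ∈ D.α.range := by
    have h1 : D.α σ' ∈ D.α.range := ⟨σ', rfl⟩
    have h2 := D.α.range.mul_mem h1 (hVR (hW0V hσg))
    rwa [mul_inv_cancel_left] at h2
  have hfj : f ∣ j := dvd_of_pow_mem _ g f hf0 hfR hfmin hjR
  have hact := act_psum_mul p g 1 o c hoV hfix hco f hcf j hfj
  have hV2n : (V2 V x).Normal := V2_normal V x
  obtain ⟨k, hk0, hk⟩ := exists_pow_mem (V2 V x) hV2n (isOpen_V2 V hVo x) (D.α σ')
  refine hB1 P hP σ' hσ (g ^ j) hact (hW0x hσg) k hk hk0 ?_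
  have hkQ : ((D.α σ') ^ k) • Q = Q := by
    clear hk hk0
    induction k with
    | zero => simp
    | succ k ih => rw [pow_succ, mul_smul, hαQ, ih]
  rw [psum_apply hF7 hVo p g 1 o c hQl.ne' hφ (hW0x hφg) (h := ⟨(D.α σ') ^ k, hk⟩) hkQ, hcsum,
    zero_mul]

end Crest.Agent.R018.CAx933
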