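import Mathlib
import Crest.Prelude.Def_SolvClosed

/-! R018 reductions (helper49), part A: continuity criterion, transport of Galois groups and of
`IsSolvablyClosed` along ring isomorphisms. -/

set_option autoImplicit false

open Crest.NumberTheoryR Polynomial

namespace Crest.Agent.R018.Redx49

section cont

variable {K L : Type*} [Field K] [Field L] [Algebra K L]

/-- A homomorphism into a Galois group is continuous as soon as every element of the field is
fixed by a neighbourhood of `1`. -/
theorem continuous_of_eval [Algebra.IsAlgebraic K L] {G : Type*} [Group G] [TopologicalSpace G]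
    [IsTopologicalGroup G] (φ : G →* (L ≃ₐ[K] L))
    (h : ∀ x : L, {g : G | φ g x = x} ∈ nhds (1 : G)) : Continuous φ := by
  apply continuous_of_continuousAt_one φ
  intro s hs
  rw [map_one, krullTopology_mem_nhds_one_iff] at hs
  obtain ⟨E, hE, hsub⟩ := hs
  have hE' : Module.Finite K E := hE
  obtain ⟨S, hS⟩ := (IntermediateField.essFiniteType_iff.mp inferInstance : E.FG)
  have h1 : (⋂ x ∈ S, {g : G | φ g x = x}) ∈ nhds (1 : G) :=
    (Filter.biInter_finset_mem S).mpr fun x _ => h x
  rw [Filter.mem_map]
  refine Filter.mem_of_superset h1 ?_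
  intro g hg
  simp only [Set.mem_iInter, Set.mem_ofPred_eq] at hg
  refine hsub ?_
  rw [SetLike.mem_coe, IntermediateField.mem_fixingSubgroup_iff]
  intro x hx
  rw [← hS] at hx
  have : IntermediateField.adjoin K (S : Set L) ≤
      IntermediateField.fixedField (Subgroup.zpowers (φ g)) := by
    rw [IntermediateField.adjoin_le_iff]
    intro y hy
    rw [SetLike.mem_coe, IntermediateField.mem_fixedField_iff]
    intro f hf
    have hst : Subgroup.zpowers (φ g) ≤ MulAction.stabilizer (L ≃ₐ[K] L) y := by
      rw [Subgroup.zpowers_le]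
      exact hg y hy
    exact hst hf
  exact (IntermediateField.mem_fixedField_iff _ _).mp (this hx) _ (Subgroup.mem_zpowers _)

theorem eval_mem_nhds [Algebra.IsAlgebraic K L] (x : L) :
    {g : L ≃ₐ[K] L | g x = x} ∈ nhds (1 : L ≃ₐ[K] L) := by
  rw [krullTopology_mem_nhds_one_iff]
  refine ⟨IntermediateField.adjoin K {x}, ?_, ?_⟩
  · exact IntermediateField.adjoin.finiteDimensional (Algebra.IsIntegral.isIntegral x)
  · intro g hg
    rw [SetLike.mem_coe, IntermediateField.mem_fixingSubgroup_iff] at hg
    exact hg x (IntermediateField.mem_adjoin_simple_self K x)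

end cont

section transport

variable {F E F' E' : Type*} [Field F] [Field E] [Field F'] [Field E'] [Algebra F E]
  [Algebra F' E']

/-- Transport of an automorphism. -/
def conjE (f : F ≃+* F') (e : E ≃+* E')
    (h : ∀ x : F, e (algebraMap F E x) = algebraMap F' E' (f x)) (σ : E ≃ₐ[F] E) :
    E' ≃ₐ[F'] E' :=
  AlgEquiv.ofRingEquiv (f := (e.symm.trans σ.toRingEquiv).trans e) (by
    intro y
    obtain ⟨x, rfl⟩ := f.surjective y
    have : e.symm (algebraMap F' E' (f x)) = algebraMap F E x := by
      rw [← h, RingEquiv.symm_apply_apply]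
    simp [this, h])

@[simp] theorem conjE_apply (f : F ≃+* F') (e : E ≃+* E')
    (h : ∀ x : F, e (algebraMap F E x) = algebraMap F' E' (f x)) (σ : E ≃ₐ[F] E) (y : E') :
    conjE f e h σ y = e (σ (e.symm y)) := rfl

/-- Transport of Galois groups along a pair of compatible ring isomorphisms. -/
def galCongr (f : F ≃+* F') (e : E ≃+* E')
    (h : ∀ x : F, e (algebraMap F E x) = algebraMap F' E' (f x)) :
    (E ≃ₐ[F] E) ≃* (E' ≃ₐ[F'] E') where
  toFun := conjE f e h
  invFun := conjE f.symm e.symm (by
    intro y
    obtain ⟨x, rfl⟩ := f.surjective y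
    rw [← h]; simp)
  left_inv σ := by ext x; simp
  right_inv σ := by ext x; simp
  map_mul' σ τ := by ext x; simp

@[simp] theorem galCongr_apply (f : F ≃+* F') (e : E ≃+* E')
    (h : ∀ x : F, e (algebraMap F E x) = algebraMap F' E' (f x)) (σ : E ≃ₐ[F] E) (y : E') :
    galCongr f e h σ y = e (σ (e.symm y)) := rfl



end transport

end Crest.Agent.R018.Redx49
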