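import Mathlib

-- ▼ part R018/FrobCount_389
section

/-!
Counting primes of degree one in intermediate fields through decomposition groups.
-/

set_option autoImplicit false
set_option linter.unusedSectionVars false

open NumberField Ideal MulAction
open scoped Pointwise

namespace Crest.Agent.R018.FrobCountx389

section

variable {F M L : Type*} [Field F] [NumberField F] [Field M] [NumberField M] [Field L]
  [NumberField L] [Algebra F M] [Algebra M L] [Algebra F L] [IsScalarTower F M L]
  (G : Type*) [Group G] [Finite G] [MulSemiringAction G L] [IsGaloisGroup G F L]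

/-- the decomposition group inside a subgroup -/
theorem card_stab_sub (U : Subgroup G) (P : Ideal (𝓞 L)) (h : stabilizer G P ≤ U) :
    Nat.card (stabilizer U P) = Nat.card (stabilizer G P) := by
  refine Nat.card_congr ⟨fun x => ⟨x.1.1, x.2⟩, fun x => ⟨⟨x.1, h x.2⟩, x.2⟩, fun x => rfl,
    fun x => rfl⟩

theorem card_stab_sub_le (U : Subgroup G) (P : Ideal (𝓞 L)) :
    Nat.card (stabilizer U P) ≤ Nat.card (stabilizer G P) := by
  refine Nat.card_le_card_of_injective (fun x : stabilizer U P =>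
    (⟨x.1.1, x.2⟩ : stabilizer G P)) ?_
  intro x y hxy
  have := congrArg Subtype.val hxy
  exact Subtype.ext (Subtype.ext this)

theorem stab_le_of_card (U : Subgroup G) (P : Ideal (𝓞 L))
    (h : Nat.card (stabilizer G P) ≤ Nat.card (stabilizer U P)) : stabilizer G P ≤ U := by
  let i : stabilizer U P → stabilizer G P := fun x => (⟨x.1.1, x.2⟩ : stabilizer G P)
  have hi : Function.Injective i := by
    intro x y hxy
    have := congrArg Subtype.val hxy
    exact Subtype.ext (Subtype.ext this)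
  have hs : Function.Surjective i :=
    ((Nat.bijective_iff_injective_and_card i).mpr ⟨hi, le_antisymm (card_stab_sub_le G U P) h⟩).2
  intro g hg
  obtain ⟨x, hx⟩ := hs ⟨g, hg⟩
  have : x.1.1 = g := congrArg Subtype.val hx
  rw [← this]
  exact x.1.2

end

section

variable {F L : Type*} [Field F] [NumberField F] [Field L]
  [NumberField L] [Algebra F L]
  (G : Type*) [Group G] [Finite G] [MulSemiringAction G L] [IsGaloisGroup G F L]

theorem perfect_residue (p : Ideal (𝓞 F)) [p.IsPrime] (hp : p ≠ ⊥) :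
    PerfectField p.ResidueField := by
  have : p.IsMaximal := Ideal.IsPrime.isMaximal inferInstance hp
  have : Finite (𝓞 F ⧸ p) := Ring.HasFiniteQuotients.finiteQuotient hp
  infer_instance

/-- order of the decomposition group -/
theorem card_stab (P : Ideal (𝓞 L)) [P.IsPrime] (hP : P ≠ ⊥) :
    Nat.card (stabilizer G P) = (P.under (𝓞 F)).ramificationIdxIn (𝓞 L) *
      (P.under (𝓞 F)).inertiaDegIn (𝓞 L) := by
  have hp : P.under (𝓞 F) ≠ ⊥ := by
    intro h
    exact hP (Ideal.eq_bot_of_comap_eq_bot h)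
  have := perfect_residue (P.under (𝓞 F)) hp
  exact card_stabilizer_eq (P.under (𝓞 F)) P

theorem fund_id (Q : Ideal (𝓞 F)) [Q.IsPrime] :
    (primesOver Q (𝓞 L)).ncard * (ramificationIdxIn Q (𝓞 L) * inertiaDegIn Q (𝓞 L)) =
      Nat.card G :=
  ncard_primesOver_mul_ramificationIdxIn_mul_inertiaDegIn Q (𝓞 L) G

theorem card_stab' (P : Ideal (𝓞 L)) [P.IsPrime] (hP : P ≠ ⊥) :
    Nat.card (stabilizer G P) = P.ramificationIdx (𝓞 F) * P.inertiaDeg (𝓞 F) := by
  rw [card_stab (F := F) G P hP, ramificationIdxIn_eq_ramificationIdx (P.under (𝓞 F)) P G,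
    inertiaDegIn_eq_inertiaDeg (P.under (𝓞 F)) P G]

end

section

variable {F M L : Type*} [Field F] [NumberField F] [Field M] [NumberField M] [Field L]
  [NumberField L] [Algebra F M] [Algebra M L] [Algebra F L] [IsScalarTower F M L]
  (G : Type*) [Group G] [Finite G] [MulSemiringAction G L] [IsGaloisGroup G F L]
  (U : Subgroup G) [IsGaloisGroup U M L]

include M in
theorem under_under (P : Ideal (𝓞 L)) : (P.under (𝓞 M)).under (𝓞 F) = P.under (𝓞 F) := by
  rw [Ideal.under_under]

theorem norm_rel (P : Ideal (𝓞 L)) [P.IsPrime] :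
    (absNorm (P.under (𝓞 F))) ^ ((P.under (𝓞 M)).inertiaDeg (𝓞 F)) =
      absNorm (P.under (𝓞 M)) := by
  have : (P.under (𝓞 M)).LiesOver (P.under (𝓞 F)) := ⟨(under_under P).symm⟩
  exact absNorm_pow_inertiaDeg (P.under (𝓞 F)) (P.under (𝓞 M))

theorem A1 {p : ℕ} (hp : p.Prime) (P : Ideal (𝓞 L)) [P.IsPrime]
    (hP : absNorm (P.under (𝓞 M)) = p) (hram : P.ramificationIdx (𝓞 F) = 1) :
    absNorm (P.under (𝓞 F)) = p ∧ stabilizer G P ≤ U := by
  have hP0 : P ≠ ⊥ := by
    rintro rfl
    rw [Ideal.under_bot, absNorm_bot] at hP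
    exact hp.ne_zero hP.symm
  have h1 := norm_rel (F := F) (M := M) P
  rw [hP] at h1
  have hf : (P.under (𝓞 M)).inertiaDeg (𝓞 F) = 1 := by
    by_contra hne
    have h0 : (P.under (𝓞 M)).inertiaDeg (𝓞 F) ≠ 0 := by
      intro h0
      rw [h0, pow_zero] at h1
      exact hp.one_lt.ne h1
    have : Nat.Prime (absNorm (P.under (𝓞 F)) ^ ((P.under (𝓞 M)).inertiaDeg (𝓞 F))) := by
      rw [h1]; exact hp
    exact Nat.Prime.eq_one_of_pow this |> hne
  rw [hf, pow_one] at h1
  refine ⟨h1, ?_⟩
  apply stab_le_of_card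
  have h3 : Nat.card (stabilizer U P) = P.ramificationIdx (𝓞 M) * P.inertiaDeg (𝓞 M) :=
    card_stab' (F := M) U P hP0
  rw [card_stab' (F := F) G P hP0, h3, hram, one_mul]
  have htow : P.inertiaDeg (𝓞 F) = (P.under (𝓞 M)).inertiaDeg (𝓞 F) * P.inertiaDeg (𝓞 M) :=
    inertiaDeg_tower (P.under (𝓞 M)) P
  rw [htow, hf, one_mul]
  exact Nat.le_mul_of_pos_left _ (ramificationIdx_pos P (𝓞 M))

theorem B1 (P : Ideal (𝓞 L)) [P.IsPrime] (hP0 : P ≠ ⊥) (hram : P.ramificationIdx (𝓞 F) = 1)
    (hU : stabilizer G P ≤ U) : absNorm (P.under (𝓞 M)) = absNorm (P.under (𝓞 F)) := by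
  have h1 := norm_rel (F := F) (M := M) P
  have h2 := card_stab' (F := F) G P hP0
  have h3 : Nat.card (stabilizer U P) = P.ramificationIdx (𝓞 M) * P.inertiaDeg (𝓞 M) :=
    card_stab' (F := M) U P hP0
  rw [card_stab_sub G U P hU, h2, hram, one_mul] at h3
  have htow : P.inertiaDeg (𝓞 F) = (P.under (𝓞 M)).inertiaDeg (𝓞 F) * P.inertiaDeg (𝓞 M) :=
    inertiaDeg_tower (P.under (𝓞 M)) P
  have hrt : P.ramificationIdx (𝓞 F) = (P.under (𝓞 M)).ramificationIdx (𝓞 F) *
      P.ramificationIdx (𝓞 M) := ramificationIdx_tower (P.under (𝓞 M)) P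
  rw [hram] at hrt
  have he1 : P.ramificationIdx (𝓞 M) = 1 := Nat.eq_one_of_mul_eq_one_left hrt.symm
  rw [he1, one_mul, htow] at h3
  have hpos : 0 < P.inertiaDeg (𝓞 M) := inertiaDeg_pos P (𝓞 M)
  have hf : (P.under (𝓞 M)).inertiaDeg (𝓞 F) = 1 := by
    have : (P.under (𝓞 M)).inertiaDeg (𝓞 F) * P.inertiaDeg (𝓞 M) = 1 * P.inertiaDeg (𝓞 M) := by
      rw [h3, one_mul]
    exact Nat.eq_of_mul_eq_mul_right hpos this
  rw [hf, pow_one] at h1
  exact h1.symm

end

section

variable {F M L : Type*} [Field F] [NumberField F] [Field M] [NumberField M] [Field L]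
  [NumberField L] [Algebra F M] [Algebra M L] [Algebra F L] [IsScalarTower F M L]
  (G : Type*) [Group G] [Finite G] [MulSemiringAction G L] [IsGaloisGroup G F L]
  (U : Subgroup G) [IsGaloisGroup U M L]

/-- primes `P` of `L` whose restriction to `F` has norm `p` -/
def X (F L : Type*) [Field F] [NumberField F] [Field L] [NumberField L] [Algebra F L]
    (p : ℕ) : Set (Ideal (𝓞 L)) :=
  {P | P.IsPrime ∧ absNorm (P.under (𝓞 F)) = p}

theorem ne_bot_of_mem_X {p : ℕ} (hp : p.Prime) {P : Ideal (𝓞 L)} (hP : P ∈ X F L p) : P ≠ ⊥ := by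
  rintro rfl
  have := hP.2
  rw [Ideal.under_bot, absNorm_bot] at this
  exact hp.ne_zero this.symm

theorem mem_of_mem_X {p : ℕ} {P : Ideal (𝓞 L)} (hP : P ∈ X F L p) : (p : 𝓞 L) ∈ P := by
  have h1 : ((absNorm (P.under (𝓞 F)) : ℕ) : 𝓞 F) ∈ P.under (𝓞 F) := absNorm_mem _
  rw [hP.2] at h1
  simpa [Ideal.under_def] using h1

theorem X_finite {p : ℕ} (hp : p.Prime) : (X F L p).Finite := by
  have h0 : Ideal.span {(p : 𝓞 L)} ≠ 0 := by
    simpa using hp.ne_zero
  refine ((Ideal.finite_factors h0).image (fun v => v.asIdeal)).subset ?_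
  intro P hP
  have := hP.1
  refine ⟨⟨P, hP.1, ne_bot_of_mem_X hp hP⟩, ?_, rfl⟩
  change P ∣ _
  rw [Ideal.dvd_iff_le, Ideal.span_singleton_le_iff_mem]
  exact mem_of_mem_X hP

/-- ideals of `M` of norm `p` -/
def Y (M : Type*) [Field M] [NumberField M] (p : ℕ) : Set (Ideal (𝓞 M)) := {Q | absNorm Q = p}

theorem Y_finite (p : ℕ) : (Y M p).Finite := Ideal.finite_setOfPred_absNorm_eq p

/-- all primes of `L` above `p` are unramified over `F` -/
def Unr (F L : Type*) [Field F] [NumberField F] [Field L] [NumberField L] [Algebra F L]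
    (p : ℕ) : Prop :=
  ∀ P : Ideal (𝓞 L), P.IsPrime → P ≠ ⊥ → (p : 𝓞 L) ∈ P → P.ramificationIdx (𝓞 F) = 1

theorem fiber {p : ℕ} (hp : p.Prime) (hur : Unr F L p) (Q : Ideal (𝓞 M)) (hQ : absNorm Q = p)
    (P : Ideal (𝓞 L)) :
    (P ∈ X F L p ∧ stabilizer G P ≤ U ∧ P.under (𝓞 M) = Q) ↔ P ∈ primesOver Q (𝓞 L) := by
  constructor
  · rintro ⟨h1, h2, h3⟩
    exact ⟨h1.1, ⟨h3.symm⟩⟩
  · rintro ⟨h1, h2⟩
    have hu : P.under (𝓞 M) = Q := h2.over.symm
    have hP0 : P ≠ ⊥ := by
      rintro rfl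
      rw [Ideal.under_bot] at hu
      rw [← hu, absNorm_bot] at hQ
      exact hp.ne_zero hQ.symm
    have hmem : (p : 𝓞 L) ∈ P := by
      have h1 : ((absNorm (P.under (𝓞 M)) : ℕ) : 𝓞 M) ∈ P.under (𝓞 M) := absNorm_mem _
      rw [hu, hQ, ← hu] at h1
      simpa [Ideal.under_def] using h1
    obtain ⟨h4, h5⟩ := A1 (F := F) (M := M) G U hp P (by rw [hu, hQ]) (hur P h1 hP0 hmem)
    exact ⟨⟨h1, h4⟩, h5, hu⟩

open scoped Classical in
/-- **the counting identity** -/
theorem count {p : ℕ} (hp : p.Prime) (hur : Unr F L p) :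
    ∑ P ∈ (X_finite (F := F) (L := L) hp).toFinset.filter (fun P => stabilizer G P ≤ U),
      Nat.card (stabilizer G P) = Nat.card U * (Y_finite (M := M) p).toFinset.card := by
  rw [← Finset.sum_fiberwise_of_maps_to (t := (Y_finite (M := M) p).toFinset)
    (g := fun P => P.under (𝓞 M))]
  · rw [mul_comm, ← smul_eq_mul, ← Finset.sum_const]
    refine Finset.sum_congr rfl fun Q hQ => ?_
    have hQ' : absNorm Q = p := by simpa [Y] using hQ
    have hQ0 : Q ≠ ⊥ := by
      rintro rfl
      rw [absNorm_bot] at hQ'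
      exact hp.ne_zero hQ'.symm
    have hQp : Q.IsPrime := Ideal.isPrime_of_irreducible_absNorm (by rw [hQ']; exact hp)
    have hset : (((X_finite (F := F) (L := L) hp).toFinset.filter
        (fun P => stabilizer G P ≤ U)).filter (fun P => P.under (𝓞 M) = Q) : Set (Ideal (𝓞 L))) =
        primesOver Q (𝓞 L) := by
      ext P
      rw [← fiber G U hp hur Q hQ' P]
      simp only [Finset.coe_filter, Finset.mem_filter, Set.Finite.mem_toFinset,
        Set.mem_ofPred_eq]
      constructor
      · rintro ⟨⟨h1, h2⟩, h3⟩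
        exact ⟨h1, h2, h3⟩
      · rintro ⟨h1, h2, h3⟩
        exact ⟨⟨h1, h2⟩, h3⟩
    have hcard : (((X_finite (F := F) (L := L) hp).toFinset.filter
        (fun P => stabilizer G P ≤ U)).filter (fun P => P.under (𝓞 M) = Q)).card =
        (primesOver Q (𝓞 L)).ncard := by
      rw [← hset, Set.ncard_coe_finset]
    have key := fund_id (F := M) (L := L) U Q
    rw [← key, ← hcard, ← smul_eq_mul, ← Finset.sum_const]
    refine Finset.sum_congr rfl fun P hP => ?_
    simp only [Finset.mem_filter, Set.Finite.mem_toFinset] at hP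
    obtain ⟨⟨hPX, hPU⟩, hPQ⟩ := hP
    have := hPX.1
    have hP0 := ne_bot_of_mem_X hp hPX
    have h3 : Nat.card (stabilizer U P) = _ := card_stab (F := M) U P hP0
    rw [card_stab_sub G U P hPU, hPQ] at h3
    exact h3
  · intro P hP
    simp only [Finset.mem_filter, Set.Finite.mem_toFinset] at hP
    obtain ⟨hPX, hPU⟩ := hP
    have := hPX.1
    have hP0 := ne_bot_of_mem_X hp hPX
    simp only [Set.Finite.mem_toFinset, Y, Set.mem_ofPred_eq]
    rw [B1 (F := F) G U P hP0 (hur P hPX.1 hP0 (mem_of_mem_X hPX)) hPU, hPX.2]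

open scoped Classical in
/-- number of primes above `p` (of degree one below) with decomposition group exactly `D` -/
noncomputable def b (F : Type*) [Field F] [NumberField F] (L : Type*) [Field L] [NumberField L]
    [Algebra F L] (G : Type*) [Group G] [MulSemiringAction G L] (D : Subgroup G) (p : ℕ) : ℕ :=
  Set.ncard {P : Ideal (𝓞 L) | P ∈ X F L p ∧ stabilizer G P = D}

open scoped Classical in
theorem count' [Fintype (Subgroup G)] {p : ℕ} (hp : p.Prime) (hur : Unr F L p) :
    ∑ D ∈ (Finset.univ : Finset (Subgroup G)).filter (fun D => D ≤ U),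
      Nat.card D * b F L G D p = Nat.card U * (Y_finite (M := M) p).toFinset.card := by
  rw [← count (F := F) (M := M) G U hp hur]
  refine Eq.trans ?_ (Finset.sum_fiberwise_of_maps_to
    (t := (Finset.univ : Finset (Subgroup G)).filter (fun D => D ≤ U))
    (g := fun P : Ideal (𝓞 L) => stabilizer G P) ?_ _)
  · refine Finset.sum_congr rfl fun D hD => ?_
    have hD' : D ≤ U := by simpa using hD
    have hset : ({P : Ideal (𝓞 L) | P ∈ X F L p ∧ stabilizer G P = D}) =
        (((X_finite (F := F) (L := L) hp).toFinset.filter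
        (fun P => stabilizer G P ≤ U)).filter (fun P => stabilizer G P = D) :
          Set (Ideal (𝓞 L))) := by
      ext P
      simp only [Set.mem_ofPred_eq, Finset.coe_filter, Finset.mem_filter,
        Set.Finite.mem_toFinset]
      constructor
      · rintro ⟨h1, h2⟩
        exact ⟨⟨h1, h2 ▸ hD'⟩, h2⟩
      · rintro ⟨⟨h1, -⟩, h2⟩
        exact ⟨h1, h2⟩
    rw [b, hset, Set.ncard_coe_finset, mul_comm, ← smul_eq_mul, ← Finset.sum_const]
    refine Finset.sum_congr rfl fun P hP => ?_
    simp only [Finset.mem_filter] at hP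
    rw [hP.2]
  · intro P hP
    simp only [Finset.mem_filter, Set.Finite.mem_toFinset] at hP
    simp [hP.2]

end

end Crest.Agent.R018.FrobCountx389
end

-- ▼ part R018/FrobDensity_389
section

/-!
Frobenius density from the pole of the Dedekind zeta functions of the intermediate fields.
-/

set_option autoImplicit false
set_option linter.unusedSectionVars false

open NumberField Ideal MulAction
open scoped Pointwise
open Crest.Agent.R018.FrobCountx389

namespace Crest.Agent.R018.FrobDensityx389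

/-- prime sum with real coefficients -/
noncomputable def Z (a : ℕ → ℝ) (s : ℝ) : ℝ := ∑' p : Nat.Primes, a p * ((p : ℕ) : ℝ) ^ (-s)

/-- logarithmic density `c` (with bounded error) of the weight `a` on the rational primes -/
def LogD (a : ℕ → ℝ) (c : ℝ) : Prop :=
  (∀ s : ℝ, 1 < s → Summable (fun p : Nat.Primes => a p * ((p : ℕ) : ℝ) ^ (-s))) ∧
  ∃ C : ℝ, ∀ s : ℝ, 1 < s → s ≤ 2 → |Z a s - c * Real.log (1 / (s - 1))| ≤ C

theorem LogD.add {a a' : ℕ → ℝ} {c c' : ℝ} (h : LogD a c) (h' : LogD a' c') :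
    LogD (fun p => a p + a' p) (c + c') := by
  obtain ⟨h1, C, h2⟩ := h
  obtain ⟨h1', C', h2'⟩ := h'
  refine ⟨fun s hs => ?_, C + C', fun s hs hs2 => ?_⟩
  · simp only [add_mul]
    exact (h1 s hs).add (h1' s hs)
  · have : Z (fun p => a p + a' p) s = Z a s + Z a' s := by
      simp only [Z, add_mul]
      exact (h1 s hs).tsum_add (h1' s hs)
    rw [this]
    have e : Z a s + Z a' s - (c + c') * Real.log (1 / (s - 1)) =
        (Z a s - c * Real.log (1 / (s - 1))) + (Z a' s - c' * Real.log (1 / (s - 1))) := by ring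
    rw [e]
    exact (abs_add_le _ _).trans (add_le_add (h2 s hs hs2) (h2' s hs hs2))

theorem LogD.smul {a : ℕ → ℝ} {c : ℝ} (k : ℝ) (h : LogD a c) :
    LogD (fun p => k * a p) (k * c) := by
  obtain ⟨h1, C, h2⟩ := h
  refine ⟨fun s hs => ?_, |k| * C, fun s hs hs2 => ?_⟩
  · simp only [mul_assoc]
    exact (h1 s hs).mul_left k
  · have : Z (fun p => k * a p) s = k * Z a s := by
      simp only [Z, mul_assoc]
      exact tsum_mul_left
    rw [this]
    have e : k * Z a s - k * c * Real.log (1 / (s - 1)) =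
        k * (Z a s - c * Real.log (1 / (s - 1))) := by ring
    rw [e, abs_mul]
    exact mul_le_mul_of_nonneg_left (h2 s hs hs2) (abs_nonneg k)

theorem LogD.zero : LogD (fun _ => 0) 0 := by
  refine ⟨fun s hs => ?_, 0, fun s hs hs2 => ?_⟩
  · simpa using summable_zero
  · simp [Z]

theorem LogD.sum {ι : Type*} (T : Finset ι) {a : ι → ℕ → ℝ} {c : ι → ℝ}
    (h : ∀ i ∈ T, LogD (a i) (c i)) : LogD (fun p => ∑ i ∈ T, a i p) (∑ i ∈ T, c i) := by
  classical
  induction T using Finset.induction_on with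
  | empty => simpa using LogD.zero
  | insert i T hi ih =>
    simp only [Finset.sum_insert hi]
    exact (h i (Finset.mem_insert_self i T)).add
      (ih fun j hj => h j (Finset.mem_insert_of_mem hj))

/-- weights supported on small primes have density zero -/
theorem LogD.of_small {a : ℕ → ℝ} (N : ℕ) (h : ∀ p : ℕ, p.Prime → N < p → a p = 0) :
    LogD a 0 := by
  have hfin : ({p : Nat.Primes | (p : ℕ) ≤ N} : Set Nat.Primes).Finite := by
    refine Set.Finite.of_finite_image ((Set.finite_Iic N).subset ?_)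
      (f := fun p : Nat.Primes => (p : ℕ)) (Subtype.val_injective.injOn)
    rintro _ ⟨p, hp, rfl⟩
    exact hp
  have hsupp : ∀ s : ℝ, ∀ p : Nat.Primes, p ∉ hfin.toFinset →
      a p * ((p : ℕ) : ℝ) ^ (-s) = 0 := by
    intro s p hp
    have : N < (p : ℕ) := by simpa using hp
    rw [h p p.2 this, zero_mul]
  refine ⟨fun s hs => summable_of_ne_finset_zero (hsupp s), ∑ p ∈ hfin.toFinset, |a p|,
    fun s hs hs2 => ?_⟩
  rw [zero_mul, sub_zero, Z, tsum_eq_sum (hsupp s)]
  refine (Finset.abs_sum_le_sum_abs _ _).trans (Finset.sum_le_sum fun p hp => ?_)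
  rw [abs_mul]
  have h1 : |((p : ℕ) : ℝ) ^ (-s)| ≤ 1 := by
    rw [abs_of_nonneg (by positivity)]
    exact Real.rpow_le_one_of_one_le_of_nonpos (by exact_mod_cast p.2.one_lt.le) (by linarith)
  calc |a p| * |((p : ℕ) : ℝ) ^ (-s)| ≤ |a p| * 1 :=
        mul_le_mul_of_nonneg_left h1 (abs_nonneg _)
    _ = |a p| := mul_one _

theorem LogD.congr {a a' : ℕ → ℝ} {c : ℝ} (N : ℕ) (h : ∀ p : ℕ, p.Prime → N < p → a p = a' p)
    (ha : LogD a c) : LogD a' c := by
  have h1 : LogD (fun p => a' p - a p) 0 := LogD.of_small N fun p hp hN => by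
    rw [h p hp hN, sub_self]
  simpa using ha.add h1

theorem LogD.frequently {a : ℕ → ℝ} {c : ℝ} (hc : 0 < c) (ha : LogD a c) (N : ℕ) :
    ∃ p : ℕ, p.Prime ∧ N < p ∧ a p ≠ 0 := by
  by_contra hcon
  push Not at hcon
  obtain ⟨C, hC⟩ := (LogD.of_small N hcon).2
  obtain ⟨C', hC'⟩ := ha.2
  have key : ∀ s : ℝ, 1 < s → s ≤ 2 → c * Real.log (1 / (s - 1)) ≤ C + C' := by
    intro s h1 h2
    have h3 := hC s h1 h2
    have h4 := hC' s h1 h2
    rw [abs_le] at h3 h4
    linarith [h3.1, h3.2, h4.1, h4.2]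
  have hpos : 0 < Real.exp (-((C + C') / c + 1)) := Real.exp_pos _
  set δ := min 1 (Real.exp (-((C + C') / c + 1))) with hδ
  have hδ0 : 0 < δ := lt_min one_pos hpos
  have h5 := key (1 + δ) (by linarith) (by linarith [min_le_left 1 (Real.exp (-((C + C') / c + 1)))])
  have h6 : Real.log (1 / (1 + δ - 1)) ≥ (C + C') / c + 1 := by
    rw [add_sub_cancel_left, Real.log_div one_ne_zero hδ0.ne', Real.log_one, zero_sub]
    have : Real.log δ ≤ -((C + C') / c + 1) := by
      calc Real.log δ ≤ Real.log (Real.exp (-((C + C') / c + 1))) :=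
            Real.log_le_log hδ0 (min_le_right _ _)
        _ = _ := Real.log_exp _
    linarith
  have h7 : c * ((C + C') / c + 1) ≤ C + C' := (mul_le_mul_of_nonneg_left h6 hc.le).trans h5
  have h8 : c * ((C + C') / c + 1) = C + C' + c := by
    field_simp
  linarith

section

variable {F L : Type*} [Field F] [NumberField F] [Field L] [NumberField L] [Algebra F L]

/-- almost all primes are unramified -/
theorem unr_of_large : ∃ N : ℕ, ∀ p : ℕ, p.Prime → N < p → Unr F L p := by
  refine ⟨(discr L).natAbs, fun p hp hN P hP hP0 hmem => ?_⟩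
  have hpI : Prime (p : ℤ) := Nat.prime_iff_prime_int.mp hp
  have hnd : ¬ (p : ℤ) ∣ discr L := by
    intro hd
    have h1 := Int.natAbs_dvd_natAbs.mpr hd
    rw [Int.natAbs_natCast] at h1
    exact absurd (Nat.le_of_dvd (Int.natAbs_pos.mpr (discr_ne_zero L)) h1) (not_le.mpr hN)
  have hur := (NumberField.not_dvd_discr_iff_forall_mem L (𝓞 L) hpI).mp hnd P hP
    (by simpa using hmem)
  have h1 : P.ramificationIdx ℤ = 1 := ramificationIdx_eq_one P ℤ
  have h2 : P.ramificationIdx ℤ = (P.under (𝓞 F)).ramificationIdx ℤ * P.ramificationIdx (𝓞 F) :=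
    ramificationIdx_tower (P.under (𝓞 F)) P
  rw [h1] at h2
  exact Nat.eq_one_of_mul_eq_one_left h2.symm

end

section

variable {G : Type*} [Group G] [Finite G]

/-- number of generators -/
noncomputable def gen (U : Subgroup G) : ℕ := Nat.card {g : G // Subgroup.zpowers g = U}

open scoped Classical in
theorem sum_gen [Fintype (Subgroup G)] (U : Subgroup G) :
    ∑ D ∈ (Finset.univ : Finset (Subgroup G)).filter (fun D => D ≤ U), gen D = Nat.card U := by
  have := Fintype.ofFinite G
  have h1 : Nat.card U = ((Finset.univ : Finset G).filter (fun g => g ∈ U)).card := by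
    rw [Nat.card_eq_fintype_card, Fintype.card_subtype]
  rw [h1, Finset.card_eq_sum_card_fiberwise (f := fun g => Subgroup.zpowers g)
    (t := (Finset.univ : Finset (Subgroup G)).filter (fun D => D ≤ U))]
  · refine Finset.sum_congr rfl fun D hD => ?_
    have hD' : D ≤ U := by simpa using hD
    rw [gen, Nat.card_eq_fintype_card, Fintype.card_subtype, Finset.filter_filter]
    congr 1
    ext g
    simp only [Finset.mem_filter, Finset.mem_univ, true_and]
    constructor
    · intro h
      exact ⟨hD' (h ▸ Subgroup.mem_zpowers g), h⟩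
    · exact fun h => h.2
  · intro g hg
    simp only [Finset.coe_filter, Finset.mem_univ, true_and, Set.mem_ofPred_eq,
      Subgroup.zpowers_le] at hg ⊢
    exact hg

theorem gen_pos (σ : G) : 0 < gen (Subgroup.zpowers σ) := by
  have : Nonempty {g : G // Subgroup.zpowers g = Subgroup.zpowers σ} := ⟨⟨σ, rfl⟩⟩
  exact Nat.card_pos

end

section

variable {F L : Type*} [Field F] [NumberField F] [Field L] [NumberField L] [Algebra F L]
  [IsGalois F L]

/-- the input: the pole of the Dedekind zeta functions of the intermediate fields -/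
def ZetaInput (F L : Type*) [Field F] [NumberField F] [Field L] [NumberField L] [Algebra F L] :
    Prop :=
  ∀ M : IntermediateField F L, LogD (fun p => (Y M p).ncard) 1

theorem main (H : ZetaInput F L) (U : Subgroup Gal(L/F)) :
    LogD (fun p => (Nat.card U : ℝ) * (b F L Gal(L/F) U p : ℝ)) (gen U : ℝ) := by
  classical
  have hfin : Finite (Subgroup Gal(L/F)) := inferInstance
  have := Fintype.ofFinite (Subgroup Gal(L/F))
  obtain ⟨N, hN⟩ := unr_of_large (F := F) (L := L)
  induction U using WellFoundedLT.induction with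
  | ind U ih =>
    have h1 : LogD (fun p => (Nat.card U : ℝ) *
        ((Y (FixedPoints.intermediateField U : IntermediateField F L) p).ncard : ℝ))
        ((Nat.card U : ℝ) * 1) := (H _).smul _
    have h2 : LogD (fun p => ∑ D ∈ (Finset.univ : Finset (Subgroup Gal(L/F))).filter
        (fun D => D < U), ((Nat.card D : ℝ) * (b F L Gal(L/F) D p : ℝ)))
        (∑ D ∈ (Finset.univ : Finset (Subgroup Gal(L/F))).filter (fun D => D < U),
          (gen D : ℝ)) := LogD.sum _ fun D hD => ih D (by simpa using hD)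
    have h3 := h1.add (h2.smul (-1))
    have hsplit : (Finset.univ : Finset (Subgroup Gal(L/F))).filter (fun D => D ≤ U) =
        insert U ((Finset.univ : Finset (Subgroup Gal(L/F))).filter (fun D => D < U)) := by
      ext D
      simp only [Finset.mem_filter, Finset.mem_univ, true_and, Finset.mem_insert]
      exact le_iff_eq_or_lt
    have hnot : U ∉ (Finset.univ : Finset (Subgroup Gal(L/F))).filter (fun D => D < U) := by
      simp
    have hc : ((Nat.card U : ℝ) * 1 + -1 * ∑ D ∈ (Finset.univ : Finset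
        (Subgroup Gal(L/F))).filter (fun D => D < U), (gen D : ℝ)) = (gen U : ℝ) := by
      have := sum_gen U
      rw [hsplit, Finset.sum_insert hnot] at this
      have h' : (Nat.card U : ℝ) = (gen U : ℝ) + ∑ D ∈ (Finset.univ : Finset
        (Subgroup Gal(L/F))).filter (fun D => D < U), (gen D : ℝ) := by
        rw [← this]; push_cast; rfl
      rw [h']; ring
    rw [hc] at h3
    refine LogD.congr N (fun p hp hpN => ?_) h3
    have hcount := count' (F := F) (M := (FixedPoints.intermediateField U :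
      IntermediateField F L)) Gal(L/F) U hp (hN p hp hpN)
    rw [hsplit, Finset.sum_insert hnot] at hcount
    have hY : (Y_finite (M := (FixedPoints.intermediateField U :
      IntermediateField F L)) p).toFinset.card =
      (Y (FixedPoints.intermediateField U : IntermediateField F L) p).ncard := by
      rw [Set.ncard_eq_toFinset_card _ (Y_finite p)]
    rw [hY] at hcount
    have hcount' : ((Nat.card U : ℝ) * (b F L Gal(L/F) U p : ℝ)) +
        ∑ D ∈ (Finset.univ : Finset (Subgroup Gal(L/F))).filter (fun D => D < U),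
          ((Nat.card D : ℝ) * (b F L Gal(L/F) D p : ℝ)) = (Nat.card U : ℝ) *
          ((Y (FixedPoints.intermediateField U : IntermediateField F L) p).ncard : ℝ) := by
      exact_mod_cast hcount
    rw [← hcount']
    ring

/-- **Frobenius density, existence form.** -/
theorem exists_prime (H : ZetaInput F L) (σ : Gal(L/F)) (N : ℕ) :
    ∃ p : ℕ, p.Prime ∧ N < p ∧ Unr F L p ∧ ∃ P : Ideal (𝓞 L), P.IsPrime ∧
      absNorm (P.under (𝓞 F)) = p ∧ stabilizer Gal(L/F) P = Subgroup.zpowers σ := by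
  obtain ⟨N', hN'⟩ := unr_of_large (F := F) (L := L)
  have hpos : (0 : ℝ) < (gen (Subgroup.zpowers σ) : ℝ) := by exact_mod_cast gen_pos σ
  obtain ⟨p, hp, hpN, hne⟩ := (main H (Subgroup.zpowers σ)).frequently hpos (max N N')
  refine ⟨p, hp, lt_of_le_of_lt (le_max_left _ _) hpN,
    hN' p hp (lt_of_le_of_lt (le_max_right _ _) hpN), ?_⟩
  have hb : b F L Gal(L/F) (Subgroup.zpowers σ) p ≠ 0 := by
    intro h
    simp only [h, Nat.cast_zero, mul_zero, ne_eq, not_true_eq_false] at hne
  obtain ⟨P, hP⟩ := Set.nonempty_of_ncard_ne_zero hb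
  exact ⟨P, hP.1.1, hP.1.2, hP.2⟩

end

end Crest.Agent.R018.FrobDensityx389
end

-- ▼ part R018/FrobElem_389

/-!
Frobenius elements: form of the Frobenius density theorem used in the end game.
-/

set_option autoImplicit false
set_option linter.unusedSectionVars false

open NumberField Ideal MulAction
open scoped Pointwise
open Crest.Agent.R018.FrobCountx389 Crest.Agent.R018.FrobDensityx389

namespace Crest.Agent.R018.FrobElemx389

variable {F L : Type*} [Field F] [NumberField F] [Field L] [NumberField L] [Algebra F L]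
  [IsGalois F L]

theorem pow_frob (P : Ideal (𝓞 L)) (q : ℕ) (φ : Gal(L/F))
    (hφ : ∀ x : 𝓞 L, φ • x - x ^ q ∈ P) (k : ℕ) (x : 𝓞 L) : φ ^ k • x - x ^ q ^ k ∈ P := by
  induction k generalizing x with
  | zero => simp
  | succ k ih =>
    have h1 := hφ (φ ^ k • x)
    have h2 := ih x
    have h3 : (φ ^ k • x) ^ q - (x ^ q ^ k) ^ q ∈ P := by
      have := Ideal.mem_of_dvd P (sub_dvd_pow_sub_pow (φ ^ k • x) (x ^ q ^ k) q) h2
      exact this
    have h4 := P.add_mem h1 h3
    rw [pow_succ', mul_smul, pow_succ, pow_mul]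
    simpa using h4

theorem frob_mem_stabilizer (P : Ideal (𝓞 L)) [P.IsPrime] (q : ℕ) (hq : q ≠ 0) (φ : Gal(L/F))
    (hφ : ∀ x : 𝓞 L, φ • x - x ^ q ∈ P) : φ ∈ stabilizer Gal(L/F) P := by
  rw [mem_stabilizer_iff]
  have h1 : ∀ x : 𝓞 L, x ∈ P ↔ φ • x ∈ P := by
    intro x
    constructor
    · intro hx
      have := P.add_mem (hφ x) (P.pow_mem_of_mem hx q (Nat.pos_of_ne_zero hq))
      simpa using this
    · intro hx
      have := P.sub_mem hx (hφ x)
      rw [sub_sub_cancel] at this
      exact Ideal.IsPrime.mem_of_pow_mem inferInstance q this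
  ext x
  rw [Ideal.mem_pointwise_smul_iff_inv_smul_mem, h1, smul_inv_smul]

theorem zpowers_frob (P : Ideal (𝓞 L)) [P.IsPrime] (hP0 : P ≠ ⊥)
    (hram : P.ramificationIdx (𝓞 F) = 1) (φ : Gal(L/F))
    (hφ : ∀ x : 𝓞 L, φ • x - x ^ (absNorm (P.under (𝓞 F))) ∈ P) :
    Subgroup.zpowers φ = stabilizer Gal(L/F) P := by
  set q := absNorm (P.under (𝓞 F)) with hqdef
  have hp0 : P.under (𝓞 F) ≠ ⊥ := by
    intro h
    exact hP0 (Ideal.eq_bot_of_comap_eq_bot h)
  have hq0 : q ≠ 0 := by
    rw [hqdef, Ne, absNorm_eq_zero_iff]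
    exact hp0
  have hq1 : 1 < q := by
    have : q ≠ 1 := by
      rw [hqdef, Ne, absNorm_eq_one_iff]
      exact Ideal.IsPrime.ne_top inferInstance
    omega
  have hmem := frob_mem_stabilizer P q hq0 φ hφ
  have hle : Subgroup.zpowers φ ≤ stabilizer Gal(L/F) P := by
    rw [Subgroup.zpowers_le]; exact hmem
  have hcard : Nat.card (stabilizer Gal(L/F) P) = P.inertiaDeg (𝓞 F) := by
    rw [card_stab' (F := F) Gal(L/F) P hP0, hram, one_mul]
  have hPmax : P.IsMaximal := Ideal.IsPrime.isMaximal inferInstance hP0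
  have hfinq : Finite (𝓞 L ⧸ P) := Ideal.finiteQuotientOfFreeOfNeBot P hP0
  have horder : P.inertiaDeg (𝓞 F) ≤ orderOf φ := by
    letI := Ideal.Quotient.field P
    have hk : 0 < orderOf φ := orderOf_pos φ
    have hroot : ∀ y : 𝓞 L ⧸ P, y ^ q ^ orderOf φ = y := by
      intro y
      obtain ⟨x, rfl⟩ := Ideal.Quotient.mk_surjective y
      have := pow_frob P q φ hφ (orderOf φ) x
      rw [pow_orderOf_eq_one, one_smul] at this
      rw [← map_pow]
      exact ((Ideal.Quotient.eq).mpr this).symm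
    have hcardk : Nat.card (𝓞 L ⧸ P) = q ^ P.inertiaDeg (𝓞 F) := by
      have h1 : (P.under (𝓞 F)).absNorm ^ P.inertiaDeg (𝓞 F) = P.absNorm :=
        absNorm_pow_inertiaDeg (P.under (𝓞 F)) P
      rw [hqdef, h1]
      rfl
    have hbound : Nat.card (𝓞 L ⧸ P) ≤ q ^ orderOf φ := by
      have := Fintype.ofFinite (𝓞 L ⧸ P)
      have hne : (Polynomial.X ^ q ^ orderOf φ - Polynomial.X : Polynomial (𝓞 L ⧸ P)) ≠ 0 :=
        FiniteField.X_pow_card_sub_X_ne_zero _ (Nat.one_lt_pow hk.ne' hq1)
      have hdeg : (Polynomial.X ^ q ^ orderOf φ - Polynomial.X :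
          Polynomial (𝓞 L ⧸ P)).natDegree = q ^ orderOf φ :=
        FiniteField.X_pow_card_sub_X_natDegree_eq _ (Nat.one_lt_pow hk.ne' hq1)
      rw [Nat.card_eq_fintype_card, ← Finset.card_univ, ← hdeg]
      have hsub : (Finset.univ : Finset (𝓞 L ⧸ P)).val ≤ (Polynomial.X ^ q ^ orderOf φ -
          Polynomial.X : Polynomial (𝓞 L ⧸ P)).roots := by
        rw [Multiset.le_iff_subset Finset.univ.nodup]
        intro y _
        rw [Polynomial.mem_roots hne]
        simp [hroot y]
      exact (Multiset.card_le_card hsub).trans (Polynomial.card_roots' _)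
    rw [hcardk] at hbound
    exact (Nat.pow_le_pow_iff_right hq1).mp hbound
  refine Subgroup.eq_of_le_of_card_ge hle ?_
  rw [Nat.card_zpowers, hcard]
  exact horder

/-- **Frobenius density, Frobenius element form.** -/
theorem exists_frob (H : ZetaInput F L) (σ : Gal(L/F)) (N : ℕ) :
    ∃ p : ℕ, p.Prime ∧ N < p ∧ Unr F L p ∧ ∃ P : Ideal (𝓞 L), P.IsPrime ∧ P ≠ ⊥ ∧
      (p : 𝓞 L) ∈ P ∧ absNorm (P.under (𝓞 F)) = p ∧
      stabilizer Gal(L/F) P = Subgroup.zpowers σ ∧
      ∃ φ : Gal(L/F), Subgroup.zpowers φ = Subgroup.zpowers σ ∧ ∀ x : 𝓞 L, φ • x - x ^ p ∈ P := by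
  obtain ⟨p, hp, hpN, hur, P, hP, hnorm, hst⟩ := exists_prime H σ N
  have hPX : P ∈ X F L p := ⟨hP, hnorm⟩
  have hP0 := ne_bot_of_mem_X hp hPX
  have hfin : Finite (𝓞 L ⧸ P) := Ideal.finiteQuotientOfFreeOfNeBot P hP0
  have hφ := IsArithFrobAt.arithFrobAt (𝓞 F) Gal(L/F) P
  have hφ' : ∀ x : 𝓞 L, arithFrobAt (𝓞 F) Gal(L/F) P • x - x ^ p ∈ P := by
    intro x
    have := hφ x
    have hc : Nat.card (𝓞 F ⧸ P.under (𝓞 F)) = p := hnorm
    rw [hc] at this
    exact this
  refine ⟨p, hp, hpN, hur, P, hP, hP0, mem_of_mem_X hPX, hnorm, hst, _, ?_, hφ'⟩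
  rw [zpowers_frob P hP0 (hur P hP hP0 (mem_of_mem_X hPX)) _ (by rw [hnorm]; exact hφ'), hst]

end Crest.Agent.R018.FrobElemx389
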