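import Mathlib
import Crest.Agent.R018.TameC_31
import Crest.Agent.R018.Places2_484

-- ▼ part R018/TameD_31
section

set_option autoImplicit false

/-!
Tame facts, part D (helper31): the unramified part.  For a closed subgroup `U` of the decomposition
group, every homomorphism with open kernel which is trivial on inertia has cyclic image.
-/

namespace Crest.Agent.R018.Tamex31

open scoped Pointwise

variable {F E : Type*} [Field F] [Field E] [Algebra F E]

/-- The residue field of `A` has characteristic `p` and is algebraic over `𝔽_p`. -/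
def TorsRes (p : ℕ) (A : ValuationSubring E) : Prop :=
  A.valuation (p : E) < 1 ∧ ∀ a ∈ A, ∃ n : ℕ, 0 < n ∧ A.valuation (a ^ (p ^ n) - a) < 1

theorem decS_eq (A : ValuationSubring E) : decS F A = A.decompositionSubgroup F := by
  ext g
  rw [mem_decS, ValuationSubring.decompositionSubgroup, MulAction.mem_stabilizer_iff]
  constructor
  · intro h
    ext x
    rw [ValuationSubring.mem_pointwise_smul_iff_inv_smul_mem]
    have h1 := h (g⁻¹ x)
    rw [← AlgEquiv.mul_apply, mul_inv_cancel, AlgEquiv.one_apply] at h1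
    exact h1.symm
  · intro h x
    have h1 : g • x ∈ g • A ↔ x ∈ A := ValuationSubring.smul_mem_pointwise_smul_iff
    rw [h] at h1
    exact h1

theorem isOpen_eval [Algebra.IsAlgebraic F E] (a : E) (T : Set E) :
    IsOpen {g : E ≃ₐ[F] E | g a ∈ T} := by
  rw [isOpen_iff_mem_nhds]
  intro g₀ hg₀
  have h1 : IsOpen (MulAction.stabilizer (E ≃ₐ[F] E) a : Set (E ≃ₐ[F] E)) :=
    stabilizer_isOpen_of_isIntegral (K := F) (L := E) a
  have h2 : IsOpen ((fun g : E ≃ₐ[F] E => g₀⁻¹ * g) ⁻¹'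
      (MulAction.stabilizer (E ≃ₐ[F] E) a : Set (E ≃ₐ[F] E))) :=
    h1.preimage (continuous_const_mul g₀⁻¹)
  refine Filter.mem_of_superset (h2.mem_nhds ?_) ?_
  · simp
  · intro g hg
    have h3 : (g₀⁻¹ * g) • a = a := hg
    have h4 : g a = g₀ a := by
      have : g₀ ((g₀⁻¹ * g) • a) = g₀ a := by rw [h3]
      rw [← this]
      change g a = g₀ (g₀⁻¹ (g a))
      rw [← AlgEquiv.mul_apply, mul_inv_cancel, AlgEquiv.one_apply]
    change g a ∈ T
    rw [h4]
    exact hg₀

theorem OpenKer.isOpen_ker [Algebra.IsAlgebraic F E] {H : Type*} [Group H]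
    {U : Subgroup (E ≃ₐ[F] E)} {π : U →* H} (hπ : OpenKer π) : IsOpen (π.ker : Set U) := by
  obtain ⟨L, hLfin, hL⟩ := hπ
  have h1 : IsOpen (L.fixingSubgroup : Set (E ≃ₐ[F] E)) :=
    L.fixingSubgroup_isOpen
  refine Subgroup.isOpen_mono (H₁ := (L.fixingSubgroup).subgroupOf U) ?_ ?_
  · intro u hu
    rw [MonoidHom.mem_ker]
    refine hL u fun x hx => ?_
    have h2 : (u : E ≃ₐ[F] E) ∈ L.fixingSubgroup := hu
    exact h2 ⟨x, hx⟩
  · exact h1.preimage continuous_subtype_val

/-- (LF1b) -/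
theorem isCyclic_of_unramified [IsGalois F E] {p : ℕ} [hp : Fact p.Prime]
    {A : ValuationSubring E} (hA : TorsRes p A) {U : Subgroup (E ≃ₐ[F] E)}
    (hUc : IsClosed (U : Set (E ≃ₐ[F] E))) (hU : U ≤ decS F A) {C : Type*} [Group C]
    (π : U →* C) (hπ : OpenKer π) (hI : ∀ u : U, (u : E ≃ₐ[F] E) ∈ inS F A → π u = 1) :
    ∃ u₀ : U, ∀ u : U, ∃ k : ℤ, π u = π u₀ ^ k := by
  classical
  -- compactness
  have hUcomp : CompactSpace U := isCompact_iff_compactSpace.mp hUc.isCompact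
  have hopen : ∀ a : A, IsOpen {u : U | ¬ A.valuation ((u : E ≃ₐ[F] E) a - a) < 1} := by
    intro a
    exact (isOpen_eval (F := F) (a : E) {y | ¬ A.valuation (y - a) < 1}).preimage
      continuous_subtype_val
  have hK : IsCompact ((π.ker : Set U)ᶜ) := hπ.isOpen_ker.isClosed_compl.isCompact
  obtain ⟨t, ht⟩ := hK.elim_finite_subcover _ hopen (by
    intro u hu
    have h1 : (u : E ≃ₐ[F] E) ∉ inS F A := by
      intro h
      exact hu (hI u h)
    rw [mem_inS, not_and] at h1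
    have h2 := h1 (hU u.2)
    push Not at h2
    obtain ⟨x, hx, h3⟩ := h2
    rw [Set.mem_iUnion]
    exact ⟨⟨x, hx⟩, not_lt.mpr h3⟩)
  -- the residue field
  let k := IsLocalRing.ResidueField A
  have : CharP k p := by
    rw [CharP.charP_iff_prime_eq_zero hp.out]
    have h1 : ((p : A) : E) = (p : E) := by norm_cast
    have h2 : IsLocalRing.residue A (p : A) = 0 := by
      rw [IsLocalRing.residue_eq_zero_iff, ValuationSubring.valuation_lt_one_iff, h1]
      exact hA.1
    rw [map_natCast] at h2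
    exact h2
  let _ : Algebra (ZMod p) k := ZMod.algebra k p
  let S : Set k := (fun a : A => IsLocalRing.residue A a) '' (t : Set A)
  have hSfin : S.Finite := t.finite_toSet.image _
  have hSint : ∀ x ∈ S, IsIntegral (ZMod p) x := by
    rintro _ ⟨a, -, rfl⟩
    obtain ⟨n, hn, h⟩ := hA.2 a a.2
    refine ⟨Polynomial.X ^ (p ^ n) - Polynomial.X, ?_, ?_⟩
    · refine Polynomial.monic_X_pow_sub ?_
      rw [Polynomial.degree_X]
      exact_mod_cast (Nat.one_lt_pow hn.ne' hp.out.one_lt)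
    · rw [Polynomial.eval₂_sub, Polynomial.eval₂_X_pow, Polynomial.eval₂_X]
      have h3 : ((a ^ (p ^ n) - a : A) : E) = (a : E) ^ (p ^ n) - a := by push_cast; rfl
      rw [← h3, ← ValuationSubring.valuation_lt_one_iff, ← IsLocalRing.residue_eq_zero_iff,
        map_sub, map_pow] at h
      exact h
  let k₀ : IntermediateField (ZMod p) k := IntermediateField.adjoin (ZMod p) S
  have : Finite S := hSfin
  have : FiniteDimensional (ZMod p) k₀ := IntermediateField.finiteDimensional_adjoin hSint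
  have : Finite k₀ := Module.finite_of_finite (ZMod p)
  have : SMulCommClass (A.decompositionSubgroup F) (ZMod p) k := by
    constructor
    intro g a x
    obtain ⟨m, rfl⟩ := ZMod.intCast_surjective a
    rw [Algebra.smul_def, Algebra.smul_def, smul_mul']
    congr 1
    rw [map_intCast]
    exact map_intCast (MulSemiringAction.toRingHom (A.decompositionSubgroup F) k g) m
  let ρ : U →* (k₀ ≃ₐ[ZMod p] k₀) :=
    ((AlgEquiv.restrictNormalHom k₀).comp
      (MulSemiringAction.toAlgAut (A.decompositionSubgroup F) (ZMod p) k)).comp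
      (Subgroup.inclusion (by rw [← decS_eq]; exact hU))
  have hρ : ∀ u : U, ρ u = 1 → π u = 1 := by
    intro u hu
    by_contra hne
    have h1 : u ∈ (π.ker : Set U)ᶜ := hne
    have h2 := ht h1
    rw [Set.mem_iUnion₂] at h2
    obtain ⟨a, hat, h3⟩ := h2
    apply h3
    have h4 : (IsLocalRing.residue A a : k) ∈ k₀ :=
      IntermediateField.subset_adjoin _ _ ⟨a, hat, rfl⟩
    have h5 := congrArg (fun f : k₀ ≃ₐ[ZMod p] k₀ => ((f ⟨_, h4⟩ : k₀) : k)) hu
    have hmem : (u : E ≃ₐ[F] E) ∈ A.decompositionSubgroup F := by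
      rw [← decS_eq]; exact hU u.2
    have h6 : (⟨(u : E ≃ₐ[F] E), hmem⟩ : A.decompositionSubgroup F) •
        (IsLocalRing.residue A a : k) = IsLocalRing.residue A a := by
      have h7 := AlgEquiv.restrictNormalHom_apply k₀
        (MulSemiringAction.toAlgAut (A.decompositionSubgroup F) (ZMod p) k
          ⟨(u : E ≃ₐ[F] E), hmem⟩) ⟨_, h4⟩
      exact h7.symm.trans h5
    rw [← IsLocalRing.ResidueField.residue_smul, ← sub_eq_zero, ← map_sub,
      IsLocalRing.residue_eq_zero_iff, ValuationSubring.valuation_lt_one_iff] at h6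
    exact h6
  -- cyclic image
  have hcyc : IsCyclic ρ.range := inferInstance
  obtain ⟨⟨g, u₀, hu₀⟩, hg⟩ := hcyc.exists_generator
  refine ⟨u₀, fun u => ?_⟩
  obtain ⟨k', hk'⟩ := Subgroup.mem_zpowers_iff.mp (hg ⟨ρ u, u, rfl⟩)
  refine ⟨k', ?_⟩
  have h8 : ρ (u₀ ^ k' * u⁻¹) = 1 := by
    have h9 : g ^ k' = ρ u := congrArg Subtype.val hk'
    rw [map_mul, map_zpow, map_inv, hu₀, h9, mul_inv_cancel]
  have h10 := hρ _ h8
  rw [map_mul, map_zpow, map_inv, mul_inv_eq_one] at h10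
  exact h10.symm

/-! ### Counting characters -/




/-- In a group `Z` of prime order `l`, every element is a power of any nontrivial one. -/
theorem exists_zpow_of_card {Z : Type*} [CommGroup Z] {l : ℕ} [hl : Fact l.Prime]
    (hZ : Nat.card Z = l) {x : Z} (hx : x ≠ 1) (y : Z) : ∃ k : ℤ, y = x ^ k := by
  have h := zpowers_eq_top_of_prime_card hZ hx
  have : y ∈ Subgroup.zpowers x := by rw [h]; trivial
  obtain ⟨k, hk⟩ := Subgroup.mem_zpowers_iff.mp this
  exact ⟨k, hk.symm⟩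

/-- unramified characters: all are powers of any nontrivial one. -/
theorem unram_powers [IsGalois F E] {p : ℕ} [hp : Fact p.Prime]
    {A : ValuationSubring E} (hA : TorsRes p A) {U : Subgroup (E ≃ₐ[F] E)}
    (hUc : IsClosed (U : Set (E ≃ₐ[F] E))) (hU : U ≤ decS F A) {Z : Type*} [CommGroup Z] {l : ℕ}
    [hl : Fact l.Prime] (hZ : Nat.card Z = l) {χ₁ χ₂ : U →* Z} (h₁ : OpenKer χ₁)
    (h₂ : OpenKer χ₂) (hI₁ : ∀ u : U, (u : E ≃ₐ[F] E) ∈ inS F A → χ₁ u = 1)
    (hI₂ : ∀ u : U, (u : E ≃ₐ[F] E) ∈ inS F A → χ₂ u = 1) (hne : χ₁ ≠ 1) :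
    ∃ k : ℤ, χ₂ = χ₁ ^ k := by
  have hpair : OpenKer (χ₁.prod χ₂) := by
    obtain ⟨L, hL, h⟩ := h₁
    obtain ⟨L', hL', h'⟩ := h₂
    refine ⟨L ⊔ L', IntermediateField.finiteDimensional_sup L L', fun u hu => ?_⟩
    have h3 := h u fun x hx => hu x (le_sup_left (a := L) (b := L') hx)
    have h4 := h' u fun x hx => hu x (le_sup_right (a := L) (b := L') hx)
    rw [MonoidHom.prod_apply, h3, h4]
    rfl
  obtain ⟨u₀, hu₀⟩ := isCyclic_of_unramified hA hUc hU (χ₁.prod χ₂) hpair (by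
    intro u hu
    rw [MonoidHom.prod_apply, hI₁ u hu, hI₂ u hu]
    rfl)
  have hu₁ : ∀ u : U, ∃ k : ℤ, χ₁ u = χ₁ u₀ ^ k ∧ χ₂ u = χ₂ u₀ ^ k := by
    intro u
    obtain ⟨k, hk⟩ := hu₀ u
    refine ⟨k, ?_, ?_⟩
    · have := congrArg Prod.fst hk
      simpa using this
    · have := congrArg Prod.snd hk
      simpa using this
  have hx : χ₁ u₀ ≠ 1 := by
    intro h
    apply hne
    ext u
    obtain ⟨k, hk, -⟩ := hu₁ u
    rw [hk, h, one_zpow]
    rfl
  obtain ⟨k, hk⟩ := exists_zpow_of_card hZ hx (χ₂ u₀)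
  refine ⟨k, ?_⟩
  ext u
  obtain ⟨j, h3, h4⟩ := hu₁ u
  change χ₂ u = χ₁ u ^ k
  rw [h4, hk, h3, ← zpow_mul, ← zpow_mul, mul_comm]



end Crest.Agent.R018.Tamex31
end

-- ▼ part R018/TameP_31

set_option autoImplicit false

/-!
Tame facts, part P (helper31): the bridge with `Place` of helper484, and the lifting of inertia
through a tower `F ⊆ L ⊆ E`.
-/

namespace Crest.Agent.R018.Tamex31

open Crest.Agent.R018.Placesx484 Crest.Agent.R018.Placesx484.Place NumberField
open scoped Pointwise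

section Bridge

variable {F E : Type*} [Field F] [Field E] [Algebra F E] [CharZero E] [Algebra.IsAlgebraic ℚ E]

theorem rankOne (P : Place E) : RankOne P.val := fun x y hx hy => P.exists_zpow_eq x y hx hy

theorem val_inj {P Q : Place E} (h : P.val = Q.val) : P = Q := ext_of_val_le h.le

theorem mem_decS_val (P : Place E) (g : E ≃ₐ[F] E) : g ∈ decS F P.val ↔ g • P = P := by
  constructor
  · intro h
    apply val_inj
    ext x
    rw [mem_smul_val]
    have h1 := h (g⁻¹ x)
    rw [← AlgEquiv.mul_apply, mul_inv_cancel, AlgEquiv.one_apply] at h1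
    exact h1.symm
  · intro h x
    have h1 := smul_mem_smul_val g P x
    rw [h] at h1
    exact h1

theorem mem_inS_val (P : Place E) (g : E ≃ₐ[F] E) :
    g ∈ inS F P.val ↔ g ∈ P.ideal.inertia (E ≃ₐ[F] E) := by
  constructor
  · intro h x
    have h1 := h.2 (algebraMap (𝓞 E) E x) (P.coe_mem_val x)
    have h2 : g (algebraMap (𝓞 E) E x) - algebraMap (𝓞 E) E x =
        algebraMap (𝓞 E) E (g • x - x) := by
      rw [map_sub, smul_coe]; rfl
    rw [h2] at h1
    exact (P.v_int_lt_one_iff _).1 h1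
  · intro h
    refine ⟨(mem_decS_val P g).2 (smul_eq_of_mem_inertia P h), fun x hx => ?_⟩
    exact v_smul_sub_lt_one P h x ((P.v_le_one_iff x).2 hx)

theorem torsRes (P : Place E) : TorsRes P.rchar P.val := by
  constructor
  · have h1 := (P.v_int_lt_one_iff (P.rchar : 𝓞 E)).2 P.rchar_mem
    rw [map_natCast] at h1
    exact h1
  · intro a ha
    let K := IntermediateField.adjoin ℚ {a}
    have hfin : FiniteDimensional ℚ K := IntermediateField.adjoin.finiteDimensional
      (Algebra.IsAlgebraic.isAlgebraic (R := ℚ) a).isIntegral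
    have hK : NumberField K := { to_finiteDimensional := hfin }
    let a' : K := ⟨a, IntermediateField.mem_adjoin_simple_self ℚ a⟩
    let Q := P.res K
    have ha' : a' ∈ Q.val := (mem_val_res K P a').2 ha
    obtain ⟨x, s, hs, hxs⟩ := ha'
    have hmax : Q.ideal.IsMaximal := Q.isMaximal
    letI : Field (𝓞 K ⧸ Q.ideal) := Ideal.Quotient.field Q.ideal
    have hfinq : Finite (𝓞 K ⧸ Q.ideal) := Ideal.finiteQuotientOfFreeOfNeBot _ Q.ne_bot
    letI : Fintype (𝓞 K ⧸ Q.ideal) := Fintype.ofFinite _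
    have hpr : Fact P.rchar.Prime := ⟨P.rchar_prime⟩
    have hch : CharP (𝓞 K ⧸ Q.ideal) P.rchar := by
      rw [CharP.charP_iff_prime_eq_zero P.rchar_prime]
      have h1 : (P.rchar : 𝓞 K) ∈ Q.ideal := by
        rw [mem_res, map_natCast]; exact P.rchar_mem
      have h2 := Ideal.Quotient.eq_zero_iff_mem.2 h1
      rw [map_natCast] at h2
      exact h2
    obtain ⟨n, -, hn⟩ := FiniteField.card (𝓞 K ⧸ Q.ideal) P.rchar
    have key : ∀ y : 𝓞 K, y ^ (P.rchar ^ (n : ℕ)) - y ∈ Q.ideal := by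
      intro y
      rw [← Ideal.Quotient.eq_zero_iff_mem, map_sub, map_pow, ← hn, FiniteField.pow_card, sub_self]
    refine ⟨n, n.pos, ?_⟩
    set q := P.rchar ^ (n : ℕ) with hq
    have hs0 : Q.v (algebraMap (𝓞 K) K s) = 1 := by
      refine le_antisymm (Q.v_int_le_one s) ?_
      rw [← not_lt, v_int_lt_one_iff]
      exact hs
    have h1 : Q.v ((a' ^ q - a') * algebraMap (𝓞 K) K s ^ (q + 1)) < 1 := by
      have h2 : (a' ^ q - a') * algebraMap (𝓞 K) K s ^ (q + 1) =
          algebraMap (𝓞 K) K ((x ^ q - x) * s - x * (s ^ q - s)) := by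
        have h3 : algebraMap (𝓞 K) K ((x ^ q - x) * s - x * (s ^ q - s)) =
            (algebraMap (𝓞 K) K x) ^ q * algebraMap (𝓞 K) K s -
            algebraMap (𝓞 K) K x * algebraMap (𝓞 K) K s ^ q := by
          simp only [map_sub, map_mul, map_pow]
          ring
        rw [h3, ← hxs, mul_pow]
        ring
      rw [h2, v_int_lt_one_iff]
      exact Ideal.sub_mem _ (Ideal.mul_mem_right _ _ (key x)) (Ideal.mul_mem_left _ _ (key s))
    rw [map_mul, map_pow, hs0, one_pow, mul_one] at h1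
    have h4 := (v_res_lt_one_iff K P (a' ^ q - a')).1 h1
    rw [map_sub, map_pow] at h4
    exact h4

theorem val_natCast_eq_one (P : Place E) {n : ℕ} (h : ¬ P.rchar ∣ n) :
    P.val.valuation (n : E) = 1 := (P.v_natCast_eq_one_iff n).2 h

theorem val_prime_eq_one (P : Place E) {l : ℕ} (hl : l.Prime) (h : P.rchar ≠ l) :
    P.val.valuation (l : E) = 1 :=
  val_natCast_eq_one P fun h' => h ((Nat.prime_dvd_prime_iff_eq P.rchar_prime hl).1 h')

end Bridge

section Lift

variable {F L E : Type*} [Field F] [Field L] [Field E] [Algebra F L] [Algebra L E] [Algebra F E]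
  [IsScalarTower F L E]

theorem exists_alg_lift [Normal F L] [Normal F E] (σ : L ≃ₐ[F] L) :
    ∃ g : E ≃ₐ[F] E, ∀ x : L, g (algebraMap L E x) = algebraMap L E (σ x) := by
  obtain ⟨g, hg⟩ := AlgEquiv.restrictNormalHom_surjective (F := F) (K₁ := L) E σ
  refine ⟨g, fun x => ?_⟩
  rw [← hg]
  exact (AlgEquiv.restrictNormal_commutes g L x).symm

theorem res_smul_of_lift {g : E ≃ₐ[F] E} {σ : L ≃ₐ[F] L}
    (h : ∀ x : L, g (algebraMap L E x) = algebraMap L E (σ x)) (P : Place E) :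
    (g • P).res L = σ • P.res L := by
  ext x
  rw [mem_res, mem_smul_ideal, mem_smul_ideal, mem_res]
  have h1 : g⁻¹ • algebraMap (𝓞 L) (𝓞 E) x = algebraMap (𝓞 L) (𝓞 E) (σ⁻¹ • x) := by
    rw [inv_smul_eq_iff]
    apply NumberField.RingOfIntegers.coe_injective
    have h2 : algebraMap (𝓞 E) E (g • algebraMap (𝓞 L) (𝓞 E) (σ⁻¹ • x)) =
        g (algebraMap L E (algebraMap (𝓞 L) L (σ⁻¹ • x))) := algebraMap.smul' _ _ E
    rw [h2, h]
    have h3 : algebraMap (𝓞 L) L (σ⁻¹ • x) = σ⁻¹ (algebraMap (𝓞 L) L x) := algebraMap.smul' _ _ L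
    rw [h3, ← AlgEquiv.mul_apply, mul_inv_cancel]
    rfl
  rw [h1]

/-- lifting of decomposition groups -/
theorem exists_dec_lift [Normal F L] [IsGalois F E] (P : Place E) (σ : L ≃ₐ[F] L)
    (hσ : σ • P.res L = P.res L) :
    ∃ g : E ≃ₐ[F] E, g • P = P ∧ ∀ x : L, g (algebraMap L E x) = algebraMap L E (σ x) := by
  have hLE : IsGalois L E := IsGalois.tower_top_of_isGalois F L E
  obtain ⟨g, hg⟩ := exists_alg_lift (E := E) σ
  have hres : P.res L = (g⁻¹ • P).res L := by
    have hg' : ∀ x : L, g⁻¹ (algebraMap L E x) = algebraMap L E (σ⁻¹ x) := by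
      intro x
      apply g.injective
      rw [hg, ← AlgEquiv.mul_apply, ← AlgEquiv.mul_apply, mul_inv_cancel, mul_inv_cancel]
      rfl
    rw [res_smul_of_lift hg' P]
    conv_rhs => rw [← hσ]
    rw [inv_smul_smul]
  obtain ⟨h, hh⟩ := exists_smul_eq_of_res_eq (M := L) P (g⁻¹ • P) hres
  refine ⟨g * (h.restrictScalars F), ?_, ?_⟩
  · rw [mul_smul]
    have h2 : (h.restrictScalars F) • P = h • P := rfl
    rw [h2, hh, smul_inv_smul]
  · intro x
    rw [AlgEquiv.mul_apply]
    have h3 : (h.restrictScalars F) (algebraMap L E x) = algebraMap L E x := h.commutes x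
    rw [h3, hg]

/-- surjectivity of the decomposition group onto the automorphisms of the residue field -/
theorem exists_dec_residue [IsGalois L E] (P : Place E) (f : 𝓞 E ⧸ P.ideal ≃+* 𝓞 E ⧸ P.ideal)
    (hf : ∀ x : 𝓞 L, f (Ideal.Quotient.mk _ (algebraMap (𝓞 L) (𝓞 E) x)) =
      Ideal.Quotient.mk _ (algebraMap (𝓞 L) (𝓞 E) x)) :
    ∃ h : E ≃ₐ[L] E, h • P = P ∧ ∀ x : 𝓞 E, f (Ideal.Quotient.mk _ x) =
      Ideal.Quotient.mk _ (h • x) := by
  letI : TopologicalSpace (𝓞 E) := ⊥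
  haveI : DiscreteTopology (𝓞 E) := ⟨rfl⟩
  haveI := continuousSMul_int (M := L) (E := E)
  haveI := isInvariant_int (M := L) (E := E)
  haveI : P.ideal.LiesOver (P.res L).ideal := ⟨rfl⟩
  let f' : (𝓞 E ⧸ P.ideal) ≃ₐ[𝓞 L ⧸ (P.res L).ideal] (𝓞 E ⧸ P.ideal) :=
    AlgEquiv.ofRingEquiv (f := f) (by
      intro x
      obtain ⟨x, rfl⟩ := Ideal.Quotient.mk_surjective x
      exact hf x)
  obtain ⟨h, hh⟩ := Ideal.Quotient.stabilizerHom_surjective_of_profinite
    (G := E ≃ₐ[L] E) (P.res L).ideal P.ideal f'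
  refine ⟨h, Place.ext h.2, fun x => ?_⟩
  have h1 := DFunLike.congr_fun hh (Ideal.Quotient.mk P.ideal x)
  exact h1.symm

/-- lifting of inertia groups -/
theorem exists_inertia_lift [Normal F L] [IsGalois F E] (P : Place E) (σ : L ≃ₐ[F] L)
    (hσ : σ ∈ (P.res L).ideal.inertia (L ≃ₐ[F] L)) [CharZero L] :
    ∃ τ ∈ P.ideal.inertia (E ≃ₐ[F] E), ∀ x : L, τ (algebraMap L E x) = algebraMap L E (σ x) := by
  have hLE : IsGalois L E := IsGalois.tower_top_of_isGalois F L E
  obtain ⟨g, hgP, hg⟩ := exists_dec_lift P σ (smul_eq_of_mem_inertia (P.res L) hσ)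
  let f : 𝓞 E ⧸ P.ideal ≃+* 𝓞 E ⧸ P.ideal :=
    Ideal.quotientEquiv P.ideal P.ideal (MulSemiringAction.toRingEquiv (E ≃ₐ[F] E) (𝓞 E) g) (by
      have := congrArg Place.ideal hgP
      exact this.symm)
  have hgx : ∀ x : 𝓞 L, g • algebraMap (𝓞 L) (𝓞 E) x = algebraMap (𝓞 L) (𝓞 E) (σ • x) := by
    intro x
    apply NumberField.RingOfIntegers.coe_injective
    have h2 : algebraMap (𝓞 E) E (g • algebraMap (𝓞 L) (𝓞 E) x) =
        g (algebraMap L E (algebraMap (𝓞 L) L x)) := algebraMap.smul' _ _ E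
    rw [h2, hg]
    have h3 : algebraMap (𝓞 L) L (σ • x) = σ (algebraMap (𝓞 L) L x) := algebraMap.smul' _ _ L
    rw [← h3]
    rfl
  obtain ⟨h, hhP, hh⟩ := exists_dec_residue (L := L) P f (by
    intro x
    change Ideal.Quotient.mk _ (g • algebraMap (𝓞 L) (𝓞 E) x) = _
    rw [hgx, Ideal.Quotient.eq, ← map_sub]
    exact hσ x)
  let h' : E ≃ₐ[F] E := h.restrictScalars F
  have hh'P : h' • P = P := hhP
  have hh' : ∀ x : 𝓞 E, g • x - h' • x ∈ P.ideal := by
    intro x
    rw [← Ideal.Quotient.eq]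
    exact hh x
  refine ⟨h'⁻¹ * g, ?_, ?_⟩
  · intro x
    have h1 := hh' x
    have h2 : (h'⁻¹ * g) • x - x = h'⁻¹ • (g • x - h' • x) := by
      rw [smul_sub, mul_smul, inv_smul_smul]
    rw [h2]
    have h3 : h'⁻¹ • P = P := by
      rw [inv_smul_eq_iff]; exact hh'P.symm
    have h4 := (smul_mem_smul_ideal h'⁻¹ P (g • x - h' • x)).2 h1
    rw [h3] at h4
    exact h4
  · intro x
    rw [AlgEquiv.mul_apply, hg]
    have h3 : h' (algebraMap L E (σ x)) = algebraMap L E (σ x) := h.commutes _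
    rw [← h3, ← AlgEquiv.mul_apply, inv_mul_cancel, h3]
    rfl

end Lift

end Crest.Agent.R018.Tamex31
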