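import Mathlib
import Crest.Agent.R018.Places3_484
import Crest.Agent.R018.TameP_31
import Crest.Agent.R018.TameC_31
import Crest.Agent.R018.FrobElem_389

-- ▼ part R018/DegA_614
section

/-!
# Row 18: finite cyclic layers of a character with open kernel (helper614)
-/

set_option autoImplicit false

noncomputable section

open Module

namespace Crest.Agent.R018.DegAx614

section Layer

variable {F E : Type*} [Field F] [Field E] [Algebra F E] [IsGalois F E]

/-- The field cut out by a homomorphism with open kernel to a finite cyclic group. -/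
theorem exists_layer {C : Type*} [CommGroup C] [IsCyclic C] [Finite C]
    (χ : (E ≃ₐ[F] E) →* C) (hχ : IsOpen (χ.ker : Set (E ≃ₐ[F] E))) :
    ∃ L : IntermediateField F E, ∃ _ : FiniteDimensional F L, ∃ _ : IsGalois F L,
      L.fixingSubgroup = χ.ker ∧ finrank F L = Nat.card χ.range ∧
      ∃ σ : L ≃ₐ[F] L, ∀ τ, τ ∈ Subgroup.zpowers σ := by
  let H : ClosedSubgroup (E ≃ₐ[F] E) := ⟨χ.ker, Subgroup.isClosed_of_isOpen _ hχ⟩
  have hfix : (IntermediateField.fixedField χ.ker).fixingSubgroup = χ.ker :=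
    InfiniteGalois.fixingSubgroup_fixedField H
  obtain ⟨hfd, hgal⟩ := (InfiniteGalois.isOpen_and_normal_iff_finite_and_isGalois
    (IntermediateField.fixedField χ.ker)).1 (by
      constructor
      · change IsOpen ((IntermediateField.fixedField χ.ker).fixingSubgroup : Set (E ≃ₐ[F] E))
        rw [hfix]
        exact hχ
      · rw [hfix]
        infer_instance)
  refine ⟨IntermediateField.fixedField χ.ker, hfd, hgal, hfix, ?_, ?_⟩
  all_goals
    set L := IntermediateField.fixedField χ.ker with hL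
    have hker : (AlgEquiv.restrictNormalHom (F := F) (K₁ := E) L).ker = χ.ker := by
      rw [IntermediateField.restrictNormalHom_ker, hfix]
    have hsurj : Function.Surjective (AlgEquiv.restrictNormalHom (F := F) (K₁ := E) L) :=
      AlgEquiv.restrictNormalHom_surjective E
    let e1 : (E ≃ₐ[F] E) ⧸ χ.ker ≃* χ.range := QuotientGroup.quotientKerEquivRange χ
    let e2 : (E ≃ₐ[F] E) ⧸ (AlgEquiv.restrictNormalHom (F := F) (K₁ := E) L).ker ≃* (L ≃ₐ[F] L) :=
      QuotientGroup.quotientKerEquivOfSurjective _ hsurj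
    let e3 : (E ≃ₐ[F] E) ⧸ (AlgEquiv.restrictNormalHom (F := F) (K₁ := E) L).ker ≃*
        (E ≃ₐ[F] E) ⧸ χ.ker := QuotientGroup.quotientMulEquivOfEq hker
    let e : (L ≃ₐ[F] L) ≃* χ.range := (e2.symm.trans e3).trans e1
  · rw [← IsGalois.card_aut_eq_finrank]
    exact Nat.card_congr e.toEquiv
  · have hc : IsCyclic (L ≃ₐ[F] L) := isCyclic_of_surjective e.symm e.symm.surjective
    exact hc.exists_generator

end Layer

section Padic

variable {l : ℕ} [hl : Fact l.Prime] {G : Type*} [Group G] [TopologicalSpace G]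

/-- reduction of a `ℤ_l`-valued character modulo `l ^ n` -/
def red (n : ℕ) (lam : G →* Multiplicative ℤ_[l]) : G →* Multiplicative (ZMod (l ^ n)) :=
  (AddMonoidHom.toMultiplicative (PadicInt.toZModPow n).toAddMonoidHom).comp lam

omit [TopologicalSpace G] in
theorem red_eq_one_iff (n : ℕ) (lam : G →* Multiplicative ℤ_[l]) (g : G) :
    red n lam g = 1 ↔ ‖Multiplicative.toAdd (lam g)‖ ≤ (l : ℝ) ^ (-n : ℤ) := by
  have h1 : red n lam g = 1 ↔ PadicInt.toZModPow n (Multiplicative.toAdd (lam g)) = 0 := by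
    rfl
  rw [h1, PadicInt.norm_le_pow_iff_mem_span_pow, ← PadicInt.ker_toZModPow, RingHom.mem_ker]

theorem isOpen_ker_red (n : ℕ) (lam : G →* Multiplicative ℤ_[l]) (hlam : Continuous lam) :
    IsOpen ((red n lam).ker : Set G) := by
  have h1 : ((red n lam).ker : Set G) =
      (fun g => Multiplicative.toAdd (lam g)) ⁻¹' (Metric.closedBall (0 : ℤ_[l]) ((l : ℝ) ^ (-n : ℤ))) := by
    ext g
    simp only [SetLike.mem_coe, MonoidHom.mem_ker, Set.mem_preimage, Metric.mem_closedBall,
      dist_zero_right]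
    exact red_eq_one_iff n lam g
  rw [h1]
  have hl0 : (l : ℝ) ^ (-n : ℤ) ≠ 0 := zpow_ne_zero _ (by exact_mod_cast hl.out.ne_zero)
  exact (IsUltrametricDist.isOpen_closedBall (0 : ℤ_[l]) hl0).preimage
    (continuous_toAdd.comp hlam)

omit [TopologicalSpace G] in
/-- if `lam g ≠ 1`, the order of the reductions tends to infinity -/
theorem card_range_red (lam : G →* Multiplicative ℤ_[l]) (g : G) (hg : lam g ≠ 1) (C : ℕ) :
    ∃ n : ℕ, C < Nat.card (red n lam).range := by
  set x : ℤ_[l] := Multiplicative.toAdd (lam g) with hx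
  have hx0 : x ≠ 0 := fun h => hg (by
    have : lam g = Multiplicative.ofAdd x := rfl
    rw [this, h]; rfl)
  have hlim : Filter.Tendsto (fun n : ℕ => (l : ℝ) ^ (-n : ℤ)) Filter.atTop (nhds 0) := by
    have h1 : (fun n : ℕ => (l : ℝ) ^ (-n : ℤ)) = fun n : ℕ => ((l : ℝ)⁻¹) ^ n := by
      funext n
      rw [zpow_neg, zpow_natCast, inv_pow]
    rw [h1]
    apply tendsto_pow_atTop_nhds_zero_of_lt_one
    · positivity
    · exact inv_lt_one_of_one_lt₀ (by exact_mod_cast hl.out.one_lt)
  have hev : ∀ᶠ n : ℕ in Filter.atTop, ∀ k ∈ Finset.range C,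
      (l : ℝ) ^ (-n : ℤ) < ‖((k + 1 : ℕ) : ℤ_[l]) * x‖ := by
    rw [Filter.eventually_all_finset]
    intro k _
    have hpos : 0 < ‖((k + 1 : ℕ) : ℤ_[l]) * x‖ := by
      rw [norm_pos_iff]
      exact mul_ne_zero (by exact_mod_cast Nat.succ_ne_zero k) hx0
    exact hlim.eventually_lt_const hpos
  obtain ⟨n, hn⟩ := hev.exists
  refine ⟨n, ?_⟩
  have hne : ∀ i j : ℕ, i < j → j ≤ C → red n lam (g ^ i) ≠ red n lam (g ^ j) := by
    intro i j hij hj h
    have h1 : red n lam (g ^ (j - i)) = 1 := by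
      have h2 : g ^ j = g ^ (j - i) * g ^ i := by rw [← pow_add]; congr 1; omega
      rw [h2, map_mul] at h
      exact (mul_eq_right.1 h.symm)
    rw [red_eq_one_iff, map_pow, toAdd_pow, ← hx, nsmul_eq_mul] at h1
    have h3 := hn (j - i - 1) (Finset.mem_range.2 (by omega))
    rw [show j - i - 1 + 1 = j - i by omega] at h3
    exact absurd h1 (not_le.2 h3)
  have hinj : Function.Injective (fun i : Fin (C + 1) =>
      (⟨red n lam (g ^ (i : ℕ)), ⟨_, rfl⟩⟩ : (red n lam).range)) := by
    intro i j h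
    have h' : red n lam (g ^ (i : ℕ)) = red n lam (g ^ (j : ℕ)) := congrArg Subtype.val h
    rcases lt_trichotomy (i : ℕ) (j : ℕ) with h1 | h1 | h1
    · exact absurd h' (hne _ _ h1 (by omega))
    · exact Fin.ext h1
    · exact absurd h'.symm (hne _ _ h1 (by omega))
  have : NeZero (l ^ n) := ⟨pow_ne_zero _ hl.out.ne_zero⟩
  have : Finite (Multiplicative (ZMod (l ^ n))) := inferInstance
  have := Nat.card_le_card_of_injective _ hinj
  rw [Nat.card_eq_fintype_card, Fintype.card_fin] at this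
  exact this

omit [TopologicalSpace G] in
/-- the image of the reduction has `l`-power order -/
theorem card_range_red_dvd (lam : G →* Multiplicative ℤ_[l]) (n : ℕ) :
    Nat.card (red n lam).range ∣ l ^ n := by
  have h1 := Subgroup.card_subgroup_dvd_card (red n lam).range
  have h2 : Nat.card (Multiplicative (ZMod (l ^ n))) = l ^ n := by
    rw [Nat.card_congr Multiplicative.toAdd, Nat.card_zmod]
  rwa [h2] at h1

omit [TopologicalSpace G] in
/-- a character killed by a nonzero integer, at `g`, is trivial at `g` -/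
theorem eq_one_of_pow (lam : G →* Multiplicative ℤ_[l]) (g : G) (k : ℕ) (hk : k ≠ 0)
    (h : ∀ n : ℕ, red n lam g ^ k = 1) : lam g = 1 := by
  by_contra hg
  set x : ℤ_[l] := Multiplicative.toAdd (lam g) with hx
  have hx0 : x ≠ 0 := fun h => hg (by
    have : lam g = Multiplicative.ofAdd x := rfl
    rw [this, h]; rfl)
  have h1 : ∀ n : ℕ, ‖(k : ℤ_[l]) * x‖ ≤ (l : ℝ) ^ (-n : ℤ) := by
    intro n
    have h2 := h n
    rw [← map_pow, red_eq_one_iff, map_pow, toAdd_pow, ← hx, nsmul_eq_mul] at h2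
    exact h2
  have hlim : Filter.Tendsto (fun n : ℕ => (l : ℝ) ^ (-n : ℤ)) Filter.atTop (nhds 0) := by
    have h1 : (fun n : ℕ => (l : ℝ) ^ (-n : ℤ)) = fun n : ℕ => ((l : ℝ)⁻¹) ^ n := by
      funext n
      rw [zpow_neg, zpow_natCast, inv_pow]
    rw [h1]
    apply tendsto_pow_atTop_nhds_zero_of_lt_one
    · positivity
    · exact inv_lt_one_of_one_lt₀ (by exact_mod_cast hl.out.one_lt)
  have h3 : ‖(k : ℤ_[l]) * x‖ ≤ 0 := ge_of_tendsto' hlim h1
  have h4 : (k : ℤ_[l]) * x = 0 := norm_le_zero_iff.1 h3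
  exact mul_ne_zero (by exact_mod_cast hk) hx0 h4

end Padic

end Crest.Agent.R018.DegAx614
end
end

-- ▼ part R018/DegB_614

/-!
# Row 18: `ℤ_l`-valued characters are unramified outside `l`; decomposition groups in the layers
(helper614)
-/

set_option autoImplicit false

noncomputable section

open NumberField Module
open scoped Pointwise
open Crest.Agent.R018.Placesx484 Crest.Agent.R018.Placesx484.Place Crest.Agent.R018.Tamex31
  Crest.Agent.R018.DegAx614

namespace Crest.Agent.R018.DegBx614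

theorem isAlgebraic_rat (F E : Type*) [Field F] [NumberField F] [Field E] [Algebra F E]
    [IsGalois F E] [CharZero E] : Algebra.IsAlgebraic ℚ E := Algebra.IsAlgebraic.trans ℚ F E

variable {F E : Type*} [Field F] [NumberField F] [Field E] [Algebra F E] [IsGalois F E]
  [CharZero E] {l : ℕ} [hl : Fact l.Prime]

/-- A continuous `ℤ_l`-valued character is trivial on the inertia groups outside `l`. -/
theorem inertia_trivial (hE : ∀ n : ℕ, ∃ ζ : E, IsPrimitiveRoot ζ (l ^ n))
    (lam : (E ≃ₐ[F] E) →* Multiplicative ℤ_[l]) (hlam : Continuous lam) (P : Place E)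
    (hP : P.rchar ≠ l) (x : E ≃ₐ[F] E) (hx : x ∈ P.ideal.inertia (E ≃ₐ[F] E)) : lam x = 1 := by
  have hE' := isAlgebraic_rat F E
  obtain ⟨φ, hφP, hφ⟩ := exists_frob (F := F) P
  obtain ⟨k, hk, hq⟩ := exists_qv_eq (F := F) P
  have hq1 : 1 < P.qv F := by
    rw [hq]
    exact Nat.one_lt_pow hk.ne' P.rchar_prime.one_lt
  refine eq_one_of_pow lam x (P.qv F - 1) (by omega) (fun n => ?_)
  obtain ⟨ζ, hζ⟩ := hE n
  have hdvd : ¬ P.rchar ∣ l ^ n := fun h =>
    hP ((Nat.prime_dvd_prime_iff_eq P.rchar_prime hl.out).1 (P.rchar_prime.dvd_of_dvd_pow h))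
  have hc : φ ζ = ζ ^ (P.qv F) := frob_root P hφ hdvd hζ.pow_eq_one
  have : NeZero (l ^ n) := ⟨pow_ne_zero _ hl.out.ne_zero⟩
  have hfin : Finite (Multiplicative (ZMod (l ^ n))) := inferInstance
  let V := inS F P.val
  let π : V →* Multiplicative (ZMod (l ^ n)) := (red n lam).comp V.subtype
  have hopen : OpenKer π := by
    have h1 := isOpen_ker_red n lam hlam
    obtain ⟨L, hLfin, hLsub⟩ := (krullTopology_mem_nhds_one_iff F E _).mp
      (h1.mem_nhds (one_mem (red n lam).ker))
    refine ⟨L, hLfin, fun u hu => ?_⟩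
    have h2 : (u : E ≃ₐ[F] E) ∈ (L.fixingSubgroup : Set (E ≃ₐ[F] E)) := by
      intro x
      exact hu x x.2
    exact hLsub h2
  have hcard : Nat.card (Multiplicative (ZMod (l ^ n))) ∣ l ^ n := by
    rw [Nat.card_congr Multiplicative.toAdd, Nat.card_zmod]
  have hs : φ ∈ decS F P.val := (mem_decS_val P φ).2 hφP
  have hxV : x ∈ V := (mem_inS_val P x).2 hx
  have key := conj_eq_pow (V := V) le_rfl (val_natCast_eq_one P hdvd) hζ hcard π hopen hs
    (fun y hy => conj_mem_inS hs hy) hc ⟨x, hxV⟩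
  have h1 : π ⟨φ * x * φ⁻¹, conj_mem_inS hs hxV⟩ = red n lam x := by
    change red n lam (φ * x * φ⁻¹) = _
    rw [map_mul, map_mul, map_inv, mul_comm (red n lam φ), mul_assoc, mul_inv_cancel, mul_one]
  have h2 : red n lam x = red n lam x ^ (P.qv F) := by
    rw [← h1]
    exact key.trans (by rw [h1]; rfl)
  have h3 : red n lam x ^ (P.qv F - 1) * red n lam x = 1 * red n lam x := by
    rw [← pow_succ, one_mul, show P.qv F - 1 + 1 = P.qv F by omega]
    exact h2.symm
  exact mul_right_cancel h3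

section Layer

variable (hE : ∀ n : ℕ, ∃ ζ : E, IsPrimitiveRoot ζ (l ^ n))
  (lam : (E ≃ₐ[F] E) →* Multiplicative ℤ_[l]) (hlam : Continuous lam) (n : ℕ)
  (L : IntermediateField F E) [FiniteDimensional F L] [IsGalois F L]
  (hL : L.fixingSubgroup = (red n lam).ker)

include hL in
/-- an automorphism in the kernel of `lam` restricts to the identity -/
theorem restrict_eq_one (s : E ≃ₐ[F] E) (hs : lam s = 1) (x : L) : s (x : E) = x := by
  have h1 : s ∈ L.fixingSubgroup := by
    rw [hL, MonoidHom.mem_ker]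
    change (AddMonoidHom.toMultiplicative (PadicInt.toZModPow n).toAddMonoidHom) (lam s) = 1
    rw [hs, map_one]
  exact h1 x

include hE hlam hL in
/-- the inertia groups outside `l` are trivial in the layers -/
theorem inertia_layer [NumberField L] (P : Place E) (hP : P.rchar ≠ l) (σ : L ≃ₐ[F] L)
    (hσ : σ ∈ (P.res L).ideal.inertia (L ≃ₐ[F] L)) : σ = 1 := by
  obtain ⟨τ, hτ, hτσ⟩ := exists_inertia_lift P σ hσ
  have h1 := inertia_trivial hE lam hlam P hP τ hτ
  ext x
  have h2 := restrict_eq_one lam n L hL τ h1 x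
  have h3 := hτσ x
  rw [IntermediateField.algebraMap_apply, IntermediateField.algebraMap_apply, h2] at h3
  rw [AlgEquiv.one_apply]
  exact h3.symm

end Layer

end Crest.Agent.R018.DegBx614
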