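import Crest.Agent.R018.LogDefs_575

-- ▼ part R018/LogE_575
section

/-!
# Row 18, LEMMA LOG, block E, part 1 (helper575): full `S`-units are dense modulo `l`-powers
-/

set_option autoImplicit false

noncomputable section

open scoped NumberField
open IsDedekindDomain

namespace Crest.Agent.R018.LogEx575

open Crest.Agent.R018.LogDefsx575

variable {K : Type*} [Field K] [NumberField K]

theorem approx (l : ℕ) (b : K) (hb : ∀ v ∈ PA K l, v.valuation K b ≤ 1) :
    ∃ a : 𝓞 K, ∀ v ∈ PA K l, v.valuation K (b - (a : K)) ≤ v.valuation K (l : K) := by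
  classical
  by_cases hl : (l : 𝓞 K) = 0
  · -- then every prime is in `PA`
    have h1 : ∀ v : HeightOneSpectrum (𝓞 K), v.valuation K b ≤ 1 := fun v =>
      hb v (by simp [PA, hl])
    obtain ⟨a, ha⟩ := HeightOneSpectrum.mem_integers_of_valuation_le_one K b h1
    refine ⟨a, fun v _ => ?_⟩
    have : b - (a : K) = 0 := by rw [← ha]; exact sub_self _
    rw [this]; simp
  -- the ideal of denominators
  let I : Ideal (𝓞 K) :=
    { carrier := {d | ∃ n : 𝓞 K, b * (d : K) = (n : K)}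
      add_mem' := by
        rintro d e ⟨n, hn⟩ ⟨m, hm⟩
        exact ⟨n + m, by push_cast; rw [mul_add, hn, hm]⟩
      zero_mem' := ⟨0, by simp⟩
      smul_mem' := by
        rintro c d ⟨n, hn⟩
        refine ⟨c * n, ?_⟩
        simp only [smul_eq_mul]
        push_cast
        rw [mul_left_comm, hn] }
  have hI : I ⊔ Ideal.span {(l : 𝓞 K)} = ⊤ := by
    by_contra hne
    obtain ⟨m, hm, hle⟩ := Ideal.exists_le_maximal _ hne
    have hlm : (l : 𝓞 K) ∈ m := hle (Ideal.mem_sup_right (Ideal.mem_span_singleton_self _))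
    have hm0 : m ≠ ⊥ := by
      rintro rfl
      exact hl (by simpa using hlm)
    let v : HeightOneSpectrum (𝓞 K) := ⟨m, hm.isPrime, hm0⟩
    have hv : v ∈ PA K l := hlm
    obtain ⟨n, d, hd⟩ := HeightOneSpectrum.exists_primeCompl_mul_eq_of_integer v b (hb v hv)
    exact d.2 (hle (Ideal.mem_sup_left ⟨n, hd⟩))
  have h1 : (1 : 𝓞 K) ∈ I ⊔ Ideal.span {(l : 𝓞 K)} := by rw [hI]; trivial
  obtain ⟨d, ⟨n, hn⟩, e, he, hde⟩ := Submodule.mem_sup.mp h1
  obtain ⟨c, rfl⟩ := Ideal.mem_span_singleton'.mp he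
  refine ⟨n, fun v hv => ?_⟩
  have h2 : b - (n : K) = b * (c : K) * (l : K) := by
    rw [← hn]
    have : (d : K) + (c : K) * (l : K) = 1 := by
      have := congrArg (algebraMap (𝓞 K) K) hde
      simpa using this
    linear_combination (-b) * this
  rw [h2, map_mul, map_mul]
  have h3 : v.valuation K b * v.valuation K (c : K) ≤ 1 :=
    mul_le_one' (hb v hv) (v.valuation_le_one c)
  calc v.valuation K b * v.valuation K (c : K) * v.valuation K (l : K)
      ≤ 1 * v.valuation K (l : K) := by gcongr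
    _ = _ := one_mul _

/-- congruence `z ≡ 0 mod l^k` at all primes above `l` -/
def Cg (l k : ℕ) (z : K) : Prop := ∀ v ∈ PA K l, v.valuation K z ≤ v.valuation K (l : K) ^ k

theorem val_l_le (l : ℕ) (v : HeightOneSpectrum (𝓞 K)) : v.valuation K (l : K) ≤ 1 := by
  have := v.valuation_le_one (K := K) (l : 𝓞 K)
  simpa using this

theorem Cg.mono {l k k' : ℕ} {z : K} (h : Cg l k z) (hk : k' ≤ k) : Cg l k' z := fun v hv =>
  (h v hv).trans (pow_le_pow_right_of_le_one' (val_l_le l v) hk)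

theorem Cg.add {l k : ℕ} {z w : K} (h : Cg l k z) (h' : Cg l k w) : Cg l k (z + w) := fun v hv =>
  (v.valuation K).map_add_le (h v hv) (h' v hv)

theorem Cg.neg {l k : ℕ} {z : K} (h : Cg l k z) : Cg l k (-z) := fun v hv => by
  rw [Valuation.map_neg]; exact h v hv

theorem Cg.sub {l k : ℕ} {z w : K} (h : Cg l k z) (h' : Cg l k w) : Cg l k (z - w) := by
  rw [sub_eq_add_neg]; exact h.add h'.neg

theorem Cg.mul {l k m : ℕ} {z w : K} (h : Cg l k z) (h' : Cg l m w) : Cg l (k + m) (z * w) :=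
  fun v hv => by
    rw [map_mul, pow_add]; exact mul_le_mul' (h v hv) (h' v hv)

theorem Cg.pow {l k : ℕ} {z : K} (h : Cg l k z) (n : ℕ) : Cg l (k * n) (z ^ n) :=
  fun v hv => by
    rw [map_pow, pow_mul]; exact pow_le_pow_left₀ zero_le (h v hv) n

theorem Cg.sum {ι : Type*} {l k : ℕ} {s : Finset ι} {f : ι → K} (h : ∀ i ∈ s, Cg l k (f i)) :
    Cg l k (∑ i ∈ s, f i) := fun v hv =>
  (v.valuation K).map_sum_le fun i hi => h i hi v hv

theorem Cg_l (l : ℕ) : Cg l 1 (l : K) := fun v _ => by simp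

theorem Cg_int (l : ℕ) (a : 𝓞 K) : Cg l 0 (a : K) := fun v _ => by
  simpa using v.valuation_le_one (K := K) a

theorem Cg_nat (l : ℕ) (a : ℕ) : Cg l 0 (a : K) := by
  simpa using Cg_int (K := K) l (a : 𝓞 K)

theorem mem_Uk {l k : ℕ} {x : Kˣ} : x ∈ Uk K l k ↔ x ∈ Rl K l ∧ Cg l k ((x : K) - 1) := Iff.rfl

theorem mem_Rl {l : ℕ} {x : Kˣ} : x ∈ Rl K l ↔ ∀ v ∈ PA K l, v.valuation K (x : K) = 1 := by
  constructor
  · intro h v hv
    exact h v (by simpa using hv)
  · intro h v hv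
    exact h v (by simpa using hv)

theorem pow_congr {l : ℕ} (hl : l.Prime) (hodd : l ≠ 2) {j : ℕ} (hj : 1 ≤ j) {t : K}
    (ht : Cg l j t) : Cg l (j + 2) ((1 + t) ^ l - 1 - (l : K) * t) := by
  have h3 : 3 ≤ l := by
    have := hl.two_le
    omega
  obtain ⟨m, rfl⟩ : ∃ m, l = m + 2 + 1 := ⟨l - 3, by omega⟩
  have h1 : (1 + t) ^ (m + 2 + 1) - 1 - ((m + 2 + 1 : ℕ) : K) * t
      = ∑ i ∈ Finset.range (m + 2), t ^ (i + 2) * ((m + 2 + 1).choose (i + 2) : K) := by
    rw [add_comm, add_pow]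
    rw [Finset.sum_range_succ', Finset.sum_range_succ']
    simp only [one_pow, mul_one, pow_zero, zero_add, pow_one, Nat.choose_zero_right, Nat.cast_one,
      Nat.choose_one_right]
    have : ∀ i : ℕ, i + 1 + 1 = i + 2 := fun i => rfl
    simp only [this]
    ring
  rw [h1]
  refine Cg.sum fun i hi => ?_
  rw [Finset.mem_range] at hi
  rcases Nat.lt_or_ge (i + 2) (m + 2 + 1) with hlt | hge
  · have hdvd : (m + 2 + 1) ∣ (m + 2 + 1).choose (i + 2) :=
      hl.dvd_choose_self (by omega) hlt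
    obtain ⟨c, hc⟩ := hdvd
    rw [hc]
    push_cast
    have := ((ht.pow (i + 2)).mul ((Cg_l (K := K) (m + 2 + 1)).mul (Cg_nat (m + 2 + 1) c)))
    push_cast at this
    refine this.mono ?_
    nlinarith
  · have hi' : i + 2 = m + 2 + 1 := by omega
    rw [hi', Nat.choose_self, Nat.cast_one, mul_one]
    refine (ht.pow (m + 2 + 1)).mono ?_
    nlinarith

theorem full_step {l : ℕ} (hl : l.Prime) (hodd : l ≠ 2) {S : Set (HeightOneSpectrum (𝓞 K))}
    {j : ℕ} (hj : 1 ≤ j) (h : Full K l S j) : Full K l S (j + 1) := by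
  intro a
  obtain ⟨x, hx, hx'⟩ := h a
  refine ⟨x ^ l, pow_mem hx l, ?_⟩
  have hx'' : Cg l (j + 1) ((x : K) - 1 - (l : K) ^ j * (a : K)) := hx'
  set t : K := (x : K) - 1 with ht
  have hlj : Cg l j ((l : K) ^ j * (a : K)) := by
    have := ((Cg_l (K := K) l).pow j).mul (Cg_int l a)
    simpa using this
  have htj : Cg l j t := by
    have h2 : t = ((x : K) - 1 - (l : K) ^ j * (a : K)) + (l : K) ^ j * (a : K) := by ring
    rw [h2]
    exact (hx''.mono (Nat.le_succ j)).add hlj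
  have h3 := pow_congr hl hodd hj htj
  have h4 : (((x ^ l : Kˣ) : K) - 1 - (l : K) ^ (j + 1) * (a : K))
      = ((1 + t) ^ l - 1 - (l : K) * t) + (l : K) * (t - (l : K) ^ j * (a : K)) := by
    rw [ht]; push_cast; ring
  show Cg l (j + 1 + 1) _
  rw [h4]
  refine h3.add ?_
  have := (Cg_l (K := K) l).mul hx''
  refine this.mono (by omega)

theorem full_of_le {l : ℕ} (hl : l.Prime) (hodd : l ≠ 2) {S : Set (HeightOneSpectrum (𝓞 K))}
    {j : ℕ} (hj : 1 ≤ j) (h : Full K l S j) {k : ℕ} (hk : j ≤ k) : Full K l S k := by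
  induction k, hk using Nat.le_induction with
  | base => exact h
  | succ k hk ih => exact full_step hl hodd (hj.trans hk) ih

theorem unit_le_Rl {l : ℕ} {S : Set (HeightOneSpectrum (𝓞 K))} (hS : Disjoint S (PA K l)) :
    S.unit K ≤ Rl K l := by
  intro x hx v hv
  refine hx v fun hvS => ?_
  have : v ∈ PA K l := by simpa using hv
  exact Set.disjoint_left.mp hS hvS this

theorem Uk_le {l : ℕ} (hl : l.Prime) (hodd : l ≠ 2) {S : Set (HeightOneSpectrum (𝓞 K))}
    (hS : Disjoint S (PA K l)) {j : ℕ} (hj : 1 ≤ j) (h : Full K l S j) (k : ℕ) :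
    Uk K l j ≤ S.unit K ⊔ Uk K l k := by
  rcases Nat.le_total k j with hk | hk
  · refine le_trans ?_ le_sup_right
    intro x hx
    rw [mem_Uk] at hx ⊢
    exact ⟨hx.1, hx.2.mono hk⟩
  induction k, hk using Nat.le_induction with
  | base => exact le_sup_right
  | succ k hk ih =>
    refine ih.trans (sup_le le_sup_left ?_)
    intro x hx
    rw [mem_Uk] at hx
    have hl0 : (l : K) ≠ 0 := by exact_mod_cast hl.ne_zero
    -- `b = (x-1)/l^k` is integral at `l`
    have hb : ∀ v ∈ PA K l, v.valuation K (((x : K) - 1) / (l : K) ^ k) ≤ 1 := by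
      intro v hv
      rw [map_div₀, map_pow]
      have hv0 : v.valuation K (l : K) ≠ 0 := by simpa using hl0
      exact div_le_one_of_le₀ (hx.2 v hv) zero_le
    obtain ⟨a, ha⟩ := approx l _ hb
    obtain ⟨y, hy, hy'⟩ := full_of_le hl hodd hj h hk a
    have hyR : y ∈ Rl K l := unit_le_Rl hS hy
    have hy'' : Cg l (k + 1) ((y : K) - 1 - (l : K) ^ k * (a : K)) := hy'
    have h1 : Cg l (k + 1) ((x : K) - (y : K)) := by
      have e1 : (x : K) - (y : K) = (l : K) ^ k * (((x : K) - 1) / (l : K) ^ k - (a : K))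
          - ((y : K) - 1 - (l : K) ^ k * (a : K)) := by
        field_simp
        ring
      rw [e1]
      refine Cg.sub ?_ hy''
      have h2 : Cg l 1 (((x : K) - 1) / (l : K) ^ k - (a : K)) := fun v hv => by
        simpa using ha v hv
      have h3 := ((Cg_l (K := K) l).pow k).mul h2
      simpa using h3
    have h5 : y⁻¹ * x ∈ Uk K l (k + 1) := by
      rw [mem_Uk]
      refine ⟨mul_mem (inv_mem hyR) hx.1, fun v hv => ?_⟩
      have e2 : (((y⁻¹ * x : Kˣ) : K) - 1) = ((x : K) - (y : K)) * ((y⁻¹ : Kˣ) : K) := by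
        have : (y : K) * ((y⁻¹ : Kˣ) : K) = 1 := by simp
        push_cast at this ⊢
        linear_combination (1 : K) * this
      rw [e2, map_mul]
      have h6 : v.valuation K ((y⁻¹ : Kˣ) : K) = 1 := mem_Rl.mp (inv_mem hyR) v hv
      rw [h6, mul_one]
      exact h1 v hv
    have h7 : x = y * (y⁻¹ * x) := by group
    rw [h7]
    exact Subgroup.mul_mem_sup hy h5

end Crest.Agent.R018.LogEx575
end
end

-- ▼ part R018/LogF_575
section

/-!
# Row 18, LEMMA LOG, block F (helper575): the pair `K ⊂ L`, units and congruence subgroups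
-/

set_option autoImplicit false
set_option linter.unusedSectionVars false

noncomputable section

open scoped NumberField
open IsDedekindDomain

namespace Crest.Agent.R018.LogFx575

open Crest.Agent.R018.LogDefsx575 Crest.Agent.R018.LogEx575

section Galois

variable {K L : Type*} [Field K] [Field L] [Algebra K L]

theorem sg_apply (σ : L ≃ₐ[K] L) (x : Lˣ) : ((sg K σ x : Lˣ) : L) = σ x / x := by
  rw [div_eq_mul_inv, ← Units.val_inv_eq_inv_val]
  show ((Units.map (σ : L →* L) x / x : Lˣ) : L) = _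
  rw [div_eq_mul_inv, Units.val_mul]
  rfl

theorem inc_apply (x : Kˣ) : ((inc K L x : Lˣ) : L) = algebraMap K L x := rfl

theorem inc_injective : Function.Injective (inc K L) := by
  intro x y h
  have : algebraMap K L x = algebraMap K L y := congrArg Units.val h
  exact Units.ext ((algebraMap K L).injective this)

theorem mem_ker_sg (σ : L ≃ₐ[K] L) (x : Lˣ) : x ∈ (sg K σ).ker ↔ σ (x : L) = x := by
  rw [MonoidHom.mem_ker, Units.ext_iff, sg_apply, Units.val_one]
  exact div_eq_one_iff_eq x.ne_zero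

theorem nm_apply (x : Lˣ) : ((nm K L x : Lˣ) : L) = algebraMap K L (Algebra.norm K (x : L)) := rfl

theorem nm_sg (σ : L ≃ₐ[K] L) (x : Lˣ) : nm K L (sg K σ x) = 1 := by
  have h9 : Algebra.norm K (σ (x : L) / (x : L)) * Algebra.norm K (x : L)
      = Algebra.norm K (σ (x : L)) := by
    rw [← map_mul, div_mul_cancel₀ _ x.ne_zero]
  rw [Units.ext_iff, nm_apply, sg_apply, Units.val_one]
  have h : Algebra.norm K (σ (x : L)) = Algebra.norm K (x : L) := Algebra.norm_eq_of_algEquiv σ x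
  rw [h] at h9
  by_cases h0 : Algebra.norm K (x : L) = 0
  · -- infinite-dimensional or zero: the norm of a unit is a unit
    have h1 : Algebra.norm K (x : L) * Algebra.norm K ((x⁻¹ : Lˣ) : L) = 1 := by
      rw [← map_mul]; simp
    rw [h0, zero_mul] at h1
    exact absurd h1 zero_ne_one
  · rw [mul_eq_right₀ h0 |>.mp h9, map_one]

/-- `x` is fixed by the generator iff it comes from `K`. -/
theorem ker_sg_eq [FiniteDimensional K L] [IsGalois K L] (σ : L ≃ₐ[K] L)
    (hσ : ∀ τ, τ ∈ Subgroup.zpowers σ) (x : Lˣ) :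
    x ∈ (sg K σ).ker ↔ ∃ a : Kˣ, inc K L a = x := by
  rw [mem_ker_sg]
  constructor
  · intro h
    have hfix : ∀ τ : L ≃ₐ[K] L, τ (x : L) = x := by
      intro τ
      have hst : σ ∈ MulAction.stabilizer (L ≃ₐ[K] L) (x : L) := h
      have := (Subgroup.zpowers_le.mpr hst) (hσ τ)
      exact this
    obtain ⟨a, ha⟩ := (IsGalois.mem_range_algebraMap_iff_fixed (F := K) (E := L) (x : L)).mpr hfix
    have ha0 : a ≠ 0 := by
      rintro rfl
      exact x.ne_zero (by rw [← ha, map_zero])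
    exact ⟨Units.mk0 a ha0, Units.ext ha⟩
  · rintro ⟨a, rfl⟩
    rw [inc_apply]
    exact σ.commutes _

end Galois

section Primes

variable {K L : Type*} [Field K] [NumberField K] [Field L] [NumberField L] [Algebra K L]

theorem val_eq_one_iff (v : HeightOneSpectrum (𝓞 K)) (w : HeightOneSpectrum (𝓞 L))
    [w.asIdeal.LiesOver v.asIdeal] (a : K) :
    w.valuation L (algebraMap K L a) = 1 ↔ v.valuation K a = 1 := by
  rw [← HeightOneSpectrum.valuation_liesOver L v w]
  rw [pow_eq_one_iff]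
  exact or_iff_left (Ideal.IsDedekindDomain.ramificationIdx'_ne_zero_of_liesOver w.asIdeal v.ne_bot)

theorem exists_over (v : HeightOneSpectrum (𝓞 K)) :
    ∃ w : HeightOneSpectrum (𝓞 L), w.asIdeal.LiesOver v.asIdeal := by
  obtain ⟨⟨P, hP, hP'⟩⟩ := v.asIdeal.nonempty_primesOver (S := 𝓞 L)
  have hne : P ≠ ⊥ := by
    rintro rfl
    have := hP'.over
    rw [Ideal.under_bot] at this
    exact v.ne_bot this
  exact ⟨⟨P, hP, hne⟩, hP'⟩

theorem exists_under (w : HeightOneSpectrum (𝓞 L)) :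
    ∃ v : HeightOneSpectrum (𝓞 K), w.asIdeal.LiesOver v.asIdeal :=
  ⟨w.under (𝓞 K), ⟨rfl⟩⟩

theorem under_unique {w : HeightOneSpectrum (𝓞 L)} {v v' : HeightOneSpectrum (𝓞 K)}
    (h : w.asIdeal.LiesOver v.asIdeal) (h' : w.asIdeal.LiesOver v'.asIdeal) : v = v' := by
  apply HeightOneSpectrum.ext
  rw [h.over, h'.over]

theorem inc_mem_unit (S : Set (HeightOneSpectrum (𝓞 K))) (a : Kˣ) :
    inc K L a ∈ (ov L S).unit L ↔ a ∈ S.unit K := by
  constructor
  · intro h v hv
    obtain ⟨w, hw⟩ := exists_over (L := L) v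
    have hw' : w ∉ ov L S := by
      rintro ⟨v', hv', h'⟩
      exact hv (under_unique hw h' ▸ hv')
    have := h w hw'
    rw [inc_apply] at this
    exact (val_eq_one_iff v w _).mp this
  · intro h w hw
    obtain ⟨v, hv⟩ := exists_under (K := K) w
    have hvS : v ∉ S := fun hvS => hw ⟨v, hvS, hv⟩
    rw [inc_apply]
    exact (val_eq_one_iff v w _).mpr (h v hvS)

theorem PA_ov (l : ℕ) : PA L l = ov L (PA K l) := by
  ext w
  constructor
  · intro h
    obtain ⟨v, hv⟩ := exists_under (K := K) w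
    refine ⟨v, ?_, hv⟩
    show (l : 𝓞 K) ∈ v.asIdeal
    rw [hv.over, Ideal.mem_comap, map_natCast]
    exact h
  · rintro ⟨v, hv, h⟩
    have hv' : (l : 𝓞 K) ∈ v.asIdeal := hv
    rw [h.over, Ideal.mem_comap, map_natCast] at hv'
    exact hv'

theorem mem_PA_iff {l : ℕ} {v : HeightOneSpectrum (𝓞 K)} {w : HeightOneSpectrum (𝓞 L)}
    (h : w.asIdeal.LiesOver v.asIdeal) : w ∈ PA L l ↔ v ∈ PA K l := by
  rw [PA_ov (K := K)]
  constructor
  · rintro ⟨v', hv', h'⟩
    exact under_unique h h' ▸ hv'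
  · intro hv
    exact ⟨v, hv, h⟩


theorem ov_disjoint {S : Set (HeightOneSpectrum (𝓞 K))} {l : ℕ} (h : Disjoint S (PA K l)) :
    Disjoint (ov L S) (PA L l) := by
  rw [Set.disjoint_left]
  rintro w ⟨v, hv, hw⟩ hw'
  exact Set.disjoint_left.mp h hv ((mem_PA_iff hw).mp hw')

theorem ker_inf_unit [IsGalois K L] (σ : L ≃ₐ[K] L)
    (hσ : ∀ τ, τ ∈ Subgroup.zpowers σ) (S : Set (HeightOneSpectrum (𝓞 K))) :
    (sg K σ).ker ⊓ (ov L S).unit L = (S.unit K).map (inc K L) := by
  ext x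
  rw [Subgroup.mem_inf, ker_sg_eq σ hσ]
  constructor
  · rintro ⟨⟨a, rfl⟩, h⟩
    exact ⟨a, (inc_mem_unit S a).mp h, rfl⟩
  · rintro ⟨a, ha, rfl⟩
    exact ⟨⟨a, rfl⟩, (inc_mem_unit S a).mpr ha⟩

end Primes

end Crest.Agent.R018.LogFx575
end
end

-- ▼ part R018/LogG_575
section

/-!
# Row 18, LEMMA LOG, block F part 2 (helper575): Galois stability, finiteness of `Rl/Uk`,
and the conditional final theorem.
-/

set_option autoImplicit false
set_option linter.unusedSectionVars false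

noncomputable section

open scoped NumberField
open IsDedekindDomain

namespace Crest.Agent.R018.LogGx575

open Crest.Agent.R018.LogDefsx575 Crest.Agent.R018.LogEx575 Crest.Agent.R018.LogFx575

section Stability

variable {K L : Type*} [Field K] [NumberField K] [Field L] [NumberField L] [Algebra K L]

/-- the prime `σ⁻¹ w` -/
def cm (σ : L ≃ₐ[K] L) (w : HeightOneSpectrum (𝓞 L)) : HeightOneSpectrum (𝓞 L) where
  asIdeal := w.asIdeal.comap (NumberField.RingOfIntegers.mapRingEquiv σ.toRingEquiv)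
  isPrime := Ideal.comap_isPrime _ _
  ne_bot := by
    intro h
    apply w.ne_bot
    rw [eq_bot_iff]
    intro x hx
    have h1 : (NumberField.RingOfIntegers.mapRingEquiv σ.toRingEquiv).symm x ∈
        w.asIdeal.comap (NumberField.RingOfIntegers.mapRingEquiv σ.toRingEquiv) := by
      rw [Ideal.mem_comap]
      simpa using hx
    rw [h] at h1
    simpa using h1

theorem cm_liesOver (σ : L ≃ₐ[K] L) (w : HeightOneSpectrum (𝓞 L)) (v : HeightOneSpectrum (𝓞 K))
    (h : w.asIdeal.LiesOver v.asIdeal) : (cm σ w).asIdeal.LiesOver v.asIdeal := by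
  constructor
  rw [h.over]
  ext x
  rw [Ideal.mem_comap, Ideal.mem_comap]
  show _ ↔ _ ∈ w.asIdeal
  have : NumberField.RingOfIntegers.mapRingEquiv σ.toRingEquiv (algebraMap (𝓞 K) (𝓞 L) x)
      = algebraMap (𝓞 K) (𝓞 L) x := by
    apply NumberField.RingOfIntegers.ext
    exact σ.commutes _
  rw [this]

theorem val_le_one_of_cm (σ : L ≃ₐ[K] L) (w : HeightOneSpectrum (𝓞 L)) (x : L)
    (h : (cm σ w).valuation L x ≤ 1) : w.valuation L (σ x) ≤ 1 := by
  obtain ⟨n, d, hd⟩ := HeightOneSpectrum.exists_primeCompl_mul_eq_of_integer _ x h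
  have h1 : σ x * ((NumberField.RingOfIntegers.mapRingEquiv σ.toRingEquiv (d : 𝓞 L) : 𝓞 L) : L)
      = ((NumberField.RingOfIntegers.mapRingEquiv σ.toRingEquiv n : 𝓞 L) : L) := by
    have := congrArg σ hd
    rw [map_mul] at this
    exact this
  have h2 : w.valuation L
      ((NumberField.RingOfIntegers.mapRingEquiv σ.toRingEquiv (d : 𝓞 L) : 𝓞 L) : L) = 1 := by
    have := (HeightOneSpectrum.valuation_eq_one_iff_notMem (K := L) w
      (r := NumberField.RingOfIntegers.mapRingEquiv σ.toRingEquiv (d : 𝓞 L)))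
    exact this.mpr d.2
  have h3 : w.valuation L
      ((NumberField.RingOfIntegers.mapRingEquiv σ.toRingEquiv n : 𝓞 L) : L) ≤ 1 :=
    w.valuation_le_one _
  rw [← h1, map_mul, h2, mul_one] at h3
  exact h3

theorem val_eq_one_of_cm (σ : L ≃ₐ[K] L) (w : HeightOneSpectrum (𝓞 L)) (x : L)
    (h : (cm σ w).valuation L x = 1) : w.valuation L (σ x) = 1 := by
  refine le_antisymm (val_le_one_of_cm σ w x h.le) ?_
  have h1 : (cm σ w).valuation L x⁻¹ ≤ 1 := by rw [map_inv₀, h, inv_one]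
  have h2 := val_le_one_of_cm σ w _ h1
  have h0 : w.valuation L (σ x) ≠ 0 := by
    rw [Valuation.ne_zero_iff]
    intro hx
    have : x = 0 := by simpa using hx
    rw [this, map_zero] at h
    exact zero_ne_one h
  rw [map_inv₀, map_inv₀] at h2
  exact (inv_le_one₀ (zero_lt_iff.mpr h0)).mp h2

/-- `Set.unit`-groups of sets of primes coming from the base are stable under `sg σ` -/
theorem map_sg_le (σ : L ≃ₐ[K] L) (S : Set (HeightOneSpectrum (𝓞 K))) :
    ((ov L S).unit L).map (sg K σ) ≤ (ov L S).unit L := by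
  rintro _ ⟨x, hx, rfl⟩ w hw
  have hw' : cm σ w ∉ ov L S := by
    rintro ⟨v, hv, h⟩
    apply hw
    obtain ⟨v', hv'⟩ := exists_under (K := K) w
    have := under_unique h (cm_liesOver σ w v' hv')
    exact ⟨v, hv, this ▸ hv'⟩
  have h1 : w.valuation L (σ (x : L)) = 1 := val_eq_one_of_cm σ w _ (hx _ hw')
  rw [sg_apply, map_div₀, h1]
  have h2 : w.valuation L (x : L) = 1 := hx w hw
  rw [h2, div_one]

end Stability

section Finite

variable {K : Type*} [Field K] [NumberField K]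

theorem PA_pow (l : ℕ) {j : ℕ} (hj : j ≠ 0) : PA K (l ^ j) = PA K l := by
  ext v
  show ((l ^ j : ℕ) : 𝓞 K) ∈ v.asIdeal ↔ (l : 𝓞 K) ∈ v.asIdeal
  rw [Nat.cast_pow]
  exact v.isPrime.pow_mem_iff_mem _ (Nat.pos_of_ne_zero hj)

theorem approx_pow (l : ℕ) {j : ℕ} (hj : j ≠ 0) (b : K)
    (hb : ∀ v ∈ PA K l, v.valuation K b ≤ 1) :
    ∃ a : 𝓞 K, Cg l j (b - (a : K)) := by
  have := approx (l ^ j) b (by rwa [PA_pow l hj])
  obtain ⟨a, ha⟩ := this
  refine ⟨a, fun v hv => ?_⟩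
  have := ha v (by rwa [PA_pow l hj])
  rwa [Nat.cast_pow, map_pow] at this

theorem Cg_of_mem_span {l j : ℕ} {a : 𝓞 K} (h : a ∈ Ideal.span {((l : 𝓞 K)) ^ j}) :
    Cg l j (a : K) := by
  obtain ⟨b, rfl⟩ := Ideal.mem_span_singleton'.mp h
  have := (Cg_int (K := K) l b).mul ((Cg_l (K := K) l).pow j)
  simpa using this

theorem Cg.congr_mul {l k : ℕ} {x y : K} (h : Cg l k (x - y)) {z : Kˣ} (hz : z ∈ Rl K l) :
    Cg l k (x * z - y * z) := by
  intro v hv
  rw [← sub_mul, map_mul, mem_Rl.mp hz v hv, mul_one]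
  exact h v hv

theorem relIndex_Uk_ne_zero {l : ℕ} (hl : l ≠ 0) (j : ℕ) : (Uk K l j).relIndex (Rl K l) ≠ 0 := by
  -- reduce to `j ≠ 0`
  suffices h : ∀ j, j ≠ 0 → (Uk K l j).relIndex (Rl K l) ≠ 0 by
    intro h0
    refine h (j + 1) (Nat.succ_ne_zero j) (Subgroup.relIndex_eq_zero_of_le_left ?_ h0)
    intro x hx
    rw [mem_Uk] at hx ⊢
    exact ⟨hx.1, hx.2.mono (Nat.le_succ j)⟩
  clear j
  intro j hj
  have hne : Ideal.span {((l : 𝓞 K)) ^ j} ≠ ⊥ := by
    rw [Ne, Ideal.span_singleton_eq_bot]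
    exact pow_ne_zero _ (by exact_mod_cast hl)
  have hfin : Finite (𝓞 K ⧸ Ideal.span {((l : 𝓞 K)) ^ j}) :=
    Ideal.finiteQuotientOfFreeOfNeBot _ hne
  have hex : ∀ x : Rl K l, ∃ a : 𝓞 K, Cg l j (((x : Kˣ) : K) - (a : K)) := fun x =>
    approx_pow l hj _ fun v hv => (mem_Rl.mp x.2 v hv).le
  choose F hF using hex
  let φ : (Rl K l) ⧸ ((Uk K l j).subgroupOf (Rl K l)) → 𝓞 K ⧸ Ideal.span {((l : 𝓞 K)) ^ j} :=
    fun q => Ideal.Quotient.mk _ (F q.out)
  have hφ : Function.Injective φ := by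
    intro p q hpq
    have h1 : F p.out - F q.out ∈ Ideal.span {((l : 𝓞 K)) ^ j} := Ideal.Quotient.eq.mp hpq
    have h2 : Cg l j (((p.out : Rl K l) : Kˣ) - ((q.out : Rl K l) : Kˣ) : K) := by
      have e : (((p.out : Rl K l) : Kˣ) - ((q.out : Rl K l) : Kˣ) : K)
          = ((((p.out : Rl K l) : Kˣ) : K) - (F p.out : K)) - ((((q.out : Rl K l) : Kˣ) : K)
            - (F q.out : K)) + ((F p.out - F q.out : 𝓞 K) : K) := by
        push_cast; ring
      rw [e]
      exact ((hF _).sub (hF _)).add (Cg_of_mem_span h1)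
    rw [← p.out_eq', ← q.out_eq']
    symm
    rw [QuotientGroup.eq, Subgroup.mem_subgroupOf]
    rw [mem_Uk]
    refine ⟨SetLike.coe_mem _, ?_⟩
    have h3 := Cg.congr_mul h2 (z := (((q.out : Rl K l) : Kˣ))⁻¹) (inv_mem (SetLike.coe_mem _))
    have e : (((((q.out)⁻¹ * p.out : Rl K l) : Kˣ) : K) - 1)
        = (((p.out : Rl K l) : Kˣ) : K) * ((((q.out : Rl K l) : Kˣ)⁻¹ : Kˣ) : K)
          - (((q.out : Rl K l) : Kˣ) : K) * ((((q.out : Rl K l) : Kˣ)⁻¹ : Kˣ) : K) := by
      have : (((q.out : Rl K l) : Kˣ) : K) * ((((q.out : Rl K l) : Kˣ)⁻¹ : Kˣ) : K) = 1 := by simp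
      rw [this]
      push_cast
      ring
    rw [e]
    exact h3
  have : Finite ((Rl K l) ⧸ ((Uk K l j).subgroupOf (Rl K l))) := Finite.of_injective φ hφ
  exact Subgroup.index_ne_zero_of_finite

end Finite

end Crest.Agent.R018.LogGx575
end
end

-- ▼ part R018/LogAsm_575
section

/-!
# Row 18, LEMMA LOG, block E, part 2 (helper575): the purely group theoretic assembly
-/

set_option autoImplicit false

noncomputable section

namespace Crest.Agent.R018.LogAsmx575

open Crest.Agent.R018.LogDefsx575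

variable {M : Type*} [CommGroup M]

/-- group theoretic assembly of LEMMA LOG (helper476's form).
`U = U_S(L)`, `R = L_(l)^*`, `V` the congruence subgroup, `KR = K_(l)^*`, `UK = U_S(K)`. -/
theorem assembly (f g : M →* M) (hgf : ∀ x, g (f x) = 1) (U R V KR UK : Subgroup M)
    (hUR : U ≤ R) (hUf : U.map f ≤ U) (n c C : ℕ)
    (hB0 : h0 f g U ≠ 0) (hB : h1 f g U = n * h0 f g U)
    (hC : (U.map f).relIndex ((g.ker ⊓ U) ⊓ (R.map f ⊔ V)) ≤ c)
    (hD : (R.map f ⊔ V).relIndex (R ⊓ V.comap g) = (R.map g ⊔ V).relIndex (KR ⊔ V))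
    (hD0 : (R.map f ⊔ V).relIndex (R ⊓ V.comap g) ≠ 0)
    (hK : f.ker ⊓ U = UK)
    (hE : (UK ⊔ V).relIndex KR ≤ C) (hE0 : (UK ⊔ V).relIndex KR ≠ 0) :
    n ≤ c * C := by
  set F := U.map f with hF
  set A := g.ker ⊓ U with hA
  have hFA : F ≤ A := by
    rintro _ ⟨x, hx, rfl⟩
    exact ⟨hgf x, hUf ⟨x, hx, rfl⟩⟩
  have hFR : F ≤ R.map f ⊔ V := (Subgroup.map_mono hUR).trans le_sup_left
  have e1 : F.relIndex (A ⊓ (R.map f ⊔ V)) * (A ⊓ (R.map f ⊔ V)).relIndex A = F.relIndex A :=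
    Subgroup.relIndex_mul_relIndex _ _ _ (le_inf hFA hFR) inf_le_left
  have e2 : (A ⊓ (R.map f ⊔ V)).relIndex A = (R.map f ⊔ V).relIndex A := by
    rw [inf_comm, Subgroup.inf_relIndex_right]
  have e3 : (R.map f ⊔ V).relIndex A ≤ (R.map f ⊔ V).relIndex (R ⊓ V.comap g) := by
    refine Subgroup.relIndex_le_of_le_right ?_ hD0
    rintro x ⟨hx, hx'⟩
    refine ⟨hUR hx', ?_⟩
    have : g x = 1 := hx
    show g x ∈ V
    rw [this]; exact one_mem _
  set W := R.map g ⊔ V with hW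
  have hVW : V ≤ W := le_sup_right
  -- the index of `W` in `KR ⊔ V`
  have e4 : W.relIndex (KR ⊔ V) ≤ h0 f g U * C := by
    have hK0 : (U.map g).relIndex UK ≠ 0 := by rw [← hK]; exact hB0
    have a1 : W.relIndex (UK ⊔ W) = W.relIndex UK := Subgroup.relIndex_sup_right _ _
    have a2 : W.relIndex UK ≤ (U.map g).relIndex UK :=
      Subgroup.relIndex_le_of_le_left ((Subgroup.map_mono hUR).trans le_sup_left) hK0
    have a2' : W.relIndex UK ≠ 0 := fun h => hK0 (Subgroup.relIndex_eq_zero_of_le_left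
      ((Subgroup.map_mono hUR).trans le_sup_left) h)
    have a3 : (UK ⊔ W).relIndex (KR ⊔ (UK ⊔ W)) = (UK ⊔ W).relIndex KR :=
      Subgroup.relIndex_sup_right _ _
    have a4 : (UK ⊔ W).relIndex KR ≤ (UK ⊔ V).relIndex KR :=
      Subgroup.relIndex_le_of_le_left (sup_le_sup_left hVW _) hE0
    have a4' : (UK ⊔ W).relIndex KR ≠ 0 := fun h => hE0 (Subgroup.relIndex_eq_zero_of_le_left
      (sup_le_sup_left hVW _) h)
    have a5 : W.relIndex (UK ⊔ W) * (UK ⊔ W).relIndex (KR ⊔ (UK ⊔ W))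
        = W.relIndex (KR ⊔ (UK ⊔ W)) :=
      Subgroup.relIndex_mul_relIndex _ _ _ le_sup_right le_sup_right
    have a6 : W.relIndex (KR ⊔ (UK ⊔ W)) ≠ 0 := by
      rw [← a5, a1, a3]; exact mul_ne_zero a2' a4'
    calc W.relIndex (KR ⊔ V) ≤ W.relIndex (KR ⊔ (UK ⊔ W)) :=
          Subgroup.relIndex_le_of_le_right
            (sup_le_sup_left (hVW.trans le_sup_right) _) a6
      _ = W.relIndex UK * (UK ⊔ W).relIndex KR := by rw [← a5, a1, a3]
      _ ≤ (U.map g).relIndex UK * (UK ⊔ V).relIndex KR := Nat.mul_le_mul a2 a4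
      _ ≤ h0 f g U * C := by
          have : h0 f g U = (U.map g).relIndex UK := by rw [← hK]; rfl
          rw [this]
          exact Nat.mul_le_mul_left _ hE
  have h5 : n * h0 f g U ≤ (c * C) * h0 f g U := by
    calc n * h0 f g U = h1 f g U := hB.symm
      _ = F.relIndex (A ⊓ (R.map f ⊔ V)) * (R.map f ⊔ V).relIndex A := by
          rw [← e2, e1]; rfl
      _ ≤ c * (R.map f ⊔ V).relIndex (R ⊓ V.comap g) := Nat.mul_le_mul hC e3
      _ = c * W.relIndex (KR ⊔ V) := by rw [hD]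
      _ ≤ c * (h0 f g U * C) := Nat.mul_le_mul_left _ e4
      _ = (c * C) * h0 f g U := by ring
  exact Nat.le_of_mul_le_mul_right h5 (Nat.pos_of_ne_zero hB0)

end Crest.Agent.R018.LogAsmx575
end
end

-- ▼ part R018/LogFin_575

/-!
# Row 18, LEMMA LOG, final assembly (helper575), conditional form
-/

set_option autoImplicit false
set_option linter.unusedSectionVars false

noncomputable section

open scoped NumberField
open IsDedekindDomain

namespace Crest.Agent.R018.LogFinx575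

open Crest.Agent.R018.LogDefsx575 Crest.Agent.R018.LogEx575 Crest.Agent.R018.LogFx575
  Crest.Agent.R018.LogGx575

variable {K L : Type*} [Field K] [NumberField K] [Field L] [NumberField L] [Algebra K L]

/-- conditional form of the bound: `hB` = block B, `hC` = kernel form of block C, `hD` = block D. -/
theorem bound_of [IsGalois K L] (σ : L ≃ₐ[K] L) (hσ : ∀ τ, τ ∈ Subgroup.zpowers σ)
    {l : ℕ} (hl : l.Prime) (hodd : l ≠ 2) {S : Set (HeightOneSpectrum (𝓞 K))}
    (hS : Disjoint S (PA K l)) {j : ℕ} (hj : 1 ≤ j) (hF : Full K l S j)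
    (hB0 : h0 (sg K σ) (nm K L) ((ov L S).unit L) ≠ 0)
    (hB : h1 (sg K σ) (nm K L) ((ov L S).unit L) =
      Module.finrank K L * h0 (sg K σ) (nm K L) ((ov L S).unit L))
    (V : Subgroup Lˣ) (hVk : ∃ k, (Uk K l k).map (inc K L) ≤ V)
    (c : ℕ)
    (hC : (((ov L S).unit L).map (sg K σ)).relIndex
      (((nm K L).ker ⊓ (ov L S).unit L) ⊓ ((Rl L l).map (sg K σ) ⊔ V)) ≤ c)
    (hD : ((Rl L l).map (sg K σ) ⊔ V).relIndex (Rl L l ⊓ V.comap (nm K L)) =
      ((Rl L l).map (nm K L) ⊔ V).relIndex ((Rl K l).map (inc K L) ⊔ V))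
    (hD0 : ((Rl L l).map (sg K σ) ⊔ V).relIndex (Rl L l ⊓ V.comap (nm K L)) ≠ 0) :
    Module.finrank K L ≤ c * (Uk K l j).relIndex (Rl K l) := by
  obtain ⟨k, hk⟩ := hVk
  have h0' : ((Uk K l j).map (inc K L)).relIndex ((Rl K l).map (inc K L))
      = (Uk K l j).relIndex (Rl K l) :=
    Subgroup.relIndex_map_map_of_injective _ _ inc_injective
  have h1' : (Uk K l j).map (inc K L) ≤ (S.unit K).map (inc K L) ⊔ V := by
    refine (Subgroup.map_mono (Uk_le hl hodd hS hj hF k)).trans ?_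
    rw [Subgroup.map_sup]
    exact sup_le_sup_left hk _
  have h2' := relIndex_Uk_ne_zero (K := K) hl.ne_zero j
  refine Crest.Agent.R018.LogAsmx575.assembly (sg K σ) (nm K L) (nm_sg σ) ((ov L S).unit L)
    (Rl L l) V ((Rl K l).map (inc K L)) ((S.unit K).map (inc K L)) ?_ (map_sg_le σ S) _ _ _ hB0 hB
    hC hD hD0 (ker_inf_unit σ hσ S) ?_ ?_
  · exact unit_le_Rl (ov_disjoint hS)
  · rw [← h0']
    exact Subgroup.relIndex_le_of_le_left h1' (by rw [h0']; exact h2')
  · intro h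
    apply h2'
    rw [← h0']
    exact Subgroup.relIndex_eq_zero_of_le_left h1' h

/-- existence statement delivered by block D (for a given generator `σ` and prime `l`). -/
def BlockD' (K L : Type*) [Field K] [NumberField K] [Field L] [NumberField L] [Algebra K L] :
    Prop :=
  ∀ (_ : IsGalois K L) (σ : L ≃ₐ[K] L) (_ : ∀ τ, τ ∈ Subgroup.zpowers σ)
    (l : ℕ) (_ : l.Prime), ∃ V : Subgroup Lˣ, V ≤ Rl L l ∧
      (∃ k, (Uk K l k).map (inc K L) ≤ V) ∧
      (∀ x : Lˣ, sg K σ x ∈ V → ∃ a : Kˣ, ∃ v ∈ V, x = inc K L a * v) ∧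
      ((Rl L l).map (sg K σ) ⊔ V).relIndex (Rl L l ⊓ V.comap (nm K L)) =
        ((Rl L l).map (nm K L) ⊔ V).relIndex ((Rl K l).map (inc K L) ⊔ V) ∧
      ((Rl L l).map (sg K σ) ⊔ V).relIndex (Rl L l ⊓ V.comap (nm K L)) ≠ 0

/-- kernel form of block C -/
def BlockC' (K L : Type*) [Field K] [NumberField K] [Field L] [NumberField L] [Algebra K L] :
    Prop :=
  ∀ (_ : IsGalois K L) (σ : L ≃ₐ[K] L) (_ : ∀ τ, τ ∈ Subgroup.zpowers σ)
    (l : ℕ) (_ : l.Prime)
    (_ : ∀ v : HeightOneSpectrum (𝓞 K), v ∉ PA K l → v.asIdeal.ramificationIdxIn (𝓞 L) = 1)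
    (S : Set (HeightOneSpectrum (𝓞 K))) (_ : Disjoint S (PA K l))
    (V : Subgroup Lˣ) (_ : V ≤ Rl L l)
    (_ : ∀ x : Lˣ, sg K σ x ∈ V → ∃ a : Kˣ, ∃ v ∈ V, x = inc K L a * v),
    (((ov L S).unit L).map (sg K σ)).relIndex
      (((nm K L).ker ⊓ (ov L S).unit L) ⊓ ((Rl L l).map (sg K σ) ⊔ V))
      ≤ Nat.card (ClassGroup (𝓞 K))

/-- LEMMA LOG, finite form, from the three blocks. -/
theorem bound_of_blocks (hB : BlockB K L) (hC : BlockC' K L) (hD : BlockD' K L)
    (hG : IsGalois K L) (σ : L ≃ₐ[K] L) (hσ : ∀ τ, τ ∈ Subgroup.zpowers σ)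
    (hodd' : Odd (Module.finrank K L))
    {l : ℕ} (hl : l.Prime) (hodd : l ≠ 2)
    (hur : ∀ v : HeightOneSpectrum (𝓞 K), v ∉ PA K l → v.asIdeal.ramificationIdxIn (𝓞 L) = 1)
    {S : Set (HeightOneSpectrum (𝓞 K))} (hSf : S.Finite)
    (hS : Disjoint S (PA K l))
    (hsplit : ∀ v ∈ S, (v.asIdeal.primesOver (𝓞 L)).ncard = Module.finrank K L)
    {j : ℕ} (hj : 1 ≤ j) (hF : Full K l S j) :
    Module.finrank K L ≤ Nat.card (ClassGroup (𝓞 K)) * (Uk K l j).relIndex (Rl K l) := by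
  obtain ⟨V, hV1, hV2, hV3, hV4, hV5⟩ := hD hG σ hσ l hl
  obtain ⟨hB0, hB1⟩ := hB hG σ hσ hodd' S hSf hsplit
  exact bound_of σ hσ hl hodd hS hj hF hB0 hB1 V hV2 _
    (hC hG σ hσ l hl hur S hS V hV1 hV3) hV4 hV5

end Crest.Agent.R018.LogFinx575
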