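import Mathlib
import Crest.Agent.R018.LogDefs_575

-- ▼ part R018/SemiLocA_476
section

/-!
Row 18, block D (helper476), part 1: the ring `LInt l F` of `l`-integral elements of a field.
-/

set_option autoImplicit false

namespace Crest.Agent.R018.SemiLocx476

open Polynomial

/-- `l`-integral elements of a field `F`: those `x` with `m x` integral over `ℤ` for some natural
number `m` prime to `l`. -/
def LInt (l : ℕ) [hl : Fact l.Prime] (F : Type*) [Field F] : Subring F where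
  carrier := {x | ∃ m : ℕ, ¬ l ∣ m ∧ IsIntegral ℤ ((m : F) * x)}
  mul_mem' := by
    rintro x y ⟨m, hm, hx⟩ ⟨n, hn, hy⟩
    refine ⟨m * n, ?_, ?_⟩
    · intro h
      rcases (Nat.Prime.dvd_mul hl.out).1 h with h | h
      · exact hm h
      · exact hn h
    · have : (((m * n : ℕ) : F) * (x * y)) = ((m : F) * x) * ((n : F) * y) := by
        push_cast; ring
      rw [this]
      exact hx.mul hy
  one_mem' := ⟨1, by
    intro h
    exact hl.out.one_lt.ne' (Nat.dvd_one.1 h), by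
    have : (((1 : ℕ) : F) * 1) = 1 := by simp
    rw [this]
    exact isIntegral_one⟩
  add_mem' := by
    rintro x y ⟨m, hm, hx⟩ ⟨n, hn, hy⟩
    refine ⟨m * n, ?_, ?_⟩
    · intro h
      rcases (Nat.Prime.dvd_mul hl.out).1 h with h | h
      · exact hm h
      · exact hn h
    · have : (((m * n : ℕ) : F) * (x + y)) = (n : F) * ((m : F) * x) + (m : F) * ((n : F) * y) := by
        push_cast; ring
      rw [this]
      exact ((isIntegral_natCast n).mul hx).add ((isIntegral_natCast m).mul hy)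
  zero_mem' := ⟨1, by
    intro h
    exact hl.out.one_lt.ne' (Nat.dvd_one.1 h), by
    have : (((1 : ℕ) : F) * 0) = 0 := by simp
    rw [this]
    exact isIntegral_zero⟩
  neg_mem' := by
    rintro x ⟨m, hm, hx⟩
    refine ⟨m, hm, ?_⟩
    have : ((m : F) * -x) = -((m : F) * x) := by ring
    rw [this]
    exact hx.neg

section basic
variable {l : ℕ} [hl : Fact l.Prime] {F : Type*} [Field F]


theorem mem_of_isIntegral {x : F} (hx : IsIntegral ℤ x) : x ∈ LInt l F := by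
  refine ⟨1, ?_, ?_⟩
  · intro h
    exact hl.out.one_lt.ne' (Nat.dvd_one.1 h)
  · simpa using hx

theorem inv_nat_mem [CharZero F] {m : ℕ} (hm : ¬ l ∣ m) : ((m : F))⁻¹ ∈ LInt l F := by
  refine ⟨m, hm, ?_⟩
  have hm0 : (m : F) ≠ 0 := by
    intro h
    have : m = 0 := by exact_mod_cast h
    exact hm (this ▸ dvd_zero l)
  rw [mul_inv_cancel₀ hm0]
  exact isIntegral_one

theorem inv_int_mem [CharZero F] {m : ℤ} (hm : ¬ (l : ℤ) ∣ m) : ((m : F))⁻¹ ∈ LInt l F := by
  have h1 : ¬ l ∣ m.natAbs := by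
    intro h
    exact hm (Int.natCast_dvd.2 h)
  rcases Int.natAbs_eq m with h | h
  · rw [h]
    have := inv_nat_mem (F := F) h1
    simpa using this
  · rw [h]
    have := (LInt l F).neg_mem (inv_nat_mem (F := F) h1)
    simpa [inv_neg] using this

theorem map_mem_iff {F' : Type*} [Field F'] (f : F →+* F') {x : F} :
    f x ∈ LInt l F' ↔ x ∈ LInt l F := by
  constructor
  · rintro ⟨m, hm, h⟩
    refine ⟨m, hm, ?_⟩
    have h2 : IsIntegral ℤ (f ((m : F) * x)) := by simpa using h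
    exact (isIntegral_algHom_iff (f.toIntAlgHom) f.injective).1 h2
  · rintro ⟨m, hm, h⟩
    refine ⟨m, hm, ?_⟩
    have h2 : IsIntegral ℤ (f ((m : F) * x)) :=
      (isIntegral_algHom_iff (f.toIntAlgHom) f.injective).2 h
    simpa using h2

/-- an element `m + l z`, `z` integral, `l ∤ m`, divides an integer prime to `l`. -/
theorem exists_mul_eq_int {z : F} (hz : IsIntegral ℤ z) {m : ℕ} (hm : ¬ l ∣ m) :
    ∃ (r : F) (t : ℤ), IsIntegral ℤ r ∧ ¬ (l : ℤ) ∣ t ∧ ((m : F) + (l : F) * z) * r = (t : F) := by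
  obtain ⟨p, hp, hpz⟩ := hz
  -- q : monic polynomial killing l z
  set q : ℤ[X] := (p.scaleRoots (l : ℤ)).comp (X - C (m : ℤ)) with hq
  set y : F := (m : F) + (l : F) * z with hy
  have hqy : Polynomial.aeval y q = 0 := by
    rw [hq, Polynomial.aeval_comp]
    have e1 : (Polynomial.aeval y) (X - C (m : ℤ)) = (l : F) * z := by
      simp [hy]
    rw [e1]
    have := Polynomial.scaleRoots_aeval_eq_zero (p := p) (a := z) (r := (l : ℤ)) (by
      simpa [Polynomial.aeval_def] using hpz)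
    simpa using this
  have hq0 : ¬ (l : ℤ) ∣ q.eval 0 := by
    intro h
    have h1 : q.eval 0 = (p.scaleRoots (l : ℤ)).eval (-(m : ℤ)) := by
      rw [hq, Polynomial.eval_comp]; simp
    have h2 : ((p.scaleRoots (l : ℤ)).map (Int.castRingHom (ZMod l))) = X ^ p.natDegree := by
      ext i
      rw [Polynomial.coeff_map, Polynomial.coeff_scaleRoots, Polynomial.coeff_X_pow]
      by_cases hi : i = p.natDegree
      · subst hi
        simp [hp.coeff_natDegree]
      · rw [if_neg hi]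
        rcases lt_or_gt_of_ne hi with h' | h'
        · have : p.natDegree - i ≠ 0 := by omega
          simp [this]
        · rw [Polynomial.coeff_eq_zero_of_natDegree_lt h']
          simp
    have h3 : ((q.eval 0 : ℤ) : ZMod l) = 0 := (ZMod.intCast_zmod_eq_zero_iff_dvd _ l).2 h
    rw [h1] at h3
    have h4 : (((p.scaleRoots (l : ℤ)).eval (-(m : ℤ)) : ℤ) : ZMod l)
        = (-(m : ZMod l)) ^ p.natDegree := by
      have := Polynomial.eval_map_apply (f := Int.castRingHom (ZMod l)) (p := p.scaleRoots (l : ℤ))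
        (-(m : ℤ))
      rw [h2] at this
      simpa using this.symm
    rw [h4] at h3
    have h5 : (m : ZMod l) = 0 := by
      have h6 : -(m : ZMod l) = 0 := by
        by_contra hne
        exact pow_ne_zero _ hne h3
      simpa using h6
    exact hm ((ZMod.natCast_eq_zero_iff m l).1 h5)
  have hyint : IsIntegral ℤ y :=
    (isIntegral_natCast m).add ((isIntegral_natCast l).mul ⟨p, hp, hpz⟩)
  refine ⟨-(Polynomial.aeval y q.divX), q.eval 0, ?_, hq0, ?_⟩
  · refine IsIntegral.neg ?_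
    exact IsIntegral.of_mem_of_fg (Algebra.adjoin ℤ {y}) hyint.fg_adjoin_singleton _
      (Polynomial.aeval_mem_adjoin_singleton ℤ y)
  · have h7 := Polynomial.divX_mul_X_add q
    have h8 : Polynomial.aeval y (q.divX * X + C (q.coeff 0)) = 0 := by rw [h7, hqy]
    have h9 : q.coeff 0 = q.eval 0 := Polynomial.coeff_zero_eq_eval_zero q
    rw [h9] at h8
    rw [map_add, map_mul, Polynomial.aeval_X, Polynomial.aeval_C, algebraMap_int_eq,
      eq_intCast] at h8
    linear_combination -h8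

theorem one_add_mul_inv_mem [CharZero F] {b : F} (hb : b ∈ LInt l F) :
    (1 + (l : F) * b) ≠ 0 ∧ (1 + (l : F) * b)⁻¹ ∈ LInt l F := by
  obtain ⟨m, hm, hmb⟩ := hb
  obtain ⟨r, t, hr, ht, h⟩ := exists_mul_eq_int (l := l) hmb hm
  have hm0 : (m : F) ≠ 0 := by
    intro h0
    have : m = 0 := by exact_mod_cast h0
    exact hm (this ▸ dvd_zero l)
  have ht0 : (t : F) ≠ 0 := by
    intro h0
    have : t = 0 := by exact_mod_cast h0
    exact ht (this ▸ dvd_zero _)
  have e : (1 + (l : F) * b) * ((m : F) * r * (t : F)⁻¹) = 1 := by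
    have : (1 + (l : F) * b) * ((m : F) * r * (t : F)⁻¹)
        = ((m : F) + (l : F) * ((m : F) * b)) * r * (t : F)⁻¹ := by ring
    rw [this, h, mul_inv_cancel₀ ht0]
  refine ⟨fun h0 => by rw [h0, zero_mul] at e; exact zero_ne_one e, ?_⟩
  rw [inv_eq_of_mul_eq_one_right e]
  exact (LInt l F).mul_mem ((LInt l F).mul_mem (natCast_mem _ m) (mem_of_isIntegral hr))
    (inv_int_mem ht)

/-- approximation by integral elements -/
theorem approx_integral {x : F} (hx : x ∈ LInt l F) (k : ℕ) :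
    ∃ r : F, IsIntegral ℤ r ∧ ∃ b ∈ LInt l F, x = r + (l : F) ^ k * b := by
  obtain ⟨m, hm, hmx⟩ := hx
  have hcop : IsCoprime (m : ℤ) ((l : ℤ) ^ k) := by
    refine IsCoprime.pow_right ?_
    rw [Nat.isCoprime_iff_coprime]
    exact ((Nat.Prime.coprime_iff_not_dvd hl.out).2 hm).symm
  obtain ⟨u, v, huv⟩ := hcop
  have huv' : (u : F) * (m : F) + (v : F) * (l : F) ^ k = 1 := by exact_mod_cast congrArg (Int.cast (R := F)) huv
  refine ⟨(u : F) * ((m : F) * x), (isIntegral_intCast u).mul hmx, (v : F) * x, ?_, ?_⟩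
  · exact (LInt l F).mul_mem (intCast_mem _ v) ⟨m, hm, hmx⟩
  · linear_combination (-x) * huv'

end basic

end Crest.Agent.R018.SemiLocx476
end

-- ▼ part R018/SemiLocB_476
section

/-!
Row 18, block D (helper476), part 2: bridge between `LInt` and the valuations above `l`.
-/

set_option autoImplicit false

open scoped NumberField
open IsDedekindDomain

namespace Crest.Agent.R018.SemiLocx476

open Crest.Agent.R018.LogDefsx575

section bridge
variable {l : ℕ} [hl : Fact l.Prime] {F : Type*} [Field F] [NumberField F]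

theorem val_natCast_eq_one {w : HeightOneSpectrum (𝓞 F)} (hw : w ∈ PA F l) {m : ℕ}
    (hm : ¬ l ∣ m) : w.valuation F (m : F) = 1 := by
  have h : (m : 𝓞 F) ∉ w.asIdeal := by
    intro h
    have hcop : IsCoprime (m : ℤ) (l : ℤ) := by
      rw [Nat.isCoprime_iff_coprime]
      exact ((Nat.Prime.coprime_iff_not_dvd hl.out).2 hm).symm
    obtain ⟨u, v, huv⟩ := hcop
    have h1 : (1 : 𝓞 F) ∈ w.asIdeal := by
      have e : (1 : 𝓞 F) = (u : 𝓞 F) * (m : 𝓞 F) + (v : 𝓞 F) * (l : 𝓞 F) := by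
        exact_mod_cast (congrArg (Int.cast (R := 𝓞 F)) huv).symm
      rw [e]
      exact w.asIdeal.add_mem (w.asIdeal.mul_mem_left _ h) (w.asIdeal.mul_mem_left _ hw)
    exact w.isPrime.ne_top ((Ideal.eq_top_iff_one _).2 h1)
  have := (HeightOneSpectrum.valuation_eq_one_iff_notMem (K := F) (v := w) (r := (m : 𝓞 F))).2 h
  simpa using this

theorem val_le_one_of_isIntegral {w : HeightOneSpectrum (𝓞 F)} {x : F} (hx : IsIntegral ℤ x) :
    w.valuation F x ≤ 1 := by
  have := w.valuation_le_one (K := F) (⟨x, hx⟩ : 𝓞 F)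
  exact this

omit hl in
theorem exists_nat_multiple (x : F) : ∃ m : ℕ, m ≠ 0 ∧ IsIntegral ℤ ((m : F) * x) := by
  have halg : IsAlgebraic ℤ x := by
    have : IsAlgebraic ℚ x := Algebra.IsAlgebraic.isAlgebraic x
    exact (IsFractionRing.isAlgebraic_iff ℤ ℚ F).2 this
  obtain ⟨y, hy, h⟩ := halg.exists_integral_multiple
  refine ⟨y.natAbs, by simpa using hy, ?_⟩
  rw [zsmul_eq_mul] at h
  rcases Int.natAbs_eq y with h' | h'
  · rw [h'] at h
    simpa using h
  · rw [h'] at h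
    have := h.neg
    simpa using this

theorem mem_LInt_iff_val {x : F} :
    x ∈ LInt l F ↔ ∀ w ∈ PA F l, w.valuation F x ≤ 1 := by
  constructor
  · rintro ⟨m, hm, hx⟩ w hw
    have h1 := val_le_one_of_isIntegral (w := w) hx
    rw [map_mul, val_natCast_eq_one hw hm, one_mul] at h1
    exact h1
  · intro h
    obtain ⟨m, hm0, hm⟩ := exists_nat_multiple x
    obtain ⟨c, m', hm', hmm⟩ := Nat.exists_eq_pow_mul_and_not_dvd hm0 l hl.out.ne_one
    refine ⟨m', hm', ?_⟩
    have key : ∀ w : HeightOneSpectrum (𝓞 F), w.valuation F ((m' : F) * x) ≤ 1 := by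
      intro w
      by_cases hw : w ∈ PA F l
      · rw [map_mul, val_natCast_eq_one hw hm', one_mul]
        exact h w hw
      · have h1 := val_le_one_of_isIntegral (w := w) hm
        have h2 : ((m : F) * x) = (l : F) ^ c * ((m' : F) * x) := by
          rw [hmm]; push_cast; ring
        have h3 : w.valuation F (l : F) = 1 := by
          have := (HeightOneSpectrum.valuation_eq_one_iff_notMem (K := F) (v := w)
            (r := (l : 𝓞 F))).2 hw
          simpa using this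
        rw [h2, map_mul, map_pow, h3, one_pow, one_mul] at h1
        exact h1
    obtain ⟨y, hy⟩ := HeightOneSpectrum.mem_integers_of_valuation_le_one F _ key
    rw [← hy]
    exact y.2

theorem l_ne_zero : (l : F) ≠ 0 := by
  exact_mod_cast hl.out.ne_zero

/-- congruences modulo `l^k` in terms of valuations -/
theorem congr_iff_val {x : F} {k : ℕ} :
    (∃ b ∈ LInt l F, x = (l : F) ^ k * b) ↔
      ∀ w ∈ PA F l, w.valuation F x ≤ w.valuation F (l : F) ^ k := by
  have hl0 : (l : F) ≠ 0 := l_ne_zero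
  have hv : ∀ w : HeightOneSpectrum (𝓞 F), w.valuation F (l : F) ≠ 0 := fun w =>
    (Valuation.ne_zero_iff _).2 hl0
  constructor
  · rintro ⟨b, hb, rfl⟩ w hw
    rw [map_mul, map_pow]
    exact mul_le_of_le_one_right' (mem_LInt_iff_val.1 hb w hw)
  · intro h
    refine ⟨x * ((l : F) ^ k)⁻¹, ?_, ?_⟩
    · rw [mem_LInt_iff_val]
      intro w hw
      rw [map_mul, map_inv₀, map_pow]
      have := h w hw
      rw [← div_eq_mul_inv, div_le_one₀ (by
        exact zero_lt_iff.2 (pow_ne_zero _ (hv w)))]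
      exact this
    · field_simp

theorem mem_Rl_iff {x : Fˣ} :
    x ∈ Rl F l ↔ (x : F) ∈ LInt l F ∧ ((x⁻¹ : Fˣ) : F) ∈ LInt l F := by
  constructor
  · intro h
    constructor
    · rw [mem_LInt_iff_val]
      intro w hw
      exact (h w (by simpa using hw)).le
    · rw [mem_LInt_iff_val]
      intro w hw
      exact ((inv_mem h) w (by simpa using hw)).le
  · rintro ⟨h1, h2⟩ w hw
    have hw' : w ∈ PA F l := by simpa using hw
    refine le_antisymm (mem_LInt_iff_val.1 h1 w hw') ?_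
    have h3 := mem_LInt_iff_val.1 h2 w hw'
    rw [Units.val_inv_eq_inv_val, map_inv₀] at h3
    have h4 : w.valuation F (x : F) ≠ 0 := (Valuation.ne_zero_iff _).2 x.ne_zero
    exact (inv_le_one₀ (zero_lt_iff.2 h4)).1 h3

theorem mem_Uk_iff {x : Fˣ} {k : ℕ} (hk : 1 ≤ k) :
    x ∈ Uk F l k ↔ ∃ b ∈ LInt l F, (x : F) = 1 + (l : F) ^ k * b := by
  constructor
  · rintro ⟨h1, h2⟩
    obtain ⟨b, hb, h⟩ := congr_iff_val.2 h2
    exact ⟨b, hb, by linear_combination h⟩
  · rintro ⟨b, hb, h⟩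
    obtain ⟨k, rfl⟩ : ∃ j, k = j + 1 := ⟨k - 1, by omega⟩
    have h3 : (x : F) = 1 + (l : F) * ((l : F) ^ k * b) := by rw [h]; ring
    have hb' : (l : F) ^ k * b ∈ LInt l F :=
      (LInt l F).mul_mem (Subring.pow_mem _ (natCast_mem _ l) _) hb
    obtain ⟨_, h4⟩ := one_add_mul_inv_mem (F := F) hb'
    refine ⟨mem_Rl_iff.2 ⟨?_, ?_⟩, ?_⟩
    · rw [h3]
      exact (LInt l F).add_mem (one_mem _) ((LInt l F).mul_mem (natCast_mem _ l) hb')
    · rw [Units.val_inv_eq_inv_val, h3]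
      exact h4
    · exact congr_iff_val.1 ⟨b, hb, by linear_combination h⟩

end bridge

end Crest.Agent.R018.SemiLocx476
end

-- ▼ part R018/SemiLocC_476
section

/-!
Row 18, block D (helper476), part 3: the normal basis lattice.
-/

set_option autoImplicit false

open scoped NumberField
open IsDedekindDomain

namespace Crest.Agent.R018.SemiLocx476

open Crest.Agent.R018.LogDefsx575

section bdd
variable {l : ℕ} [hl : Fact l.Prime] {K L : Type*} [Field K] [NumberField K] [Field L]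
  [NumberField L]

theorem bdd_linear (φ : L →ₗ[ℚ] K) :
    ∃ c : ℕ, ∀ x ∈ LInt l L, (l : K) ^ c * φ x ∈ LInt l K := by
  classical
  let ω := NumberField.RingOfIntegers.basis L
  have h1 : ∀ i, ∃ m : ℕ, m ≠ 0 ∧ IsIntegral ℤ ((m : K) * φ (ω i : L)) := fun i =>
    exists_nat_multiple _
  choose d hd0 hd using h1
  obtain ⟨c, d', hd', hdd⟩ := Nat.exists_eq_pow_mul_and_not_dvd
    (n := ∏ i, d i) (Finset.prod_ne_zero_iff.2 fun i _ => hd0 i) l hl.out.ne_one
  refine ⟨c, ?_⟩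
  rintro x ⟨m, hm, hx⟩
  refine ⟨m * d', ?_, ?_⟩
  · intro h
    rcases (Nat.Prime.dvd_mul hl.out).1 h with h | h
    · exact hm h
    · exact hd' h
  · -- expand `m x`
    obtain ⟨y, hy⟩ : ∃ y : 𝓞 L, algebraMap (𝓞 L) L y = (m : L) * x :=
      ⟨⟨(m : L) * x, hx⟩, rfl⟩
    have e1 : (m : L) * x = ∑ i, (((ω.repr y i : ℤ) : ℚ)) • ((ω i : 𝓞 L) : L) := by
      have h2 := congrArg (algebraMap (𝓞 L) L) (ω.sum_repr y)
      rw [map_sum] at h2
      rw [← hy, ← h2]
      refine Finset.sum_congr rfl fun i _ => ?_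
      rw [zsmul_eq_mul, map_mul, Algebra.smul_def]
      congr 1
      simp
    have e2 : (m : K) * φ x = ∑ i, ((ω.repr y i : ℤ) : K) * φ ((ω i : 𝓞 L) : L) := by
      have h4 := congrArg φ e1
      rw [map_sum] at h4
      have h5 : φ ((m : L) * x) = (m : K) * φ x := by
        have : (m : L) * x = (m : ℚ) • x := by
          rw [Algebra.smul_def]; simp
        rw [this, map_smul, Algebra.smul_def]
        simp
      rw [h5] at h4
      rw [h4]
      refine Finset.sum_congr rfl fun i _ => ?_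
      rw [map_smul, Algebra.smul_def]
      congr 1
      simp
    have e3 : (((m * d' : ℕ) : K) * ((l : K) ^ c * φ x))
        = ∑ i, ((ω.repr y i : ℤ) : K) *
            (((∏ j ∈ Finset.univ.erase i, d j : ℕ) : K) * ((d i : K) * φ ((ω i : 𝓞 L) : L))) := by
      have h6 : (((m * d' : ℕ) : K) * ((l : K) ^ c * φ x))
          = ((∏ i, d i : ℕ) : K) * ((m : K) * φ x) := by
        rw [hdd]; push_cast; ring
      rw [h6, e2, Finset.mul_sum]
      refine Finset.sum_congr rfl fun i _ => ?_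
      rw [← Finset.mul_prod_erase Finset.univ d (Finset.mem_univ i)]
      push_cast
      ring
    rw [e3]
    refine IsIntegral.sum _ fun i _ => ?_
    exact (isIntegral_intCast _).mul ((isIntegral_natCast _).mul (hd i))

end bdd

section lattice
variable (l : ℕ) [hl : Fact l.Prime] (K : Type*) {L : Type*} [Field K] [NumberField K] [Field L]
  [NumberField L] [Algebra K L] [FiniteDimensional K L]

/-- the lattice spanned by the conjugates of `θ` over the `l`-integral elements of `K` -/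
noncomputable def Lat (θ : L) : AddSubgroup L where
  carrier := {x | ∃ a : (L ≃ₐ[K] L) → K, (∀ g, a g ∈ LInt l K) ∧
    x = ∑ g, algebraMap K L (a g) * g θ}
  zero_mem' := ⟨fun _ => 0, fun _ => zero_mem _, by simp⟩
  add_mem' := by
    rintro x y ⟨a, ha, rfl⟩ ⟨b, hb, rfl⟩
    refine ⟨fun g => a g + b g, fun g => add_mem (ha g) (hb g), ?_⟩
    rw [← Finset.sum_add_distrib]
    refine Finset.sum_congr rfl fun g _ => ?_
    rw [map_add]; ring
  neg_mem' := by
    rintro x ⟨a, ha, rfl⟩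
    refine ⟨fun g => - a g, fun g => neg_mem (ha g), ?_⟩
    rw [← Finset.sum_neg_distrib]
    refine Finset.sum_congr rfl fun g _ => ?_
    rw [map_neg]; ring

variable {l K}

theorem Lat.mem {θ x : L} : x ∈ Lat l K θ ↔ ∃ a : (L ≃ₐ[K] L) → K, (∀ g, a g ∈ LInt l K) ∧
    x = ∑ g, algebraMap K L (a g) * g θ := Iff.rfl

theorem Lat.conj_mem (θ : L) (g : L ≃ₐ[K] L) : g θ ∈ Lat l K θ := by
  classical
  refine ⟨fun h => if h = g then 1 else 0, fun h => ?_, ?_⟩
  · dsimp only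
    split_ifs
    · exact one_mem _
    · exact zero_mem _
  · rw [Finset.sum_eq_single g]
    · simp
    · intro h _ hne
      simp [hne]
    · intro h
      exact absurd (Finset.mem_univ g) h

theorem Lat.smul_mem {θ x : L} {c : K} (hc : c ∈ LInt l K) (hx : x ∈ Lat l K θ) :
    algebraMap K L c * x ∈ Lat l K θ := by
  obtain ⟨a, ha, rfl⟩ := hx
  refine ⟨fun g => c * a g, fun g => mul_mem hc (ha g), ?_⟩
  rw [Finset.mul_sum]
  refine Finset.sum_congr rfl fun g _ => ?_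
  rw [map_mul]; ring


theorem Lat.aut_mem {θ x : L} (h : L ≃ₐ[K] L) (hx : x ∈ Lat l K θ) : h x ∈ Lat l K θ := by
  obtain ⟨a, ha, rfl⟩ := hx
  refine ⟨fun g => a (h⁻¹ * g), fun g => ha _, ?_⟩
  rw [map_sum]
  rw [← Equiv.sum_comp (Equiv.mulLeft h) (fun g => algebraMap K L (a (h⁻¹ * g)) * g θ)]
  refine Finset.sum_congr rfl fun g _ => ?_
  rw [map_mul, AlgEquiv.commutes]
  simp [AlgEquiv.mul_apply]

theorem Lat.le_LInt {θ x : L} (hθ : θ ∈ LInt l L) (hx : x ∈ Lat l K θ) : x ∈ LInt l L := by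
  obtain ⟨a, ha, rfl⟩ := hx
  refine sum_mem fun g _ => mul_mem ((map_mem_iff (algebraMap K L)).2 (ha g)) ?_
  exact (map_mem_iff (g : L →+* L)).2 hθ

/-- sum over the Galois group -/
theorem Lat.trace_eq {θ : L} (a : (L ≃ₐ[K] L) → K) :
    ∑ h : L ≃ₐ[K] L, h (∑ g, algebraMap K L (a g) * g θ)
      = algebraMap K L (∑ g, a g) * ∑ g : L ≃ₐ[K] L, g θ := by
  simp_rw [map_sum, map_mul, AlgEquiv.commutes]
  rw [Finset.sum_comm, Finset.sum_mul]
  refine Finset.sum_congr rfl fun g _ => ?_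
  rw [← Finset.mul_sum]
  congr 1
  exact Equiv.sum_comp (Equiv.mulRight g) (fun h => h θ)

/-- the graded step: an element of the lattice whose trace is divisible by `l` in the lattice is
`(σ-1)β` modulo `l`. -/
theorem Lat.graded {θ : L} (hind : LinearIndependent K (fun g : L ≃ₐ[K] L => g θ))
    {σ : L ≃ₐ[K] L} (hσ : ∀ τ, τ ∈ Subgroup.zpowers σ) {x : L} (hx : x ∈ Lat l K θ)
    {y : L} (hy : y ∈ Lat l K θ) (hxy : ∑ h : L ≃ₐ[K] L, h x = (l : L) * y) :
    ∃ β ∈ Lat l K θ, ∃ γ ∈ Lat l K θ, x = (σ β - β) + (l : L) * γ := by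
  classical
  obtain ⟨a, ha, rfl⟩ := hx
  obtain ⟨b, hb, rfl⟩ := hy
  rw [Lat.trace_eq] at hxy
  -- sum of coordinates
  have hS : (∑ g, a g) = (l : K) * b 1 := by
    have h0 : ∑ g : L ≃ₐ[K] L, ((∑ g, a g) - (l : K) * b g) • g θ = 0 := by
      simp_rw [sub_smul]
      rw [Finset.sum_sub_distrib]
      have e1 : ∑ x : L ≃ₐ[K] L, (∑ g, a g) • x θ = algebraMap K L (∑ g, a g) * ∑ g : L ≃ₐ[K] L, g θ := by
        rw [Finset.mul_sum]
        refine Finset.sum_congr rfl fun g _ => ?_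
        rw [Algebra.smul_def]
      have e2 : ∑ x : L ≃ₐ[K] L, ((l : K) * b x) • x θ = (l : L) * ∑ g, algebraMap K L (b g) * g θ := by
        rw [Finset.mul_sum]
        refine Finset.sum_congr rfl fun g _ => ?_
        rw [Algebra.smul_def, map_mul, map_natCast]; ring
      rw [e1, e2, hxy, sub_self]
    have h1 := (Fintype.linearIndependent_iff.1 hind) _ h0 1
    linear_combination h1
  have hpow : ∀ g : L ≃ₐ[K] L, ∃ i : ℕ, σ ^ i = g := fun g =>
    (mem_powers_iff_mem_zpowers.2 (hσ g))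
  choose i hi using hpow
  refine ⟨∑ g, algebraMap K L (a g) * ∑ j ∈ Finset.range (i g), (σ ^ j) θ, ?_,
    algebraMap K L (b 1) * θ, ?_, ?_⟩
  · refine sum_mem fun g _ => Lat.smul_mem (ha g) (sum_mem fun j _ => Lat.conj_mem θ _)
  · exact Lat.smul_mem (hb 1) (by simpa using Lat.conj_mem (l := l) (K := K) θ 1)
  · have e3 : ∀ g, σ (algebraMap K L (a g) * ∑ j ∈ Finset.range (i g), (σ ^ j) θ)
        - algebraMap K L (a g) * ∑ j ∈ Finset.range (i g), (σ ^ j) θ
        = algebraMap K L (a g) * (g θ - θ) := by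
      intro g
      rw [map_mul, AlgEquiv.commutes, ← mul_sub, map_sum]
      congr 1
      have : ∀ j, σ ((σ ^ j) θ) = (σ ^ (j + 1)) θ := by
        intro j
        rw [pow_succ', AlgEquiv.mul_apply]
      simp_rw [this]
      rw [← Finset.sum_sub_distrib, Finset.sum_range_sub (fun j => (σ ^ j) θ), hi]
      simp
    rw [map_sum, ← Finset.sum_sub_distrib]
    simp_rw [e3, mul_sub]
    rw [Finset.sum_sub_distrib, ← Finset.sum_mul, ← map_sum, hS, map_mul, map_natCast]
    ring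

variable (l K L) in
/-- existence of the lattice -/
theorem Lat.exists_theta [IsGalois K L] : ∃ θ : L, θ ∈ LInt l L ∧
    LinearIndependent K (fun g : L ≃ₐ[K] L => g θ) ∧
    ∃ c : ℕ, ∀ x ∈ LInt l L, (l : L) ^ c * x ∈ Lat l K θ := by
  classical
  let b := IsGalois.normalBasis K L
  obtain ⟨m, hm0, hm⟩ := exists_nat_multiple (b 1)
  have hmK : (m : K) ≠ 0 := by exact_mod_cast hm0
  have hmL : (m : L) ≠ 0 := by exact_mod_cast hm0
  have hbg : ∀ g : L ≃ₐ[K] L, g ((m : L) * b 1) = (m : K) • b g := by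
    intro g
    rw [map_mul, map_natCast, Algebra.smul_def, map_natCast]
    congr 1
    exact (IsGalois.normalBasis_apply g).symm
  refine ⟨(m : L) * b 1, mem_of_isIntegral hm, ?_, ?_⟩
  · simp_rw [hbg]
    have := b.linearIndependent.units_smul (fun _ => Units.mk0 (m : K) hmK)
    convert this using 1
    ext g
    rfl
  · -- coordinates
    have h1 : ∀ g : L ≃ₐ[K] L, ∃ c : ℕ, ∀ x ∈ LInt l L,
        (l : K) ^ c * ((m : K)⁻¹ * b.repr x g) ∈ LInt l K := by
      intro g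
      let φ : L →ₗ[ℚ] K := ((LinearMap.mulLeft K (m : K)⁻¹).comp (b.coord g)).restrictScalars ℚ
      obtain ⟨c, hc⟩ := bdd_linear (l := l) φ
      exact ⟨c, fun x hx => hc x hx⟩
    choose c hc using h1
    refine ⟨∑ g, c g, fun x hx => ?_⟩
    refine ⟨fun g => (l : K) ^ (∑ g, c g) * ((m : K)⁻¹ * b.repr x g), fun g => ?_, ?_⟩
    · dsimp only
      rw [← Finset.add_sum_erase _ c (Finset.mem_univ g), pow_add]
      have : (l : K) ^ c g * (l : K) ^ (∑ x ∈ Finset.univ.erase g, c x) *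
          ((m : K)⁻¹ * b.repr x g)
          = (l : K) ^ (∑ x ∈ Finset.univ.erase g, c x) * ((l : K) ^ c g * ((m : K)⁻¹ * b.repr x g)) := by
        ring
      rw [this]
      exact mul_mem (Subring.pow_mem _ (natCast_mem _ l) _) (hc g x hx)
    · simp_rw [hbg]
      have e1 : ∀ g, algebraMap K L ((l : K) ^ (∑ g, c g) * ((m : K)⁻¹ * b.repr x g)) * ((m : K) • b g)
          = (l : L) ^ (∑ g, c g) * (b.repr x g • b g) := by
        intro g
        rw [Algebra.smul_def, Algebra.smul_def, map_mul, map_mul, map_pow, map_inv₀, map_natCast,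
          map_natCast]
        field_simp
      simp_rw [e1]
      rw [← Finset.mul_sum, b.sum_repr]

end lattice

end Crest.Agent.R018.SemiLocx476
end

-- ▼ part R018/SemiLocD_476
section

/-!
Row 18, block D (helper476), part 4: the subgroups `V_k = 1 + l^k A` and descent.
-/

set_option autoImplicit false
set_option linter.unusedSectionVars false

open scoped NumberField
open IsDedekindDomain

namespace Crest.Agent.R018.SemiLocx476

open Crest.Agent.R018.LogDefsx575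

section groups
variable {l : ℕ} [hl : Fact l.Prime] {K L : Type*} [Field K] [NumberField K] [Field L]
  [NumberField L] [Algebra K L] [FiniteDimensional K L]

/-- data of the lattice -/
structure Dat (l : ℕ) [hl : Fact l.Prime] (K L : Type*) [Field K] [NumberField K] [Field L]
  [NumberField L] [Algebra K L] [FiniteDimensional K L] where
  θ : L
  c : ℕ
  hθ : θ ∈ LInt l L
  ind : LinearIndependent K (fun g : L ≃ₐ[K] L => g θ)
  hc : ∀ x ∈ LInt l L, (l : L) ^ c * x ∈ Lat l K θ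

theorem Dat.exists [IsGalois K L] : Nonempty (Dat l K L) := by
  obtain ⟨θ, h1, h2, c, h3⟩ := Lat.exists_theta l K L
  exact ⟨⟨θ, c, h1, h2, h3⟩⟩

variable (D : Dat l K L)

theorem Dat.pow_mem {x : L} (hx : x ∈ LInt l L) {j : ℕ} (hj : D.c ≤ j) :
    (l : L) ^ j * x ∈ Lat l K D.θ := by
  obtain ⟨i, rfl⟩ := Nat.exists_eq_add_of_le hj
  have h := D.hc ((l : L) ^ i * x) (mul_mem (Subring.pow_mem _ (natCast_mem _ l) _) hx)
  have e : (l : L) ^ (D.c + i) * x = (l : L) ^ D.c * ((l : L) ^ i * x) := by ring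
  rw [e]; exact h

theorem Dat.le {x : L} (hx : x ∈ Lat l K D.θ) : x ∈ LInt l L := Lat.le_LInt D.hθ hx

theorem Dat.unit {k : ℕ} {α : L} (hα : α ∈ LInt l L) (hk : 1 ≤ k) :
    (1 + (l : L) ^ k * α) ≠ 0 ∧ (1 + (l : L) ^ k * α)⁻¹ ∈ LInt l L := by
  obtain ⟨k, rfl⟩ : ∃ j, k = j + 1 := ⟨k - 1, by omega⟩
  have h3 : (1 + (l : L) ^ (k + 1) * α) = 1 + (l : L) * ((l : L) ^ k * α) := by ring
  rw [h3]
  exact one_add_mul_inv_mem (mul_mem (Subring.pow_mem _ (natCast_mem _ l) _) hα)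

/-- `1 + l^k A`, as a subgroup of `Lˣ`, for `k > c` -/
def Dat.V (k : ℕ) (hk : D.c + 1 ≤ k) : Subgroup Lˣ where
  carrier := {u | ∃ α ∈ Lat l K D.θ, (u : L) = 1 + (l : L) ^ k * α}
  one_mem' := ⟨0, zero_mem _, by simp⟩
  mul_mem' := by
    rintro u v ⟨α, hα, hu⟩ ⟨β, hβ, hv⟩
    refine ⟨α + β + (l : L) ^ k * (α * β), ?_, ?_⟩
    · exact add_mem (add_mem hα hβ) (D.pow_mem (mul_mem (D.le hα) (D.le hβ)) (by omega))
    · rw [Units.val_mul, hu, hv]; ring
  inv_mem' := by
    rintro u ⟨α, hα, hu⟩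
    obtain ⟨h0, h1⟩ := Dat.unit (k := k) (D.le hα) (by omega)
    refine ⟨-α + (l : L) ^ k * (α * α * (1 + (l : L) ^ k * α)⁻¹), ?_, ?_⟩
    · exact add_mem (neg_mem hα)
        (D.pow_mem (mul_mem (mul_mem (D.le hα) (D.le hα)) h1) (by omega))
    · rw [Units.val_inv_eq_inv_val, hu]
      field_simp
      ring


theorem Dat.V_le_Rl {k : ℕ} (hk : D.c + 1 ≤ k) : D.V k hk ≤ Rl L l := by
  rintro u ⟨α, hα, hu⟩
  obtain ⟨h0, h1⟩ := Dat.unit (k := k) (D.le hα) (by omega)
  refine mem_Rl_iff.2 ⟨?_, ?_⟩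
  · rw [hu]
    exact add_mem (one_mem _) (mul_mem (Subring.pow_mem _ (natCast_mem _ l) _) (D.le hα))
  · rw [Units.val_inv_eq_inv_val, hu]
    exact h1

theorem Dat.Uk_le_V {k : ℕ} (hk : D.c + 1 ≤ k) : Uk L l (k + D.c) ≤ D.V k hk := by
  intro u hu
  obtain ⟨b, hb, h⟩ := (mem_Uk_iff (by omega)).1 hu
  refine ⟨(l : L) ^ D.c * b, D.hc b hb, ?_⟩
  rw [h]; ring

theorem Dat.V_anti {k j : ℕ} (hk : D.c + 1 ≤ k) (hkj : k ≤ j) :
    D.V j (hk.trans hkj) ≤ D.V k hk := by
  rintro u ⟨α, hα, hu⟩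
  obtain ⟨i, rfl⟩ := Nat.exists_eq_add_of_le hkj
  refine ⟨(l : L) ^ i * α, ?_, ?_⟩
  · have := Lat.smul_mem (Subring.pow_mem (LInt l K) (natCast_mem _ l) i) hα
    simpa using this
  · rw [hu]; ring

theorem Dat.aut_V {k : ℕ} (hk : D.c + 1 ≤ k) (g : L ≃ₐ[K] L) {u : Lˣ} (hu : u ∈ D.V k hk) :
    Units.map (g : L →* L) u ∈ D.V k hk := by
  obtain ⟨α, hα, hu⟩ := hu
  refine ⟨g α, Lat.aut_mem g hα, ?_⟩
  have : ((Units.map (g : L →* L) u : Lˣ) : L) = g (u : L) := rfl
  rw [this, hu]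
  simp

end groups

section nm
variable {K L : Type*} [Field K] [Field L] [Algebra K L]

theorem sg_apply (σ : L ≃ₐ[K] L) (x : Lˣ) : ((sg K σ x : Lˣ) : L) = σ x / x := by
  rw [sg, MonoidHom.div_apply, Units.val_div_eq_div_val]
  rfl

theorem sg_eq (σ : L ≃ₐ[K] L) (x : Lˣ) : sg K σ x = Units.map (σ : L →* L) x / x := rfl

theorem nm_apply [FiniteDimensional K L] [IsGalois K L] (x : Lˣ) :
    ((nm K L x : Lˣ) : L) = ∏ g : L ≃ₐ[K] L, g x := by
  rw [← Algebra.norm_eq_prod_automorphisms]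
  rfl

theorem nm_aut [FiniteDimensional K L] [IsGalois K L] (σ : L ≃ₐ[K] L) (x : Lˣ) :
    nm K L (Units.map (σ : L →* L) x) = nm K L x := by
  ext
  rw [nm_apply, nm_apply]
  exact Equiv.prod_comp (Equiv.mulRight σ) (fun g => g (x : L))

theorem nm_sg [FiniteDimensional K L] [IsGalois K L] (σ : L ≃ₐ[K] L) (x : Lˣ) :
    nm K L (sg K σ x) = 1 := by
  rw [sg_eq, map_div, nm_aut, div_self']

theorem sg_nm [FiniteDimensional K L] [IsGalois K L] (σ : L ≃ₐ[K] L) (x : Lˣ) :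
    sg K σ (nm K L x) = 1 := by
  ext
  rw [sg_apply]
  have : ((nm K L x : Lˣ) : L) = algebraMap K L (Algebra.norm K (x : L)) := rfl
  have h2 : ((nm K L x : Lˣ) : L) ≠ 0 := (nm K L x).ne_zero
  rw [this] at h2 ⊢
  rw [AlgEquiv.commutes, div_self h2, Units.val_one]

end nm

section descent
variable {l : ℕ} [hl : Fact l.Prime] {K L : Type*} [Field K] [NumberField K] [Field L]
  [NumberField L] [Algebra K L] [FiniteDimensional K L] [IsGalois K L]
variable (D : Dat l K L)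

theorem prod_one_add {ι : Type*} (s : Finset ι) (l : ℕ) [Fact l.Prime] (k : ℕ) (f : ι → L)
    (hf : ∀ i ∈ s, f i ∈ LInt l L) :
    ∃ e ∈ LInt l L, ∏ i ∈ s, (1 + (l : L) ^ k * f i)
      = 1 + (l : L) ^ k * ∑ i ∈ s, f i + (l : L) ^ (2 * k) * e := by
  classical
  induction s using Finset.induction_on with
  | empty => exact ⟨0, zero_mem _, by simp⟩
  | insert a s ha ih =>
    obtain ⟨e, he, h⟩ := ih (fun i hi => hf i (Finset.mem_insert_of_mem hi))
    have hfa := hf a (Finset.mem_insert_self a s)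
    refine ⟨e + f a * ∑ i ∈ s, f i + (l : L) ^ k * (f a * e), ?_, ?_⟩
    · refine add_mem (add_mem he (mul_mem hfa (sum_mem fun i hi =>
        hf i (Finset.mem_insert_of_mem hi)))) ?_
      exact mul_mem (Subring.pow_mem _ (natCast_mem _ _) _) (mul_mem hfa he)
    · rw [Finset.prod_insert ha, Finset.sum_insert ha, h]
      ring

/-- one step of the filtration -/
theorem Dat.step {σ : L ≃ₐ[K] L} (hσ : ∀ τ, τ ∈ Subgroup.zpowers σ) {j : ℕ}
    (hj : D.c + 1 ≤ j) {u : Lˣ} (hu : u ∈ D.V j hj)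
    (hN : nm K L u ∈ D.V (j + 1) (by omega)) :
    ∃ v ∈ D.V j hj, u / sg K σ v ∈ D.V (j + 1) (by omega) := by
  obtain ⟨α, hα, hu⟩ := hu
  obtain ⟨α', hα', hN⟩ := hN
  have hl0 : (l : L) ≠ 0 := l_ne_zero
  obtain ⟨i, rfl⟩ : ∃ i, j = i + 1 := ⟨j - 1, by omega⟩
  have hi : D.c ≤ i := by omega
  obtain ⟨e, he, hprod⟩ := prod_one_add (L := L) (Finset.univ : Finset (L ≃ₐ[K] L)) l (i + 1)
    (fun g => g α) (fun g _ => D.le (Lat.aut_mem g hα))
  have h1 : ((nm K L u : Lˣ) : L) = ∏ g : L ≃ₐ[K] L, (1 + (l : L) ^ (i + 1) * g α) := by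
    rw [nm_apply]
    refine Finset.prod_congr rfl fun g _ => ?_
    rw [hu]; simp
  rw [hN, hprod] at h1
  have htr : ∑ g : L ≃ₐ[K] L, g α = (l : L) * (α' - (l : L) ^ i * e) := by
    have h2 : (l : L) ^ (i + 1) * ∑ g : L ≃ₐ[K] L, g α
        = (l : L) ^ (i + 1) * ((l : L) * (α' - (l : L) ^ i * e)) := by
      linear_combination -h1
    exact mul_left_cancel₀ (pow_ne_zero _ hl0) h2
  obtain ⟨β, hβ, γ, hγ, hαβ⟩ := Lat.graded D.ind hσ hα
    (sub_mem hα' (D.pow_mem he hi)) htr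
  obtain ⟨hv0, hvi⟩ := Dat.unit (l := l) (L := L) (k := i + 1) (D.le hβ) (by omega)
  let v : Lˣ := Units.mk0 _ hv0
  have hv : v ∈ D.V (i + 1) hj := ⟨β, hβ, rfl⟩
  refine ⟨v, hv, ?_⟩
  have hσv := D.aut_V hj σ hv
  obtain ⟨ε, hε, hεv⟩ := inv_mem hσv
  refine ⟨(γ + (l : L) ^ i * (α * β)) + (l : L) ^ (i + 1) * ((γ + (l : L) ^ i * (α * β)) * ε),
    ?_, ?_⟩
  · have h3 : γ + (l : L) ^ i * (α * β) ∈ Lat l K D.θ :=
      add_mem hγ (D.pow_mem (mul_mem (D.le hα) (D.le hβ)) hi)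
    exact add_mem h3 (D.pow_mem (mul_mem (D.le h3) (D.le hε)) (by omega))
  · have h4 : ((u / sg K σ v : Lˣ) : L)
        = (u : L) * (v : L) * (((Units.map (σ : L →* L) v)⁻¹ : Lˣ) : L) := by
      rw [sg_eq, div_div_eq_mul_div, div_eq_mul_inv, Units.val_mul, Units.val_mul]
    have h5 : (σ (v : L)) * (((Units.map (σ : L →* L) v)⁻¹ : Lˣ) : L) = 1 := by
      have : ((Units.map (σ : L →* L) v : Lˣ) : L) = σ (v : L) := rfl
      rw [← this]
      exact Units.mul_inv _
    have hvv : (v : L) = 1 + (l : L) ^ (i + 1) * β := rfl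
    have hσvv : σ (v : L) = 1 + (l : L) ^ (i + 1) * σ β := by rw [hvv]; simp
    rw [h4]
    have h6 : (u : L) * (v : L) = σ (v : L)
        + (l : L) ^ (i + 1 + 1) * (γ + (l : L) ^ i * (α * β)) := by
      rw [hσvv, hu, hvv]
      have : α = (σ β - β) + (l : L) * γ := hαβ
      linear_combination (l : L) ^ (i + 1) * this
    rw [h6, add_mul, h5, hεv]
    ring

/-- iteration of the step -/
theorem Dat.iter {σ : L ≃ₐ[K] L} (hσ : ∀ τ, τ ∈ Subgroup.zpowers σ) {j : ℕ}
    (hj : D.c + 1 ≤ j) (i : ℕ) {u : Lˣ} (hu : u ∈ D.V j hj)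
    (hN : nm K L u = 1) :
    ∃ v ∈ D.V j hj, u / sg K σ v ∈ D.V (j + i) (by omega) := by
  induction i with
  | zero => exact ⟨1, one_mem _, by simpa using hu⟩
  | succ i ih =>
    obtain ⟨v, hv, h⟩ := ih
    have hN' : nm K L (u / sg K σ v) = 1 := by rw [map_div, hN, nm_sg, div_one]
    obtain ⟨w, hw, h'⟩ := D.step hσ (j := j + i) (by omega) h (by rw [hN']; exact one_mem _)
    refine ⟨v * w, mul_mem hv (D.V_anti hj (by omega) hw), ?_⟩
    rw [map_mul, ← div_div]
    exact h'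

/-- DESCENT (D1). -/
theorem Dat.descent {σ : L ≃ₐ[K] L} (hσ : ∀ τ, τ ∈ Subgroup.zpowers σ) {k : ℕ}
    (hk : D.c + 1 ≤ k) {x : Lˣ} (hx : sg K σ x ∈ D.V k hk) :
    ∃ a : Kˣ, ∃ v ∈ D.V k hk, x = inc K L a * v := by
  classical
  have hl0 : (l : L) ≠ 0 := l_ne_zero
  -- the order of the group
  set n : ℕ := Fintype.card (L ≃ₐ[K] L) with hn
  have hn0 : n ≠ 0 := Fintype.card_ne_zero
  obtain ⟨N, n', hn', hnn⟩ := Nat.exists_eq_pow_mul_and_not_dvd hn0 l hl.out.ne_one
  obtain ⟨v, hv, hxv⟩ := D.iter hσ hk N hx (nm_sg σ x)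
  -- replace x by y = x / v
  obtain ⟨y, hy⟩ : ∃ y : Lˣ, y = x / v := ⟨_, rfl⟩
  have hy1 : sg K σ y ∈ D.V (k + N) (by omega) := by
    rw [hy, map_div]; exact hxv
  -- all conjugates
  have hyi : ∀ i : ℕ, Units.map ((σ ^ i : L ≃ₐ[K] L) : L →* L) y / y ∈ D.V (k + N) (by omega) := by
    intro i
    induction i with
    | zero =>
      have : Units.map ((σ ^ 0 : L ≃ₐ[K] L) : L →* L) y = y := by ext; simp
      rw [this, div_self']; exact one_mem _
    | succ i ih =>
      have e : Units.map ((σ ^ (i + 1) : L ≃ₐ[K] L) : L →* L) y / y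
          = Units.map ((σ ^ i : L ≃ₐ[K] L) : L →* L) (sg K σ y)
            * (Units.map ((σ ^ i : L ≃ₐ[K] L) : L →* L) y / y) := by
        have e2 : Units.map ((σ ^ i : L ≃ₐ[K] L) : L →* L) (sg K σ y)
            = Units.map ((σ ^ (i + 1) : L ≃ₐ[K] L) : L →* L) y
              / Units.map ((σ ^ i : L ≃ₐ[K] L) : L →* L) y := by
          rw [sg_eq, map_div]
          congr 1
        rw [e2, div_mul_div_cancel]
      rw [e]
      exact mul_mem (D.aut_V _ _ hy1) ih
  have hg : ∀ g : L ≃ₐ[K] L, ∃ α ∈ Lat l K D.θ, g (y : L) = y * (1 + (l : L) ^ (k + N) * α) := by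
    intro g
    obtain ⟨i, hi⟩ := mem_powers_iff_mem_zpowers.2 (hσ g)
    have hi' : σ ^ i = g := hi
    obtain ⟨α, hα, h⟩ := hyi i
    rw [hi'] at h
    refine ⟨α, hα, ?_⟩
    have h' : g (y : L) / (y : L) = 1 + (l : L) ^ (k + N) * α := by
      rw [← h, Units.val_div_eq_div_val]; rfl
    rw [← h', mul_div_cancel₀ _ y.ne_zero]
  choose α hα hgα using hg
  have hn'K : (n' : K)⁻¹ ∈ LInt l K := inv_nat_mem hn'
  have hn'0 : (n' : L) ≠ 0 := by
    intro h
    have : n' = 0 := by exact_mod_cast h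
    exact hn' (this ▸ dvd_zero l)
  -- the sum of conjugates
  have hsum : algebraMap K L (Algebra.trace K L (y : L))
      = (n : L) * y * (1 + (l : L) ^ k * (algebraMap K L (n' : K)⁻¹ * ∑ g, α g)) := by
    rw [trace_eq_sum_automorphisms]
    simp_rw [hgα]
    rw [← Finset.mul_sum, Finset.sum_add_distrib, ← Finset.mul_sum, Finset.sum_const,
      Finset.card_univ, ← hn, hnn, nsmul_eq_mul, map_inv₀, map_natCast]
    push_cast
    field_simp
    ring
  have hmem : algebraMap K L (n' : K)⁻¹ * ∑ g, α g ∈ Lat l K D.θ :=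
    Lat.smul_mem hn'K (sum_mem fun g _ => hα g)
  obtain ⟨hw0, -⟩ := Dat.unit (l := l) (L := L) (k := k) (D.le hmem) (by omega)
  let w : Lˣ := Units.mk0 _ hw0
  have hw : w ∈ D.V k hk := ⟨_, hmem, rfl⟩
  have hnL : (n : L) ≠ 0 := by exact_mod_cast hn0
  have hnK : (n : K) ≠ 0 := by exact_mod_cast hn0
  have ha0 : Algebra.trace K L (y : L) ≠ 0 := by
    intro h
    rw [h, map_zero] at hsum
    have : (n : L) * y * (w : L) ≠ 0 := mul_ne_zero (mul_ne_zero hnL y.ne_zero) w.ne_zero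
    exact this hsum.symm
  refine ⟨Units.mk0 _ (div_ne_zero ha0 hnK), w⁻¹ * v, mul_mem (inv_mem hw) hv, ?_⟩
  have hyx : x = y * v := by rw [hy, div_mul_cancel]
  rw [hyx, ← mul_assoc]
  congr 1
  rw [eq_mul_inv_iff_mul_eq]
  ext
  have e1 : ((inc K L (Units.mk0 _ (div_ne_zero ha0 hnK)) : Lˣ) : L)
      = algebraMap K L (Algebra.trace K L (y : L) / n) := rfl
  rw [e1, map_div₀, hsum, map_natCast, Units.val_mul]
  have e2 : (w : L) = 1 + (l : L) ^ k * (algebraMap K L (n' : K)⁻¹ * ∑ g, α g) := rfl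
  rw [← e2]
  field_simp

end descent

end Crest.Agent.R018.SemiLocx476
end

-- ▼ part R018/SemiLocE_476

/-!
Row 18, block D (helper476), part 5: finite index, Herbrand symmetry and the exported theorem.
-/

set_option autoImplicit false
set_option linter.unusedSectionVars false

open scoped NumberField
open IsDedekindDomain

namespace Crest.Agent.R018.SemiLocx476

open Crest.Agent.R018.LogDefsx575

section abstract
variable {M : Type*} [CommGroup M]

/-- In a finite quotient `R/V`, the two Herbrand numbers agree. -/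
theorem herb_eq {f g : M →* M} {R V : Subgroup M} (hVR : V ≤ R) (hfin : V.relIndex R ≠ 0)
    (hRf : R.map f ≤ R) (hRg : R.map g ≤ R) (hVf : V.map f ≤ V) (hVg : V.map g ≤ V)
    (hfg : ∀ x ∈ R, f (g x) ∈ V) (hgf : ∀ x ∈ R, g (f x) ∈ V) :
    (R.map f ⊔ V).relIndex (R ⊓ V.comap g) = (R.map g ⊔ V).relIndex (R ⊓ V.comap f) ∧
    (R.map f ⊔ V).relIndex (R ⊓ V.comap g) ≠ 0 := by
  have key : ∀ {f g : M →* M}, R.map f ≤ R → V.map g ≤ V → (∀ x ∈ R, g (f x) ∈ V) →
      V.relIndex (R.map f ⊔ V) * (R.map f ⊔ V).relIndex (R ⊓ V.comap g)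
        * V.relIndex (R.map g ⊔ V) = V.relIndex R := by
    intro f g hRf hVg hgf
    have h1 : V ≤ R ⊓ V.comap g := le_inf hVR (Subgroup.map_le_iff_le_comap.1 hVg)
    have h2 : R.map f ⊔ V ≤ R ⊓ V.comap g := by
      refine sup_le (le_inf hRf ?_) h1
      rintro _ ⟨x, hx, rfl⟩
      exact hgf x hx
    rw [Subgroup.relIndex_mul_relIndex _ _ _ le_sup_right h2, Subgroup.relIndex_sup_right,
      ← Subgroup.relIndex_comap, ← Subgroup.inf_relIndex_left R (V.comap g),
      Subgroup.relIndex_mul_relIndex _ _ _ h1 inf_le_left]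
  have k1 := key hRf hVg hgf
  have k2 := key hRg hVf hfg
  have h0 : V.relIndex (R.map f ⊔ V) * (R.map f ⊔ V).relIndex (R ⊓ V.comap g)
        * V.relIndex (R.map g ⊔ V) ≠ 0 := by rw [k1]; exact hfin
  have ha : V.relIndex (R.map f ⊔ V) ≠ 0 := fun h => h0 (by rw [h]; simp)
  have hb : V.relIndex (R.map g ⊔ V) ≠ 0 := fun h => h0 (by rw [h]; simp)
  have hc : (R.map f ⊔ V).relIndex (R ⊓ V.comap g) ≠ 0 := fun h => h0 (by rw [h]; simp)
  refine ⟨?_, hc⟩
  have h3 : (V.relIndex (R.map f ⊔ V) * V.relIndex (R.map g ⊔ V))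
        * (R.map f ⊔ V).relIndex (R ⊓ V.comap g)
      = (V.relIndex (R.map f ⊔ V) * V.relIndex (R.map g ⊔ V))
        * (R.map g ⊔ V).relIndex (R ⊓ V.comap f) := by
    calc _ = V.relIndex (R.map f ⊔ V) * (R.map f ⊔ V).relIndex (R ⊓ V.comap g)
        * V.relIndex (R.map g ⊔ V) := by ring
      _ = _ := by rw [k1, ← k2]; ring
  exact Nat.eq_of_mul_eq_mul_left (Nat.pos_of_ne_zero (mul_ne_zero ha hb)) h3

end abstract

section index
variable {l : ℕ} [hl : Fact l.Prime] {L : Type*} [Field L] [NumberField L]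

/-- The congruence subgroups have finite index in the units at `l`. -/
theorem Uk_relIndex_ne_zero (m : ℕ) : (Uk L l m).relIndex (Rl L l) ≠ 0 := by
  classical
  suffices h : ∀ m, 1 ≤ m → (Uk L l m).relIndex (Rl L l) ≠ 0 by
    have hle : Uk L l (m + 1) ≤ Uk L l m := by
      rintro x ⟨hx, hx'⟩
      refine ⟨hx, fun v hv => (hx' v hv).trans ?_⟩
      rw [pow_succ]
      refine mul_le_of_le_one_right' ?_
      refine val_le_one_of_isIntegral ?_
      have h := isIntegral_algebraMap (R := ℤ) (x := ((l : ℕ) : ℤ)) (A := L)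
      simpa using h
    intro h0
    exact h (m + 1) (by omega) (Subgroup.relIndex_eq_zero_of_le_left hle h0)
  intro m hm
  have hl0 : (l : L) ≠ 0 := l_ne_zero
  let I : Ideal (𝓞 L) := Ideal.span {(l : 𝓞 L) ^ m}
  have hI : I ≠ ⊥ := by
    intro h
    have h1 : (l : 𝓞 L) ^ m = 0 := by
      have : (l : 𝓞 L) ^ m ∈ I := Ideal.subset_span rfl
      rw [h] at this
      simpa using this
    have h2 : (l : 𝓞 L) = 0 := eq_zero_of_pow_eq_zero h1
    exact hl.out.ne_zero (by exact_mod_cast h2)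
  have hfin : Finite (𝓞 L ⧸ I) := Ring.HasFiniteQuotients.finiteQuotient hI
  have hr : ∀ x : Rl L l, ∃ r : 𝓞 L, ∃ b ∈ LInt l L, ((x : Lˣ) : L) = r + (l : L) ^ m * b := by
    intro x
    obtain ⟨r, hr, b, hb, h⟩ := approx_integral (mem_Rl_iff.1 x.2).1 m
    exact ⟨⟨r, hr⟩, b, hb, h⟩
  choose r b hb hrb using hr
  have hinj : ∀ x y : Rl L l, Ideal.Quotient.mk I (r x) = Ideal.Quotient.mk I (r y) →
      (x⁻¹ * y) ∈ (Uk L l m).subgroupOf (Rl L l) := by
    intro x y hxy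
    rw [Ideal.Quotient.eq, Ideal.mem_span_singleton] at hxy
    obtain ⟨c, hc⟩ := hxy
    have hc' : ((r x : 𝓞 L) : L) - (r y : L) = (l : L) ^ m * (c : L) := by
      have := congrArg (algebraMap (𝓞 L) L) hc
      simpa using this
    rw [Subgroup.mem_subgroupOf]
    refine (mem_Uk_iff hm).2 ⟨(b y - b x - c) * (((x : Lˣ)⁻¹ : Lˣ) : L), ?_, ?_⟩
    · refine mul_mem (sub_mem (sub_mem (hb y) (hb x)) ?_) (mem_Rl_iff.1 x.2).2
      exact mem_of_isIntegral c.2
    · have h1 : (((x⁻¹ * y : Rl L l) : Lˣ) : L) = (((x : Lˣ)⁻¹ : Lˣ) : L) * ((y : Lˣ) : L) := rfl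
      have h2 : (((x : Lˣ)⁻¹ : Lˣ) : L) * ((x : Lˣ) : L) = 1 := Units.inv_mul _
      rw [h1]
      have h3 := hrb x
      have h4 := hrb y
      linear_combination (((x : Lˣ)⁻¹ : Lˣ) : L) * (h4 - h3 - hc') + h2
  have : Finite (Rl L l ⧸ (Uk L l m).subgroupOf (Rl L l)) := by
    refine Finite.of_injective (β := 𝓞 L ⧸ I)
      (fun q => Ideal.Quotient.mk I (r q.out)) ?_
    intro q q' h
    have h1 := hinj _ _ h
    rw [← QuotientGroup.eq, QuotientGroup.out_eq', QuotientGroup.out_eq'] at h1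
    exact h1
  exact Subgroup.index_ne_zero_of_finite

end index

section main
variable (l : ℕ) [hl : Fact l.Prime] (K L : Type*) [Field K] [NumberField K] [Field L]
  [NumberField L] [Algebra K L] [FiniteDimensional K L] [IsGalois K L]

theorem aut_LInt {l : ℕ} [Fact l.Prime] {K L : Type*} [Field K] [Field L] [Algebra K L]
    (g : L ≃ₐ[K] L) {x : L} (hx : x ∈ LInt l L) : g x ∈ LInt l L :=
  (map_mem_iff (l := l) (g : L →+* L)).2 hx

variable {l K L}

theorem aut_Rl (g : L ≃ₐ[K] L) {u : Lˣ} (hu : u ∈ Rl L l) :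
    Units.map (g : L →* L) u ∈ Rl L l := by
  obtain ⟨h1, h2⟩ := mem_Rl_iff.1 hu
  exact mem_Rl_iff.2 ⟨aut_LInt g h1, aut_LInt g h2⟩

/-- a subgroup of `Lˣ` stable under the Galois group is stable under `sg` and `nm` -/
theorem stab_sg {B : Subgroup Lˣ} (hB : ∀ g : L ≃ₐ[K] L, ∀ u ∈ B, Units.map (g : L →* L) u ∈ B)
    (σ : L ≃ₐ[K] L) : B.map (sg K σ) ≤ B := by
  rintro _ ⟨u, hu, rfl⟩
  exact div_mem (hB σ u hu) hu

theorem nm_eq_prod (u : Lˣ) : nm K L u = ∏ g : L ≃ₐ[K] L, Units.map (g : L →* L) u := by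
  ext
  rw [nm_apply, Units.coe_prod]
  rfl

theorem stab_nm {B : Subgroup Lˣ} (hB : ∀ g : L ≃ₐ[K] L, ∀ u ∈ B, Units.map (g : L →* L) u ∈ B) :
    B.map (nm K L) ≤ B := by
  rintro _ ⟨u, hu, rfl⟩
  rw [nm_eq_prod]
  exact prod_mem fun g _ => hB g u hu

/-- BLOCK D (D1 + D2) of LEMMA LOG. -/
theorem blockD (l : ℕ) [hl : Fact l.Prime] (K L : Type*) [Field K] [NumberField K] [Field L]
    [NumberField L] [Algebra K L] [IsGalois K L]
    (σ : L ≃ₐ[K] L) (hσ : ∀ τ, τ ∈ Subgroup.zpowers σ) :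
    ∃ V : Subgroup Lˣ, V ≤ Rl L l ∧ V.relIndex (Rl L l) ≠ 0 ∧
      (∀ g : L ≃ₐ[K] L, ∀ u ∈ V, Units.map (g : L →* L) u ∈ V) ∧
      (∃ k1, 1 ≤ k1 ∧ Uk L l k1 ≤ V) ∧
      (∀ x : Lˣ, sg K σ x ∈ V → ∃ a : Kˣ, ∃ v ∈ V, x = inc K L a * v) ∧
      ((Rl L l).map (sg K σ) ⊔ V).relIndex (Rl L l ⊓ V.comap (nm K L))
        = ((Rl L l).map (nm K L) ⊔ V).relIndex (Rl L l ⊓ V.comap (sg K σ)) ∧
      ((Rl L l).map (sg K σ) ⊔ V).relIndex (Rl L l ⊓ V.comap (nm K L)) ≠ 0 := by
  have : FiniteDimensional K L := inferInstance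
  obtain ⟨D⟩ := Dat.exists (l := l) (K := K) (L := L)
  have hk : D.c + 1 ≤ D.c + 1 := le_refl _
  have hV : ∀ g : L ≃ₐ[K] L, ∀ u ∈ D.V (D.c + 1) hk, Units.map (g : L →* L) u ∈ D.V (D.c + 1) hk :=
    fun g u hu => D.aut_V hk g hu
  have hR : ∀ g : L ≃ₐ[K] L, ∀ u ∈ Rl L l, Units.map (g : L →* L) u ∈ Rl L l :=
    fun g u hu => aut_Rl g hu
  have hfin : (D.V (D.c + 1) hk).relIndex (Rl L l) ≠ 0 := fun h =>
    Uk_relIndex_ne_zero _ (Subgroup.relIndex_eq_zero_of_le_left (D.Uk_le_V hk) h)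
  have hh := herb_eq (f := sg K σ) (g := nm K L) (D.V_le_Rl hk) hfin
    (stab_sg hR σ) (stab_nm hR) (stab_sg hV σ) (stab_nm hV)
    (fun x _ => by rw [sg_nm]; exact one_mem _) (fun x _ => by rw [nm_sg]; exact one_mem _)
  exact ⟨D.V (D.c + 1) hk, D.V_le_Rl hk, hfin, hV, ⟨D.c + 1 + D.c, by omega, D.Uk_le_V hk⟩,
    fun x hx => D.descent hσ hk hx, hh.1, hh.2⟩

end main

end Crest.Agent.R018.SemiLocx476
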