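import Crest.Agent.R018.KerCl_793
import Crest.Agent.R018.LogFin_575
import Crest.Agent.R018.SemiLocE_476
import Crest.Agent.R018.HerbA_530
import Crest.Agent.R018.SLatB_824
import Mathlib
import Crest.Agent.R018.LogDefs_575
import Crest.Agent.R018.DegB_614

-- ▼ part R018/KerClB_793
section

/-! Row 18, LEMMA LOG: `BlockC'` of LogFin_575 (kernel bound). -/

set_option autoImplicit false

namespace Crest.Agent.R018.KerClBx793

open IsDedekindDomain NumberField Crest.Agent.R018.LogDefsx575 Crest.Agent.R018.LogFinx575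

theorem blockC' (K L : Type*) [Field K] [NumberField K] [Field L] [NumberField L] [Algebra K L] :
    BlockC' K L := by
  intro hG σ hσ l _ hur S _ V hV hD1
  exact (Crest.Agent.R018.KerClx793.kernel_bound σ hσ l hur S V hV hD1).1

end Crest.Agent.R018.KerClBx793
end

-- ▼ part R018/SemiLocF_476
section

/-!
Row 18, block D (helper476), part 6: block D in the literal form `LogFinx575.BlockD'`.
-/

set_option autoImplicit false
set_option linter.unusedSectionVars false

open scoped NumberField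
open IsDedekindDomain

namespace Crest.Agent.R018.SemiLocx476

open Crest.Agent.R018.LogDefsx575

section
variable {l : ℕ} [hl : Fact l.Prime] {K L : Type*} [Field K] [NumberField K] [Field L]
  [NumberField L] [Algebra K L]

theorem inc_mem_Rl_iff {a : Kˣ} : inc K L a ∈ Rl L l ↔ a ∈ Rl K l := by
  have e1 : ((inc K L a : Lˣ) : L) = algebraMap K L a := rfl
  have e2 : (((inc K L a)⁻¹ : Lˣ) : L) = algebraMap K L ((a⁻¹ : Kˣ) : K) := by
    rw [← map_inv]; rfl
  rw [mem_Rl_iff, mem_Rl_iff, e1, e2, map_mem_iff, map_mem_iff]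

theorem inc_mem_Uk {a : Kˣ} {k : ℕ} (hk : 1 ≤ k) (ha : a ∈ Uk K l k) :
    inc K L a ∈ Uk L l k := by
  obtain ⟨b, hb, h⟩ := (mem_Uk_iff hk).1 ha
  refine (mem_Uk_iff hk).2 ⟨algebraMap K L b, (map_mem_iff _).2 hb, ?_⟩
  have e1 : ((inc K L a : Lˣ) : L) = algebraMap K L a := rfl
  rw [e1, h]
  simp

theorem sg_inc' (σ : L ≃ₐ[K] L) (a : Kˣ) : sg K σ (inc K L a) = 1 := by
  ext
  rw [sg_apply]
  have e1 : ((inc K L a : Lˣ) : L) = algebraMap K L a := rfl
  rw [e1, AlgEquiv.commutes, div_self, Units.val_one]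
  rw [← e1]
  exact (inc K L a).ne_zero

end

/-- BLOCK D of LEMMA LOG, literal form. -/
theorem blockD' (K L : Type*) [Field K] [NumberField K] [Field L] [NumberField L] [Algebra K L] :
    Crest.Agent.R018.LogFinx575.BlockD' K L := by
  intro hG σ hσ l hl
  have : Fact l.Prime := ⟨hl⟩
  obtain ⟨V, hVR, -, hV, ⟨k1, hk1, hk⟩, hD1, hD2, hD3⟩ := blockD l K L σ hσ
  have key : Rl L l ⊓ V.comap (sg K σ) = (Rl K l).map (inc K L) ⊔ V := by
    apply le_antisymm
    · intro x hxx
      obtain ⟨hx, hx'⟩ := Subgroup.mem_inf.1 hxx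
      obtain ⟨a, v, hv, rfl⟩ := hD1 x hx'
      have ha : inc K L a ∈ Rl L l := by
        have := mul_mem hx (inv_mem (hVR hv))
        rwa [mul_inv_cancel_right] at this
      exact Subgroup.mul_mem_sup ⟨a, inc_mem_Rl_iff.1 ha, rfl⟩ hv
    · refine sup_le ?_ (le_inf hVR (Subgroup.map_le_iff_le_comap.1 (stab_sg hV σ)))
      rintro _ ⟨a, ha, rfl⟩
      refine ⟨inc_mem_Rl_iff.2 ha, ?_⟩
      show sg K σ (inc K L a) ∈ V
      rw [sg_inc']
      exact one_mem _
  refine ⟨V, hVR, ⟨k1, ?_⟩, hD1, ?_, hD3⟩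
  · rintro _ ⟨a, ha, rfl⟩
    exact hk (inc_mem_Uk hk1 ha)
  · rw [hD2, key]

end Crest.Agent.R018.SemiLocx476
end

-- ▼ part R018/HerbPerm_530
section

/-!
# Row 18, LEMMA LOG, block A4: free permutation modules of a cyclic group are acyclic (helper530)
-/

set_option autoImplicit false

noncomputable section

namespace Crest.Agent.R018.HerbPermx530

variable {X : Type*} (s : Equiv.Perm X) (n : ℕ)

/-- the translation action of a permutation on `X → ℤ`, written multiplicatively -/
def shiftP : Multiplicative (X → ℤ) →* Multiplicative (X → ℤ) :=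
  AddMonoidHom.toMultiplicative
    { toFun := fun φ x => φ (s⁻¹ x)
      map_zero' := rfl
      map_add' := fun _ _ => rfl }

/-- `φ ↦ s φ - φ` -/
def sgP : Multiplicative (X → ℤ) →* Multiplicative (X → ℤ) :=
  shiftP s / MonoidHom.id _

/-- `φ ↦ ∑_{i<n} sⁱ φ` -/
def nmP : Multiplicative (X → ℤ) →* Multiplicative (X → ℤ) :=
  AddMonoidHom.toMultiplicative
    { toFun := fun φ x => ∑ i ∈ Finset.range n, φ ((s⁻¹ ^ i) x)
      map_zero' := by ext x; simp
      map_add' := fun a b => by ext x; simp [Finset.sum_add_distrib] }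

theorem sgP_apply (φ : Multiplicative (X → ℤ)) (x : X) :
    Multiplicative.toAdd (sgP s φ) x
      = Multiplicative.toAdd φ (s⁻¹ x) - Multiplicative.toAdd φ x := rfl

theorem nmP_apply (φ : Multiplicative (X → ℤ)) (x : X) :
    Multiplicative.toAdd (nmP s n φ) x
      = ∑ i ∈ Finset.range n, Multiplicative.toAdd φ ((s⁻¹ ^ i) x) := rfl

/-- the action of `s` is free of order `n` -/
structure FreeOrd : Prop where
  pos : 0 < n
  pow : s ^ n = 1
  free : ∀ x : X, ∀ i : ℕ, 0 < i → i < n → (s ^ i) x ≠ x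

variable {s n}

theorem inv_app (s : Equiv.Perm X) (x : X) : s⁻¹ (s x) = x := s.symm_apply_apply x

theorem app_inv (s : Equiv.Perm X) (x : X) : s (s⁻¹ x) = x := s.apply_symm_apply x

/-- the orbit relation -/
def orel (s : Equiv.Perm X) : Setoid X := MulAction.orbitRel (Subgroup.zpowers s) X

theorem orel_iff (x y : X) : (orel s).r x y ↔ ∃ k : ℤ, (s ^ k) y = x := by
  constructor
  · rintro ⟨⟨_, ⟨k, rfl⟩⟩, h⟩
    exact ⟨k, h⟩
  · rintro ⟨k, h⟩
    exact ⟨⟨_, ⟨k, rfl⟩⟩, h⟩

/-- representative of the orbit -/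
def rep (s : Equiv.Perm X) (x : X) : X := (Quotient.mk (orel s) x).out

theorem rep_rel (x : X) : ∃ k : ℤ, (s ^ k) (rep s x) = x := by
  have : (orel s).r (rep s x) x := Quotient.mk_out (s := orel s) x
  exact (orel_iff _ _).1 ((orel s).symm' this)

theorem rep_congr {x y : X} (h : ∃ k : ℤ, (s ^ k) y = x) : rep s x = rep s y := by
  unfold rep
  have : Quotient.mk (orel s) x = Quotient.mk (orel s) y := Quotient.sound ((orel_iff _ _).2 h)
  rw [this]


theorem zpow_emod (hs : FreeOrd s n) (k : ℤ) : s ^ k = s ^ (k % n).toNat := by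
  have h1 : (0 : ℤ) ≤ k % n := Int.emod_nonneg _ (by exact_mod_cast hs.pos.ne')
  have h2 : s ^ k = s ^ (k % n) := by
    conv_lhs => rw [← Int.emod_add_mul_ediv k n]
    rw [zpow_add, zpow_mul, zpow_natCast, hs.pow, one_zpow, mul_one]
  rw [h2]
  conv_lhs => rw [← Int.toNat_of_nonneg h1]
  rw [zpow_natCast]

theorem exists_pos (hs : FreeOrd s n) (x : X) : ∃ i : ℕ, i < n ∧ (s ^ i) (rep s x) = x := by
  obtain ⟨k, hk⟩ := rep_rel (s := s) x
  refine ⟨(k % n).toNat, ?_, ?_⟩
  · have h1 : k % n < n := Int.emod_lt_of_pos _ (by exact_mod_cast hs.pos)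
    have h0 : (0 : ℤ) ≤ k % n := Int.emod_nonneg _ (by exact_mod_cast hs.pos.ne')
    omega
  · rw [← zpow_emod hs, hk]

theorem pos_unique (hs : FreeOrd s n) {y : X} {i j : ℕ} (hi : i < n) (hj : j < n)
    (h : (s ^ i) y = (s ^ j) y) : i = j := by
  wlog hij : i ≤ j generalizing i j
  · exact (this hj hi h.symm (by omega)).symm
  by_contra hne
  have h1 : (s ^ (j - i)) y = y := by
    have h2 : s ^ j = s ^ i * s ^ (j - i) := by rw [← pow_add]; congr 1; omega
    rw [h2, Equiv.Perm.mul_apply] at h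
    exact ((s ^ i).injective h).symm
  exact hs.free y (j - i) (by omega) (by omega) h1

/-- position of `x` in its orbit -/
def posn (hs : FreeOrd s n) (x : X) : ℕ := (exists_pos hs x).choose

theorem posn_lt (hs : FreeOrd s n) (x : X) : posn hs x < n := (exists_pos hs x).choose_spec.1

theorem posn_spec (hs : FreeOrd s n) (x : X) : (s ^ posn hs x) (rep s x) = x :=
  (exists_pos hs x).choose_spec.2

theorem posn_eq (hs : FreeOrd s n) {x : X} {i : ℕ} (hi : i < n) (h : (s ^ i) (rep s x) = x) :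
    posn hs x = i :=
  pos_unique hs (y := rep s x) (posn_lt hs x) hi (by rw [posn_spec, h])

/-- the sum over the orbit -/
theorem orbit_sum (hs : FreeOrd s n) (φ : X → ℤ) (x : X) :
    ∑ i ∈ Finset.range n, φ ((s⁻¹ ^ i) x) = ∑ i ∈ Finset.range n, φ ((s ^ i) (rep s x)) := by
  classical
  -- bijection i ↦ (p - i) mod n
  set p := posn hs x with hp
  have hpn : p < n := posn_lt hs x
  refine Finset.sum_bij (fun i _ => if i ≤ p then p - i else p + n - i) ?_ ?_ ?_ ?_
  · intro i hi
    rw [Finset.mem_range] at hi ⊢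
    split_ifs <;> omega
  · intro i hi j hj h
    rw [Finset.mem_range] at hi hj
    split_ifs at h <;> omega
  · intro j hj
    rw [Finset.mem_range] at hj
    refine ⟨if j ≤ p then p - j else p + n - j, ?_, ?_⟩
    · rw [Finset.mem_range]; split_ifs <;> omega
    · split_ifs <;> omega
  · intro i hi
    rw [Finset.mem_range] at hi
    congr 1
    have hx : (s ^ p) (rep s x) = x := posn_spec hs x
    conv_lhs => rw [← hx]
    split_ifs with h
    · rw [← Equiv.Perm.mul_apply]
      congr 1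
      have : s ^ p = s ^ i * s ^ (p - i) := by rw [← pow_add]; congr 1; omega
      rw [this, inv_pow, inv_mul_cancel_left]
    · rw [← Equiv.Perm.mul_apply]
      congr 1
      have h3 : s ^ (p + n) = s ^ p := by rw [pow_add, hs.pow, mul_one]
      have : s ^ p = s ^ i * s ^ (p + n - i) := by
        rw [← h3, ← pow_add]; congr 1; omega
      rw [this, inv_pow, inv_mul_cancel_left]

theorem sg_nm (hs : FreeOrd s n) (φ : Multiplicative (X → ℤ)) : sgP s (nmP s n φ) = 1 := by
  apply Multiplicative.toAdd.injective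
  ext x
  rw [sgP_apply, nmP_apply, nmP_apply, orbit_sum hs, orbit_sum hs]
  have : rep s (s⁻¹ x) = rep s x := rep_congr ⟨-1, by simp⟩
  rw [this, sub_self]
  rfl

theorem nm_sg (hs : FreeOrd s n) (φ : Multiplicative (X → ℤ)) : nmP s n (sgP s φ) = 1 := by
  apply Multiplicative.toAdd.injective
  ext x
  rw [nmP_apply]
  have h1 : ∀ i, Multiplicative.toAdd (sgP s φ) ((s⁻¹ ^ i) x) =
      Multiplicative.toAdd φ ((s⁻¹ ^ (i + 1)) x) - Multiplicative.toAdd φ ((s⁻¹ ^ i) x) := by
    intro i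
    rw [sgP_apply, pow_succ', Equiv.Perm.mul_apply]
  rw [Finset.sum_congr rfl (fun i _ => h1 i),
    Finset.sum_range_sub (fun i => Multiplicative.toAdd φ ((s⁻¹ ^ i) x))]
  have : s⁻¹ ^ n = 1 := by rw [inv_pow, hs.pow, inv_one]
  rw [this]
  simp

theorem ker_sgP (hs : FreeOrd s n) : (sgP s).ker = (nmP s n).range := by
  classical
  apply le_antisymm
  · intro φ hφ
    have h1 : ∀ x, Multiplicative.toAdd φ (s⁻¹ x) = Multiplicative.toAdd φ x := by
      intro x
      have h2 : sgP s φ = 1 := hφ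
      have h3 := congrArg (fun ψ : Multiplicative (X → ℤ) => Multiplicative.toAdd ψ x) h2
      simp only [sgP_apply] at h3
      have h4 : Multiplicative.toAdd (1 : Multiplicative (X → ℤ)) x = 0 := rfl
      rw [h4] at h3
      exact sub_eq_zero.1 h3
    have h5 : ∀ x, Multiplicative.toAdd φ (s x) = Multiplicative.toAdd φ x := by
      intro x
      have := h1 (s x)
      rw [inv_app] at this
      exact this.symm
    have h6 : ∀ (i : ℕ) x, Multiplicative.toAdd φ ((s ^ i) x) = Multiplicative.toAdd φ x := by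
      intro i
      induction i with
      | zero => intro x; simp
      | succ i ih =>
        intro x
        rw [pow_succ, Equiv.Perm.mul_apply, ih, h5]
    refine ⟨Multiplicative.ofAdd (fun x => if posn hs x = 0 then Multiplicative.toAdd φ x else 0),
      ?_⟩
    apply Multiplicative.toAdd.injective
    ext x
    rw [nmP_apply, orbit_sum hs]
    rw [Finset.sum_eq_single 0]
    · have h7 : posn hs (rep s x) = 0 := by
        apply posn_eq hs hs.pos
        have : rep s (rep s x) = rep s x := by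
          obtain ⟨k, hk⟩ := rep_rel (s := s) x
          exact (rep_congr ⟨k, hk⟩).symm
        rw [this]; simp
      simp only [pow_zero, Equiv.Perm.coe_one, id_eq, toAdd_ofAdd, h7, if_true]
      conv_rhs => rw [← posn_spec hs x]
      rw [h6]
    · intro i hi hi0
      rw [Finset.mem_range] at hi
      have h8 : posn hs ((s ^ i) (rep s x)) = i := by
        apply posn_eq hs hi
        have : rep s ((s ^ i) (rep s x)) = rep s x := by
          obtain ⟨k, hk⟩ := rep_rel (s := s) x
          have e1 : rep s ((s ^ i) (rep s x)) = rep s (rep s x) :=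
            rep_congr ⟨(i : ℤ), by simp⟩
          rw [e1]
          exact (rep_congr ⟨k, hk⟩).symm
        rw [this]
      simp only [toAdd_ofAdd, h8, hi0, if_false]
    · intro h
      exact absurd (Finset.mem_range.2 hs.pos) h
  · rintro _ ⟨φ, rfl⟩
    exact sg_nm hs φ

theorem posn_succ (hs : FreeOrd s n) (x : X) (h : posn hs (s⁻¹ x) + 1 < n) :
    posn hs x = posn hs (s⁻¹ x) + 1 := by
  apply posn_eq hs h
  have h1 := posn_spec hs (s⁻¹ x)
  have h2 : rep s (s⁻¹ x) = rep s x := rep_congr ⟨-1, by simp⟩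
  rw [h2] at h1
  rw [pow_succ', Equiv.Perm.mul_apply, h1, app_inv]

theorem posn_last (hs : FreeOrd s n) (x : X) (h : posn hs (s⁻¹ x) + 1 = n) :
    posn hs x = 0 := by
  apply posn_eq hs hs.pos
  have h1 := posn_spec hs (s⁻¹ x)
  have h2 : rep s (s⁻¹ x) = rep s x := rep_congr ⟨-1, by simp⟩
  rw [h2] at h1
  have h3 : (s ^ n) (rep s x) = x := by
    conv_lhs => rw [← h]
    rw [pow_succ', Equiv.Perm.mul_apply, h1, app_inv]
  rw [hs.pow] at h3
  rw [pow_zero]
  exact h3

theorem ker_nmP (hs : FreeOrd s n) : (nmP s n).ker = (sgP s).range := by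
  classical
  apply le_antisymm
  · intro φ hφ
    have h1 : ∀ x, ∑ i ∈ Finset.range n, Multiplicative.toAdd φ ((s ^ i) (rep s x)) = 0 := by
      intro x
      have h2 : nmP s n φ = 1 := hφ
      have h3 := congrArg (fun ψ : Multiplicative (X → ℤ) => Multiplicative.toAdd ψ x) h2
      simp only [nmP_apply] at h3
      rw [orbit_sum hs] at h3
      exact h3
    -- ψ (s^j r) = - ∑_{i ≤ j} φ (s^i r)
    refine ⟨Multiplicative.ofAdd (fun x =>
      - ∑ i ∈ Finset.range (posn hs x + 1), Multiplicative.toAdd φ ((s ^ i) (rep s x))), ?_⟩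
    apply Multiplicative.toAdd.injective
    ext x
    rw [sgP_apply]
    simp only [toAdd_ofAdd]
    have h2 : rep s (s⁻¹ x) = rep s x := rep_congr ⟨-1, by simp⟩
    rw [h2]
    rcases Nat.lt_or_ge (posn hs (s⁻¹ x) + 1) n with h | h
    · have h3 := posn_succ hs x h
      rw [h3, Finset.sum_range_succ _ (posn hs (s⁻¹ x) + 1)]
      have h4 : (s ^ (posn hs (s⁻¹ x) + 1)) (rep s x) = x := by
        rw [← h3]; exact posn_spec hs x
      rw [h4]
      ring
    · have h5 : posn hs (s⁻¹ x) + 1 = n := le_antisymm (posn_lt hs _) h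
      have h6 := posn_last hs x h5
      rw [h6, h5, h1]
      have h4 : rep s x = x := by
        have := posn_spec hs x
        rw [h6] at this
        exact this
      simp [h4]
  · rintro _ ⟨φ, rfl⟩
    exact nm_sg hs φ

end Crest.Agent.R018.HerbPermx530
end
end

-- ▼ part R018/LogB_824
section

/-!
Row 18, LEMMA LOG, block B (helper824): the Herbrand quotient of the `S`-units is `1/n` for a cyclic
extension of odd degree in which every prime of `S` splits completely.
-/

set_option autoImplicit false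

open NumberField NumberField.InfinitePlace NumberField.Units Module IsDedekindDomain
open scoped Pointwise

namespace Crest.Agent.R018.LogBx824

open Crest.Agent.R018.MinkUx824 Crest.Agent.R018.LogDefsx575
open Crest.Agent.R018.SLatx824 Crest.Agent.R018.SLatBx824
open Crest.Agent.R018.HerbAx530 Crest.Agent.R018.HerbPermx530

attribute [local instance] actH actOv

section

variable {M T : Type*} [CommGroup M] [Fintype T]

/-- the homomorphism `ℤ^T → M` given by a family -/
def fam (z : T → M) : Multiplicative (T → ℤ) →* M where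
  toFun φ := ∏ t, z t ^ Multiplicative.toAdd φ t
  map_one' := by
    apply Finset.prod_eq_one
    intro t _
    exact zpow_zero _
  map_mul' φ ψ := by
    rw [← Finset.prod_mul_distrib]
    refine Finset.prod_congr rfl fun t _ => ?_
    rw [← zpow_add]
    rfl

theorem fam_apply (z : T → M) (φ : Multiplicative (T → ℤ)) :
    fam z φ = ∏ t, z t ^ Multiplicative.toAdd φ t := rfl

end

section

variable {G M T : Type*} [Group G] [CommGroup M] [MulDistribMulAction G M] [MulAction G T]

theorem toPerm_pow (σ : G) (i : ℕ) :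
    (MulAction.toPerm σ : Equiv.Perm T) ^ i = MulAction.toPerm (σ ^ i) := by
  have := map_pow (MulAction.toPermHom G T) σ i
  exact this.symm

theorem toPerm_inv_pow (σ : G) (i : ℕ) (t : T) :
    ((MulAction.toPerm σ : Equiv.Perm T)⁻¹ ^ i) t = (σ ^ i)⁻¹ • t := by
  rw [inv_pow, toPerm_pow]
  rfl

variable [Fintype T]

theorem fam_shift (z : T → M) (hz : ∀ (σ : G) t, z (σ • t) = σ • z t) (σ : G)
    (φ : Multiplicative (T → ℤ)) :
    fam z (shiftP (MulAction.toPerm σ) φ) = σ • fam z φ := by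
  rw [fam_apply, fam_apply, ← prod_smul_inv z hz σ]
  rfl

theorem fam_nm (z : T → M) (hz : ∀ (σ : G) t, z (σ • t) = σ • z t) (σ : G) (n : ℕ)
    (φ : Multiplicative (T → ℤ)) :
    fam z (nmP (MulAction.toPerm σ) n φ) = ∏ i ∈ Finset.range n, σ ^ i • fam z φ := by
  classical
  have h1 : ∀ i, σ ^ i • fam z φ = ∏ t, z t ^ Multiplicative.toAdd φ ((σ ^ i)⁻¹ • t) := by
    intro i
    rw [prod_smul_inv z hz (σ ^ i), fam_apply]
  simp_rw [h1]
  rw [Finset.prod_comm, fam_apply]
  refine Finset.prod_congr rfl fun t _ => ?_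
  rw [nmP_apply]
  simp_rw [toPerm_inv_pow]
  have h3 : ∀ s : Finset ℕ, z t ^ (∑ i ∈ s, Multiplicative.toAdd φ ((σ ^ i)⁻¹ • t)) =
      ∏ i ∈ s, z t ^ Multiplicative.toAdd φ ((σ ^ i)⁻¹ • t) := by
    intro s
    induction s using Finset.induction_on with
    | empty => simp
    | insert a s ha ih => rw [Finset.sum_insert ha, Finset.prod_insert ha, zpow_add, ih]
  exact h3 _

end

section Main

variable {K L : Type*} [Field K] [NumberField K] [Field L] [NumberField L] [Algebra K L]
  [IsGalois K L]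

theorem nm_eq_prod_range (σ : L ≃ₐ[K] L) (hσ : ∀ τ, τ ∈ Subgroup.zpowers σ) (x : Lˣ) :
    nm K L x = ∏ i ∈ Finset.range (finrank K L), σ ^ i • x := by
  classical
  have h0 : orderOf σ = finrank K L := by
    rw [← IsGalois.card_aut_eq_finrank, orderOf_eq_card_of_forall_mem_zpowers hσ]
  rw [nm_apply, ← IsCyclic.image_range_orderOf hσ, Finset.prod_image, h0]
  intro i hi j hj hij
  exact pow_injOn_Iio_orderOf (by simpa using hi) (by simpa using hj) hij

theorem freeOrd {T : Type*} [MulAction (L ≃ₐ[K] L) T]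
    (hfree : ∀ (σ : L ≃ₐ[K] L) (t : T), σ • t = t → σ = 1)
    (σ : L ≃ₐ[K] L) (hσ : ∀ τ, τ ∈ Subgroup.zpowers σ) :
    FreeOrd (MulAction.toPerm σ : Equiv.Perm T) (finrank K L) := by
  have h0 : orderOf σ = finrank K L := by
    rw [← IsGalois.card_aut_eq_finrank, orderOf_eq_card_of_forall_mem_zpowers hσ]
  refine ⟨finrank_pos, ?_, ?_⟩
  · rw [toPerm_pow, ← h0, pow_orderOf_eq_one]
    ext t
    simp
  · intro x i hi hi' h
    rw [toPerm_pow] at h
    have h1 := hfree (σ ^ i) x h
    have h2 := orderOf_dvd_of_pow_eq_one h1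
    rw [h0] at h2
    exact absurd (Nat.le_of_dvd hi h2) (by omega)

end Main

/-- **BLOCK B** -/
theorem blockB (K L : Type*) [Field K] [NumberField K] [Field L] [NumberField L] [Algebra K L] :
    BlockB K L := by
  classical
  intro hG σ hσ hodd S hS hs
  have hft : Fintype (ov L S) := (ov_finite S hS hs).fintype
  obtain ⟨z, hz1, hz2, hz3, hz4, hz5⟩ := exists_lattice hodd S hS hs
  have hfo : FreeOrd (MulAction.toPerm σ : Equiv.Perm (InfinitePlace L ⊕ ov L S)) (finrank K L) :=
    freeOrd hz5 σ hσ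
  set s : Equiv.Perm (InfinitePlace L ⊕ ov L S) := MulAction.toPerm σ with hs'
  have hf : ∀ φ, fam z (sgP s φ) = sg K σ (fam z φ) := by
    intro φ
    rw [sg_apply, ← fam_shift z hz1 σ φ, ← map_div]
    rfl
  have hg : ∀ φ, fam z (nmP s (finrank K L) φ) = nm K L (fam z φ) := by
    intro φ
    rw [nm_eq_prod_range σ hσ]
    exact fam_nm z hz1 σ _ φ
  set d : Multiplicative (InfinitePlace L ⊕ ov L S → ℤ) :=
    Multiplicative.ofAdd (Sum.elim (fun _ => 1) (fun _ => 0)) with hd
  have hdz : ∀ (k : ℤ) t, Multiplicative.toAdd (d ^ k) t = k * Sum.elim (fun _ => 1) (fun _ => 0) t := by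
    intro k t
    rw [toAdd_zpow]
    simp [hd]
  obtain ⟨w0⟩ : Nonempty (InfinitePlace L) := inferInstance
  have hker : (fam z).ker = Subgroup.zpowers d := by
    ext φ
    rw [MonoidHom.mem_ker, fam_apply, hz3, Subgroup.mem_zpowers_iff]
    constructor
    · rintro ⟨h1, h2⟩
      refine ⟨Multiplicative.toAdd φ (.inl w0), ?_⟩
      apply Multiplicative.toAdd.injective
      funext t
      rw [hdz]
      rcases t with w | q
      · simp only [Sum.elim_inl, mul_one]
        exact h1 w0 w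
      · simp only [Sum.elim_inr, mul_zero]
        exact (h2 q).symm
    · rintro ⟨k, rfl⟩
      refine ⟨fun w w' => ?_, fun q => ?_⟩
      · rw [hdz, hdz]; rfl
      · rw [hdz]; simp
  have hd' : ∀ k : ℤ, d ^ k = 1 → k = 0 := by
    intro k hk
    have h1 := hdz k (.inl w0)
    rw [hk] at h1
    simpa using h1.symm
  have hdinv : ∀ (τ : L ≃ₐ[K] L) (t : InfinitePlace L ⊕ ov L S),
      Multiplicative.toAdd d (τ • t) = Multiplicative.toAdd d t := by
    rintro τ (w | q) <;> rfl
  have hfd : sgP s d = 1 := by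
    apply Multiplicative.toAdd.injective
    funext t
    rw [sgP_apply]
    have : s⁻¹ t = σ⁻¹ • t := rfl
    rw [this, hdinv, sub_self]
    rfl
  have hgd : nmP s (finrank K L) d = d ^ (finrank K L) := by
    apply Multiplicative.toAdd.injective
    funext t
    rw [nmP_apply]
    simp_rw [hs', toPerm_inv_pow, hdinv]
    rw [toAdd_pow]
    simp
  obtain ⟨h1, h2⟩ := h_range_of_cyclic (fam z) hf hg (ker_sgP hfo) (ker_nmP hfo) d (finrank K L)
    finrank_pos.ne' hker hd' hfd hgd
  have hfg : ∀ x, sg K σ (nm K L x) = 1 := by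
    intro x
    rw [sg_apply, nm_apply, Finset.smul_prod']
    rw [div_eq_one]
    have := Equiv.prod_comp (Equiv.mulLeft σ) (fun τ : L ≃ₐ[K] L => τ • x)
    rw [← this]
    refine Finset.prod_congr rfl fun τ _ => ?_
    rw [Equiv.coe_mulLeft, mul_smul]
  have hgf : ∀ x, nm K L (sg K σ x) = 1 := by
    intro x
    rw [sg_apply, map_div, div_eq_one, nm_apply, nm_apply]
    have := Equiv.prod_comp (Equiv.mulRight σ) (fun τ : L ≃ₐ[K] L => τ • x)
    rw [← this]
    refine Finset.prod_congr rfl fun τ _ => ?_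
    rw [Equiv.coe_mulRight, mul_smul]
  have hle : (fam z).range ≤ (ov L S).unit L := by
    rintro _ ⟨φ, rfl⟩
    rw [fam_apply]
    exact prod_mem fun t _ => zpow_mem (hz2 t) _
  have hidx : (fam z).range.relIndex ((ov L S).unit L) ≠ 0 := by
    apply hz4
    intro t
    refine ⟨Multiplicative.ofAdd (Pi.single t 1), ?_⟩
    rw [fam_apply, Finset.prod_eq_single t]
    · simp
    · intro t' _ ht'
      simp [Pi.single_eq_of_ne ht']
    · simp
  have hA : Stab (sg K σ) (nm K L) (fam z).range := stab_range (fam z) hf hg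
  have hB : Stab (sg K σ) (nm K L) ((ov L S).unit L) := stab_unit S σ
  have h3 := h0_mul_h1 hfg hgf hA hB hle hidx
  have h4 := (h0_ne_zero_iff hfg hA hB hle hidx).mp (by rw [h1]; exact one_ne_zero)
  refine ⟨h4, ?_⟩
  rw [h1, h2, one_mul] at h3
  rw [h3, mul_comm]

end Crest.Agent.R018.LogBx824
end

-- ▼ part R018/WDet_410
section

/-!
# Row 18: congruence bound for interpolation determinants (helper410, block W2)

`M_{l,t} = ∑_{κ ∈ F} u_{l,κ} v_{κ,t}` with `u_{l,κ} ∈ I^{|κ|}`, `κ ∈ ℕ^r`.  Then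
`det M ∈ I^(m (N - m^r))`, `N` the size of the matrix.
-/

set_option autoImplicit false

namespace Crest.Agent.R018.WDet410

variable {R : Type*} [CommRing R]

/-- The total degree of a multi-index. -/
def deg {r : ℕ} (k : Fin r → ℕ) : ℕ := ∑ i, k i

theorem card_filter_deg_lt {r : ℕ} (m : ℕ) (A : Finset (Fin r → ℕ))
    (h : ∀ k ∈ A, deg k < m) : A.card ≤ m ^ r := by
  have h1 : A ⊆ Fintype.piFinset (fun _ : Fin r => Finset.range m) := by
    intro k hk
    rw [Fintype.mem_piFinset]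
    intro i
    rw [Finset.mem_range]
    exact lt_of_le_of_lt (Finset.single_le_sum (f := k) (fun _ _ => Nat.zero_le _)
      (Finset.mem_univ i)) (h k hk)
  refine (Finset.card_le_card h1).trans ?_
  rw [Fintype.card_piFinset]
  simp

/-- `N` distinct multi-indices have total degree at least `m (N - m^r)`. -/
theorem sum_deg_ge {Λ : Type*} [Fintype Λ] {r : ℕ} (m : ℕ) (p : Λ → Fin r → ℕ)
    (hp : Function.Injective p) : m * (Fintype.card Λ - m ^ r) ≤ ∑ l, deg (p l) := by
  classical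
  have h1 : (Finset.univ.filter fun l => deg (p l) < m).card ≤ m ^ r := by
    have h2 : ((Finset.univ.filter fun l => deg (p l) < m).image p).card ≤ m ^ r := by
      apply card_filter_deg_lt
      intro k hk
      rw [Finset.mem_image] at hk
      obtain ⟨l, hl, rfl⟩ := hk
      exact (Finset.mem_filter.mp hl).2
    rwa [Finset.card_image_of_injective _ hp] at h2
  have h3 : (Finset.univ.filter fun l => deg (p l) < m).card
      + (Finset.univ.filter fun l => ¬ deg (p l) < m).card = Fintype.card Λ := by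
    rw [Finset.card_filter_add_card_filter_not]
    rfl
  calc m * (Fintype.card Λ - m ^ r)
      ≤ m * (Finset.univ.filter fun l => ¬ deg (p l) < m).card := by
        apply Nat.mul_le_mul_left
        omega
    _ = ∑ l ∈ Finset.univ.filter (fun l => ¬ deg (p l) < m), m := by
        rw [Finset.sum_const, smul_eq_mul, mul_comm]
    _ ≤ ∑ l ∈ Finset.univ.filter (fun l => ¬ deg (p l) < m), deg (p l) := by
        apply Finset.sum_le_sum
        intro l hl
        exact not_lt.mp (Finset.mem_filter.mp hl).2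
    _ ≤ ∑ l, deg (p l) := by
        apply Finset.sum_le_sum_of_subset_of_nonneg (Finset.filter_subset _ _)
        intros; exact Nat.zero_le _

theorem det_mem {Λ : Type*} [Fintype Λ] [DecidableEq Λ] {r : ℕ} (I : Ideal R) (m : ℕ)
    (F : Finset (Fin r → ℕ)) (u : Λ → (Fin r → ℕ) → R) (v : (Fin r → ℕ) → Λ → R)
    (hu : ∀ l k, u l k ∈ I ^ deg k) :
    (Matrix.of fun l t => ∑ k ∈ F, u l k * v k t).det ∈ I ^ (m * (Fintype.card Λ - m ^ r)) := by
  have h1 : (Matrix.of fun l t => ∑ k ∈ F, u l k * v k t).det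
      = ∑ p ∈ Fintype.piFinset (fun _ : Λ => F),
        (∏ l, u l (p l)) * (Matrix.of fun l t => v (p l) t).det := by
    have h2 := (Matrix.detRowAlternating (n := Λ) (R := R)).toMultilinearMap.map_sum_finset
      (fun l k => u l k • v k) (fun _ => F)
    have h3 : (Matrix.of fun l t => ∑ k ∈ F, u l k * v k t).det
        = (Matrix.detRowAlternating (n := Λ) (R := R)).toMultilinearMap
          (fun l => ∑ k ∈ F, u l k • v k) := by
      show Matrix.det _ = Matrix.det _
      congr 1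
      ext l t
      simp [Finset.sum_apply]
    rw [h3, h2]
    apply Finset.sum_congr rfl
    intro p _
    rw [MultilinearMap.map_smul_univ, smul_eq_mul]
    rfl
  rw [h1]
  apply Ideal.sum_mem
  intro p _
  by_cases hp : Function.Injective p
  · apply Ideal.mul_mem_right
    refine Ideal.pow_le_pow_right (sum_deg_ge m p hp) ?_
    rw [← Finset.prod_pow_eq_pow_sum]
    exact Ideal.prod_mem_prod fun l _ => hu l (p l)
  · have h4 : (Matrix.of fun l t => v (p l) t).det = 0 := by
      rw [Function.Injective] at hp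
      push Not at hp
      obtain ⟨a, b, hab, hne⟩ := hp
      apply Matrix.det_zero_of_row_eq hne
      ext t
      simp [hab]
    rw [h4, mul_zero]
    exact Ideal.zero_mem _

/-- Congruent matrices have congruent determinants. -/
theorem det_sub_det_mem {Λ : Type*} [Fintype Λ] [DecidableEq Λ] (J : Ideal R)
    (M M' : Matrix Λ Λ R) (h : ∀ l t, M l t - M' l t ∈ J) : M.det - M'.det ∈ J := by
  rw [← Ideal.Quotient.eq, RingHom.map_det, RingHom.map_det]
  congr 1
  ext l t
  exact Ideal.Quotient.eq.mpr (h l t)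

/-- The form used: entries are congruent mod `I^e` to sums with `u_{l,κ} ∈ I^{|κ|}`. -/
theorem det_mem' {Λ : Type*} [Fintype Λ] [DecidableEq Λ] {r : ℕ} (I : Ideal R) (m e : ℕ)
    (F : Finset (Fin r → ℕ)) (u : Λ → (Fin r → ℕ) → R) (v : (Fin r → ℕ) → Λ → R)
    (hu : ∀ l k, u l k ∈ I ^ deg k) (M : Matrix Λ Λ R)
    (hM : ∀ l t, M l t - ∑ k ∈ F, u l k * v k t ∈ I ^ e)
    (he : m * (Fintype.card Λ - m ^ r) ≤ e) :
    M.det ∈ I ^ (m * (Fintype.card Λ - m ^ r)) := by
  have h1 := det_sub_det_mem (I ^ e) M (Matrix.of fun l t => ∑ k ∈ F, u l k * v k t) hM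
  have h2 := det_mem I m F u v hu
  have h3 := Ideal.add_mem _ (Ideal.pow_le_pow_right he h1) h2
  simpa using h3

end Crest.Agent.R018.WDet410
end

-- ▼ part R018/WBin_410
section

/-!
# Row 18: the entries of the interpolation matrix (helper410, block W2)
-/

set_option autoImplicit false

namespace Crest.Agent.R018.WBin410

open Crest.Agent.R018.WDet410

variable {R : Type*} [CommRing R]

theorem one_add_pow_eq (b : R) (z B : ℕ) (h : z < B) :
    (1 + b) ^ z = ∑ i ∈ Finset.range B, b ^ i * (z.choose i : R) := by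
  rw [add_comm, add_pow]
  have h1 : Finset.range (z + 1) ⊆ Finset.range B := Finset.range_subset_range.mpr h
  rw [← Finset.sum_subset h1]
  · apply Finset.sum_congr rfl
    intro i _
    rw [one_pow, mul_one]
  · intro i _ hi
    rw [Finset.mem_range, not_lt] at hi
    rw [Nat.choose_eq_zero_of_lt (by omega)]
    simp

theorem prod_one_add_pow {r : ℕ} (b : Fin r → R) (z : Fin r → ℕ) (B : ℕ) (h : ∀ i, z i < B) :
    ∏ i, (1 + b i) ^ z i = ∑ k ∈ Fintype.piFinset (fun _ : Fin r => Finset.range B),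
      (∏ i, b i ^ k i) * (∏ i, ((z i).choose (k i) : R)) := by
  rw [Finset.prod_congr rfl fun i _ => one_add_pow_eq (b i) (z i) B (h i)]
  rw [Finset.prod_univ_sum]
  apply Finset.sum_congr rfl
  intro k _
  rw [Finset.prod_mul_distrib]

theorem prod_pow_mem {r : ℕ} (I : Ideal R) (b : Fin r → R) (hb : ∀ i, b i ∈ I)
    (k : Fin r → ℕ) : ∏ i, b i ^ k i ∈ I ^ deg k := by
  rw [deg, ← Finset.prod_pow_eq_pow_sum]
  exact Ideal.prod_mem_prod fun i _ => Ideal.pow_mem_pow (hb i) _

theorem prod_pow_sub_one_mem {ι : Type*} (s : Finset ι) (I : Ideal R) (c : ι → R) (l : ι → ℕ)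
    (hc : ∀ i ∈ s, c i - 1 ∈ I) : (∏ i ∈ s, c i ^ l i) - 1 ∈ I := by
  rw [← Ideal.Quotient.eq, map_prod, map_one]
  apply Finset.prod_eq_one
  intro i hi
  rw [map_pow, (Ideal.Quotient.eq (I := I)).mpr (hc i hi), map_one, one_pow]

/-- **Determinant congruence.**  `g s j` are the conjugates of the `y_j`, congruent mod `I^e` to
products of `r` elements `c s k ≡ 1 mod I` with exponents independent of `s`. -/
theorem det_mem_of_congr {Λ S J : Type*} [Fintype Λ] [DecidableEq Λ] [Fintype S] [Fintype J]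
    {r : ℕ} (I : Ideal R) (e m : ℕ) (g : S → J → R) (c : S → Fin r → R) (a : J → Fin r → ℕ)
    (hc : ∀ s k, c s k - 1 ∈ I) (hg : ∀ s j, g s j - ∏ k, c s k ^ a j k ∈ I ^ e)
    (lam : Λ → S → ℕ) (tt : Λ → J → ℕ) (he : m * (Fintype.card Λ - m ^ r) ≤ e) :
    (Matrix.of fun l t : Λ => ∏ s, ∏ j, g s j ^ (lam l s * tt t j)).det
      ∈ I ^ (m * (Fintype.card Λ - m ^ r)) := by
  classical
  -- the exponents
  set z : Λ → Fin r → ℕ := fun t k => ∑ j, tt t j * a j k with hz
  set b : Λ → Fin r → R := fun l k => (∏ s, c s k ^ lam l s) - 1 with hb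
  have hbI : ∀ l k, b l k ∈ I := by
    intro l k
    exact prod_pow_sub_one_mem _ I _ _ fun s _ => hc s k
  obtain ⟨B, hB⟩ : ∃ B : ℕ, ∀ t k, z t k < B := by
    refine ⟨(∑ t, ∑ k, z t k) + 1, fun t k => ?_⟩
    have h1 : z t k ≤ ∑ k, z t k :=
      Finset.single_le_sum (f := fun k => z t k) (fun _ _ => Nat.zero_le _) (Finset.mem_univ k)
    have h2 : ∑ k, z t k ≤ ∑ t, ∑ k, z t k :=
      Finset.single_le_sum (f := fun t => ∑ k, z t k) (fun _ _ => Nat.zero_le _)
        (Finset.mem_univ t)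
    omega
  apply det_mem' I m e (Fintype.piFinset (fun _ : Fin r => Finset.range B))
    (fun l k => ∏ i, b l i ^ k i) (fun k t => ∏ i, ((z t i).choose (k i) : R))
    (fun l k => prod_pow_mem I _ (hbI l) k) _ _ he
  intro l t
  rw [← prod_one_add_pow (b l) (z t) B (hB t)]
  rw [← Ideal.Quotient.eq, Matrix.of_apply]
  have h1 : ∀ k, 1 + b l k = ∏ s, c s k ^ lam l s := by
    intro k
    simp [hb]
  simp only [h1]
  have h2 : ∀ s j, (Ideal.Quotient.mk (I ^ e)) (g s j)
      = (Ideal.Quotient.mk (I ^ e)) (∏ k, c s k ^ a j k) := fun s j =>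
    Ideal.Quotient.eq.mpr (hg s j)
  rw [map_prod, map_prod]
  simp only [map_prod, map_pow, h2]
  simp only [← map_pow, ← map_prod]
  congr 1
  -- pure ring identity
  calc ∏ s, ∏ j, (∏ k, c s k ^ a j k) ^ (lam l s * tt t j)
      = ∏ s, ∏ j, ∏ k, (c s k ^ lam l s) ^ (tt t j * a j k) := by
        apply Finset.prod_congr rfl
        intro s _
        apply Finset.prod_congr rfl
        intro j _
        rw [← Finset.prod_pow]
        apply Finset.prod_congr rfl
        intro k _
        rw [← pow_mul, ← pow_mul]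
        congr 1
        ring
    _ = ∏ s, ∏ k, ∏ j, (c s k ^ lam l s) ^ (tt t j * a j k) := by
        apply Finset.prod_congr rfl
        intro s _
        rw [Finset.prod_comm]
    _ = ∏ k, ∏ s, ∏ j, (c s k ^ lam l s) ^ (tt t j * a j k) := Finset.prod_comm
    _ = ∏ k, (∏ s, c s k ^ lam l s) ^ z t k := by
        apply Finset.prod_congr rfl
        intro k _
        rw [← Finset.prod_pow]
        apply Finset.prod_congr rfl
        intro s _
        rw [Finset.prod_pow_eq_pow_sum]

end Crest.Agent.R018.WBin410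
end

-- ▼ part R018/WMain_410
section

/-!
# Row 18: Waldschmidt block, assembly (helper410, block W4)

No logarithms: everything is a congruence in the ring of integers of a number field.
-/

set_option autoImplicit false

namespace Crest.Agent.R018.WMain410

open NumberField Crest.Agent.R018.WDet410 Crest.Agent.R018.WBin410

section house

variable {K : Type*} [Field K] [NumberField K]

theorem house_prod_le' {ι : Type*} (s : Finset ι) (f : ι → K) :
    house (∏ i ∈ s, f i) ≤ ∏ i ∈ s, house (f i) := by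
  simp only [house, map_prod]
  exact Finset.norm_prod_le s _

theorem house_neg (x : K) : house (-x) = house x := by
  simp only [house, map_neg, norm_neg]

theorem house_det_le {L : Type*} [Fintype L] [DecidableEq L] (M : Matrix L L K) (B : ℝ)
    (hB : ∀ i j, house (M i j) ≤ B) :
    house M.det ≤ (Fintype.card L).factorial * B ^ (Fintype.card L) := by
  rw [Matrix.det_apply]
  refine (house_sum_le_sum_house _ _).trans ?_
  have h1 : ∀ σ ∈ (Finset.univ : Finset (Equiv.Perm L)),
      house (Equiv.Perm.sign σ • ∏ i, M (σ i) i) ≤ B ^ (Fintype.card L) := by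
    intro σ _
    have h2 : house (Equiv.Perm.sign σ • ∏ i, M (σ i) i) = house (∏ i, M (σ i) i) := by
      rcases Int.units_eq_one_or (Equiv.Perm.sign σ) with h | h
      · rw [h, one_smul]
      · rw [h, Units.neg_smul, one_smul, house_neg]
    rw [h2]
    refine (house_prod_le' _ _).trans ?_
    calc ∏ i, house (M (σ i) i) ≤ ∏ _i : L, B :=
          Finset.prod_le_prod (fun i _ => house_nonneg _) fun i _ => hB _ _
      _ = B ^ (Fintype.card L) := by rw [Finset.prod_const, Finset.card_univ]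
  refine (Finset.sum_le_card_nsmul _ _ _ h1).trans ?_
  rw [Finset.card_univ, Fintype.card_perm, nsmul_eq_mul]

/-- Liouville: a non-zero algebraic integer divisible by `l ^ M` has house at least `l ^ M`. -/
theorem pow_le_house (l M : ℕ) (x : 𝓞 K) (hx : x ≠ 0)
    (h : x ∈ (Ideal.span {(l : 𝓞 K)}) ^ M) : (l : ℝ) ^ M ≤ house (x : K) := by
  rw [Ideal.span_singleton_pow, Ideal.mem_span_singleton] at h
  obtain ⟨β, hβ⟩ := h
  have hβ0 : β ≠ 0 := by
    rintro rfl
    exact hx (by rw [hβ, mul_zero])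
  have h1 : 1 ≤ house (β : K) :=
    one_le_house_of_isIntegral β.isIntegral_coe (by simpa using hβ0)
  have h2 : (x : K) = ((l ^ M : ℕ) : K) * (β : K) := by
    rw [hβ]; push_cast; rfl
  rw [h2, house_nat_mul]
  push_cast
  nlinarith [pow_nonneg (Nat.cast_nonneg l : (0 : ℝ) ≤ l) M]

end house

/-- The numerical inequality. -/
theorem final_ineq (r n h S l : ℕ) (hl : 2 ≤ l)
    (hS : 2 * ((2 * r + 1) * (r + 1)) + 2 * (h * ((r + 1) * n)) < S) (hS2 : 2 ≤ S) :
    ((S ^ (2 * r + 1)) ^ (r + 1)).factorial *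
      ((2 ^ h) ^ ((r + 1) * (n * (S ^ (2 * r + 1) * S)))) ^ ((S ^ (2 * r + 1)) ^ (r + 1)) <
    l ^ (S ^ (2 * r + 3) * ((S ^ (2 * r + 1)) ^ (r + 1) - (S ^ (2 * r + 3)) ^ r)) := by
  set N := (S ^ (2 * r + 1)) ^ (r + 1) with hN
  set m := S ^ (2 * r + 3) with hm
  have hNm : N = m ^ r * S := by
    rw [hN, hm, ← pow_mul, ← pow_mul, ← pow_succ]
    congr 1
    ring
  have hSpos : 0 < S := by omega
  have hmpos : 0 < m := by rw [hm]; positivity
  have hNpos : 0 < N := by rw [hN]; positivity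
  -- `N ≤ 2 (N - m ^ r)`
  have hsub : N ≤ 2 * (N - m ^ r) := by
    have : 2 * m ^ r ≤ N := by
      rw [hNm, mul_comm]
      exact Nat.mul_le_mul_left _ hS2
    omega
  -- square everything
  have key : (N.factorial * ((2 ^ h) ^ ((r + 1) * (n * (S ^ (2 * r + 1) * S)))) ^ N) ^ 2 <
      (l ^ (m * (N - m ^ r))) ^ 2 := by
    have h1 : N.factorial ≤ N ^ N := Nat.factorial_le_pow N
    have hNle : N ≤ 2 ^ (S * ((2 * r + 1) * (r + 1))) := by
      rw [hN, ← pow_mul, pow_mul 2]
      exact Nat.pow_le_pow_left (Nat.lt_two_pow_self).le _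
    have h2 : (N.factorial * ((2 ^ h) ^ ((r + 1) * (n * (S ^ (2 * r + 1) * S)))) ^ N) ^ 2 ≤
        2 ^ ((2 * (S * ((2 * r + 1) * (r + 1))) +
          2 * (h * ((r + 1) * (n * (S ^ (2 * r + 1) * S))))) * N) := by
      calc (N.factorial * ((2 ^ h) ^ ((r + 1) * (n * (S ^ (2 * r + 1) * S)))) ^ N) ^ 2
          ≤ (N ^ N * ((2 ^ h) ^ ((r + 1) * (n * (S ^ (2 * r + 1) * S)))) ^ N) ^ 2 := by
            gcongr
        _ ≤ ((2 ^ (S * ((2 * r + 1) * (r + 1)))) ^ N *
            ((2 ^ h) ^ ((r + 1) * (n * (S ^ (2 * r + 1) * S)))) ^ N) ^ 2 := by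
            gcongr
        _ = _ := by
            rw [← pow_mul, ← pow_mul, ← pow_mul, ← pow_add, ← pow_mul]
            congr 1
            ring
    have h3 : 2 ^ (m * N) ≤ (l ^ (m * (N - m ^ r))) ^ 2 := by
      rw [← pow_mul]
      calc 2 ^ (m * N) ≤ 2 ^ (m * (N - m ^ r) * 2) := by
            apply Nat.pow_le_pow_right (by norm_num)
            calc m * N ≤ m * (2 * (N - m ^ r)) := Nat.mul_le_mul_left _ hsub
              _ = _ := by ring
        _ ≤ _ := Nat.pow_le_pow_left hl _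
    refine lt_of_le_of_lt h2 (lt_of_lt_of_le ?_ h3)
    apply Nat.pow_lt_pow_right (by norm_num)
    apply Nat.mul_lt_mul_of_pos_right _ hNpos
    -- `2 S (..) + 2 h (r+1) n S^(2r+2) < S^(2r+3)`
    have h4 : S ≤ S ^ (2 * r + 1) * S := Nat.le_mul_of_pos_left _ (by positivity)
    calc 2 * (S * ((2 * r + 1) * (r + 1))) + 2 * (h * ((r + 1) * (n * (S ^ (2 * r + 1) * S))))
        ≤ 2 * ((S ^ (2 * r + 1) * S) * ((2 * r + 1) * (r + 1))) +
          2 * (h * ((r + 1) * (n * (S ^ (2 * r + 1) * S)))) := by gcongr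
      _ = (2 * ((2 * r + 1) * (r + 1)) + 2 * (h * ((r + 1) * n))) * (S ^ (2 * r + 1) * S) := by
          ring
      _ < S * (S ^ (2 * r + 1) * S) :=
          Nat.mul_lt_mul_of_pos_right hS (by positivity)
      _ = m := by rw [hm]; ring
  exact lt_of_pow_lt_pow_left₀ 2 (by positivity) key

/-- The zero estimate, in the form of a non-vanishing determinant. -/
def ZeroEst {k : Type*} [Field k] {Sg : Type*} [Fintype Sg] [DecidableEq Sg]
    (x : Sg → ℕ → k) : Prop :=
  ∀ A : ℕ, ∃ n S0 : ℕ, ∀ S ≥ S0, ∃ t : (Sg → Fin (S ^ A)) → Fin n → Fin S,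
    (Matrix.of fun lam c : Sg → Fin (S ^ A) =>
      ∏ s, ∏ j : Fin n, x s j ^ ((lam s : ℕ) * (t c j : ℕ))).det ≠ 0

/-- **Theorem W, for exactly `r = card Sg - 1` elements.** -/
theorem main_aux {F K : Type*} [Field F] [NumberField F] [Field K] [NumberField K]
    {Sg : Type*} [Fintype Sg] [DecidableEq Sg] (φ : Sg → (𝓞 F →+* 𝓞 K))
    (r : ℕ) (hr : Fintype.card Sg = r + 1)
    (l : ℕ) (hl : 2 ≤ l) (y : ℕ → 𝓞 F)
    (hW : ZeroEst fun s j => ((φ s (y j) : 𝓞 K) : K)) :
    ∃ n e0 : ℕ, ∀ e ≥ e0, ∀ η : Fin r → 𝓞 F, (∀ k, (l : 𝓞 F) ∣ η k - 1) →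
      ∀ a : Fin n → Fin r → ℕ, ¬ ∀ j : Fin n, (l : 𝓞 F) ^ e ∣ y j - ∏ k, η k ^ a j k := by
  obtain ⟨n, S0, hS0⟩ := hW (2 * r + 1)
  -- the bound `2 ^ h` for the conjugates
  obtain ⟨h, hh⟩ := pow_unbounded_of_one_lt
    (∑ s : Sg, ∑ j : Fin n, house ((φ s (y j) : 𝓞 K) : K)) (one_lt_two : (1 : ℝ) < 2)
  have hH : ∀ s (j : Fin n), house ((φ s (y j) : 𝓞 K) : K) ≤ ((2 ^ h : ℕ) : ℝ) := by
    intro s j
    push_cast
    refine le_trans ?_ hh.le
    calc house ((φ s (y j) : 𝓞 K) : K) ≤ ∑ j : Fin n, house ((φ s (y j) : 𝓞 K) : K) :=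
          Finset.single_le_sum (f := fun j : Fin n => house ((φ s (y j) : 𝓞 K) : K))
            (fun _ _ => house_nonneg _) (Finset.mem_univ j)
      _ ≤ _ := Finset.single_le_sum
            (f := fun s => ∑ j : Fin n, house ((φ s (y j) : 𝓞 K) : K))
            (fun _ _ => Finset.sum_nonneg fun _ _ => house_nonneg _) (Finset.mem_univ s)
  -- the choice of `S`
  set S := S0 + 2 + (2 * ((2 * r + 1) * (r + 1)) + 2 * (h * ((r + 1) * n))) + 1 with hSdef
  obtain ⟨t, ht⟩ := hS0 S (by omega)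
  set m := S ^ (2 * r + 3) with hm
  have hcard : Fintype.card (Sg → Fin (S ^ (2 * r + 1))) = (S ^ (2 * r + 1)) ^ (r + 1) := by
    rw [Fintype.card_fun, Fintype.card_fin, hr]
  refine ⟨n, m * ((S ^ (2 * r + 1)) ^ (r + 1) - m ^ r), ?_⟩
  intro e he η hη a hcon
  -- the determinant in `𝓞 K`
  have hdet := det_mem_of_congr (Λ := Sg → Fin (S ^ (2 * r + 1))) (S := Sg) (J := Fin n) (r := r)
    (Ideal.span {(l : 𝓞 K)}) e m (fun s j => φ s (y j)) (fun s k => φ s (η k)) a
    (by
      intro s k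
      rw [Ideal.mem_span_singleton]
      have := map_dvd (φ s) (hη k)
      rwa [map_natCast, map_sub, map_one] at this)
    (by
      intro s j
      rw [Ideal.span_singleton_pow, Ideal.mem_span_singleton]
      have := map_dvd (φ s) (hcon j)
      rwa [map_pow, map_natCast, map_sub, map_prod, Finset.prod_congr rfl
        (fun k _ => map_pow (φ s) (η k) (a j k))] at this)
    (fun lam s => (lam s : ℕ)) (fun c j => (t c j : ℕ)) (by rw [hcard]; exact he)
  rw [hcard] at hdet
  set M : Matrix (Sg → Fin (S ^ (2 * r + 1))) (Sg → Fin (S ^ (2 * r + 1))) (𝓞 K) :=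
    Matrix.of fun lam c => ∏ s, ∏ j : Fin n, φ s (y j) ^ ((lam s : ℕ) * (t c j : ℕ)) with hM
  -- its image in `K`
  have hmap : ((M.det : 𝓞 K) : K) = (Matrix.of fun lam c : Sg → Fin (S ^ (2 * r + 1)) =>
      ∏ s, ∏ j : Fin n, ((φ s (y j) : 𝓞 K) : K) ^ ((lam s : ℕ) * (t c j : ℕ))).det := by
    have h1 := RingHom.map_det (algebraMap (𝓞 K) K) M
    rw [show ((M.det : 𝓞 K) : K) = algebraMap (𝓞 K) K M.det from rfl, h1]
    congr 1
    ext lam c
    simp [hM, map_prod, map_pow]
  have hne : M.det ≠ 0 := by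
    intro h0
    apply ht
    rw [← hmap, h0]
    simp
  have hlow := pow_le_house l _ M.det hne hdet
  -- the upper bound
  have hup : house ((M.det : 𝓞 K) : K) ≤ (Fintype.card (Sg → Fin (S ^ (2 * r + 1)))).factorial *
      ((((2 ^ h : ℕ) : ℝ)) ^ ((r + 1) * (n * (S ^ (2 * r + 1) * S)))) ^
        (Fintype.card (Sg → Fin (S ^ (2 * r + 1)))) := by
    rw [hmap]
    apply house_det_le
    intro lam c
    rw [Matrix.of_apply]
    refine (house_prod_le' _ _).trans ?_
    have hone : (1 : ℝ) ≤ ((2 ^ h : ℕ) : ℝ) := by exact_mod_cast Nat.one_le_two_pow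
    calc ∏ s, house (∏ j : Fin n, ((φ s (y j) : 𝓞 K) : K) ^ ((lam s : ℕ) * (t c j : ℕ)))
        ≤ ∏ _s : Sg, ((((2 ^ h : ℕ) : ℝ)) ^ (n * (S ^ (2 * r + 1) * S))) := by
          apply Finset.prod_le_prod (fun _ _ => house_nonneg _)
          intro s _
          refine (house_prod_le' _ _).trans ?_
          calc ∏ j : Fin n, house (((φ s (y j) : 𝓞 K) : K) ^ ((lam s : ℕ) * (t c j : ℕ)))
              ≤ ∏ _j : Fin n, (((2 ^ h : ℕ) : ℝ)) ^ (S ^ (2 * r + 1) * S) := by
                apply Finset.prod_le_prod (fun _ _ => house_nonneg _)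
                intro j _
                refine (house_pow_le _ _).trans ?_
                refine (pow_le_pow_left₀ (house_nonneg _) (hH s j) _).trans ?_
                exact pow_le_pow_right₀ hone
                  (Nat.mul_le_mul (lam s).isLt.le (t c j).isLt.le)
            _ = _ := by
                rw [Finset.prod_const, Finset.card_univ, Fintype.card_fin, ← pow_mul, mul_comm n]
      _ = _ := by
          rw [Finset.prod_const, Finset.card_univ, hr, ← pow_mul, mul_comm (r + 1)]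
  rw [hcard] at hup
  have hfin := final_ineq r n h S l hl (by omega) (by omega)
  have : ((l ^ (m * ((S ^ (2 * r + 1)) ^ (r + 1) - m ^ r)) : ℕ) : ℝ) ≤
      ((((S ^ (2 * r + 1)) ^ (r + 1)).factorial *
      ((2 ^ h) ^ ((r + 1) * (n * (S ^ (2 * r + 1) * S)))) ^ ((S ^ (2 * r + 1)) ^ (r + 1)) : ℕ)
        : ℝ) := by
    push_cast
    push_cast at hlow hup
    exact hlow.trans hup
  exact absurd (Nat.cast_le.mp this) (not_le.mpr hfin)

/-- **Theorem W** (congruence form): for every `r < card Sg`. -/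
theorem main_zero {F K : Type*} [Field F] [NumberField F] [Field K] [NumberField K]
    {Sg : Type*} [Fintype Sg] [DecidableEq Sg] [Nonempty Sg] (φ : Sg → (𝓞 F →+* 𝓞 K))
    (l : ℕ) (hl : 2 ≤ l) (y : ℕ → 𝓞 F)
    (hW : ZeroEst fun s j => ((φ s (y j) : 𝓞 K) : K)) :
    ∃ n e0 : ℕ, ∀ e ≥ e0, ∀ r < Fintype.card Sg, ∀ η : Fin r → 𝓞 F,
      (∀ k, (l : 𝓞 F) ∣ η k - 1) →
      ∀ a : Fin n → Fin r → ℕ, ¬ ∀ j : Fin n, (l : 𝓞 F) ^ e ∣ y j - ∏ k, η k ^ a j k := by
  obtain ⟨q, hq⟩ : ∃ q, Fintype.card Sg = q + 1 :=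
    ⟨Fintype.card Sg - 1, by have := Fintype.card_pos (α := Sg); omega⟩
  obtain ⟨n, e0, H⟩ := main_aux φ q hq l hl y hW
  refine ⟨n, e0, ?_⟩
  intro e he r hr η hη a hcon
  have hrq : r ≤ q := by omega
  -- pad with `1`
  obtain ⟨p, rfl⟩ := Nat.exists_eq_add_of_le hrq
  refine H e he (Fin.append η (fun _ : Fin p => 1)) ?_ (fun j => Fin.append (a j) fun _ => 0) ?_
  · intro k
    refine Fin.addCases (fun i => ?_) (fun i => ?_) k
    · rw [Fin.append_left]; exact hη i
    · rw [Fin.append_right]; simp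
  · intro j
    rw [Fin.prod_univ_add]
    simpa using hcon j

end Crest.Agent.R018.WMain410
end

-- ▼ part R018/WZero_791
section

/-!
# Row 18, l-adic Waldschmidt block, W1: the weak zero estimate (helper791)

`x i j` (`i < d`, `j < n`) units of a field `k` such that no product
`∏ x i j ^ (m i * t j)` with `m ≠ 0`, `t ≠ 0` integral is `1` (`Ind x`). For every `d, A` there is `n₀`
such that for `n ≥ n₀` and `S` large no nonzero polynomial in `d` variables with partial degrees
`≤ S ^ A` vanishes at all points `(∏ j, x i j ^ s j)_i`, `0 ≤ s j < S` (`zero_est`).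

Proof: translates of `P` by a point of the group are coprime to `P` with few exceptions, and a
resultant eliminates one variable.
-/

set_option autoImplicit false

noncomputable section

open MvPolynomial
open scoped Polynomial

namespace Crest.Agent.R018.WZerox791


/-! elimination -/
theorem resultant_ne_zero_of_isRelPrime {R : Type*} [CommRing R] [IsDomain R]
    [UniqueFactorizationMonoid R] {f g : R[X]} (hg0 : g ≠ 0) (h : IsRelPrime f g) :
    f.resultant g ≠ 0 := by
  intro hres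
  set m := f.natDegree with hm
  set n := g.natDegree with hn
  obtain ⟨v, hv, hv0⟩ := (Matrix.exists_mulVec_eq_zero_iff (M := Polynomial.sylvester f g m n)).mpr hres
  let b₁ := (((Polynomial.degreeLT.basis R m).prod (Polynomial.degreeLT.basis R n)).reindex finSumFinEquiv)
  let b₂ := Polynomial.degreeLT.basis R (m + n)
  let w := b₁.equivFun.symm v
  have hw : Polynomial.sylvesterMap f g hm.ge hn.ge w = 0 := by
    have h1 := LinearMap.toMatrix_mulVec_repr b₁ b₂ (Polynomial.sylvesterMap f g hm.ge hn.ge) w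
    rw [Polynomial.toMatrix_sylvesterMap'] at h1
    have h2 : (b₁.repr w : Fin (m+n) → R) = v := by
      change b₁.equivFun w = v
      exact b₁.equivFun.apply_symm_apply v
    rw [h2, hv0] at h1
    apply b₂.repr.injective
    ext i
    have := congrFun h1 i
    simpa using this.symm
  have hw0 : w ≠ 0 := by
    intro h0
    apply hv
    have : b₁.equivFun w = v := b₁.equivFun.apply_symm_apply v
    rw [← this, h0, map_zero]
  have hw' : f * (w.2 : R[X]) + g * (w.1 : R[X]) = 0 := by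
    have := congrArg Subtype.val hw
    simpa using this
  have hp := w.1.2
  have hq := w.2.2
  rw [Polynomial.mem_degreeLT] at hp hq
  have hq0 : (w.2 : R[X]) = 0 := by
    by_contra hne
    have hd : g ∣ f * (w.2 : R[X]) := ⟨-(w.1 : R[X]), by linear_combination hw'⟩
    have hd' : g ∣ (w.2 : R[X]) := h.symm.dvd_of_dvd_mul_left hd
    have := Polynomial.degree_le_of_dvd hd' hne
    rw [Polynomial.degree_eq_natDegree hg0, ← hn] at this
    exact absurd hq (not_lt.mpr this)
  have hp0 : (w.1 : R[X]) = 0 := by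
    rw [hq0, mul_zero, zero_add] at hw'
    exact (mul_eq_zero.mp hw').resolve_left hg0
  apply hw0
  ext1
  · exact Subtype.ext hp0
  · exact Subtype.ext hq0


theorem finSuccEquiv_rename_succ {k : Type*} [CommSemiring k] {d : ℕ} (φ : MvPolynomial (Fin d) k) :
    finSuccEquiv k d (rename Fin.succ φ) = Polynomial.C φ := by
  induction φ using MvPolynomial.induction_on with
  | C a =>
    simp [finSuccEquiv_apply]
  | add p q hp hq => simp [hp, hq]
  | mul_X p i hp => simp [hp, finSuccEquiv_X_succ]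

/-- the degree of a resultant -/
theorem degreeOf_det_le {σ k : Type*} [Field k] {N D : ℕ} (M : Matrix (Fin N) (Fin N) (MvPolynomial σ k))
    (i : σ) (h : ∀ a b, degreeOf i (M a b) ≤ D) : degreeOf i M.det ≤ N * D := by
  rw [Matrix.det_apply]
  refine (degreeOf_sum_le _ _ _).trans (Finset.sup_le fun π _ => ?_)
  have h1 : degreeOf i (∏ a, M (π a) a) ≤ N * D := by
    refine (degreeOf_prod_le _ _ _).trans ?_
    refine (Finset.sum_le_sum fun a _ => h _ _).trans ?_
    simp
  rcases Int.units_eq_one_or (Equiv.Perm.sign π) with h2 | h2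
  · rw [h2, one_smul]; exact h1
  · rw [h2]
    simpa using h1

theorem elim {k : Type*} [Field k] {d D : ℕ} {P Q : MvPolynomial (Fin (d + 1)) k}
    (hP : P ≠ 0) (hQ : Q ≠ 0) (h : IsRelPrime P Q) (hPD : ∀ i, degreeOf i P ≤ D)
    (hQD : ∀ i, degreeOf i Q ≤ D) :
    ∃ R : MvPolynomial (Fin d) k, R ≠ 0 ∧ (∀ i, degreeOf i R ≤ 2 * D * D + D) ∧
      ∀ a : Fin (d + 1) → k, eval a P = 0 → eval a Q = 0 → eval (fun i => a i.succ) R = 0 := by
  set f := finSuccEquiv k d P with hf
  set g := finSuccEquiv k d Q with hg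
  have hf0 : f ≠ 0 := by simpa [hf] using hP
  have hg0 : g ≠ 0 := by simpa [hg] using hQ
  have hrel : IsRelPrime f g := by
    intro c hc1 hc2
    have h1 : (finSuccEquiv k d).symm c ∣ P := by
      have := map_dvd (finSuccEquiv k d).symm hc1
      simpa [hf] using this
    have h2 : (finSuccEquiv k d).symm c ∣ Q := by
      have := map_dvd (finSuccEquiv k d).symm hc2
      simpa [hg] using this
    have h3 := (h h1 h2).map (finSuccEquiv k d)
    simpa using h3
  have hres := resultant_ne_zero_of_isRelPrime hg0 hrel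
  have hdf : f.natDegree ≤ D := by rw [hf, natDegree_finSuccEquiv]; exact hPD 0
  have hdg : g.natDegree ≤ D := by rw [hg, natDegree_finSuccEquiv]; exact hQD 0
  have hcf : ∀ i j, degreeOf i (f.coeff j) ≤ D := fun i j =>
    (degreeOf_coeff_finSuccEquiv P i j).trans (hPD _)
  have hcg : ∀ i j, degreeOf i (g.coeff j) ≤ D := fun i j =>
    (degreeOf_coeff_finSuccEquiv Q i j).trans (hQD _)
  by_cases hdeg : f.natDegree ≠ 0 ∨ g.natDegree ≠ 0
  · refine ⟨f.resultant g, hres, fun i => ?_, fun a ha hb => ?_⟩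
    · have h1 : degreeOf i (f.resultant g) ≤ (f.natDegree + g.natDegree) * D := by
        apply degreeOf_det_le
        intro a b
        induction b using Fin.addCases with
        | left b =>
          simp only [Polynomial.sylvester, Matrix.of_apply, Fin.addCases_left]
          split_ifs
          · exact hcg _ _
          · simp
        | right b =>
          simp only [Polynomial.sylvester, Matrix.of_apply, Fin.addCases_right]
          split_ifs
          · exact hcf _ _
          · simp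
      refine h1.trans ?_
      calc (f.natDegree + g.natDegree) * D ≤ (D + D) * D := by gcongr
        _ ≤ 2 * D * D + D := by rw [← two_mul]; omega
    · obtain ⟨p, q, -, -, hpq⟩ :=
        Polynomial.exists_mul_add_mul_eq_C_resultant f g le_rfl le_rfl hdeg
      have h1 : eval a ((finSuccEquiv k d).symm (f * p + g * q)) = 0 := by
        rw [map_add, map_mul, map_mul, map_add, map_mul, map_mul]
        simp [hf, hg, ha, hb]
      rw [hpq] at h1
      have h2 : (finSuccEquiv k d).symm (Polynomial.C (f.resultant g)) =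
          rename Fin.succ (f.resultant g) := by
        rw [AlgEquiv.symm_apply_eq]
        rw [finSuccEquiv_rename_succ]
      rw [h2, eval_rename] at h1
      exact h1
  · push Not at hdeg
    refine ⟨f.coeff 0, ?_, fun i => (hcf i 0).trans (by omega), fun a ha hb => ?_⟩
    · intro h0
      apply hf0
      rw [Polynomial.eq_C_of_natDegree_eq_zero hdeg.1, h0, map_zero]
    · have h1 : P = rename Fin.succ (f.coeff 0) := by
        apply (finSuccEquiv k d).injective
        rw [finSuccEquiv_rename_succ, ← Polynomial.eq_C_of_natDegree_eq_zero hdeg.1]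
      rw [h1, eval_rename] at ha
      exact ha



variable {k : Type*} [Field k] {ι : Type*}

/-- `X_i ↦ u_i X_i` -/
def sc (u : ι → kˣ) : MvPolynomial ι k →ₐ[k] MvPolynomial ι k :=
  aeval (fun i => C (u i : k) * X i)

theorem sc_X (u : ι → kˣ) (i : ι) : sc u (X i) = C (u i : k) * X i := by simp [sc]

theorem sc_C (u : ι → kˣ) (a : k) : sc u (C a) = C a := by simp [sc]

theorem sc_sc (u v : ι → kˣ) (P : MvPolynomial ι k) : sc u (sc v P) = sc (u * v) P := by
  have : (sc u).comp (sc v) = sc (u * v) := by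
    apply algHom_ext
    intro i
    simp only [AlgHom.comp_apply, sc_X, map_mul, sc_C, Pi.mul_apply, Units.val_mul]
    ring
  rw [← this]; rfl

theorem sc_one (P : MvPolynomial ι k) : sc (1 : ι → kˣ) P = P := by
  have : sc (1 : ι → kˣ) = AlgHom.id k _ := by
    apply algHom_ext
    intro i
    simp [sc_X]
  rw [this]; rfl

/-- as an equivalence -/
def scE (u : ι → kˣ) : MvPolynomial ι k ≃ₐ[k] MvPolynomial ι k :=
  AlgEquiv.ofAlgHom (sc u) (sc u⁻¹) (by ext1 i; simp [sc_sc, sc_one]) (by ext1 i; simp [sc_sc, sc_one])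

@[simp] theorem scE_apply (u : ι → kˣ) (P : MvPolynomial ι k) : scE u P = sc u P := rfl

theorem sc_monomial (u : ι → kˣ) (m : ι →₀ ℕ) (a : k) :
    sc u (monomial m a) = monomial m (a * m.prod fun i e => (u i : k) ^ e) := by
  rw [sc, aeval_monomial]
  simp only [mul_pow, algebraMap_eq]
  rw [Finsupp.prod_mul, monomial_eq, C_mul, mul_assoc]
  congr 2
  simp [Finsupp.prod, map_prod]

theorem coeff_sc (u : ι → kˣ) (m : ι →₀ ℕ) (P : MvPolynomial ι k) :
    coeff m (sc u P) = coeff m P * m.prod fun i e => (u i : k) ^ e := by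
  classical
  induction P using MvPolynomial.monomial_add_induction_on with
  | C a =>
    rw [sc_C, coeff_C]
    split_ifs with h
    · subst h; simp
    · simp
  | monomial_add m' b f _ _ ih =>
    rw [map_add, coeff_add, coeff_add, ih, sc_monomial, coeff_monomial, coeff_monomial, add_mul]
    split_ifs with h
    · subst h; rfl
    · simp

theorem support_sc (u : ι → kˣ) (P : MvPolynomial ι k) : (sc u P).support = P.support := by
  classical
  ext m
  rw [mem_support_iff, mem_support_iff, coeff_sc, mul_ne_zero_iff]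
  refine and_iff_left ?_
  rw [Finsupp.prod]
  exact Finset.prod_ne_zero_iff.mpr fun i _ => pow_ne_zero _ (u i).ne_zero

theorem degreeOf_sc (u : ι → kˣ) (P : MvPolynomial ι k) (i : ι) :
    degreeOf i (sc u P) = degreeOf i P := by
  classical
  rw [degreeOf_eq_sup, degreeOf_eq_sup, support_sc]

theorem eval_sc (u : ι → kˣ) (a : ι → k) (P : MvPolynomial ι k) :
    eval a (sc u P) = eval (fun i => (u i : k) * a i) P := by
  have : (aeval a : MvPolynomial ι k →ₐ[k] k).comp (sc u) = aeval (fun i => (u i : k) * a i) := by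
    apply algHom_ext
    intro i
    simp [sc_X]
  have h := congrArg (fun f => f P) this
  simpa [AlgHom.comp_apply, aeval_eq_eval] using h

/-- rigidity -/
theorem rigid [Fintype ι] {Q : MvPolynomial ι k} (hQ : Irreducible Q) (hX : ∀ i, ¬ X i ∣ Q) (u : ι → kˣ)
    (hu : ∀ m : ι → ℤ, m ≠ 0 → (∏ i, u i ^ m i) ≠ 1) : ¬ Associated Q (sc u Q) := by
  classical
  rintro ⟨c, hc⟩
  obtain ⟨c0, hc0, hc1⟩ := (isUnit_iff_eq_C_of_isReduced (P := (c : MvPolynomial ι k))).mp c.isUnit
  have h1 : ∀ m ∈ Q.support, (m.prod fun i e => (u i : k) ^ e) = c0 := by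
    intro m hm
    have h2 := congrArg (coeff m) hc
    rw [hc1, mul_comm, coeff_C_mul, coeff_sc] at h2
    rw [mem_support_iff] at hm
    have h3 : coeff m Q * ((m.prod fun i e => (u i : k) ^ e) - c0) = 0 := by
      linear_combination -h2
    exact sub_eq_zero.mp ((mul_eq_zero.mp h3).resolve_left hm)
  have h2 : ∀ m ∈ Q.support, ∀ m' ∈ Q.support, m = m' := by
    intro m hm m' hm'
    by_contra hne
    apply hu (fun i => (m i : ℤ) - m' i)
    · intro h0
      apply hne
      ext i
      have := congrFun h0 i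
      simp only [Pi.zero_apply] at this
      omega
    · apply Units.ext
      have e1 := h1 m hm
      have e2 := h1 m' hm'
      rw [Finsupp.prod_fintype _ _ (fun i => pow_zero _)] at e1 e2
      simp only [zpow_sub, zpow_natCast, Finset.prod_mul_distrib, Finset.prod_inv_distrib,
        Units.val_one, Units.val_mul, Units.val_inv_eq_inv_val, Units.coe_prod, Units.val_pow_eq_pow_val]
      rw [e1, e2, mul_inv_cancel₀]
      rw [← e1]
      exact Finset.prod_ne_zero_iff.mpr fun i _ => pow_ne_zero _ (u i).ne_zero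
  have hQ0 : Q ≠ 0 := hQ.ne_zero
  obtain ⟨m, hm⟩ := Finset.nonempty_iff_ne_empty.mpr (fun h => hQ0 (support_eq_empty.mp h))
  have h3 : Q = monomial m (coeff m Q) := by
    ext m'
    rw [coeff_monomial]
    split_ifs with h
    · rw [h]
    · by_contra h4
      exact h (h2 m hm m' (mem_support_iff.mpr h4))
  by_cases hm0 : m = 0
  · apply hQ.not_isUnit
    rw [h3, hm0]
    change IsUnit (C _)
    refine IsUnit.map C (isUnit_iff_ne_zero.mpr ?_)
    rw [← hm0]
    exact mem_support_iff.mp hm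
  · obtain ⟨i, hi⟩ := Finsupp.ne_iff.mp hm0
    apply hX i
    rw [h3]
    rw [Finsupp.coe_zero, Pi.zero_apply] at hi
    rw [X_dvd_monomial]
    exact Or.inr hi


/-- the points of the group -/
def gp {d n : ℕ} (x : Fin d → Fin n → kˣ) (t : Fin n → ℤ) : Fin d → kˣ := fun i => ∏ j, x i j ^ t j

theorem gp_def {d n : ℕ} (x : Fin d → Fin n → kˣ) (t : Fin n → ℤ) (i : Fin d) :
    gp x t i = ∏ j, x i j ^ t j := rfl

theorem gp_add {d n : ℕ} (x : Fin d → Fin n → kˣ) (s t : Fin n → ℤ) :
    gp x (s + t) = gp x s * gp x t := by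
  ext i
  simp [gp, zpow_add, Finset.prod_mul_distrib]


/-- independence -/
def Ind {d n : ℕ} (x : Fin d → Fin n → kˣ) : Prop :=
  ∀ (m : Fin d → ℤ) (t : Fin n → ℤ), m ≠ 0 → t ≠ 0 → ∏ i, ∏ j, x i j ^ (m i * t j) ≠ 1

theorem Ind.gp {d n : ℕ} {x : Fin d → Fin n → kˣ} (h : Ind x) {t : Fin n → ℤ} (ht : t ≠ 0)
    (m : Fin d → ℤ) (hm : m ≠ 0) : ∏ i, gp x t i ^ m i ≠ 1 := by
  have := h m t hm ht
  convert this using 1
  refine Finset.prod_congr rfl fun i _ => ?_
  rw [gp_def, ← Finset.prod_zpow]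
  refine Finset.prod_congr rfl fun j _ => ?_
  rw [← zpow_mul, mul_comm]

theorem sc_irreducible {ι : Type*} (u : ι → kˣ) {Q : MvPolynomial ι k} (h : Irreducible Q) :
    Irreducible (sc u Q) := by
  rw [← scE_apply]
  exact (MulEquiv.irreducible_iff (scE u)).mpr h

theorem sc_associated {ι : Type*} (u : ι → kˣ) {Q R : MvPolynomial ι k} (h : Associated Q R) :
    Associated (sc u Q) (sc u R) := h.map (sc u)

/-- few bad translates -/
theorem exists_isRelPrime {d n : ℕ} {x : Fin d → Fin n → kˣ} (h : Ind x)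
    {P : MvPolynomial (Fin d) k} (hP : P ≠ 0) (hX : ∀ i, ¬ X i ∣ P) (T : Finset (Fin n → ℤ))
    (hT : (UniqueFactorizationMonoid.factors P).card ^ 2 < T.card) :
    ∃ t ∈ T, IsRelPrime P (sc (gp x t) P) := by
  classical
  by_contra hcon
  push Not at hcon
  set F := (UniqueFactorizationMonoid.factors P).toFinset with hF
  have key : ∀ t : Fin n → ℤ, t ∈ T → ∃ q : MvPolynomial (Fin d) k × MvPolynomial (Fin d) k,
      q ∈ F ×ˢ F ∧ Associated q.1 (sc (gp x t) q.2) := by
    intro t ht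
    have h1 := hcon t ht
    rw [IsRelPrime] at h1
    push Not at h1
    obtain ⟨r, hr1, hr2, hr3⟩ := h1
    have hr0 : r ≠ 0 := fun h0 => hP (zero_dvd_iff.mp (h0 ▸ hr1))
    obtain ⟨R, hR, hRr⟩ := WfDvdMonoid.exists_irreducible_factor hr3 hr0
    obtain ⟨Q1, hQ1, hQR⟩ := UniqueFactorizationMonoid.exists_mem_factors_of_dvd hP hR (hRr.trans hr1)
    have hR2 : sc (gp x t)⁻¹ R ∣ P := by
      have := map_dvd (sc (gp x t)⁻¹) (hRr.trans hr2)
      simpa [sc_sc, sc_one] using this
    obtain ⟨Q2, hQ2, hQR2⟩ := UniqueFactorizationMonoid.exists_mem_factors_of_dvd hP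
      (sc_irreducible _ hR) hR2
    refine ⟨(Q1, Q2), ?_, ?_⟩
    · rw [Finset.mem_product]
      exact ⟨by simpa [hF] using hQ1, by simpa [hF] using hQ2⟩
    · have h2 := sc_associated (gp x t) hQR2
      rw [sc_sc, mul_inv_cancel, sc_one] at h2
      exact hQR.symm.trans h2
  choose! q hq1 hq2 using key
  have hcard : T.card ≤ (F ×ˢ F).card := by
    refine Finset.card_le_card_of_injOn q (fun t ht => hq1 t ht) ?_
    intro t ht t' ht' htt
    by_contra hne
    have h1 := hq2 t ht
    have h2 := hq2 t' ht'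
    rw [← htt] at h2
    have h3 := h1.symm.trans h2
    have h4 := sc_associated (gp x (-t)) h3
    rw [sc_sc, sc_sc, ← gp_add, ← gp_add, neg_add_cancel] at h4
    have h5 : sc (gp x 0) (q t).2 = (q t).2 := by
      have : gp x 0 = 1 := by ext i; simp [gp]
      rw [this, sc_one]
    rw [h5] at h4
    have hmem : (q t).2 ∈ UniqueFactorizationMonoid.factors P := by
      have := (Finset.mem_product.mp (hq1 t ht)).2
      simpa [hF] using this
    have hirr := UniqueFactorizationMonoid.irreducible_of_factor _ hmem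
    have hdvd := UniqueFactorizationMonoid.dvd_of_mem_factors hmem
    refine rigid hirr (fun i hi => hX i (hi.trans hdvd)) (gp x (-t + t')) (fun m hm => ?_) h4
    refine h.gp ?_ m hm
    intro h0
    apply hne
    have : t' = t := by
      have := neg_add_eq_zero.mp h0
      exact this.symm
    exact this.symm
  rw [Finset.card_product] at hcard
  have : F.card ≤ (UniqueFactorizationMonoid.factors P).card := Multiset.toFinset_card_le _
  nlinarith



/-! ### degrees -/

/-- the sum of the partial degrees -/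
def sdeg {d : ℕ} (P : MvPolynomial (Fin d) k) : ℕ := ∑ i, degreeOf i P

theorem sdeg_mul {d : ℕ} {P Q : MvPolynomial (Fin d) k} (hP : P ≠ 0) (hQ : Q ≠ 0) :
    sdeg (P * Q) = sdeg P + sdeg Q := by
  simp only [sdeg, ← Finset.sum_add_distrib]
  exact Finset.sum_congr rfl fun i _ => degreeOf_mul_eq hP hQ

theorem sdeg_pos {d : ℕ} {P : MvPolynomial (Fin d) k} (hP : Irreducible P) : 1 ≤ sdeg P := by
  by_contra hcon
  have h0 : sdeg P = 0 := by omega
  have h1 : ∀ i, degreeOf i P = 0 := fun i => (Finset.sum_eq_zero_iff.mp h0) i (Finset.mem_univ _)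
  have h2 : ∀ m ∈ P.support, m = 0 := by
    intro m hm
    ext i
    have := monomial_le_degreeOf i hm
    rw [h1 i] at this
    simpa using this
  have h3 : P = C (coeff 0 P) := by
    ext m
    rw [coeff_C]
    split_ifs with h
    · rw [h]
    · by_contra h4
      exact h (h2 m (mem_support_iff.mpr h4)).symm
  apply hP.not_isUnit
  rw [h3]
  refine IsUnit.map C (isUnit_iff_ne_zero.mpr fun h4 => hP.ne_zero ?_)
  rw [h3, h4, map_zero]

theorem sdeg_X {d : ℕ} (i : Fin d) : 1 ≤ sdeg (X i : MvPolynomial (Fin d) k) := by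
  have h := Finset.single_le_sum (f := fun j => degreeOf j (X i : MvPolynomial (Fin d) k))
    (fun j _ => Nat.zero_le _) (Finset.mem_univ i)
  simp only [degreeOf_X_self] at h
  exact h

theorem card_le_sdeg_prod {d : ℕ} (s : Multiset (MvPolynomial (Fin d) k))
    (hs : ∀ P ∈ s, Irreducible P) : s.prod ≠ 0 ∧ s.card ≤ sdeg s.prod := by
  induction s using Multiset.induction_on with
  | empty => simp
  | cons P s ih =>
    obtain ⟨h1, h2⟩ := ih fun Q hQ => hs Q (Multiset.mem_cons_of_mem hQ)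
    have hP := hs P (Multiset.mem_cons_self P s)
    rw [Multiset.prod_cons, Multiset.card_cons]
    refine ⟨mul_ne_zero hP.ne_zero h1, ?_⟩
    rw [sdeg_mul hP.ne_zero h1]
    have := sdeg_pos hP
    omega

theorem card_factors_le {d : ℕ} {P : MvPolynomial (Fin d) k} (hP : P ≠ 0) :
    (UniqueFactorizationMonoid.factors P).card ≤ sdeg P := by
  obtain ⟨h1, h2⟩ := card_le_sdeg_prod (UniqueFactorizationMonoid.factors P)
    fun Q hQ => UniqueFactorizationMonoid.irreducible_of_factor _ hQ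
  obtain ⟨c, hc⟩ := UniqueFactorizationMonoid.factors_prod hP
  have h3 : sdeg P = sdeg (UniqueFactorizationMonoid.factors P).prod + sdeg (c : MvPolynomial (Fin d) k) := by
    rw [← sdeg_mul h1 c.ne_zero, hc]
  omega

/-- remove the factors `X i` -/
theorem strip {d : ℕ} : ∀ (N : ℕ) (P : MvPolynomial (Fin d) k), P ≠ 0 → sdeg P ≤ N →
    ∃ P' : MvPolynomial (Fin d) k, P' ≠ 0 ∧ (∀ i, ¬ X i ∣ P') ∧
      (∀ i, degreeOf i P' ≤ degreeOf i P) ∧
      ∀ a : Fin d → k, (∀ i, a i ≠ 0) → eval a P = 0 → eval a P' = 0 := by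
  intro N
  induction N with
  | zero =>
    intro P hP hN
    refine ⟨P, hP, fun i hi => ?_, fun i => le_rfl, fun a _ h => h⟩
    obtain ⟨Q, rfl⟩ := hi
    have hQ : Q ≠ 0 := right_ne_zero_of_mul hP
    rw [sdeg_mul (X_ne_zero i) hQ] at hN
    have := sdeg_X (k := k) i
    omega
  | succ N ih =>
    intro P hP hN
    by_cases hX : ∀ i, ¬ X i ∣ P
    · exact ⟨P, hP, hX, fun i => le_rfl, fun a _ h => h⟩
    · push Not at hX
      obtain ⟨i, Q, rfl⟩ := hX
      have hQ : Q ≠ 0 := right_ne_zero_of_mul hP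
      have h1 := sdeg_X (k := k) i
      rw [sdeg_mul (X_ne_zero i) hQ] at hN
      obtain ⟨P', h2, h3, h4, h5⟩ := ih Q hQ (by omega)
      refine ⟨P', h2, h3, fun j => (h4 j).trans ?_, fun a ha h => h5 a ha ?_⟩
      · rw [degreeOf_mul_eq (X_ne_zero i) hQ]
        omega
      · rw [map_mul, eval_X] at h
        exact (mul_eq_zero.mp h).resolve_left (ha i)

theorem Ind.tail {d n : ℕ} {x : Fin (d + 1) → Fin n → kˣ} (h : Ind x) :
    Ind fun i : Fin d => x i.succ := by
  intro m t hm ht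
  have h1 := h (Fin.cons 0 m) t (fun h0 => hm (by
    ext i
    have := congrFun h0 i.succ
    simpa using this)) ht
  rw [Fin.prod_univ_succ] at h1
  simpa using h1

/-- the zero estimate, natural number exponents -/
theorem zero_est (d : ℕ) : ∀ A : ℕ, ∃ n₀ : ℕ, ∀ n, n₀ ≤ n → ∃ S₀ : ℕ, ∀ S, S₀ ≤ S →
    ∀ (x : Fin d → Fin n → kˣ), Ind x → ∀ P : MvPolynomial (Fin d) k, P ≠ 0 →
      (∀ i, degreeOf i P ≤ S ^ A) →
      ∃ s : Fin n → ℕ, (∀ j, s j < S) ∧
        eval (fun i => ((gp x (fun j => (s j : ℤ)) i : kˣ) : k)) P ≠ 0 := by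
  induction d with
  | zero =>
    intro A
    refine ⟨0, fun n _ => ⟨1, fun S hS x _ P hP _ => ⟨fun _ => 0, fun j => (by omega : 0 < S), ?_⟩⟩⟩
    intro h0
    apply hP
    rw [eq_C_of_isEmpty P] at h0 ⊢
    rw [eval_C] at h0
    rw [h0, map_zero]
  | succ d ih =>
    intro A
    obtain ⟨n₁, hn₁⟩ := ih (4 * A + 1)
    refine ⟨max n₁ (4 * A + 1), fun n hn => ?_⟩
    obtain ⟨S₁, hS₁⟩ := hn₁ n (le_of_max_le_left hn)
    have hn4 : 4 * A + 1 ≤ n := le_of_max_le_right hn
    refine ⟨2 * (S₁ + (d + 1) ^ 2 + 4), fun S hS x hx P hP hPD => ?_⟩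
    set S' := S / 2 with hS'
    have hS'1 : S₁ + (d + 1) ^ 2 + 4 ≤ S' := by omega
    have hSS : S ≤ S' ^ 2 := by
      have : S ≤ 2 * S' + 1 := by omega
      nlinarith
    have hS2 : S' + S' ≤ S := by omega
    have hpow : S ^ (2 * A) ≤ S' ^ (4 * A) := by
      calc S ^ (2 * A) ≤ (S' ^ 2) ^ (2 * A) := Nat.pow_le_pow_left hSS _
        _ = S' ^ (4 * A) := by rw [← pow_mul]; congr 1; ring
    by_contra hcon
    push Not at hcon
    obtain ⟨Q, hQ0, hQX, hQD, hQv⟩ := strip (sdeg P) P hP le_rfl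
    have hQD' : ∀ i, degreeOf i Q ≤ S ^ A := fun i => (hQD i).trans (hPD i)
    have hQz : ∀ s : Fin n → ℕ, (∀ j, s j < S) →
        eval (fun i => ((gp x (fun j => (s j : ℤ)) i : kˣ) : k)) Q = 0 := fun s hs =>
      hQv _ (fun i => Units.ne_zero _) (hcon s hs)
    -- a good translate
    let emb : (Fin n → Fin S') → (Fin n → ℤ) := fun t j => ((t j : ℕ) : ℤ)
    have hemb : Function.Injective emb := by
      intro t t' h
      ext j
      have := congrFun h j
      simpa [emb] using this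
    let T : Finset (Fin n → ℤ) := Finset.univ.map ⟨emb, hemb⟩
    have hT : T.card = S' ^ n := by simp [T]
    have hfac : (UniqueFactorizationMonoid.factors Q).card ^ 2 < T.card := by
      have h1 : (UniqueFactorizationMonoid.factors Q).card ≤ (d + 1) * S ^ A := by
        refine (card_factors_le hQ0).trans ?_
        refine (Finset.sum_le_sum fun i _ => hQD' i).trans ?_
        simp
      rw [hT]
      calc (UniqueFactorizationMonoid.factors Q).card ^ 2 ≤ ((d + 1) * S ^ A) ^ 2 :=
            Nat.pow_le_pow_left h1 _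
        _ = (d + 1) ^ 2 * S ^ (2 * A) := by rw [mul_pow, ← pow_mul]; ring_nf
        _ ≤ (d + 1) ^ 2 * S' ^ (4 * A) := Nat.mul_le_mul_left _ hpow
        _ < S' * S' ^ (4 * A) := by
            apply Nat.mul_lt_mul_of_pos_right
            · omega
            · exact Nat.pow_pos (by omega)
        _ = S' ^ (4 * A + 1) := by ring
        _ ≤ S' ^ n := Nat.pow_le_pow_right (by omega) hn4
    obtain ⟨t, htT, ht⟩ := exists_isRelPrime hx hQ0 hQX T hfac
    obtain ⟨t', -, rfl⟩ := Finset.mem_map.mp htT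
    change IsRelPrime Q (sc (gp x (emb t')) Q) at ht
    have hsc0 : sc (gp x (emb t')) Q ≠ 0 := by
      intro h0
      apply hQ0
      have := congrArg (sc (gp x (emb t'))⁻¹) h0
      simpa [sc_sc, sc_one] using this
    obtain ⟨R, hR0, hRD, hRv⟩ := elim hQ0 hsc0 ht hQD' (fun i => by rw [degreeOf_sc]; exact hQD' i)
    obtain ⟨s, hs, hs'⟩ := hS₁ S' (by omega) (fun i => x i.succ) hx.tail R hR0 (fun i => by
      refine (hRD i).trans ?_
      calc 2 * S ^ A * S ^ A + S ^ A ≤ 2 * S ^ A * S ^ A + S ^ A * S ^ A := by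
            have : 1 ≤ S ^ A := Nat.one_le_pow _ _ (by omega)
            nlinarith
        _ = 3 * S ^ (2 * A) := by rw [two_mul A, pow_add]; ring
        _ ≤ 3 * S' ^ (4 * A) := Nat.mul_le_mul_left _ hpow
        _ ≤ S' * S' ^ (4 * A) := Nat.mul_le_mul_right _ (by omega)
        _ = S' ^ (4 * A + 1) := by ring)
    apply hs'
    have h1 := hRv (fun i => ((gp x (fun j => (s j : ℤ)) i : kˣ) : k))
      (hQz s fun j => by have := hs j; omega) (by
        rw [eval_sc]
        have h2 := hQz (fun j => (t' j : ℕ) + s j) (fun j => by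
          have := hs j; have := (t' j).2; omega)
        have h3 : (fun j => ((((t' j : ℕ) + s j : ℕ)) : ℤ)) = emb t' + fun j => (s j : ℤ) := by
          ext j; simp [emb]
        rw [h3, gp_add] at h2
        simpa using h2)
    exact h1

/-! ### the matrix form -/

/-- full rank matrices have a nonsingular square submatrix -/
theorem exists_submatrix {Λ T : Type*} [Fintype Λ] [DecidableEq Λ] (B : Matrix Λ T k)
    (h : ∀ c : Λ → k, (∀ t, ∑ l, c l * B l t = 0) → c = 0) :
    ∃ f : Λ → T, (Matrix.of fun l m => B l (f m)).det ≠ 0 := by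
  classical
  let v : T → (Λ → k) := fun t l => B l t
  have hspan : Submodule.span k (Set.range v) = ⊤ := by
    by_contra hne
    obtain ⟨φ, hφ, hφ0⟩ := Submodule.exists_le_ker_of_lt_top _ (lt_top_iff_ne_top.mpr hne)
    apply hφ
    have h1 : (fun l => φ (Pi.single l 1)) = (0 : Λ → k) := by
      apply h
      intro t
      have h2 : φ (v t) = 0 := hφ0 (Submodule.subset_span ⟨t, rfl⟩)
      rw [LinearMap.pi_apply_eq_sum_univ φ (v t)] at h2
      simp only [smul_eq_mul, v] at h2
      rw [← h2]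
      refine Finset.sum_congr rfl fun l _ => ?_
      rw [mul_comm]
      congr 2
      ext j
      simp [Pi.single_apply, eq_comm]
    apply LinearMap.pi_ext'
    intro l
    ext
    simpa using congrFun h1 l
  obtain ⟨b, hb, hbs, hbi⟩ := exists_linearIndependent k (Set.range v)
  rw [hspan] at hbs
  have hbs' : ⊤ ≤ Submodule.span k (Set.range ((↑) : b → (Λ → k))) := by
    rw [Subtype.range_coe]; exact hbs.ge
  let bas := Module.Basis.mk hbi hbs'
  have : Fintype b := FiniteDimensional.fintypeBasisIndex bas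
  have hcard : Fintype.card b = Fintype.card Λ := by
    rw [← Module.finrank_eq_card_basis bas, Module.finrank_fintype_fun_eq_card]
  let e : Λ ≃ b := Fintype.equivOfCardEq hcard.symm
  have hpre : ∀ l, ∃ t, v t = (e l : Λ → k) := fun l => hb (e l).2
  choose f hf using hpre
  refine ⟨f, ?_⟩
  have h2 : LinearIndependent k (fun m => v (f m)) := by
    have h4 : (fun m => v (f m)) = ((↑) : b → (Λ → k)) ∘ e := by
      ext m : 1
      exact hf m
    rw [h4]
    exact hbi.comp e e.injective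
  have h3 : IsUnit (Matrix.of fun l m => B l (f m)) := by
    rw [← Matrix.linearIndependent_cols_iff_isUnit]
    exact h2
  exact ((Matrix.isUnit_iff_isUnit_det _).mp h3).ne_zero

/-- **W1, matrix form**: the generalized Vandermonde matrices have full rank. -/
theorem exists_det_ne_zero (k : Type*) [Field k] (d A : ℕ) : ∃ n₀ : ℕ, ∀ n, n₀ ≤ n → ∃ S₀ : ℕ, ∀ S, S₀ ≤ S →
    ∀ (x : Fin d → Fin n → kˣ), Ind x → ∀ D, D ≤ S ^ A →
      ∃ f : (Fin d → Fin D) → (Fin n → Fin S), Function.Injective f ∧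
        (Matrix.of fun (l m : Fin d → Fin D) =>
          ∏ i, ∏ j, ((x i j : k)) ^ ((l i : ℕ) * (f m j : ℕ))).det ≠ 0 := by
  classical
  obtain ⟨n₀, hn₀⟩ := zero_est (k := k) d A
  refine ⟨n₀, fun n hn => ?_⟩
  obtain ⟨S₀, hS₀⟩ := hn₀ n hn
  refine ⟨S₀, fun S hS x hx D hD => ?_⟩
  let B : Matrix (Fin d → Fin D) (Fin n → Fin S) k := Matrix.of fun l t =>
    ∏ i, ∏ j, ((x i j : k)) ^ ((l i : ℕ) * (t j : ℕ))
  obtain ⟨f, hf⟩ := exists_submatrix B (by
    intro c hc
    by_contra hc0
    -- the polynomial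
    let mon : (Fin d → Fin D) → (Fin d →₀ ℕ) := fun l => Finsupp.equivFunOnFinite.symm fun i => (l i : ℕ)
    have hmon : Function.Injective mon := by
      intro l l' h
      ext i
      have := congrArg (fun g => g i) h
      simpa [mon] using this
    let P : MvPolynomial (Fin d) k := ∑ l, monomial (mon l) (c l)
    have hcoeff : ∀ l, coeff (mon l) P = c l := by
      intro l
      simp only [P, coeff_sum, coeff_monomial]
      rw [Finset.sum_eq_single l]
      · simp
      · intro l' _ hne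
        rw [if_neg fun h => hne (hmon h)]
      · simp
    have hP : P ≠ 0 := by
      intro h0
      apply hc0
      ext l
      rw [← hcoeff l, h0]
      simp
    have hPD : ∀ i, degreeOf i P ≤ S ^ A := by
      intro i
      refine (degreeOf_sum_le _ _ _).trans (Finset.sup_le fun l _ => ?_)
      by_cases h0 : c l = 0
      · rw [h0, monomial_zero]; simp
      · rw [degreeOf_monomial_eq _ _ h0]
        simp only [mon, Finsupp.equivFunOnFinite_symm_apply_apply]
        exact ((l i).2.le).trans hD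
    obtain ⟨s, hs, hs'⟩ := hS₀ S hS x hx P hP hPD
    apply hs'
    have h1 := hc fun j => ⟨s j, hs j⟩
    rw [← h1]
    simp only [P, map_sum, eval_monomial]
    refine Finset.sum_congr rfl fun l _ => ?_
    congr 1
    simp only [B, Matrix.of_apply]
    rw [Finsupp.prod_fintype _ _ (fun i => pow_zero _)]
    refine Finset.prod_congr rfl fun i _ => ?_
    simp only [gp, Units.coe_prod, zpow_natCast, Units.val_pow_eq_pow_val, mon,
      Finsupp.equivFunOnFinite_symm_apply_apply]
    rw [← Finset.prod_pow]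
    refine Finset.prod_congr rfl fun j _ => ?_
    rw [← pow_mul, mul_comm])
  refine ⟨f, ?_, hf⟩
  intro m m' hmm
  by_contra hne
  apply hf
  apply Matrix.det_zero_of_column_eq hne
  intro l
  simp [hmm]

/-- **W1 in the form consumed by the assembly** -/
theorem zero_matrix {k : Type*} [Field k] {Sg : Type*} [Fintype Sg] [DecidableEq Sg] (x : Sg → ℕ → kˣ)
    (hx : ∀ (n : ℕ) (m : Sg → ℤ) (t : Fin n → ℤ), m ≠ 0 → t ≠ 0 →
      ∏ s, ∏ j : Fin n, (x s j) ^ (m s * t j) ≠ 1) (A : ℕ) :
    ∃ n₀ : ℕ, ∀ n, n₀ ≤ n → ∃ S₀ : ℕ, ∀ S, S₀ ≤ S →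
      ∃ t : (Sg → Fin (S ^ A)) → Fin n → Fin S,
        (Matrix.of fun lam c : (Sg → Fin (S ^ A)) =>
          ∏ s, ∏ j : Fin n, ((x s j : kˣ) : k) ^ ((lam s : ℕ) * (t c j : ℕ))).det ≠ 0 := by
  classical
  let e : Sg ≃ Fin (Fintype.card Sg) := Fintype.equivFin Sg
  obtain ⟨n₀, hn₀⟩ := exists_det_ne_zero k (Fintype.card Sg) A
  refine ⟨n₀, fun n hn => ?_⟩
  obtain ⟨S₀, hS₀⟩ := hn₀ n hn
  refine ⟨S₀, fun S hS => ?_⟩
  obtain ⟨f, -, hf⟩ := hS₀ S hS (fun i j => x (e.symm i) j) (by
    intro m t hm ht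
    have h1 := hx n (fun s => m (e s)) t (fun h0 => hm (by
      ext i
      have := congrFun h0 (e.symm i)
      simpa using this)) ht
    rw [← Equiv.prod_comp e.symm] at h1
    simpa using h1) (S ^ A) le_rfl
  let E : (Sg → Fin (S ^ A)) ≃ (Fin (Fintype.card Sg) → Fin (S ^ A)) := Equiv.arrowCongr e (Equiv.refl _)
  refine ⟨fun c => f (E c), ?_⟩
  rw [← Matrix.det_submatrix_equiv_self E] at hf
  convert hf using 2
  ext lam c
  simp only [Matrix.of_apply, Matrix.submatrix_apply]
  rw [← Equiv.prod_comp e.symm]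
  rfl

end Crest.Agent.R018.WZerox791
end
end

-- ▼ part R018/WThm_410
section

/-!
# Row 18: Waldschmidt block, final theorem in congruence form (helper410)
-/

set_option autoImplicit false

namespace Crest.Agent.R018.WThm410

open NumberField Crest.Agent.R018.WMain410

/-- **Theorem W.** If the conjugates of the `y j` are multiplicatively independent in the strong
sense `hInd`, then for some `n` and all large `e` the elements `y j`, `j < n`, are not contained,
modulo `l ^ e`, in the monoid generated by `r < card Sg` elements which are `1` modulo `l`. -/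
theorem thmW {F K : Type*} [Field F] [NumberField F] [Field K] [NumberField K]
    {Sg : Type*} [Fintype Sg] [DecidableEq Sg] [Nonempty Sg] (φ : Sg → (𝓞 F →+* 𝓞 K))
    (l : ℕ) (hl : 2 ≤ l) (y : ℕ → 𝓞 F) (hy : ∀ s j, φ s (y j) ≠ 0)
    (hInd : ∀ (n : ℕ) (m : Sg → ℤ) (t : Fin n → ℤ), m ≠ 0 → t ≠ 0 →
      ∏ s, ∏ j : Fin n, ((φ s (y j) : 𝓞 K) : K) ^ (m s * t j) ≠ 1) :
    ∃ n e0 : ℕ, ∀ e ≥ e0, ∀ r < Fintype.card Sg, ∀ η : Fin r → 𝓞 F,
      (∀ k, (l : 𝓞 F) ∣ η k - 1) →
      ∀ a : Fin n → Fin r → ℕ, ¬ ∀ j : Fin n, (l : 𝓞 F) ^ e ∣ y j - ∏ k, η k ^ a j k := by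
  apply main_zero φ l hl y
  intro A
  have hy' : ∀ s j, ((φ s (y j) : 𝓞 K) : K) ≠ 0 := fun s j => by
    simpa using hy s j
  obtain ⟨n, hn⟩ := WZerox791.zero_matrix (k := K)
    (fun (s : Sg) (j : ℕ) => Units.mk0 ((φ s (y j) : 𝓞 K) : K) (hy' s j)) (by
      intro n m t hm ht h
      apply hInd n m t hm ht
      have := congrArg (fun u : Kˣ => (u : K)) h
      simpa [Units.coe_prod] using this) A
  obtain ⟨S0, hS0⟩ := hn n le_rfl
  exact ⟨n, S0, fun S hS => hS0 S hS⟩

/-- Theorem W with the embeddings of `F` in `K`. -/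
theorem thmW_emb (F K : Type*) [Field F] [NumberField F] [Field K] [NumberField K]
    [Nonempty (F →+* K)] (l : ℕ) (hl : 2 ≤ l) (y : ℕ → 𝓞 F) (hy : ∀ j, y j ≠ 0)
    (hInd : ∀ (n : ℕ) (m : (F →+* K) → ℤ) (t : Fin n → ℤ), m ≠ 0 → t ≠ 0 →
      ∏ s : F →+* K, ∏ j : Fin n, s (y j : F) ^ (m s * t j) ≠ 1) :
    ∃ n e0 : ℕ, ∀ e ≥ e0, ∀ r < Fintype.card (F →+* K), ∀ η : Fin r → 𝓞 F,
      (∀ k, (l : 𝓞 F) ∣ η k - 1) →
      ∀ a : Fin n → Fin r → ℕ, ¬ ∀ j : Fin n, (l : 𝓞 F) ^ e ∣ y j - ∏ k, η k ^ a j k := by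
  classical
  apply thmW (fun s : F →+* K => RingOfIntegers.mapRingHom s) l hl y
  · intro s j h
    have h1 : ((RingOfIntegers.mapRingHom s (y j) : 𝓞 K) : K) = 0 := by rw [h]; simp
    have h2 : s (y j : F) = 0 := h1
    exact hy j (by simpa using h2)
  · intro n m t hm ht
    exact hInd n m t hm ht

end Crest.Agent.R018.WThm410
end

-- ▼ part R018/Bridge_275
section

/-!
# Row 18: the bridge between "full at level j" and "generated by fewer than d elements"
(helper275)
-/

set_option autoImplicit false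

noncomputable section

open scoped NumberField
open IsDedekindDomain Crest.Agent.R018.LogDefsx575

namespace Crest.Agent.R018.Bridgex275

section Group

/-- a finite elementary abelian `l`-group, module form -/
theorem elem_ab' {W : Type*} [AddCommGroup W] [Finite W] (l : ℕ) [hl : Fact l.Prime]
    [Module (ZMod l) W] :
    ∃ r : ℕ, Nat.card W = l ^ r ∧ ∃ b : Fin r → W, ∀ w, w ∈ AddSubgroup.closure (Set.range b) := by
  refine ⟨Module.finrank (ZMod l) W, ?_, ?_⟩
  · rw [Module.natCard_eq_pow_finrank (K := ZMod l), Nat.card_zmod]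
  · let b := Module.finBasis (ZMod l) W
    refine ⟨b, fun w => ?_⟩
    have hw : w ∈ Submodule.span (ZMod l) (Set.range b) := by
      rw [b.span_eq]; trivial
    induction hw using Submodule.span_induction with
    | mem z hz => exact AddSubgroup.subset_closure hz
    | zero => exact zero_mem _
    | add z w _ _ hz hw => exact add_mem hz hw
    | smul c z _ hz =>
      have : c • z = c.val • z := by
        conv_lhs => rw [← ZMod.natCast_zmod_val c]
        rw [Nat.cast_smul_eq_nsmul]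
      rw [this]
      exact nsmul_mem hz _

/-- a finite elementary abelian `l`-group -/
theorem elem_ab {W : Type*} [AddCommGroup W] [Finite W] (l : ℕ) [hl : Fact l.Prime]
    (hV : ∀ x : W, l • x = 0) :
    ∃ r : ℕ, Nat.card W = l ^ r ∧ ∃ b : Fin r → W, ∀ w, w ∈ AddSubgroup.closure (Set.range b) := by
  let _ : Module (ZMod l) W := AddCommGroup.zmodModule hV
  exact elem_ab' l

/-- Burnside basis for finite abelian `l`-groups, counted by the `l`-torsion. -/
theorem exists_gen {P : Type*} [CommGroup P] [Finite P] (l : ℕ) [hl : Fact l.Prime]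
    (hP : ∃ k, ∀ x : P, x ^ l ^ k = 1) (d : ℕ) (hd : Nat.card {x : P // x ^ l = 1} < l ^ d) :
    ∃ r < d, ∃ p : Fin r → P, ∀ x : P, ∃ a : Fin r → ℕ, x = ∏ i, p i ^ a i := by
  classical
  set f : P →* P := powMonoidHom l with hf
  have hker : Nat.card f.ker = Nat.card {x : P // x ^ l = 1} := by
    refine Nat.card_congr (Equiv.subtypeEquivRight fun x => ?_)
    simp [hf, MonoidHom.mem_ker]
  have hidx : f.range.index = Nat.card f.ker := by
    have h1 := f.range.card_mul_index
    have h2 := f.ker.card_mul_index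
    rw [Subgroup.index_ker] at h2
    have h3 : 0 < Nat.card f.range := Nat.card_pos
    rw [← h2, mul_comm (Nat.card f.ker)] at h1
    exact Nat.eq_of_mul_eq_mul_left h3 h1
  let V := P ⧸ f.range
  have hcardV : Nat.card V = Nat.card f.ker := by
    rw [← hidx]; rfl
  have hV : ∀ x : Additive V, l • x = 0 := by
    intro x
    induction x using Additive.rec with
    | ofMul x =>
      rw [← ofMul_pow, ← ofMul_one]
      congr 1
      obtain ⟨y, rfl⟩ := QuotientGroup.mk_surjective x
      rw [← QuotientGroup.mk_pow, QuotientGroup.eq_one_iff]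
      exact ⟨y, rfl⟩
  have hfinV : Finite (Additive V) := inferInstanceAs (Finite V)
  obtain ⟨r, hcard, b, hb⟩ := elem_ab l hV
  have hrd : r < d := by
    have h1 : Nat.card (Additive V) = Nat.card V := rfl
    rw [h1, hcardV, hker] at hcard
    rw [hcard] at hd
    exact (Nat.pow_lt_pow_iff_right hl.out.one_lt).1 hd
  choose p hp using fun i : Fin r => QuotientGroup.mk_surjective (s := f.range) ((b i).toMul)
  refine ⟨r, hrd, p, ?_⟩
  let Q := Subgroup.closure (Set.range p)
  -- step 1: Q and the l-th powers generate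
  have h1 : ∀ x : P, ∃ q ∈ Q, ∃ y : P, x = q * y ^ l := by
    intro x
    have hx := hb (Additive.ofMul ((x : P) : V))
    have hx2 : ∀ z : Additive V, z ∈ AddSubgroup.closure (Set.range b) →
        ∃ q ∈ Q, Additive.ofMul ((q : P) : V) = z := by
      intro z hz
      induction hz using AddSubgroup.closure_induction with
      | mem z hz =>
        obtain ⟨i, rfl⟩ := hz
        exact ⟨p i, Subgroup.subset_closure ⟨i, rfl⟩, by rw [hp i]; rfl⟩
      | zero => exact ⟨1, one_mem _, rfl⟩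
      | add z w _ _ hz hw =>
        obtain ⟨q, hq, rfl⟩ := hz
        obtain ⟨q', hq', rfl⟩ := hw
        exact ⟨q * q', mul_mem hq hq', rfl⟩
      | neg z _ hz =>
        obtain ⟨q, hq, rfl⟩ := hz
        exact ⟨q⁻¹, inv_mem hq, rfl⟩
    obtain ⟨q, hq, hqx⟩ := hx2 _ hx
    have h2 : ((q : P) : V) = ((x : P) : V) := hqx
    rw [QuotientGroup.eq] at h2
    obtain ⟨y, hy⟩ := h2
    refine ⟨q, hq, y, ?_⟩
    have hy' : y ^ l = q⁻¹ * x := hy
    rw [hy', mul_inv_cancel_left]
  have h2 : ∀ k : ℕ, ∀ x : P, ∃ q ∈ Q, ∃ y : P, x = q * y ^ l ^ k := by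
    intro k
    induction k with
    | zero => intro x; exact ⟨1, one_mem _, x, by simp⟩
    | succ k ih =>
      intro x
      obtain ⟨q, hq, y, rfl⟩ := ih x
      obtain ⟨q', hq', z, rfl⟩ := h1 y
      refine ⟨q * q' ^ l ^ k, mul_mem hq (pow_mem hq' _), z, ?_⟩
      rw [mul_pow, ← pow_mul, mul_assoc, pow_succ' l k]
  obtain ⟨k, hk⟩ := hP
  intro x
  have hxQ : x ∈ Q := by
    obtain ⟨q, hq, y, rfl⟩ := h2 k x
    rwa [hk, mul_one]
  obtain ⟨a, ha⟩ := Subgroup.exists_of_mem_closure_range p x hxQ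
  refine ⟨fun i => (a i % (l ^ k : ℕ)).toNat, ?_⟩
  rw [ha]
  refine Finset.prod_congr rfl fun i _ => ?_
  have hpos : (0 : ℤ) < (l ^ k : ℕ) := by
    exact_mod_cast pow_pos hl.out.pos k
  rw [← zpow_natCast, Int.toNat_of_nonneg (Int.emod_nonneg _ hpos.ne')]
  conv_lhs => rw [← Int.emod_add_mul_ediv (a i) ((l ^ k : ℕ) : ℤ), zpow_add, zpow_mul, zpow_natCast,
    hk, one_zpow, mul_one]

end Group

section Arith

theorem one_add_pow' {R : Type*} [CommRing R] (t : R) (n : ℕ) :
    ∃ r, (1 + t) ^ n = 1 + n * t + t ^ 2 * r := by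
  induction n with
  | zero => exact ⟨0, by simp⟩
  | succ n ih =>
    obtain ⟨r, hr⟩ := ih
    refine ⟨n + r + t * r, ?_⟩
    rw [pow_succ, hr]
    push_cast
    ring

variable {R : Type*} [CommRing R] [IsDomain R] [CharZero R] (l : ℕ) [hl : Fact l.Prime]

theorem key_step (b : R) (e j : ℕ) (hj : 2 ≤ j) (hje : j + 2 ≤ e) (h2 : (l : R) ^ j ∣ b - 1)
    (he : (l : R) ^ e ∣ b ^ l - 1) : (l : R) ^ (j + 1) ∣ b - 1 := by
  obtain ⟨c, hc⟩ := h2
  have hb : b = 1 + (l : R) ^ j * c := by rw [← hc]; ring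
  obtain ⟨r, hr⟩ := one_add_pow' ((l : R) ^ j * c) l
  have h1 : (l : R) ^ (j + 2) ∣ b ^ l - 1 := (pow_dvd_pow _ hje).trans he
  have h3 : (l : R) ^ (j + 2) ∣ ((l : R) ^ j * c) ^ 2 * r := by
    refine Dvd.dvd.mul_right ?_ r
    rw [mul_pow, ← pow_mul]
    exact Dvd.dvd.mul_right (pow_dvd_pow _ (by omega)) _
  have h4 : (l : R) ^ (j + 2) ∣ (l : R) ^ (j + 1) * c := by
    have : (l : R) ^ (j + 1) * c = (b ^ l - 1) - ((l : R) ^ j * c) ^ 2 * r := by
      rw [hb, hr]; ring
    rw [this]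
    exact dvd_sub h1 h3
  have hl0 : (l : R) ≠ 0 := by exact_mod_cast hl.out.ne_zero
  have h5 : (l : R) ∣ c := by
    rw [show j + 2 = (j + 1) + 1 from rfl, pow_succ _ (j + 1)] at h4
    exact (mul_dvd_mul_iff_left (pow_ne_zero _ hl0)).1 h4
  rw [hc, pow_succ]
  exact mul_dvd_mul_left _ h5

theorem key (b : R) (e : ℕ) (h2 : (l : R) ^ 2 ∣ b - 1) (he : (l : R) ^ e ∣ b ^ l - 1) (j : ℕ)
    (hj : 2 ≤ j) (hje : j + 1 ≤ e) : (l : R) ^ j ∣ b - 1 := by
  induction j, hj using Nat.le_induction with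
  | base => exact h2
  | succ j hj ih => exact key_step l b e j hj (by omega) (ih (by omega)) he

end Arith

section Main

variable (K : Type*) [Field K] [NumberField K] (l : ℕ)

/-- the quotient ring `O / l^e` -/
abbrev A (e : ℕ) : Type _ := 𝓞 K ⧸ Ideal.span {(l : 𝓞 K) ^ e}

variable {K} in
omit [NumberField K] in
theorem mk_eq_iff {e : ℕ} (a b : 𝓞 K) :
    (Ideal.Quotient.mk (Ideal.span {(l : 𝓞 K) ^ e}) a = Ideal.Quotient.mk _ b) ↔
      (l : 𝓞 K) ^ e ∣ a - b := by
  rw [Ideal.Quotient.eq, Ideal.mem_span_singleton]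

variable {K} in
theorem val_le_of_dvd {e : ℕ} {a : 𝓞 K} (h : (l : 𝓞 K) ^ e ∣ a) (v : HeightOneSpectrum (𝓞 K)) :
    v.valuation K (a : K) ≤ v.valuation K (l : K) ^ e := by
  obtain ⟨c, rfl⟩ := h
  push_cast
  rw [map_mul, map_pow]
  exact mul_le_of_le_one_right' (v.valuation_le_one c)

variable {K} in
theorem val_l_lt {v : HeightOneSpectrum (𝓞 K)} (hv : v ∈ PA K l) :
    v.valuation K (l : K) < 1 := by
  have := (v.valuation_lt_one_iff_mem (K := K) (l : 𝓞 K)).2 hv
  simpa using this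

variable {K} in
theorem val_eq_one_of {e : ℕ} (he : e ≠ 0) {b : 𝓞 K} (hb : (l : 𝓞 K) ^ 2 ∣ b - 1)
    {v : HeightOneSpectrum (𝓞 K)} (hv : v ∈ PA K l) {x : K}
    (hx : v.valuation K (x - (b : K)) ≤ v.valuation K (l : K) ^ e) : v.valuation K x = 1 := by
  have hl := val_l_lt l hv
  have h1 : v.valuation K (((b - 1 : 𝓞 K)) : K) < 1 :=
    (val_le_of_dvd l hb v).trans_lt (pow_lt_one₀ zero_le hl two_ne_zero)
  have h2 : v.valuation K (b : K) = 1 := by
    have h3 := Valuation.map_one_add_of_lt (v := v.valuation K) h1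
    have h4 : (1 : K) + ((b - 1 : 𝓞 K) : K) = (b : K) := by push_cast; ring
    rwa [h4] at h3
  have h5 : v.valuation K (x - (b : K)) < v.valuation K (b : K) := by
    rw [h2]
    exact hx.trans_lt (pow_lt_one₀ zero_le hl he)
  have h6 := Valuation.map_add_eq_of_lt_left (v := v.valuation K) h5
  rw [← h2, ← h6]
  congr 1
  ring

/-- the image of the `S`-units `≡ 1 mod l^2` in `(O/l^e)ˣ` -/
def P (S : Set (HeightOneSpectrum (𝓞 K))) (e : ℕ) (he : 2 ≤ e) : Subgroup (A K l e)ˣ where
  carrier := {u | ∃ b : 𝓞 K, (l : 𝓞 K) ^ 2 ∣ b - 1 ∧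
    Ideal.Quotient.mk (Ideal.span {(l : 𝓞 K) ^ e}) b = (u : A K l e) ∧
    ∃ x ∈ S.unit K, ∀ v ∈ PA K l, v.valuation K ((x : K) - (b : K)) ≤ v.valuation K (l : K) ^ e}
  one_mem' := ⟨1, by simp, by simp, 1, one_mem _, by simp⟩
  mul_mem' := by
    rintro u u' ⟨b, hb, hbu, x, hx, hxb⟩ ⟨b', hb', hbu', x', hx', hxb'⟩
    refine ⟨b * b', ?_, ?_, x * x', mul_mem hx hx', fun v hv => ?_⟩
    · have : b * b' - 1 = (b - 1) * b' + (b' - 1) := by ring
      rw [this]
      exact dvd_add (Dvd.dvd.mul_right hb _) hb'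
    · rw [map_mul, hbu, hbu']; rfl
    · have h1 : ((x * x' : Kˣ) : K) - ((b * b' : 𝓞 K) : K)
          = ((x : K) - b) * ((x' : K) - b') + ((x : K) - b) * b' + b * ((x' : K) - b') := by
        push_cast; ring
      have h3 := hxb v hv
      have h4 := hxb' v hv
      have h5 : v.valuation K (l : K) ^ e ≤ 1 := by
        have := v.valuation_le_one (K := K) ((l : 𝓞 K) ^ e)
        push_cast at this
        rwa [map_pow] at this
      rw [h1]
      refine (v.valuation K).map_add_le ((v.valuation K).map_add_le ?_ ?_) ?_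
      · rw [map_mul]
        exact (mul_le_mul' h3 (h4.trans h5)).trans (by rw [mul_one])
      · rw [map_mul]
        exact (mul_le_mul' h3 (v.valuation_le_one b')).trans (by rw [mul_one])
      · rw [map_mul]
        exact (mul_le_mul' (v.valuation_le_one b) h4).trans (by rw [one_mul])
  inv_mem' := by
    rintro u ⟨b, hb, hbu, x, hx, hxb⟩
    obtain ⟨b', hb'⟩ := Ideal.Quotient.mk_surjective ((u⁻¹ : (A K l e)ˣ) : A K l e)
    have hbb : (l : 𝓞 K) ^ e ∣ b * b' - 1 := by
      rw [← mk_eq_iff, map_mul, hbu, hb', map_one]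
      exact u.mul_inv
    have hb2 : (l : 𝓞 K) ^ 2 ∣ b' - 1 := by
      have : b' - 1 = (b * b' - 1) - (b - 1) * b' := by ring
      rw [this]
      exact dvd_sub ((pow_dvd_pow _ he).trans hbb) (Dvd.dvd.mul_right hb _)
    refine ⟨b', hb2, hb', x⁻¹, inv_mem hx, fun v hv => ?_⟩
    have hx1 : v.valuation K (x : K) = 1 := val_eq_one_of l (by omega) hb hv (hxb v hv)
    have hxi : v.valuation K ((x⁻¹ : Kˣ) : K) = 1 := by
      rw [Units.val_inv_eq_inv_val, map_inv₀, hx1, inv_one]
    have h1 : ((x⁻¹ : Kˣ) : K) - (b' : K)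
        = ((x⁻¹ : Kˣ) : K) * (-(((b * b' - 1 : 𝓞 K)) : K) + -(((x : K) - b) * b')) := by
      have : (x : K) * (x : K)⁻¹ = 1 := mul_inv_cancel₀ x.ne_zero
      push_cast
      linear_combination (b' : K) * this
    rw [h1, map_mul, hxi, one_mul]
    refine (v.valuation K).map_add_le ?_ ?_
    · rw [Valuation.map_neg]
      exact val_le_of_dvd l hbb v
    · rw [Valuation.map_neg, map_mul]
      exact (mul_le_mul' (hxb v hv) (v.valuation_le_one b')).trans (by rw [mul_one])

variable {K} in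
theorem pow_mem_of_P {S : Set (HeightOneSpectrum (𝓞 K))} {e : ℕ} {he : 2 ≤ e}
    (u : P K l S e he) : u ^ l ^ e = 1 := by
  obtain ⟨u, b, hb, hbu, -⟩ := u
  rw [Subtype.ext_iff]
  push_cast
  ext
  push_cast
  rw [← hbu, ← map_pow, ← map_one (Ideal.Quotient.mk (Ideal.span {(l : 𝓞 K) ^ e})), mk_eq_iff]
  have h1 : (l : 𝓞 K) ∣ b - 1 := (dvd_pow_self _ two_ne_zero).trans hb
  have h2 := dvd_sub_pow_of_dvd_sub h1 e
  rw [one_pow] at h2
  exact (pow_dvd_pow _ (Nat.le_succ e)).trans h2

variable {K} in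
/-- **Bridge**: if the `S`-units are not full at level `e - 1` then modulo `l^e` they are generated
by fewer than `[K : ℚ]` elements. -/
theorem gen_of_not_full [hl : Fact l.Prime] (S : Set (HeightOneSpectrum (𝓞 K))) (e : ℕ)
    (he : 3 ≤ e) (h : ¬ Full K l S (e - 1)) :
    ∃ r < Module.finrank ℚ K, ∃ η : Fin r → 𝓞 K, (∀ k, (l : 𝓞 K) ^ 2 ∣ η k - 1) ∧
      ∀ y : 𝓞 K, (∃ x ∈ S.unit K, (x : K) = (y : K)) → (l : 𝓞 K) ^ 2 ∣ y - 1 →
        ∃ a : Fin r → ℕ, (l : 𝓞 K) ^ e ∣ y - ∏ k, η k ^ a k := by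
  classical
  have he2 : 2 ≤ e := by omega
  have hl0 : (l : 𝓞 K) ≠ 0 := by exact_mod_cast hl.out.ne_zero
  have hfin : ∀ k : ℕ, Finite (A K l k) := fun k =>
    Ideal.finiteQuotientOfFreeOfNeBot _ (by
      rw [Ne, Ideal.span_singleton_eq_bot]; exact pow_ne_zero _ hl0)
  have hfine := hfin e
  have hfinu : Finite (A K l e)ˣ := inferInstance
  -- counting the `l`-torsion
  have hcard : Nat.card {x : P K l S e he2 // x ^ l = 1} < l ^ Module.finrank ℚ K := by
    unfold Full at h
    push Not at h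
    obtain ⟨a, ha⟩ := h
    have he1 : e - 1 + 1 = e := by omega
    -- the map to the last layer
    have hlast : ∀ x : {x : P K l S e he2 // x ^ l = 1}, ∃ c : 𝓞 K,
        Ideal.Quotient.mk (Ideal.span {(l : 𝓞 K) ^ e}) (1 + (l : 𝓞 K) ^ (e - 1) * c)
          = ((x : P K l S e he2) : (A K l e)ˣ) := by
      rintro ⟨⟨u, b, hb, hbu, hx⟩, hu⟩
      have hu' : u ^ l = 1 := congrArg Subtype.val hu
      have hbl : (l : 𝓞 K) ^ e ∣ b ^ l - 1 := by
        rw [← mk_eq_iff, map_pow, hbu, map_one, ← Units.val_pow_eq_pow_val, hu', Units.val_one]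
      obtain ⟨c, hc⟩ := key l b e hb hbl (e - 1) (by omega) (by omega)
      refine ⟨c, ?_⟩
      rw [← hc, ← hbu]
      congr 1
      ring
    choose c hc using hlast
    have hinj : Function.Injective fun x : {x : P K l S e he2 // x ^ l = 1} =>
        Ideal.Quotient.mk (Ideal.span {(l : 𝓞 K) ^ 1}) (c x) := by
      intro x y hxy
      have hxy' : (l : 𝓞 K) ^ 1 ∣ c x - c y := (mk_eq_iff l _ _).1 hxy
      have h1 : Ideal.Quotient.mk (Ideal.span {(l : 𝓞 K) ^ e}) (1 + (l : 𝓞 K) ^ (e - 1) * c x)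
          = Ideal.Quotient.mk (Ideal.span {(l : 𝓞 K) ^ e}) (1 + (l : 𝓞 K) ^ (e - 1) * c y) := by
        rw [mk_eq_iff]
        have h2 : 1 + (l : 𝓞 K) ^ (e - 1) * c x - (1 + (l : 𝓞 K) ^ (e - 1) * c y)
            = (l : 𝓞 K) ^ (e - 1) * (c x - c y) := by ring
        have h3 : (l : 𝓞 K) ^ e = (l : 𝓞 K) ^ (e - 1) * (l : 𝓞 K) ^ 1 := by
          rw [← pow_add, he1]
        rw [h2, h3]
        exact mul_dvd_mul_left _ hxy'
      rw [hc, hc] at h1
      exact Subtype.ext (Subtype.ext (Units.ext h1))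
    have hnot : ¬ Function.Surjective fun x : {x : P K l S e he2 // x ^ l = 1} =>
        Ideal.Quotient.mk (Ideal.span {(l : 𝓞 K) ^ 1}) (c x) := by
      intro hsurj
      obtain ⟨x, hx⟩ := hsurj (Ideal.Quotient.mk _ a)
      have hxa : (l : 𝓞 K) ^ 1 ∣ c x - a := (mk_eq_iff l _ _).1 hx
      obtain ⟨b, hb, hbu, z, hz, hzb⟩ := x.1.2
      obtain ⟨v, hv, hlt⟩ := ha z hz
      rw [he1] at hlt
      refine absurd hlt (not_lt.2 ?_)
      have h1 : (l : 𝓞 K) ^ e ∣ b - (1 + (l : 𝓞 K) ^ (e - 1) * a) := by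
        have h2 : (l : 𝓞 K) ^ e ∣ b - (1 + (l : 𝓞 K) ^ (e - 1) * c x) := by
          rw [← mk_eq_iff, hbu, hc]
        have h3 : (l : 𝓞 K) ^ e ∣ (l : 𝓞 K) ^ (e - 1) * (c x - a) := by
          have h3 : (l : 𝓞 K) ^ e = (l : 𝓞 K) ^ (e - 1) * (l : 𝓞 K) ^ 1 := by
            rw [← pow_add, he1]
          rw [h3]
          exact mul_dvd_mul_left _ hxa
        have h4 : b - (1 + (l : 𝓞 K) ^ (e - 1) * a) = (b - (1 + (l : 𝓞 K) ^ (e - 1) * c x))
            + (l : 𝓞 K) ^ (e - 1) * (c x - a) := by ring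
        rw [h4]
        exact dvd_add h2 h3
      have h5 : (z : K) - 1 - (l : K) ^ (e - 1) * (a : K)
          = ((z : K) - (b : K)) + ((b - (1 + (l : 𝓞 K) ^ (e - 1) * a) : 𝓞 K) : K) := by
        push_cast; ring
      rw [h5]
      exact (v.valuation K).map_add_le (hzb v hv) (val_le_of_dvd l h1 v)
    have hfin1 := hfin 1
    have hcardO : Nat.card (A K l 1) = l ^ Module.finrank ℚ K := by
      have h1 : Nat.card (A K l 1) = Ideal.absNorm (Ideal.span {(l : 𝓞 K) ^ 1}) := by
        rw [Ideal.absNorm_apply]; rfl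
      rw [h1, pow_one, Ideal.absNorm_span_natCast, NumberField.RingOfIntegers.rank]
    rw [← hcardO]
    exact lt_of_le_of_ne (Nat.card_le_card_of_injective _ hinj)
      (fun h => hnot ((Nat.bijective_iff_injective_and_card _).2 ⟨hinj, h⟩).2)
  obtain ⟨r, hr, p, hp⟩ := exists_gen l ⟨e, fun x => pow_mem_of_P l x⟩ _ hcard
  choose η hη1 hη2 _ using fun i => (p i).2
  refine ⟨r, hr, η, hη1, fun y hy hy1 => ?_⟩
  obtain ⟨x, hx, hxy⟩ := hy
  -- `y` is a unit modulo `l^e`
  have hunit : IsUnit (Ideal.Quotient.mk (Ideal.span {(l : 𝓞 K) ^ e}) y) := by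
    have h1 : (l : 𝓞 K) ^ e ∣ (y ^ l ^ e - 1) := by
      have h1 : (l : 𝓞 K) ∣ y - 1 := (dvd_pow_self _ two_ne_zero).trans hy1
      have h2 := dvd_sub_pow_of_dvd_sub h1 e
      rw [one_pow] at h2
      exact (pow_dvd_pow _ (Nat.le_succ e)).trans h2
    rw [← mk_eq_iff, map_pow, map_one] at h1
    exact IsUnit.of_pow_eq_one h1 (pow_ne_zero _ hl.out.ne_zero)
  obtain ⟨u, hu⟩ := hunit
  have huP : u ∈ P K l S e he2 := by
    refine ⟨y, hy1, hu.symm, x, hx, fun v _ => ?_⟩
    rw [hxy, sub_self, map_zero]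
    exact zero_le
  obtain ⟨a, ha⟩ := hp ⟨u, huP⟩
  refine ⟨a, ?_⟩
  rw [← mk_eq_iff, ← hu, map_prod]
  have h1 := congrArg (fun z : P K l S e he2 => ((z : (A K l e)ˣ) : A K l e)) ha
  simp only [Subgroup.val_finsetProd, Units.coe_prod, SubgroupClass.coe_pow, Units.val_pow_eq_pow_val] at h1
  rw [h1]
  refine Finset.prod_congr rfl fun i _ => ?_
  rw [map_pow, hη2]

variable {K} in
/-- consumed form of `helper410`'s finite level theorem W4 -/
theorem full_of_W4 [hl : Fact l.Prime] (y : ℕ → 𝓞 K) (n e0 : ℕ)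
    (hW : ∀ e ≥ e0, ∀ r < Module.finrank ℚ K, ∀ η : Fin r → 𝓞 K,
      (∀ k, (l : 𝓞 K) ∣ η k - 1) → ∀ a : Fin n → Fin r → ℕ,
        ¬ ∀ j : Fin n, (l : 𝓞 K) ^ e ∣ y j - ∏ k, η k ^ a j k)
    (hy : ∀ j < n, (l : 𝓞 K) ^ 2 ∣ y j - 1)
    (S : Set (HeightOneSpectrum (𝓞 K))) (hS : ∀ j < n, ∃ x ∈ S.unit K, (x : K) = (y j : K)) :
    ∀ j, 2 ≤ j → e0 ≤ j + 1 → Full K l S j := by
  intro j hj hj'
  by_contra hnot
  obtain ⟨r, hr, η, hη, hgen⟩ := gen_of_not_full l S (j + 1) (by omega) hnot
  choose a ha using fun i : Fin n => hgen (y i) (hS i i.2) (hy i i.2)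
  exact hW (j + 1) hj' r hr η (fun k => (dvd_pow_self _ two_ne_zero).trans (hη k)) a ha

end Main

end Crest.Agent.R018.Bridgex275
end
end

-- ▼ part R018/WaldNF_614
section

/-!
# Row 18, l-adic Waldschmidt block, W3: the number field part (helper614)

* `liouville`: a nonzero algebraic integer divisible by `l ^ T` has a conjugate of size `≥ l ^ T`;
* `norm_eq_prod`: the norm as a product over the embeddings into a large enough number field;
* `hInd`: multiplicative independence of the conjugates of generators of powers of unramified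
  degree one primes with distinct residue characteristics.
-/

set_option autoImplicit false

noncomputable section

open scoped NumberField
open IsDedekindDomain Module

namespace Crest.Agent.R018.WaldNFx614

section Liouville

variable {K : Type*} [Field K] [NumberField K]

theorem norm_eq_prod_complex (x : K) :
    ((Algebra.norm ℚ x : ℚ) : ℂ) = ∏ φ : K →+* ℂ, φ x := by
  have h := Algebra.norm_eq_prod_embeddings ℚ ℂ x
  rw [eq_ratCast] at h
  rw [h]
  exact (Fintype.prod_equiv (RingHom.equivRatAlgHom K ℂ) _ _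
    (fun _ => by simp [RingHom.equivRatAlgHom_apply])).symm




end Liouville

section Split

variable {F K : Type*} [Field F] [NumberField F] [Field K] [NumberField K]

/-- The norm as a product over the embeddings into a number field which is large enough. -/
theorem norm_eq_prod (hK : Fintype.card (F →+* K) = finrank ℚ F) (x : F) :
    ((Algebra.norm ℚ x : ℚ) : K) = ∏ σ : F →+* K, σ x := by
  obtain ⟨ψ⟩ : Nonempty (K →+* ℂ) := inferInstance
  have hinj : Function.Injective (fun σ : F →+* K => ψ.comp σ) := by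
    intro σ τ h
    ext x
    exact ψ.injective (by simpa using RingHom.congr_fun h x)
  have hbij : Function.Bijective (fun σ : F →+* K => ψ.comp σ) := by
    rw [Fintype.bijective_iff_injective_and_card]
    exact ⟨hinj, by rw [hK, NumberField.Embeddings.card]⟩
  apply ψ.injective
  rw [map_prod, map_ratCast, norm_eq_prod_complex x]
  exact (Fintype.prod_bijective _ hbij _ _ (fun _ => rfl)).symm

omit [NumberField K] in
/-- Existence of a prime over a given one along an embedding. -/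
theorem exists_over (σ : F →+* K) (w : HeightOneSpectrum (𝓞 F)) :
    ∃ Q : HeightOneSpectrum (𝓞 K), ∀ a : 𝓞 F,
      (NumberField.RingOfIntegers.mapRingHom σ a ∈ Q.asIdeal ↔ a ∈ w.asIdeal) := by
  let _ : Algebra F K := σ.toAlgebra
  have := w.isMaximal
  obtain ⟨Q, hQ, hQw⟩ := Ideal.exists_maximal_ideal_liesOver_of_isIntegral (S := 𝓞 K) w.asIdeal
  have hcomap : ∀ a : 𝓞 F, (algebraMap (𝓞 F) (𝓞 K) a ∈ Q ↔ a ∈ w.asIdeal) := by
    intro a
    rw [hQw.over]
    rfl
  have hne : Q ≠ ⊥ := by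
    rintro rfl
    apply w.ne_bot
    rw [eq_bot_iff]
    intro a ha
    have := (hcomap a).2 ha
    rw [Ideal.mem_bot] at this ⊢
    have hinj : Function.Injective (algebraMap (𝓞 F) (𝓞 K)) := FaithfulSMul.algebraMap_injective _ _
    exact hinj (by rw [this, map_zero])
  exact ⟨⟨Q, hQ.isPrime, hne⟩, hcomap⟩

variable (σ₀ : F →+* K) (w : HeightOneSpectrum (𝓞 F)) (Q : HeightOneSpectrum (𝓞 K))

/-- a unit at `w` goes to a unit at `Q`, for `Q` over `w` along `σ₀` -/
theorem unit_at (hQ : ∀ a : 𝓞 F,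
      (NumberField.RingOfIntegers.mapRingHom σ₀ a ∈ Q.asIdeal ↔ a ∈ w.asIdeal))
    (x : F) (hx : w.valuation F x = 1) : Q.valuation K (σ₀ x) = 1 := by
  have h1 : ∀ a : 𝓞 F, a ∉ w.asIdeal → Q.valuation K (σ₀ (a : F)) = 1 := by
    intro a ha
    have := (HeightOneSpectrum.valuation_eq_one_iff_notMem (v := Q) (K := K)
      (r := NumberField.RingOfIntegers.mapRingHom σ₀ a)).2 (fun h => ha ((hQ a).1 h))
    exact this
  obtain ⟨n, d, hnd⟩ := w.exists_primeCompl_mul_eq_of_integer x hx.le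
  have hd : (d : 𝓞 F) ∉ w.asIdeal := d.2
  have hn : n ∉ w.asIdeal := by
    intro hn
    have h2 := congrArg (w.valuation F) hnd
    rw [map_mul, hx, one_mul] at h2
    have h3 : w.valuation F (algebraMap (𝓞 F) F n) < 1 :=
      (w.valuation_lt_one_iff_mem n).2 hn
    have h4 : w.valuation F (algebraMap (𝓞 F) F d) = 1 :=
      (HeightOneSpectrum.valuation_eq_one_iff_notMem (v := w) (K := F)).2 hd
    rw [← h2, h4] at h3
    exact lt_irrefl _ h3
  have h5 := congrArg (fun z => Q.valuation K (σ₀ z)) hnd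
  simp only [map_mul] at h5
  have h6 := h1 _ hd
  have h7 := h1 _ hn
  change Q.valuation K (σ₀ x) * Q.valuation K (σ₀ ((d : 𝓞 F) : F)) =
    Q.valuation K (σ₀ (n : F)) at h5
  rwa [h6, h7, mul_one] at h5

end Split

section Deg1

variable {F K : Type*} [Field F] [NumberField F] [Field K] [NumberField K]

/-- an unramified prime of absolute degree one, over the rational prime `p` -/
structure Deg1 (w : HeightOneSpectrum (𝓞 F)) (p : ℕ) : Prop where
  prime : p.Prime
  absNorm : Ideal.absNorm w.asIdeal = p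
  unram : (p : 𝓞 F) ∉ w.asIdeal ^ 2

theorem Deg1.mem {w : HeightOneSpectrum (𝓞 F)} {p : ℕ} (h : Deg1 w p) :
    (p : 𝓞 F) ∈ w.asIdeal := by
  have := Ideal.absNorm_mem w.asIdeal
  rwa [h.absNorm] at this

theorem intVal_eq (w : HeightOneSpectrum (𝓞 F)) (r : 𝓞 F) (n : ℕ) (h1 : r ∈ w.asIdeal ^ n)
    (h2 : r ∉ w.asIdeal ^ (n + 1)) : w.intValuation r = WithZero.exp (-(n : ℤ)) := by
  have hr : r ≠ 0 := by
    rintro rfl
    exact h2 (zero_mem _)
  have e1 := (w.intValuation_le_pow_iff_mem r n).2 h1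
  have e2 := mt (w.intValuation_le_pow_iff_mem r (n + 1)).1 h2
  rw [w.intValuation_eq_exp_neg_multiplicity hr] at e1 e2 ⊢
  rw [WithZero.exp_le_exp] at e1 e2
  rw [WithZero.exp_inj]
  push_cast at e2
  omega

/-- the generator of `w ^ h` and `p ^ h` have the same valuation at `w` -/
theorem val_gen (w : HeightOneSpectrum (𝓞 F)) (p : ℕ) (hw : Deg1 w p) (h : ℕ) (y : 𝓞 F)
    (hy : Ideal.span {y} = w.asIdeal ^ h) :
    w.valuation F ((y : F) / (p : F) ^ h) = 1 := by
  have h1 : w.intValuation (p : 𝓞 F) = WithZero.exp (-(1 : ℕ) : ℤ) :=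
    intVal_eq w _ 1 (by simpa using hw.mem) hw.unram
  have h2 : w.intValuation y = WithZero.exp (-(h : ℤ)) := by
    refine intVal_eq w _ h (by rw [← hy]; exact Ideal.mem_span_singleton_self y) ?_
    intro hmem
    have h3 : w.asIdeal ^ h ≤ w.asIdeal ^ (h + 1) := by
      rw [← hy, Ideal.span_singleton_le_iff_mem]
      exact hmem
    exact absurd (Ideal.pow_right_strictAnti w.asIdeal w.ne_bot w.isPrime.ne_top
      (Nat.lt_succ_self h)) (not_lt_of_ge h3)
  have h3 : w.valuation F (y : F) = WithZero.exp (-(h : ℤ)) := by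
    rw [← h2]; exact w.valuation_of_algebraMap y
  have h4 : w.valuation F (p : F) = WithZero.exp (-(1 : ℕ) : ℤ) := by
    rw [← h1, ← w.valuation_of_algebraMap (K := F)]; simp
  rw [map_div₀, map_pow, h3, h4, ← WithZero.exp_nsmul]
  simp

theorem norm_gen (w : HeightOneSpectrum (𝓞 F)) (p : ℕ) (hw : Deg1 w p) (h : ℕ) (y : 𝓞 F)
    (hy : Ideal.span {y} = w.asIdeal ^ h) : (Algebra.norm ℤ y).natAbs = p ^ h := by
  have := congrArg Ideal.absNorm hy
  rwa [Ideal.absNorm_span_singleton, map_pow, hw.absNorm] at this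

theorem prod_val (hK : Fintype.card (F →+* K) = finrank ℚ F) (Q : HeightOneSpectrum (𝓞 K))
    (w : HeightOneSpectrum (𝓞 F)) (p : ℕ) (hw : Deg1 w p) (h : ℕ) (y : 𝓞 F)
    (hy : Ideal.span {y} = w.asIdeal ^ h) :
    ∏ σ : F →+* K, Q.valuation K (σ (y : F)) = Q.valuation K (p : K) ^ h := by
  rw [← map_prod, ← norm_eq_prod hK, ← map_pow]
  have h1 : ((Algebra.norm ℤ y : ℤ) : ℚ) = Algebra.norm ℚ (y : F) := Algebra.coe_norm_int y
  rw [← h1]
  rcases Int.natAbs_eq (Algebra.norm ℤ y) with h2 | h2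
  · rw [h2, norm_gen w p hw h y hy]; push_cast; rfl
  · rw [h2, norm_gen w p hw h y hy]; push_cast; rw [Valuation.map_neg]

omit [NumberField F] in
theorem val_le_one (Q : HeightOneSpectrum (𝓞 K)) (σ : F →+* K) (y : 𝓞 F) :
    Q.valuation K (σ (y : F)) ≤ 1 :=
  Q.valuation_le_one (NumberField.RingOfIntegers.mapRingHom σ y)

/-- **Multiplicative independence.** -/
theorem hInd (hK : Fintype.card (F →+* K) = finrank ℚ F) (n : ℕ)
    (w : Fin n → HeightOneSpectrum (𝓞 F)) (p : Fin n → ℕ) (hp : Function.Injective p)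
    (hw : ∀ j, Deg1 (w j) (p j)) (h : Fin n → ℕ) (hh : ∀ j, h j ≠ 0) (y : Fin n → 𝓞 F)
    (hy : ∀ j, Ideal.span {y j} = (w j).asIdeal ^ h j)
    (m : (F →+* K) → ℤ) (t : Fin n → ℤ) (hm : m ≠ 0) (ht : t ≠ 0) :
    ∏ σ : F →+* K, ∏ j, (σ (y j : F)) ^ (m σ * t j) ≠ 1 := by
  obtain ⟨σ₀, hσ₀⟩ := Function.ne_iff.1 hm
  obtain ⟨j₀, hj₀⟩ := Function.ne_iff.1 ht
  obtain ⟨Q, hQ⟩ := exists_over σ₀ (w j₀)
  have hval := prod_val hK Q
  set V := Q.valuation K with hV
  -- the valuation of `p j₀`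
  have hpQ : NumberField.RingOfIntegers.mapRingHom σ₀ ((p j₀ : ℕ) : 𝓞 F) ∈ Q.asIdeal :=
    (hQ _).2 (hw j₀).mem
  rw [map_natCast] at hpQ
  have hp0 : V (p j₀ : K) < 1 := by
    have := (Q.valuation_lt_one_iff_mem (K := K) ((p j₀ : ℕ) : 𝓞 K)).2 hpQ
    simpa using this
  have hp0' : V (p j₀ : K) ≠ 0 := by
    rw [Valuation.ne_zero_iff]
    exact_mod_cast (hw j₀).prime.ne_zero
  have hself : V (σ₀ (y j₀ : F)) = V (p j₀ : K) ^ h j₀ := by
    have h1 := unit_at σ₀ (w j₀) Q hQ _ (val_gen (w j₀) (p j₀) (hw j₀) (h j₀) (y j₀) (hy j₀))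
    rw [map_div₀, map_div₀, map_pow, map_pow, map_natCast] at h1
    rw [div_eq_one_iff_eq (pow_ne_zero _ hp0')] at h1
    exact h1
  -- other primes
  have hother : ∀ j, j ≠ j₀ → ∀ σ : F →+* K, V (σ (y j : F)) = 1 := by
    intro j hj
    have h1 : V (p j : K) = 1 := by
      have hnot : ((p j : ℕ) : 𝓞 K) ∉ Q.asIdeal := by
        intro hmem
        have hcop : Nat.Coprime (p j) (p j₀) :=
          (Nat.coprime_primes (hw j).prime (hw j₀).prime).2 (fun e => hj (hp e))
        have hI : IsCoprime ((p j : ℕ) : 𝓞 K) ((p j₀ : ℕ) : 𝓞 K) := by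
          have := (Nat.isCoprime_iff_coprime.2 hcop).map (Int.castRingHom (𝓞 K))
          simpa using this
        obtain ⟨a, b, hab⟩ := hI
        apply Q.isPrime.ne_top
        rw [Ideal.eq_top_iff_one, ← hab]
        exact Ideal.add_mem _ (Ideal.mul_mem_left _ _ hmem) (Ideal.mul_mem_left _ _ hpQ)
      have := (HeightOneSpectrum.valuation_eq_one_iff_notMem (v := Q) (K := K)).2 hnot
      simpa using this
    have h2 := hval (w j) (p j) (hw j) (h j) (y j) (hy j)
    rw [h1, one_pow] at h2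
    have h3 := (Finset.prod_eq_one_iff_of_le_one' (fun σ _ => val_le_one Q σ (y j))).1 h2
    exact fun σ => h3 σ (Finset.mem_univ _)
  -- the prime `w j₀` along the other embeddings
  have hsame : ∀ σ : F →+* K, σ ≠ σ₀ → V (σ (y j₀ : F)) = 1 := by
    have h2 := hval (w j₀) (p j₀) (hw j₀) (h j₀) (y j₀) (hy j₀)
    classical
    rw [← Finset.mul_prod_erase _ _ (Finset.mem_univ σ₀), hself] at h2
    have h3 : ∏ σ ∈ Finset.univ.erase σ₀, V (σ (y j₀ : F)) = 1 :=
      mul_left_cancel₀ (pow_ne_zero _ hp0') (by rw [h2, mul_one])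
    have h4 := (Finset.prod_eq_one_iff_of_le_one' (fun σ _ => val_le_one Q σ (y j₀))).1 h3
    exact fun σ hσ => h4 σ (Finset.mem_erase.2 ⟨hσ, Finset.mem_univ _⟩)
  intro hone
  have h1 := congrArg V hone
  rw [map_one, map_prod] at h1
  simp_rw [map_prod, map_zpow₀] at h1
  rw [Finset.prod_eq_single σ₀ (fun σ _ hσ => ?_) (fun hmem => absurd (Finset.mem_univ _) hmem)] at h1
  · rw [Finset.prod_eq_single j₀ (fun j _ hj => by rw [hother j hj, one_zpow])
      (fun hmem => absurd (Finset.mem_univ _) hmem)] at h1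
    rw [hself, ← zpow_natCast, ← zpow_mul,
      zpow_eq_one_iff_right₀ (zero_le) hp0.ne] at h1
    have h2 : (h j₀ : ℤ) ≠ 0 := by exact_mod_cast hh j₀
    exact mul_ne_zero h2 (mul_ne_zero hσ₀ hj₀) h1
  · refine Finset.prod_eq_one (fun j _ => ?_)
    by_cases hj : j = j₀
    · rw [hj, hsame σ hσ, one_zpow]
    · rw [hother j hj, one_zpow]


theorem exists_big (F : Type*) [Field F] [NumberField F] :
    ∃ (K : IntermediateField ℚ (AlgebraicClosure F)) (_ : NumberField K),
      Fintype.card (F →+* K) = finrank ℚ F := by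
  let K := IntermediateField.normalClosure ℚ F (AlgebraicClosure F)
  have : FiniteDimensional ℚ K := normalClosure.is_finiteDimensional ℚ F (AlgebraicClosure F)
  have hK : NumberField K := ⟨⟩
  refine ⟨K, hK, ?_⟩
  rw [← AlgHom.card ℚ F (AlgebraicClosure F)]
  exact Fintype.card_congr ((RingHom.equivRatAlgHom F K).trans
    (normalClosure.algHomEquiv ℚ F (AlgebraicClosure F)))

end Deg1

end Crest.Agent.R018.WaldNFx614
end
end

-- ▼ part R018/WaldFin_614
section

/-!
# Row 18, l-adic Waldschmidt block: final form for degree one primes (helper614)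

`full_of_deg1`: if `S` contains unramified primes of absolute degree one over arbitrarily large
rational primes, then finitely many of them already have `S`-units which are full at all high
levels at `l`.
-/

set_option autoImplicit false

noncomputable section

open scoped NumberField
open IsDedekindDomain Module Crest.Agent.R018.LogDefsx575 Crest.Agent.R018.WaldNFx614

namespace Crest.Agent.R018.WaldFinx614

variable {F : Type*} [Field F] [NumberField F]

theorem exists_principal (w : HeightOneSpectrum (𝓞 F)) :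
    ∃ (h : ℕ) (z : 𝓞 F), h ≠ 0 ∧ Ideal.span {z} = w.asIdeal ^ h := by
  have hw0 : w.asIdeal ∈ nonZeroDivisors (Ideal (𝓞 F)) := mem_nonZeroDivisors_of_ne_zero w.ne_bot
  have h1 : (ClassGroup.mk0 ⟨w.asIdeal, hw0⟩) ^ Nat.card (ClassGroup (𝓞 F)) = 1 :=
    pow_card_eq_one'
  rw [← map_pow, ClassGroup.mk0_eq_one_iff] at h1
  obtain ⟨z, hz⟩ := h1.principal
  refine ⟨Nat.card (ClassGroup (𝓞 F)), z, Nat.card_pos.ne', ?_⟩
  rw [SubmonoidClass.coe_pow] at hz
  exact hz.symm

theorem exists_gen (l : ℕ) (hl : l ≠ 0) (w : HeightOneSpectrum (𝓞 F))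
    (hw : (l : 𝓞 F) ∉ w.asIdeal) :
    ∃ (h : ℕ) (y : 𝓞 F), h ≠ 0 ∧ Ideal.span {y} = w.asIdeal ^ h ∧ (l : 𝓞 F) ^ 2 ∣ y - 1 := by
  obtain ⟨h, z, hh, hz⟩ := exists_principal w
  have hcop : IsCoprime w.asIdeal (Ideal.span {(l : 𝓞 F)}) := by
    rw [Ideal.isCoprime_iff_sup_eq]
    have hlt : w.asIdeal < w.asIdeal ⊔ Ideal.span {(l : 𝓞 F)} := by
      refine lt_of_le_of_ne le_sup_left (fun e => hw ?_)
      rw [e]
      exact Ideal.mem_sup_right (Ideal.mem_span_singleton_self _)
    exact w.isMaximal.1.2 _ hlt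
  have hcop2 : IsCoprime z ((l : 𝓞 F) ^ 2) := by
    rw [← Ideal.isCoprime_span_singleton_iff, hz, ← Ideal.span_singleton_pow]
    exact hcop.pow
  obtain ⟨a, b, hab⟩ := hcop2
  have hne : Ideal.span {(l : 𝓞 F) ^ 2} ≠ ⊥ := by
    rw [Ne, Ideal.span_singleton_eq_bot]
    exact pow_ne_zero _ (by exact_mod_cast hl)
  have hfin : Finite (𝓞 F ⧸ Ideal.span {(l : 𝓞 F) ^ 2}) :=
    Ideal.finiteQuotientOfFreeOfNeBot _ hne
  let mk := Ideal.Quotient.mk (Ideal.span {(l : 𝓞 F) ^ 2})
  have hmk : mk ((l : 𝓞 F) ^ 2) = 0 :=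
    Ideal.Quotient.eq_zero_iff_mem.2 (Ideal.mem_span_singleton_self _)
  have hu : mk z * mk a = 1 := by
    have := congrArg mk hab
    rw [map_add, map_mul, map_mul, hmk, mul_zero, add_zero, map_one] at this
    rw [mul_comm]
    exact this
  let u : (𝓞 F ⧸ Ideal.span {(l : 𝓞 F) ^ 2})ˣ := Units.mkOfMulEqOne _ _ hu
  have hk : Nat.card (𝓞 F ⧸ Ideal.span {(l : 𝓞 F) ^ 2})ˣ ≠ 0 := Nat.card_pos.ne'
  have h1 : u ^ Nat.card (𝓞 F ⧸ Ideal.span {(l : 𝓞 F) ^ 2})ˣ = 1 := pow_card_eq_one'
  have h2 : mk (z ^ Nat.card (𝓞 F ⧸ Ideal.span {(l : 𝓞 F) ^ 2})ˣ - 1) = 0 := by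
    have := congrArg Units.val h1
    rw [Units.val_pow_eq_pow_val, Units.val_one] at this
    rw [map_sub, map_pow, map_one, sub_eq_zero]
    exact this
  refine ⟨h * Nat.card (𝓞 F ⧸ Ideal.span {(l : 𝓞 F) ^ 2})ˣ,
    z ^ Nat.card (𝓞 F ⧸ Ideal.span {(l : 𝓞 F) ^ 2})ˣ, mul_ne_zero hh hk, ?_, ?_⟩
  · rw [← Ideal.span_singleton_pow, hz, pow_mul]
  · rw [← Ideal.mem_span_singleton]
    exact Ideal.Quotient.eq_zero_iff_mem.1 h2

/-- a generator of a power of `w` is a `T`-unit if `w ∈ T` -/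
theorem mem_unit (T : Set (HeightOneSpectrum (𝓞 F))) (w : HeightOneSpectrum (𝓞 F)) (hw : w ∈ T)
    (h : ℕ) (y : 𝓞 F) (hy : Ideal.span {y} = w.asIdeal ^ h) :
    ∃ x ∈ T.unit F, ((x : Fˣ) : F) = (y : F) := by
  have hy0 : y ≠ 0 := by
    rintro rfl
    have h1 : w.asIdeal ^ h = ⊥ := by rw [← hy]; simp
    exact pow_ne_zero h w.ne_bot h1
  have hy0' : (y : F) ≠ 0 := by simpa using hy0
  refine ⟨Units.mk0 (y : F) hy0', fun v hv => ?_, rfl⟩
  refine (HeightOneSpectrum.valuation_eq_one_iff_notMem (v := v) (K := F)).2 (fun hmem => hv ?_)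
  have h1 : w.asIdeal ^ h ≤ v.asIdeal := by
    rw [← hy, Ideal.span_singleton_le_iff_mem]
    exact hmem
  have h2 : w.asIdeal ≤ v.asIdeal := by
    rcases eq_or_ne h 0 with rfl | hh
    · rw [pow_zero, Ideal.one_eq_top] at h1
      exact absurd (top_le_iff.1 h1) v.isPrime.ne_top
    · exact (v.isPrime.pow_le_iff hh).1 h1
  have h3 : w = v := HeightOneSpectrum.ext (w.isMaximal.eq_of_le v.isPrime.ne_top h2)
  rw [← h3]
  exact hw

/-- **Final form of the l-adic Waldschmidt block.** -/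
theorem full_of_deg1 (l : ℕ) [hl : Fact l.Prime] (S : Set (HeightOneSpectrum (𝓞 F)))
    (hS : ∀ B : ℕ, ∃ w ∈ S, ∃ p, B < p ∧ Deg1 w p) :
    ∃ T ⊆ S, T.Finite ∧ Disjoint T (PA F l) ∧ ∃ j0, ∀ j ≥ j0, Full F l T j := by
  choose w hwS p hp hw using hS
  -- the sequence of primes
  let b : ℕ → ℕ := fun n => Nat.rec l (fun _ x => p x) n
  have hb : ∀ n, b (n + 1) = p (b n) := fun n => rfl
  have hmono : StrictMono (fun n => p (b n)) := by
    apply strictMono_nat_of_lt_succ
    intro n
    have := hp (b (n + 1))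
    rw [hb] at this ⊢
    exact this
  have hbl : ∀ n, l ≤ b n := by
    intro n
    induction n with
    | zero => exact le_rfl
    | succ n ih => rw [hb]; exact ih.trans (hp _).le
  have hlw : ∀ n, (l : 𝓞 F) ∉ (w (b n)).asIdeal := by
    intro n hmem
    have h1 := (hw (b n)).mem
    have hne : l ≠ p (b n) := ((hbl n).trans_lt (hp _)).ne
    have hcop : Nat.Coprime l (p (b n)) := (Nat.coprime_primes hl.out (hw (b n)).prime).2 hne
    have hI : IsCoprime (l : 𝓞 F) ((p (b n) : ℕ) : 𝓞 F) := by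
      have := (Nat.isCoprime_iff_coprime.2 hcop).map (Int.castRingHom (𝓞 F))
      simpa using this
    obtain ⟨c, d, hcd⟩ := hI
    apply (w (b n)).isPrime.ne_top
    rw [Ideal.eq_top_iff_one, ← hcd]
    exact Ideal.add_mem _ (Ideal.mul_mem_left _ _ hmem) (Ideal.mul_mem_left _ _ h1)
  choose h y hh hy hyl using fun n => exists_gen l hl.out.ne_zero (w (b n)) (hlw n)
  have hy0 : ∀ j, y j ≠ 0 := by
    intro j hj
    have h1 : (w (b j)).asIdeal ^ h j = ⊥ := by rw [← hy, hj]; simp
    exact pow_ne_zero (h j) (w (b j)).ne_bot h1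
  obtain ⟨K, hKn, hK⟩ := exists_big F
  have hne : Nonempty (F →+* K) := by
    rw [← Fintype.card_pos_iff, hK]
    exact finrank_pos
  obtain ⟨n, e0, hW⟩ := WThm410.thmW_emb F K l hl.out.two_le y hy0 (fun n m t hm ht =>
    hInd hK n (fun j => w (b j)) (fun j => p (b j))
      (fun i j hij => Fin.ext (hmono.injective hij)) (fun j => hw (b j)) (fun j => h j)
      (fun j => hh j) (fun j => y j) (fun j => hy j) m t hm ht)
  refine ⟨(fun j => w (b j)) '' (Set.Iio n), ?_, (Set.finite_Iio n).image _, ?_, max 2 e0, ?_⟩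
  · rintro _ ⟨j, _, rfl⟩
    exact hwS _
  · rw [Set.disjoint_left]
    rintro _ ⟨j, _, rfl⟩
    exact hlw j
  · intro j hj
    have hj2 : 2 ≤ j := (le_max_left _ _).trans hj
    have hje : e0 ≤ j + 1 := ((le_max_right _ _).trans hj).trans (Nat.le_succ j)
    refine Bridgex275.full_of_W4 l y n e0 ?_ (fun j _ => hyl j) _ (fun j hj => ?_) j hj2 hje
    · intro e he r hr η hη a
      exact hW e he r (by rw [hK]; exact hr) η hη a
    · exact mem_unit _ (w (b j)) (Set.mem_image_of_mem (fun j => w (b j)) hj) (h j) (y j) (hy j)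

end Crest.Agent.R018.WaldFinx614
end
end

-- ▼ part R018/DegThm_614

/-!
# Row 18: the degree one theorem (helper614)

A continuous `ℤ_l`-valued character (`l` odd) of the Galois group of a number field which is
trivial on Frobenius elements at infinitely many unramified primes of absolute degree one is
trivial.
-/

set_option autoImplicit false

noncomputable section

open NumberField Module IsDedekindDomain
open scoped Pointwise
open Crest.Agent.R018.Placesx484 Crest.Agent.R018.Placesx484.Place Crest.Agent.R018.Tamex31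
  Crest.Agent.R018.DegAx614 Crest.Agent.R018.DegBx614 Crest.Agent.R018.WaldNFx614
  Crest.Agent.R018.LogDefsx575

namespace Crest.Agent.R018.DegThmx614

section Layer

variable {F E : Type*} [Field F] [NumberField F] [Field E] [Algebra F E] [IsGalois F E]
  [CharZero E] {l : ℕ} [hl : Fact l.Prime]

variable (hE : ∀ n : ℕ, ∃ ζ : E, IsPrimitiveRoot ζ (l ^ n))
  (lam : (E ≃ₐ[F] E) →* Multiplicative ℤ_[l]) (hlam : Continuous lam) (n : ℕ)
  (L : IntermediateField F E) [FiniteDimensional F L] [IsGalois F L]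
  (hL : L.fixingSubgroup = (red n lam).ker)

theorem rchar_ne (v : HeightOneSpectrum (𝓞 F)) (hv : v ∉ PA F l) (P : Place E)
    (hP : (P.res F).ideal = v.asIdeal) : P.rchar ≠ l := by
  intro h
  apply hv
  have h1 : (P.res F).rchar = l := by rw [rchar_res, h]
  have h2 := (P.res F).rchar_mem
  rw [h1, hP] at h2
  exact h2

theorem liesOver [NumberField L] (v : HeightOneSpectrum (𝓞 F)) (P : Place E)
    (hP : (P.res F).ideal = v.asIdeal) : (P.res L).ideal.LiesOver v.asIdeal := by
  constructor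
  have h1 := congrArg Place.ideal (res_res F L P)
  rw [hP] at h1
  rw [← h1]
  rfl

include hE hlam hL in
theorem ramIn_layer [NumberField L] (v : HeightOneSpectrum (𝓞 F)) (hv : v ∉ PA F l) :
    v.asIdeal.ramificationIdxIn (𝓞 L) = 1 := by
  obtain ⟨P, hP⟩ := exists_res_eq (E := E) F (⟨v.asIdeal, v.isPrime, v.ne_bot⟩ : Place F)
  have hP' : (P.res F).ideal = v.asIdeal := by rw [hP]
  have hQv := liesOver L v P hP'
  have hperf := FrobCountx389.perfect_residue v.asIdeal v.ne_bot
  rw [← Ideal.card_inertia_eq_ramificationIdxIn (G := L ≃ₐ[F] L) v.asIdeal (P.res L).ideal]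
  have h1 : (P.res L).ideal.inertia (L ≃ₐ[F] L) = ⊥ := by
    rw [eq_bot_iff]
    intro σ hσ
    rw [Subgroup.mem_bot]
    exact inertia_layer hE lam hlam n L hL P (rchar_ne v hv P hP') σ hσ
  rw [h1]
  exact Subgroup.card_bot

include hE hlam hL in
theorem ncard_layer [NumberField L] (w : HeightOneSpectrum (𝓞 F)) (hw : w ∉ PA F l) (p : ℕ)
    (hwp : Deg1 w p) (P : Place E) (hP : (P.res F).ideal = w.asIdeal) (s : E ≃ₐ[F] E)
    (hs : ∀ x : 𝓞 E, s • x - x ^ p ∈ P.ideal) (hs1 : lam s = 1) :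
    (w.asIdeal.primesOver (𝓞 L)).ncard = finrank F L := by
  have hQv := liesOver L w P hP
  have hram : (P.res L).ideal.ramificationIdx (𝓞 F) = 1 := by
    rw [← Ideal.ramificationIdxIn_eq_ramificationIdx w.asIdeal (P.res L).ideal (L ≃ₐ[F] L)]
    exact ramIn_layer hE lam hlam n L hL w hw
  have hunder : (P.res L).ideal.under (𝓞 F) = w.asIdeal := hQv.over.symm
  have hstab : MulAction.stabilizer (L ≃ₐ[F] L) (P.res L).ideal = ⊥ := by
    rw [← FrobElemx389.zpowers_frob (P.res L).ideal (P.res L).ne_bot hram 1 ?_, Subgroup.zpowers_one_eq_bot]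
    intro x
    rw [hunder, hwp.absNorm, one_smul, mem_res]
    have h1 := hs (algebraMap (𝓞 L) (𝓞 E) x)
    have h2 : s • (algebraMap (𝓞 L) (𝓞 E) x) = algebraMap (𝓞 L) (𝓞 E) x := by
      apply NumberField.RingOfIntegers.coe_injective
      have h3 : algebraMap (𝓞 E) E (s • algebraMap (𝓞 L) (𝓞 E) x) =
          s (algebraMap (𝓞 E) E (algebraMap (𝓞 L) (𝓞 E) x)) := algebraMap.smul' _ _ E
      rw [h3]
      exact restrict_eq_one lam n L hL s hs1 (x : L)
    rw [h2] at h1
    rw [map_sub, map_pow]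
    exact h1
  rw [← Algebra.IsInvariant.orbit_eq_primesOver (𝓞 F) (𝓞 L) (L ≃ₐ[F] L) w.asIdeal (P.res L).ideal]
  rw [← MulAction.index_stabilizer, hstab, Subgroup.index_bot]
  exact IsGalois.card_aut_eq_finrank F L

end Layer

/-- **Degree one theorem.** -/
theorem deg_one {F E : Type*} [Field F] [NumberField F] [Field E] [Algebra F E] [IsGalois F E]
    [CharZero E] {l : ℕ} [hl : Fact l.Prime] (hl2 : l ≠ 2)
    (hE : ∀ n : ℕ, ∃ ζ : E, IsPrimitiveRoot ζ (l ^ n))
    (lam : (E ≃ₐ[F] E) →* Multiplicative ℤ_[l]) (hlam : Continuous lam)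
    (h : ∀ B : ℕ, ∃ (p : ℕ) (w : HeightOneSpectrum (𝓞 F)) (P : Place E) (s : E ≃ₐ[F] E),
      B < p ∧ Deg1 w p ∧ (P.res F).ideal = w.asIdeal ∧
      (∀ x : 𝓞 E, s • x - x ^ p ∈ P.ideal) ∧ lam s = 1) : lam = 1 := by
  by_contra hne
  obtain ⟨g, hg⟩ : ∃ g, lam g ≠ 1 := by
    by_contra hall
    push Not at hall
    exact hne (MonoidHom.ext hall)
  let S : Set (HeightOneSpectrum (𝓞 F)) := {w | ∃ (p : ℕ) (P : Place E) (s : E ≃ₐ[F] E),
    Deg1 w p ∧ (P.res F).ideal = w.asIdeal ∧ (∀ x : 𝓞 E, s • x - x ^ p ∈ P.ideal) ∧ lam s = 1}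
  obtain ⟨T, hTS, hTf, hTd, j0, hfull⟩ := WaldFinx614.full_of_deg1 l S (fun B => by
    obtain ⟨p, w, P, s, hp, hw, hP, hs, hs1⟩ := h B
    exact ⟨w, ⟨p, P, s, hw, hP, hs, hs1⟩, p, hp, hw⟩)
  set j := max j0 1 with hj
  obtain ⟨n, hn⟩ := card_range_red lam g hg
    (Nat.card (ClassGroup (𝓞 F)) * (Uk F l j).relIndex (Rl F l))
  have : NeZero (l ^ n) := ⟨pow_ne_zero _ hl.out.ne_zero⟩
  have hfin : Finite (Multiplicative (ZMod (l ^ n))) := inferInstance
  obtain ⟨L, hfd, hgal, hL, hrank, σ, hσ⟩ := exists_layer (red n lam) (isOpen_ker_red n lam hlam)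
  have hLn : NumberField L := NumberField.of_module_finite F L
  have hodd : Odd (finrank F L) := by
    rw [hrank]
    exact (hl.out.odd_of_ne_two hl2).pow.of_dvd_nat (card_range_red_dvd lam n)
  have hb := LogFinx575.bound_of_blocks (LogBx824.blockB F L) (KerClBx793.blockC' F L)
    (SemiLocx476.blockD' F L) hgal σ hσ hodd hl.out hl2
    (fun v hv => ramIn_layer hE lam hlam n L hL v hv) hTf hTd (fun v hv => by
      obtain ⟨p, P, s, hw, hP, hs, hs1⟩ := hTS hv
      exact ncard_layer hE lam hlam n L hL v (Set.disjoint_left.1 hTd hv) p hw P hP s hs hs1)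
    (le_max_right j0 1) (hfull j (le_max_left _ _))
  rw [hrank] at hb
  exact absurd hb (not_le.2 hn)

end Crest.Agent.R018.DegThmx614
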