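import Mathlib
import Crest.Prelude.Def_SolvClosed

-- ▼ part R018/NonSquare_245
section

/-!
# Row 18: two embeddings of a number field are told apart by square roots (helper245)

`exists_not_isSquare`: if `e ≠ e' : K →+* N` are two embeddings of number fields, there is
`x : K` such that `e x * e' x` is not a square in `N`.
-/

set_option autoImplicit false

namespace Crest.Agent.R018.NonSquarex245

open Polynomial NumberField

/-- a monic non-constant integer polynomial has a root modulo some prime not dividing `m`. -/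
theorem exists_prime_dvd_eval (f : ℤ[X]) (hd : 0 < f.natDegree) (m : ℤ)
    (hm : m ≠ 0) : ∃ p : ℕ, p.Prime ∧ ¬ ((p : ℤ) ∣ m) ∧ ∃ c : ℤ, (p : ℤ) ∣ f.eval c := by
  classical
  by_contra hcon
  push Not at hcon
  -- every prime dividing a value divides `m`
  have hdeg : 0 < f.degree := natDegree_pos_iff_degree_pos.mp hd
  -- choose `c₀` with `f c₀ ≠ 0`
  obtain ⟨c₀, hc₀⟩ : ∃ c₀ : ℤ, f.eval c₀ ≠ 0 := by
    by_contra h
    push Not at h
    have : f = 0 := Polynomial.funext (by simpa using h)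
    simp [this] at hd
  set a := f.eval c₀ with ha
  -- `f (c₀ + a m t) = a (1 + m s)` for some `s`
  have key : ∀ t : ℤ, ∃ s : ℤ, f.eval (c₀ + a * m * t) = a * (1 + m * s) := by
    intro t
    have h1 : (c₀ + a * m * t - c₀) ∣ f.eval (c₀ + a * m * t) - f.eval c₀ :=
      Polynomial.sub_dvd_eval_sub _ _ _
    obtain ⟨s, hs⟩ := h1
    refine ⟨t * s, ?_⟩
    have : f.eval (c₀ + a * m * t) = a + (c₀ + a * m * t - c₀) * s := by
      rw [← hs, ha]; ring
    rw [this]; ring
  -- the values `1 + m s` are units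
  have hunit : ∀ t s : ℤ, f.eval (c₀ + a * m * t) = a * (1 + m * s) →
      (1 + m * s = 1 ∨ 1 + m * s = -1) := by
    intro t s hts
    by_contra hne
    have hna : (1 + m * s).natAbs ≠ 1 := by
      intro h
      exact hne (Int.natAbs_eq_iff.mp h)
    obtain ⟨p, hp, hpd⟩ := Nat.exists_prime_and_dvd hna
    have hpd' : (p : ℤ) ∣ 1 + m * s := by
      rwa [← Int.natCast_dvd] at hpd
    have hnm : ¬ ((p : ℤ) ∣ m) := by
      intro h
      have h1 : (p : ℤ) ∣ 1 := by
        have h2 : (p : ℤ) ∣ m * s := Dvd.dvd.mul_right h s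
        exact (dvd_add_left h2).mp hpd'
      have := Int.natCast_dvd_natCast.mp (by simpa using h1 : (p : ℤ) ∣ ((1 : ℕ) : ℤ))
      exact hp.one_lt.ne' (Nat.dvd_one.mp this)
    refine hcon p hp hnm (c₀ + a * m * t) ?_
    rw [hts]
    exact Dvd.dvd.mul_left hpd' a
  -- hence `f` takes values in `{a, -a}` on infinitely many points
  have hval : ∀ t : ℤ, f.eval (c₀ + a * m * t) = a ∨ f.eval (c₀ + a * m * t) = -a := by
    intro t
    obtain ⟨s, hs⟩ := key t
    rcases hunit t s hs with h | h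
    · left; rw [hs, h]; ring
    · right; rw [hs, h]; ring
  have hinj : Function.Injective (fun t : ℤ => c₀ + a * m * t) := by
    intro t t' h
    have : a * m * t = a * m * t' := by simpa using h
    exact mul_left_cancel₀ (mul_ne_zero hc₀ hm) this
  have hzero : (f - C a) * (f + C a) = 0 := by
    apply Polynomial.eq_zero_of_infinite_isRoot
    apply Set.Infinite.mono (s := Set.range (fun t : ℤ => c₀ + a * m * t))
    · rintro _ ⟨t, rfl⟩
      simp only [Set.mem_ofPred_eq, IsRoot.def, eval_mul, eval_sub, eval_add, eval_C]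
      rcases hval t with h | h
      · rw [h]; ring
      · rw [h]; ring
    · exact Set.infinite_range_of_injective hinj
  rcases mul_eq_zero.mp hzero with h | h
  · have h' : f = C a := sub_eq_zero.mp h
    rw [h'] at hd; simp at hd
  · have h' : f = C (-a) := by
      rw [map_neg]; exact eq_neg_of_add_eq_zero_left h
    rw [h'] at hd; simp at hd

variable {N : Type*} [Field N] [NumberField N]

/-- the key arithmetic step. -/
theorem exists_not_isSquare_int (a b : 𝓞 N) (hab : a ≠ b) :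
    ∃ c : ℤ, ¬ IsSquare (((c : N) - a) * ((c : N) - b)) := by
  classical
  by_contra hcon
  push Not at hcon
  -- squares of integers
  have hsq : ∀ c : ℤ, ∃ y : 𝓞 N, ((c : 𝓞 N) - a) * ((c : 𝓞 N) - b) = y ^ 2 := by
    intro c
    obtain ⟨y, hy⟩ := hcon c
    have hint : IsIntegral ℤ y := by
      have : IsIntegral ℤ (y ^ 2) := by
        rw [sq, ← hy]
        have h1 : (((c : N) - a) * ((c : N) - b)) =
          algebraMap (𝓞 N) N (((c : 𝓞 N) - a) * ((c : 𝓞 N) - b)) := by simp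
        rw [h1]
        exact RingOfIntegers.isIntegral_coe _
      exact IsIntegral.of_pow (n := 2) (by norm_num) this
    obtain ⟨y', rfl⟩ : ∃ y' : 𝓞 N, (y' : N) = y := ⟨⟨y, hint⟩, rfl⟩
    refine ⟨y', ?_⟩
    apply RingOfIntegers.coe_injective
    simp only [map_mul, map_sub, map_intCast, map_pow]
    rw [sq]
    exact hy
  -- the minimal polynomial of `a`
  have hia : IsIntegral ℤ a := Algebra.IsIntegral.isIntegral a
  set f := minpoly ℤ a with hf

  have hdeg : 0 < f.natDegree := minpoly.natDegree_pos hia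
  -- a nonzero integer in the ideal generated by `a - b`
  obtain ⟨m₁, hm₁, hm₁'⟩ : ∃ m₁ : ℤ, m₁ ≠ 0 ∧ (a - b) ∣ (m₁ : 𝓞 N) := by
    refine ⟨(Ideal.absNorm (Ideal.span {a - b}) : ℤ), ?_, ?_⟩
    · have : Ideal.absNorm (Ideal.span {a - b}) ≠ 0 := by
        rw [Ne, Ideal.absNorm_eq_zero_iff, Ideal.span_singleton_eq_bot]
        exact sub_ne_zero.mpr hab
      exact_mod_cast this
    · have := Ideal.absNorm_mem (Ideal.span {a - b})
      rw [Ideal.mem_span_singleton] at this
      simpa using this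
  have hdisc : (discr N) ≠ 0 := discr_ne_zero N
  obtain ⟨p, hp, hpm, c, hc⟩ := exists_prime_dvd_eval f hdeg (m₁ * discr N)
    (mul_ne_zero hm₁ hdisc)
  have : Fact p.Prime := ⟨hp⟩
  have hpm₁ : ¬ ((p : ℤ) ∣ m₁) := fun h => hpm (Dvd.dvd.mul_right h _)
  have hpd : ¬ ((p : ℤ) ∣ discr N) := fun h => hpm (Dvd.dvd.mul_left h _)
  -- a prime `P` over `p` containing `c - a`
  obtain ⟨P, hP, hpP, hcP⟩ : ∃ P : Ideal (𝓞 N), P.IsPrime ∧ ((p : ℤ) : 𝓞 N) ∈ P ∧
      ((c : 𝓞 N) - a) ∈ P := by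
    have hne : Ideal.span {((p : ℤ) : 𝓞 N), (c : 𝓞 N) - a} ≠ ⊤ := by
      intro htop
      have h1 : (1 : 𝓞 N) ∈ Ideal.span {((p : ℤ) : 𝓞 N), (c : 𝓞 N) - a} := by
        rw [htop]; trivial
      -- map to the quotient by lying over
      let φ : ℤ[X] →+* 𝓞 N := (aeval a : ℤ[X] →ₐ[ℤ] 𝓞 N).toRingHom
      letI : Algebra ℤ[X] (𝓞 N) := φ.toAlgebra
      have : Algebra.IsIntegral ℤ[X] (𝓞 N) := by
        constructor
        intro x
        obtain ⟨q, hq, hq'⟩ := Algebra.IsIntegral.isIntegral (R := ℤ) x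
        refine ⟨q.map (C : ℤ →+* ℤ[X]), hq.map _, ?_⟩
        rw [eval₂_map]
        have : (algebraMap ℤ[X] (𝓞 N)).comp (C : ℤ →+* ℤ[X]) = algebraMap ℤ (𝓞 N) :=
          RingHom.ext_int _ _
        rw [this]; exact hq'
      let ψ : ℤ[X] →+* ZMod p := (evalRingHom (c : ZMod p)).comp (mapRingHom (Int.castRingHom _))
      have : (RingHom.ker ψ).IsPrime := RingHom.ker_isPrime ψ
      have hker : (⊥ : Ideal (𝓞 N)).comap (algebraMap ℤ[X] (𝓞 N)) ≤ RingHom.ker ψ := by
        intro q hq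
        have hq' : aeval a q = 0 := by
          have h0 : algebraMap ℤ[X] (𝓞 N) q = 0 := by simpa using hq
          exact h0
        have hdvd : f ∣ q := minpoly.isIntegrallyClosed_dvd hia hq'
        obtain ⟨r, rfl⟩ := hdvd
        rw [RingHom.mem_ker, map_mul]
        have : ψ f = 0 := by
          simp only [ψ, RingHom.comp_apply, coe_mapRingHom, coe_evalRingHom]
          rw [eval_intCast_map]
          rw [eq_intCast, ZMod.intCast_zmod_eq_zero_iff_dvd]
          exact hc
        rw [this, zero_mul]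
      obtain ⟨Q, -, hQ, hQ'⟩ := Ideal.exists_ideal_over_prime_of_isIntegral (RingHom.ker ψ)
        (⊥ : Ideal (𝓞 N)) hker
      have h2 : ((p : ℤ) : 𝓞 N) ∈ Q := by
        have : (C (p : ℤ)) ∈ RingHom.ker ψ := by
          rw [RingHom.mem_ker]
          simp [ψ]
        rw [← hQ', Ideal.mem_comap] at this
        have h3 : algebraMap ℤ[X] (𝓞 N) (C (p : ℤ)) = ((p : ℤ) : 𝓞 N) := by
          change aeval a (C (p : ℤ)) = _
          simp
        rwa [h3] at this
      have h4 : (c : 𝓞 N) - a ∈ Q := by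
        have : (C c - X) ∈ RingHom.ker ψ := by
          rw [RingHom.mem_ker]
          simp [ψ]
        rw [← hQ', Ideal.mem_comap] at this
        have h3 : algebraMap ℤ[X] (𝓞 N) (C c - X) = (c : 𝓞 N) - a := by
          change aeval a (C c - X) = _
          simp
        rwa [h3] at this
      have h5 : Ideal.span {((p : ℤ) : 𝓞 N), (c : 𝓞 N) - a} ≤ Q := by
        rw [Ideal.span_le]
        rintro x (rfl | rfl)
        · exact h2
        · exact h4
      exact hQ.ne_top (Ideal.eq_top_iff_one _ |>.mpr (h5 h1))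
    obtain ⟨P, hP, hPle⟩ := Ideal.exists_le_maximal _ hne
    exact ⟨P, hP.isPrime, hPle (Ideal.subset_span (by simp)),
      hPle (Ideal.subset_span (by simp))⟩
  -- coprimality consequences
  have hcop : ∀ m : ℤ, ¬ ((p : ℤ) ∣ m) → ((m : 𝓞 N) ∉ P) := by
    intro m hm hmem
    have hco : IsCoprime (p : ℤ) m := by
      rw [Int.isCoprime_iff_gcd_eq_one]
      have := (Nat.Prime.coprime_iff_not_dvd hp (n := m.natAbs)).mpr
        (fun h => hm (Int.natCast_dvd.mpr h))
      simpa [Int.gcd] using this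
    obtain ⟨u, v, huv⟩ := hco
    apply hP.ne_top
    rw [Ideal.eq_top_iff_one]
    have : (1 : 𝓞 N) = (u : 𝓞 N) * ((p : ℤ) : 𝓞 N) + (v : 𝓞 N) * (m : 𝓞 N) := by
      exact_mod_cast congrArg (Int.cast : ℤ → 𝓞 N) huv.symm
    rw [this]
    exact P.add_mem (P.mul_mem_left _ hpP) (P.mul_mem_left _ hmem)
  have habP : a - b ∉ P := by
    intro h
    obtain ⟨r, hr⟩ := hm₁'
    apply hcop m₁ hpm₁
    rw [hr]
    exact P.mul_mem_right _ h
  -- `P` is maximal
  have hpne : ((p : ℤ) : 𝓞 N) ≠ 0 := by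
    simpa using hp.ne_zero
  have hPne : P ≠ ⊥ := by
    rintro rfl
    exact hpne (by simpa using hpP)
  have hPmax : P.IsMaximal := hP.isMaximal hPne
  -- membership in `P ^ 2`
  have hkey : ∀ c' : ℤ, ((c' : 𝓞 N) - a) ∈ P → ((c' : 𝓞 N) - a) ∈ P ^ 2 := by
    intro c' hc'
    obtain ⟨y, hy⟩ := hsq c'
    have hyP : y ∈ P := by
      have : y ^ 2 ∈ P := by rw [← hy]; exact P.mul_mem_right _ hc'
      exact hP.mem_of_pow_mem _ this
    have hy2 : ((c' : 𝓞 N) - a) * ((c' : 𝓞 N) - b) ∈ P ^ 2 := by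
      rw [hy]; exact Ideal.pow_mem_pow hyP 2
    have hb : ((c' : 𝓞 N) - b) ∉ P := by
      intro h
      apply habP
      have : a - b = ((c' : 𝓞 N) - b) - ((c' : 𝓞 N) - a) := by ring
      rw [this]; exact P.sub_mem h hc'
    -- `P ^ 2` is primary
    have hprim : (P ^ 2).IsPrimary := Ideal.isPrimary_of_isMaximal_radical (by
      rw [Ideal.radical_pow _ (by norm_num), hP.isRadical.radical]; exact hPmax)
    rcases (Ideal.isPrimary_iff.mp hprim).2 hy2 with h | h
    · exact h
    · exact absurd (by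
        rw [Ideal.radical_pow _ (by norm_num), hP.isRadical.radical] at h; exact h) hb
  have h1 : ((c : 𝓞 N) - a) ∈ P ^ 2 := hkey c hcP
  have h2' : (((c + p : ℤ) : 𝓞 N) - a) ∈ P := by
    have : (((c + p : ℤ) : 𝓞 N) - a) = ((c : 𝓞 N) - a) + ((p : ℤ) : 𝓞 N) := by
      push_cast; ring
    rw [this]; exact P.add_mem hcP hpP
  have h2 : (((c + p : ℤ) : 𝓞 N) - a) ∈ P ^ 2 := hkey _ h2'
  have h3 : ((p : ℤ) : 𝓞 N) ∈ P ^ 2 := by
    have : ((p : ℤ) : 𝓞 N) = (((c + p : ℤ) : 𝓞 N) - a) - ((c : 𝓞 N) - a) := by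
      push_cast; ring
    rw [this]; exact Ideal.sub_mem _ h2 h1
  -- contradiction with unramifiedness
  have hmapspan : (Ideal.span {(p : ℤ)}).map (algebraMap ℤ (𝓞 N)) =
      Ideal.span {((p : ℤ) : 𝓞 N)} := by
    rw [Ideal.map_span, Set.image_singleton]; simp
  have hdvd : P ^ 2 ∣ (Ideal.span {(p : ℤ)}).map (algebraMap ℤ (𝓞 N)) := by
    rw [hmapspan, Ideal.dvd_span_singleton]; exact h3
  have hspne : Ideal.span {(p : ℤ)} ≠ ⊥ := by
    simpa using hp.ne_zero
  have : (Ideal.span {(p : ℤ)}).IsMaximal :=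
    PrincipalIdealRing.isMaximal_of_irreducible (Nat.prime_iff_prime_int.mp hp).irreducible
  have hd2 : P ∣ differentIdeal ℤ (𝓞 N) := by
    have := pow_sub_one_dvd_differentIdeal ℤ P 2 hspne hdvd
    simpa using this
  have hdmem : ((discr N : ℤ) : 𝓞 N) ∈ P :=
    (Ideal.dvd_iff_le.mp hd2) (discr_mem_differentIdeal N (𝓞 N))
  exact hcop _ hpd hdmem

/-- **Main result of the file**: two different embeddings of a number field are told apart by
square roots over every number field. -/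
theorem exists_not_isSquare {K : Type*} [Field K] [NumberField K] (e e' : K →+* N)
    (hne : e ≠ e') : ∃ x : K, ¬ IsSquare (e x * e' x) := by
  classical
  obtain ⟨θ, hθ⟩ : ∃ θ : K, e θ ≠ e' θ := by
    by_contra h
    push Not at h
    exact hne (RingHom.ext h)
  obtain ⟨n, hn0, hn⟩ := IsAlgebraic.exists_integral_multiple ((IsFractionRing.isAlgebraic_iff ℤ ℚ K).mpr
    (Algebra.IsAlgebraic.isAlgebraic θ))
  have ha : IsIntegral ℤ (e (n • θ)) := hn.map e.toIntAlgHom
  have hb : IsIntegral ℤ (e' (n • θ)) := hn.map e'.toIntAlgHom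
  obtain ⟨a, ha'⟩ : ∃ a : 𝓞 N, (a : N) = e (n • θ) := ⟨⟨_, ha⟩, rfl⟩
  obtain ⟨b, hb'⟩ : ∃ b : 𝓞 N, (b : N) = e' (n • θ) := ⟨⟨_, hb⟩, rfl⟩
  have hab : a ≠ b := by
    rintro rfl
    rw [ha'] at hb'
    simp only [zsmul_eq_mul, map_mul, map_intCast] at hb'
    exact hθ (mul_left_cancel₀ (by exact_mod_cast hn0) hb')
  obtain ⟨c, hc⟩ := exists_not_isSquare_int a b hab
  refine ⟨(c : K) - n • θ, ?_⟩
  rw [ha', hb'] at hc
  simpa using hc

end Crest.Agent.R018.NonSquarex245
end

-- ▼ part R018/EndA_245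

/-!
# Row 18, end game, part A (helper245): pointwise conjugacy implies a global embedding

`exists_global_embedding`: `F₁, F₂` number fields, `Ω/F₁` algebraically closed algebraic,
`E₂/F₂` Galois and closed under square roots, `α : Gal(Ω/F₁) →* Gal(E₂/F₂)`.
If for every `g` there is an embedding `e : E₂ →+* Ω` with `g (e x) = e (α g x)` for all `x`, then
there is one `e` that works for all `g`.
-/

set_option autoImplicit false

namespace Crest.Agent.R018.EndAx245

open Crest.Agent.R018.NonSquarex245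
open scoped Pointwise

section group

variable {F₁ F₂ Ω E₂ : Type*} [Field F₁] [Field F₂] [Field Ω] [Field E₂]
  [Algebra F₁ Ω] [Algebra F₂ E₂]

/-- the subgroup of the `g` which are matched by `e` on the square roots of `K`. -/
def C (α : (Ω ≃ₐ[F₁] Ω) →* (E₂ ≃ₐ[F₂] E₂)) (K : IntermediateField F₂ E₂) (e : E₂ →+* Ω) :
    Subgroup (Ω ≃ₐ[F₁] Ω) where
  carrier := {g | (∀ x ∈ K, α g x = x) ∧ ∀ t : E₂, t ^ 2 ∈ K → g (e t) = e (α g t)}
  one_mem' := by simp
  mul_mem' := by
    rintro g h ⟨hg, hg'⟩ ⟨hh, hh'⟩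
    refine ⟨fun x hx => ?_, fun t ht => ?_⟩
    · rw [map_mul, AlgEquiv.mul_apply, hh x hx, hg x hx]
    · rw [AlgEquiv.mul_apply, hh' t ht, hg', map_mul, AlgEquiv.mul_apply]
      rw [← map_pow, hh _ ht]; exact ht
  inv_mem' := by
    rintro g ⟨hg, hg'⟩
    have h1 : ∀ x ∈ K, α g⁻¹ x = x := by
      intro x hx
      have : α g⁻¹ (α g x) = x := by
        rw [← AlgEquiv.mul_apply, ← map_mul, inv_mul_cancel, map_one, AlgEquiv.one_apply]
      rwa [hg x hx] at this
    refine ⟨h1, fun t ht => ?_⟩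
    have h2 : (α g⁻¹ t) ^ 2 ∈ K := by
      rw [← map_pow, h1 _ ht]; exact ht
    have h3 := hg' _ h2
    have h4 : α g (α g⁻¹ t) = t := by
      rw [← AlgEquiv.mul_apply, ← map_mul, mul_inv_cancel, map_one, AlgEquiv.one_apply]
    rw [h4] at h3
    rw [← h3, ← AlgEquiv.mul_apply, inv_mul_cancel, AlgEquiv.one_apply]

variable {α : (Ω ≃ₐ[F₁] Ω) →* (E₂ ≃ₐ[F₂] E₂)} {K : IntermediateField F₂ E₂}

theorem mem_C {e : E₂ →+* Ω} {g : Ω ≃ₐ[F₁] Ω} :
    g ∈ C α K e ↔ (∀ x ∈ K, α g x = x) ∧ ∀ t : E₂, t ^ 2 ∈ K → g (e t) = e (α g t) := Iff.rfl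

/-- an automorphism which is trivial on `K` moves a square root of an element of `K` by a sign. -/
theorem sign (σ : E₂ ≃ₐ[F₂] E₂) (h : ∀ x ∈ K, σ x = x) {t : E₂} (ht : t ^ 2 ∈ K) :
    σ t = t ∨ σ t = -t := by
  have : (σ t) ^ 2 = t ^ 2 := by rw [← map_pow, h _ ht]
  exact sq_eq_sq_iff_eq_or_eq_neg.mp this

theorem C_le_of_eqOn {e e' : E₂ →+* Ω} (h : ∀ x ∈ K, e x = e' x) : C α K e ≤ C α K e' := by
  rintro g ⟨hg, hg'⟩
  refine ⟨hg, fun t ht => ?_⟩
  have h1 : (e t) ^ 2 = (e' t) ^ 2 := by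
    rw [← map_pow, ← map_pow]; exact h _ ht
  have h2 := hg' t ht
  rcases sq_eq_sq_iff_eq_or_eq_neg.mp h1 with h3 | h3 <;>
  rcases sign (α g) hg ht with h4 | h4
  · rw [h4] at h2 ⊢; rw [← h3]; exact h2
  · rw [h4] at h2 ⊢; rw [map_neg] at h2 ⊢; rw [← h3]; exact h2
  · rw [h4] at h2 ⊢
    rw [h3, map_neg] at h2
    exact neg_injective h2
  · rw [h4] at h2 ⊢
    rw [map_neg, h3, map_neg, neg_neg] at h2
    rw [map_neg, ← neg_eq_iff_eq_neg]
    exact h2

theorem C_congr {e e' : E₂ →+* Ω} (h : ∀ x ∈ K, e x = e' x) : C α K e = C α K e' :=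
  le_antisymm (C_le_of_eqOn h) (C_le_of_eqOn fun x hx => (h x hx).symm)

/-- monotonicity in `K`. -/
theorem C_mono {K' : IntermediateField F₂ E₂} (hK : K ≤ K') (e : E₂ →+* Ω) :
    C α K' e ≤ C α K e := by
  rintro g ⟨hg, hg'⟩
  exact ⟨fun x hx => hg x (hK hx), fun t ht => hg' t (hK ht)⟩

/-- conjugation. -/
def conj (α : (Ω ≃ₐ[F₁] Ω) →* (E₂ ≃ₐ[F₂] E₂)) (h : Ω ≃ₐ[F₁] Ω) (e : E₂ →+* Ω) : E₂ →+* Ω :=
  ((h : Ω →+* Ω).comp e).comp ((α h⁻¹ : E₂ ≃ₐ[F₂] E₂) : E₂ →+* E₂)

@[simp] theorem conj_apply (h : Ω ≃ₐ[F₁] Ω) (e : E₂ →+* Ω) (x : E₂) :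
    conj α h e x = h (e (α h⁻¹ x)) := rfl

theorem mem_of_normal [Normal F₂ K] (σ : E₂ ≃ₐ[F₂] E₂) {x : E₂} (hx : x ∈ K) : σ x ∈ K := by
  have := AlgEquiv.restrictNormal_commutes σ K ⟨x, hx⟩
  have h2 : σ x = algebraMap K E₂ ((σ.restrictNormal K) ⟨x, hx⟩) := by
    rw [this]; rfl
  rw [h2]
  exact ((σ.restrictNormal K) ⟨x, hx⟩).2

theorem conj_mem [Normal F₂ K] {e : E₂ →+* Ω} (h : Ω ≃ₐ[F₁] Ω) {g : Ω ≃ₐ[F₁] Ω}
    (hg : g ∈ C α K e) : h * g * h⁻¹ ∈ C α K (conj α h e) := by
  obtain ⟨h1, h2⟩ := hg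
  have key : ∀ y : E₂, α h (α h⁻¹ y) = y := by
    intro y
    rw [← AlgEquiv.mul_apply, ← map_mul, mul_inv_cancel, map_one, AlgEquiv.one_apply]
  have key' : ∀ y : E₂, α h⁻¹ (α h y) = y := by
    intro y
    rw [← AlgEquiv.mul_apply, ← map_mul, inv_mul_cancel, map_one, AlgEquiv.one_apply]
  refine ⟨fun x hx => ?_, fun t ht => ?_⟩
  · rw [map_mul, map_mul, AlgEquiv.mul_apply, AlgEquiv.mul_apply,
      h1 _ (mem_of_normal _ hx), key]
  · rw [map_mul, map_mul, AlgEquiv.mul_apply, AlgEquiv.mul_apply, AlgEquiv.mul_apply,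
      AlgEquiv.mul_apply, conj_apply, conj_apply, key']
    have h3 : h⁻¹ (h (e (α h⁻¹ t))) = e (α h⁻¹ t) := by
      rw [← AlgEquiv.mul_apply, inv_mul_cancel, AlgEquiv.one_apply]
    rw [h3, h2 _ (by rw [← map_pow]; exact mem_of_normal _ ht)]

theorem finiteIndex_conj [Normal F₂ K] {e : E₂ →+* Ω} (h : Ω ≃ₐ[F₁] Ω)
    (hC : (C α K e).FiniteIndex) : (C α K (conj α h e)).FiniteIndex := by
  have h1 : ((C α K e).map (MulAut.conj h : (Ω ≃ₐ[F₁] Ω) →* (Ω ≃ₐ[F₁] Ω))) ≤
      C α K (conj α h e) := by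
    rintro _ ⟨g, hg, rfl⟩
    exact conj_mem h hg
  have h2 : ((C α K e).map (MulAut.conj h : (Ω ≃ₐ[F₁] Ω) →* (Ω ≃ₐ[F₁] Ω))).FiniteIndex := by
    constructor
    rw [Subgroup.index_map_equiv]
    exact hC.index_ne_zero
  exact Subgroup.finiteIndex_of_le h1

end group

section fixed

variable {k Ω : Type*} [Field k] [Field Ω] [Algebra k Ω] [IsGalois k Ω]

/-- the fixed field of a subgroup of finite index (not necessarily closed) is finite over `k`. -/
theorem finiteDimensional_fixedField (W : Subgroup (Ω ≃ₐ[k] Ω)) (hW : W.FiniteIndex) :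
    FiniteDimensional k (IntermediateField.fixedField W) := by
  set W' := W.topologicalClosure with hW'
  have hWW' : W ≤ W' := W.le_topologicalClosure
  have hclosed : IsClosed (W' : Set (Ω ≃ₐ[k] Ω)) := W.isClosed_topologicalClosure
  have hfin : W'.FiniteIndex := Subgroup.finiteIndex_of_le hWW'
  have hopen : IsOpen (W' : Set (Ω ≃ₐ[k] Ω)) := W'.isOpen_of_isClosed_of_finiteIndex hclosed
  let H : ClosedSubgroup (Ω ≃ₐ[k] Ω) := ⟨W', hclosed⟩
  have h1 : (IntermediateField.fixedField W').fixingSubgroup = W' :=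
    InfiniteGalois.fixingSubgroup_fixedField H
  have h2 : FiniteDimensional k (IntermediateField.fixedField W') := by
    rw [← InfiniteGalois.isOpen_iff_finite, h1]
    exact hopen
  have h3 : IntermediateField.fixedField W ≤ IntermediateField.fixedField W' := by
    intro y hy
    rw [IntermediateField.mem_fixedField_iff] at hy ⊢
    -- the stabilizer of `y` is closed
    have h4 : W ≤ (IntermediateField.adjoin k {y}).fixingSubgroup := by
      intro g hg
      rw [IntermediateField.mem_fixingSubgroup_iff]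
      intro z hz
      have h5 : IntermediateField.adjoin k {y} ≤ IntermediateField.fixedField (Subgroup.zpowers g) := by
        rw [IntermediateField.adjoin_le_iff, Set.singleton_subset_iff]
        rw [SetLike.mem_coe, IntermediateField.mem_fixedField_iff]
        intro f hf
        have : Subgroup.zpowers g ≤ W := by rwa [Subgroup.zpowers_le]
        exact hy f (this hf)
      have h6 := h5 hz
      rw [IntermediateField.mem_fixedField_iff] at h6
      exact h6 g (Subgroup.mem_zpowers g)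
    have h7 : W' ≤ (IntermediateField.adjoin k {y}).fixingSubgroup :=
      W.topologicalClosure_minimal h4 (InfiniteGalois.fixingSubgroup_isClosed _)
    intro g hg
    have h8 := h7 hg
    rw [IntermediateField.mem_fixingSubgroup_iff] at h8
    exact h8 y (IntermediateField.mem_adjoin_simple_self k y)
  exact FiniteDimensional.of_injective (IntermediateField.inclusion h3).toLinearMap
    (IntermediateField.inclusion_injective h3)

end fixed

section unique

variable {F₁ F₂ Ω E₂ : Type*} [Field F₁] [NumberField F₁] [Field F₂] [NumberField F₂] [Field Ω]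
  [Field E₂] [Algebra F₁ Ω] [Algebra F₂ E₂] [IsGalois F₁ Ω]
  {α : (Ω ≃ₐ[F₁] Ω) →* (E₂ ≃ₐ[F₂] E₂)} {K : IntermediateField F₂ E₂}

/-- **uniqueness**: the restriction to `K` of an embedding with `C(e)` of finite index is unique. -/
theorem eqOn_of_finiteIndex [FiniteDimensional F₂ K] (hsq : ∀ x : E₂, ∃ y, y ^ 2 = x)
    {e e' : E₂ →+* Ω} (h : (C α K e).FiniteIndex) (h' : (C α K e').FiniteIndex) :
    ∀ x ∈ K, e x = e' x := by
  classical
  set W := C α K e ⊓ C α K e' with hW
  have hWf : W.FiniteIndex := inferInstance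
  set N := IntermediateField.fixedField W with hN
  have hNf : FiniteDimensional F₁ N := finiteDimensional_fixedField W hWf
  have hNn : NumberField N := NumberField.of_module_finite F₁ N
  have hKn : NumberField K := NumberField.of_module_finite F₂ K
  have hmem : ∀ x : K, e (x : E₂) ∈ N := by
    intro x
    rw [hN, IntermediateField.mem_fixedField_iff]
    intro g hg
    have h1 := (mem_C.mp hg.1).2 (x : E₂) (pow_mem x.2 2)
    rw [(mem_C.mp hg.1).1 _ x.2] at h1
    exact h1
  have hmem' : ∀ x : K, e' (x : E₂) ∈ N := by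
    intro x
    rw [hN, IntermediateField.mem_fixedField_iff]
    intro g hg
    have h1 := (mem_C.mp hg.2).2 (x : E₂) (pow_mem x.2 2)
    rw [(mem_C.mp hg.2).1 _ x.2] at h1
    exact h1
  let f : K →+* N := (e.comp (algebraMap K E₂)).codRestrict N.toSubfield.toSubring hmem
  let f' : K →+* N := (e'.comp (algebraMap K E₂)).codRestrict N.toSubfield.toSubring hmem'
  have hf : ∀ x : K, ((f x : N) : Ω) = e (x : E₂) := fun x => rfl
  have hf' : ∀ x : K, ((f' x : N) : Ω) = e' (x : E₂) := fun x => rfl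
  have hff' : f = f' := by
    by_contra hne
    obtain ⟨x, hx⟩ := exists_not_isSquare f f' hne
    obtain ⟨t, ht⟩ := hsq (x : E₂)
    have htK : t ^ 2 ∈ K := by rw [ht]; exact x.2
    apply hx
    have hu : e t * e' t ∈ N := by
      rw [hN, IntermediateField.mem_fixedField_iff]
      intro g hg
      have h1 := (mem_C.mp hg.1).2 t htK
      have h2 := (mem_C.mp hg.2).2 t htK
      rw [map_mul, h1, h2]
      rcases sign (α g) (mem_C.mp hg.1).1 htK with h3 | h3
      · rw [h3]
      · rw [h3, map_neg, map_neg, neg_mul_neg]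
    refine ⟨⟨_, hu⟩, ?_⟩
    apply Subtype.ext
    change ((f x : N) : Ω) * ((f' x : N) : Ω) = e t * e' t * (e t * e' t)
    rw [hf, hf', ← ht, map_pow, map_pow]
    ring
  intro x hx
  have h1 := hf ⟨x, hx⟩
  have h2 := hf' ⟨x, hx⟩
  rw [hff'] at h1
  exact h1.symm.trans h2

omit [IsGalois F₁ Ω] in
/-- **existence** (B. H. Neumann), general form with finitely many group automorphisms `φ i` of
which one makes `g` pointwise good: some `C(e)` has finite index. -/
theorem exists_finiteIndex_of_finite [FiniteDimensional F₂ K] [Normal F₂ K]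
    {I : Type*} [Finite I] (φ : I → ((Ω ≃ₐ[F₁] Ω) ≃* (Ω ≃ₐ[F₁] Ω)))
    (hpt : ∀ g : Ω ≃ₐ[F₁] Ω, ∃ i, ∃ e : E₂ →+* Ω, ∀ x, (φ i g) (e x) = e (α (φ i g) x)) :
    ∃ e : E₂ →+* Ω, (C α K e).FiniteIndex := by
  classical
  have hKn : NumberField K := NumberField.of_module_finite F₂ K
  have hchar : CharZero Ω := charZero_of_injective_algebraMap (algebraMap F₁ Ω).injective
  let U : I → Subgroup (Ω ≃ₐ[F₁] Ω) := fun i =>
    (((AlgEquiv.restrictNormalHom K).comp α).comp (φ i).toMonoidHom).ker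
  have hUf : ∀ i, (U i).FiniteIndex := fun i => Subgroup.finiteIndex_ker _
  have hU : ∀ i, ∀ g ∈ U i, ∀ x ∈ K, α (φ i g) x = x := by
    intro i g hg x hx
    rw [MonoidHom.mem_ker, MonoidHom.comp_apply, MonoidHom.comp_apply] at hg
    have h1 := AlgEquiv.restrictNormal_commutes (α (φ i g)) K ⟨x, hx⟩
    have h2 : (α (φ i g)).restrictNormal K = 1 := hg
    rw [h2] at h1
    exact h1.symm
  let U' : Subgroup (Ω ≃ₐ[F₁] Ω) := ⨅ i, U i
  have hU'f : U'.FiniteIndex := Subgroup.finiteIndex_iInf hUf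
  have hQ : Finite ((Ω ≃ₐ[F₁] Ω) ⧸ U') := inferInstance
  let T := {f : K →+* Ω // ∃ e : E₂ →+* Ω, e.comp (algebraMap K E₂) = f}
  have hT : Finite T := inferInstance
  let ext : T → (E₂ →+* Ω) := fun f => f.2.choose
  have hext : ∀ f : T, (ext f).comp (algebraMap K E₂) = f.1 := fun f => f.2.choose_spec
  have : Fintype (((Ω ≃ₐ[F₁] Ω) ⧸ U') × (I × T)) := Fintype.ofFinite _
  have hcov : ⋃ i ∈ (Finset.univ : Finset (((Ω ≃ₐ[F₁] Ω) ⧸ U') × (I × T))),
      (i.1.out : Ω ≃ₐ[F₁] Ω) • (((C α K (ext i.2.2)).comap (φ i.2.1).toMonoidHom :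
        Subgroup (Ω ≃ₐ[F₁] Ω)) : Set (Ω ≃ₐ[F₁] Ω)) = Set.univ := by
    rw [Set.eq_univ_iff_forall]
    intro g
    set q : (Ω ≃ₐ[F₁] Ω) ⧸ U' := QuotientGroup.mk g with hq
    have hu : q.out⁻¹ * g ∈ U' := by
      rw [← QuotientGroup.eq, QuotientGroup.out_eq']
    obtain ⟨i, e, he⟩ := hpt (q.out⁻¹ * g)
    have hui : q.out⁻¹ * g ∈ U i := (Subgroup.mem_iInf.mp hu) i
    have heC : φ i (q.out⁻¹ * g) ∈ C α K e := ⟨hU i _ hui, fun t _ => he t⟩
    let f : T := ⟨e.comp (algebraMap K E₂), e, rfl⟩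
    have hfe : ∀ x ∈ K, e x = ext f x := by
      intro x hx
      have := congrArg (fun φ : K →+* Ω => φ ⟨x, hx⟩) (hext f)
      exact this.symm
    rw [C_congr hfe] at heC
    simp only [Set.mem_iUnion, Finset.mem_univ, exists_true_left]
    refine ⟨(q, (i, f)), ?_⟩
    rw [mem_leftCoset_iff]
    exact heC
  obtain ⟨i, -, hi⟩ := Subgroup.exists_finiteIndex_of_leftCoset_cover hcov
  refine ⟨ext i.2.2, ⟨?_⟩⟩
  have h1 := hi.index_ne_zero
  rwa [Subgroup.index_comap_of_surjective _ (φ i.2.1).surjective] at h1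

omit [IsGalois F₁ Ω] in
/-- **existence** (B. H. Neumann): some `C(e)` has finite index. -/
theorem exists_finiteIndex [FiniteDimensional F₂ K] [Normal F₂ K]
    (hpt : ∀ g : Ω ≃ₐ[F₁] Ω, ∃ e : E₂ →+* Ω, ∀ x, g (e x) = e (α g x)) :
    ∃ e : E₂ →+* Ω, (C α K e).FiniteIndex :=
  exists_finiteIndex_of_finite (I := Unit) (fun _ => MulEquiv.refl _)
    (fun g => ⟨(), hpt g⟩)

/-- the matched embedding is equivariant on `K`. -/
theorem equivariant_of_finiteIndex [FiniteDimensional F₂ K] [Normal F₂ K]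
    (hsq : ∀ x : E₂, ∃ y, y ^ 2 = x) {e : E₂ →+* Ω} (h : (C α K e).FiniteIndex) :
    ∀ g : Ω ≃ₐ[F₁] Ω, ∀ x ∈ K, g (e x) = e (α g x) := by
  intro g x hx
  have h1 := eqOn_of_finiteIndex hsq (finiteIndex_conj g h) h (α g x) (mem_of_normal _ hx)
  rw [conj_apply] at h1
  rw [← h1, ← AlgEquiv.mul_apply, ← map_mul, inv_mul_cancel, map_one, AlgEquiv.one_apply]

end unique

section compact

/-- limit of a family of embeddings along an ultrafilter -/
theorem exists_limit {E Ω : Type*} [Field E] [Field Ω] [CharZero Ω]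
    (halg : ∀ x : E, IsAlgebraic ℤ x) {ι : Type*} (U : Ultrafilter ι) (e : ι → (E →+* Ω)) :
    ∃ f : E →+* Ω, ∀ x, ∀ᶠ i in U, e i x = f x := by
  classical
  have hex : ∀ x : E, ∃ z : Ω, ∀ᶠ i in U, e i x = z := by
    intro x
    obtain ⟨p, hp, hpx⟩ := halg x
    have hp' : p.map (Int.castRingHom Ω) ≠ 0 :=
      (Polynomial.map_ne_zero_iff (RingHom.injective_int (Int.castRingHom Ω))).mpr hp
    have hroot : ∀ i, e i x ∈ ((p.map (Int.castRingHom Ω)).roots.toFinset : Set Ω) := by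
      intro i
      rw [Finset.mem_coe, Multiset.mem_toFinset, Polynomial.mem_roots hp', Polynomial.IsRoot.def,
        Polynomial.eval_map]
      have h1 := congrArg (e i) hpx
      rw [map_zero, Polynomial.aeval_def, Polynomial.hom_eval₂] at h1
      rw [← h1]
      congr 1
      exact RingHom.ext_int _ _
    have hcov : (⋃ z ∈ ((p.map (Int.castRingHom Ω)).roots.toFinset : Set Ω), {i | e i x = z}) ∈ U := by
      apply Filter.mem_of_superset (Filter.univ_mem (f := (U : Filter ι)))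
      intro i _
      simp only [Set.mem_iUnion]
      exact ⟨e i x, hroot i, rfl⟩
    rw [Ultrafilter.finite_biUnion_mem_iff (Finset.finite_toSet _)] at hcov
    obtain ⟨z, -, hz⟩ := hcov
    exact ⟨z, hz⟩
  choose j hj using hex
  have huniq : ∀ {x : E} {z : Ω}, (∀ᶠ i in U, e i x = z) → j x = z := by
    intro x z h
    obtain ⟨i, h1, h2⟩ := (h.and (hj x)).exists
    exact h2.symm.trans h1
  refine ⟨⟨⟨⟨j, ?_⟩, ?_⟩, ?_, ?_⟩, hj⟩
  · exact huniq (Filter.Eventually.of_forall fun i => map_one _)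
  · intro x y
    apply huniq
    filter_upwards [hj x, hj y] with i h1 h2
    rw [map_mul, h1, h2]
  · exact huniq (Filter.Eventually.of_forall fun i => map_zero _)
  · intro x y
    apply huniq
    filter_upwards [hj x, hj y] with i h1 h2
    rw [map_add, h1, h2]

/-- finite level implies infinite level (compactness) -/
theorem pointwise_of_finite {E Ω : Type*} [Field E] [Field Ω] [CharZero Ω]
    (halg : ∀ x : E, IsAlgebraic ℤ x) (g : Ω → Ω) (β : E → E)
    (h : ∀ T : Finset E, ∃ e : E →+* Ω, ∀ x ∈ T, g (e x) = e (β x)) :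
    ∃ e : E →+* Ω, ∀ x, g (e x) = e (β x) := by
  classical
  choose e he using h
  obtain ⟨f, hf⟩ := exists_limit halg (Ultrafilter.of (Filter.atTop : Filter (Finset E))) e
  refine ⟨f, fun x => ?_⟩
  have h1 : ∀ᶠ T in (Ultrafilter.of (Filter.atTop : Filter (Finset E)) : Filter (Finset E)),
      x ∈ T := by
    apply Ultrafilter.of_le
    filter_upwards [Filter.eventually_ge_atTop ({x} : Finset E)] with T hT
    exact hT (Finset.mem_singleton_self x)
  obtain ⟨T, h2, h3, h4⟩ := (h1.and ((hf x).and (hf (β x)))).exists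
  rw [← h3, ← h4]
  exact he T x h2

theorem isAlgebraic_int {F E : Type*} [Field F] [NumberField F] [Field E] [Algebra F E]
    [Algebra.IsAlgebraic F E] (x : E) : IsAlgebraic ℤ x := by
  have hc : CharZero E := charZero_of_injective_algebraMap (algebraMap F E).injective
  have h1 : Algebra.IsAlgebraic ℚ E := Algebra.IsAlgebraic.trans ℚ F E
  exact (IsFractionRing.isAlgebraic_iff ℤ ℚ E).mpr (Algebra.IsAlgebraic.isAlgebraic x)

end compact

section main

variable {F₁ F₂ Ω E₂ : Type*} [Field F₁] [NumberField F₁] [Field F₂] [NumberField F₂] [Field Ω]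
  [Field E₂] [Algebra F₁ Ω] [Algebra F₂ E₂] [IsGalois F₁ Ω] [IsGalois F₂ E₂]
  {α : (Ω ≃ₐ[F₁] Ω) →* (E₂ ≃ₐ[F₂] E₂)}

omit [NumberField F₂] in
/-- a finite normal subextension containing two given elements -/
theorem exists_normal_mem (x y : E₂) : ∃ K : IntermediateField F₂ E₂,
    FiniteDimensional F₂ K ∧ Normal F₂ K ∧ x ∈ K ∧ y ∈ K := by
  let L := IntermediateField.adjoin F₂ ({x, y} : Set E₂)
  have hL : FiniteDimensional F₂ L := by
    apply IntermediateField.finiteDimensional_adjoin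
    intro z _
    exact Algebra.IsIntegral.isIntegral z
  refine ⟨IntermediateField.normalClosure F₂ L E₂, inferInstance, inferInstance, ?_, ?_⟩
  · exact IntermediateField.le_normalClosure L
      (IntermediateField.subset_adjoin F₂ _ (by simp))
  · exact IntermediateField.le_normalClosure L
      (IntermediateField.subset_adjoin F₂ _ (by simp))

/-- **Part A of the end game.** -/
theorem exists_global_embedding (hsq : ∀ x : E₂, ∃ y, y ^ 2 = x)
    (hpt : ∀ g : Ω ≃ₐ[F₁] Ω, ∃ e : E₂ →+* Ω, ∀ x, g (e x) = e (α g x)) :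
    ∃ e : E₂ →+* Ω, ∀ (g : Ω ≃ₐ[F₁] Ω) (x : E₂), g (e x) = e (α g x) := by
  classical
  -- local data
  have hex : ∀ x : E₂, ∃ z : Ω, ∀ K : IntermediateField F₂ E₂, FiniteDimensional F₂ K →
      Normal F₂ K → x ∈ K → ∀ e : E₂ →+* Ω, (C α K e).FiniteIndex → e x = z := by
    intro x
    obtain ⟨K₀, hK₀, hK₀', hx, -⟩ := exists_normal_mem (F₂ := F₂) x x
    obtain ⟨e₀, he₀⟩ := exists_finiteIndex (K := K₀) hpt
    refine ⟨e₀ x, ?_⟩
    intro K hK hK' hxK e he
    -- compare on `K ⊓ K₀`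
    have h1 : (C α (K ⊓ K₀) e).FiniteIndex :=
      Subgroup.finiteIndex_of_le (C_mono inf_le_left e)
    have h2 : (C α (K ⊓ K₀) e₀).FiniteIndex :=
      Subgroup.finiteIndex_of_le (C_mono inf_le_right e₀)
    have h3 : FiniteDimensional F₂ ↥(K ⊓ K₀) :=
      FiniteDimensional.of_injective (IntermediateField.inclusion inf_le_left).toLinearMap
        (IntermediateField.inclusion_injective inf_le_left)
    exact eqOn_of_finiteIndex hsq h1 h2 x ⟨hxK, hx⟩
  choose j hj using hex
  -- for any finite normal `K` there is `e` with `j = e` on `K`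
  have hloc : ∀ K : IntermediateField F₂ E₂, FiniteDimensional F₂ K → Normal F₂ K →
      ∃ e : E₂ →+* Ω, (∀ x ∈ K, j x = e x) ∧ ∀ g : Ω ≃ₐ[F₁] Ω, ∀ x ∈ K, g (e x) = e (α g x) := by
    intro K hK hK'
    obtain ⟨e, he⟩ := exists_finiteIndex (K := K) hpt
    exact ⟨e, fun x hx => (hj x K hK hK' hx e he).symm, equivariant_of_finiteIndex hsq he⟩
  have hone : j 1 = 1 := by
    obtain ⟨K, hK, hK', -, -⟩ := exists_normal_mem (F₂ := F₂) (1 : E₂) 1
    obtain ⟨e, he, -⟩ := hloc K hK hK'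
    rw [he _ K.one_mem, map_one]
  have hzero : j 0 = 0 := by
    obtain ⟨K, hK, hK', -, -⟩ := exists_normal_mem (F₂ := F₂) (1 : E₂) 1
    obtain ⟨e, he, -⟩ := hloc K hK hK'
    rw [he _ K.zero_mem, map_zero]
  have hmul : ∀ x y, j (x * y) = j x * j y := by
    intro x y
    obtain ⟨K, hK, hK', hx, hy⟩ := exists_normal_mem (F₂ := F₂) x y
    obtain ⟨e, he, -⟩ := hloc K hK hK'
    rw [he _ (K.mul_mem hx hy), he _ hx, he _ hy, map_mul]
  have hadd : ∀ x y, j (x + y) = j x + j y := by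
    intro x y
    obtain ⟨K, hK, hK', hx, hy⟩ := exists_normal_mem (F₂ := F₂) x y
    obtain ⟨e, he, -⟩ := hloc K hK hK'
    rw [he _ (K.add_mem hx hy), he _ hx, he _ hy, map_add]
  refine ⟨⟨⟨⟨j, hone⟩, hmul⟩, hzero, hadd⟩, ?_⟩
  intro g x
  obtain ⟨K, hK, hK', hx, -⟩ := exists_normal_mem (F₂ := F₂) x x
  obtain ⟨e, he, he'⟩ := hloc K hK hK'
  change g (j x) = j (α g x)
  rw [he _ hx, he _ (mem_of_normal _ hx)]
  exact he' g x hx

omit [IsGalois F₁ Ω] in
/-- the field `Ω` is Galois over `F₁` as soon as it is algebraically closed and algebraic over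
`ℚ` -/
theorem isGalois_of_isAlgClosed [IsAlgClosed Ω] (h : ∀ x : Ω, IsAlgebraic ℤ x) :
    IsGalois F₁ Ω := by
  have hc : CharZero Ω := charZero_of_injective_algebraMap (algebraMap F₁ Ω).injective
  have h1 : Algebra.IsAlgebraic ℚ Ω := ⟨fun x => (IsFractionRing.isAlgebraic_iff ℤ ℚ Ω).mp (h x)⟩
  have h2 : Algebra.IsAlgebraic F₁ Ω := Algebra.IsAlgebraic.tower_top (K := ℚ) F₁
  have h3 : Algebra.IsSeparable F₁ Ω := inferInstance
  have h4 : Normal F₁ Ω := by
    refine ⟨fun x => ?_⟩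
    exact IsAlgClosed.splits _
  exact ⟨⟩

/-- **Part A of the end game, finite level input.** -/
theorem exists_global_embedding_of_finite (hsq : ∀ x : E₂, ∃ y, y ^ 2 = x)
    (hpt : ∀ (g : Ω ≃ₐ[F₁] Ω) (T : Finset E₂), ∃ e : E₂ →+* Ω, ∀ x ∈ T, g (e x) = e (α g x)) :
    ∃ e : E₂ →+* Ω, ∀ (g : Ω ≃ₐ[F₁] Ω) (x : E₂), g (e x) = e (α g x) := by
  have hc : CharZero Ω := charZero_of_injective_algebraMap (algebraMap F₁ Ω).injective
  exact exists_global_embedding hsq fun g =>
    pointwise_of_finite (fun x => isAlgebraic_int (F := F₂) x) g (α g) (hpt g)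

end main

section descent

variable {F₁ F₂ E₁ E₂ : Type*} [Field F₁] [NumberField F₁] [Field F₂] [NumberField F₂] [Field E₁]
  [Field E₂] [Algebra F₁ E₁] [Algebra F₂ E₂] [IsGalois F₁ E₁] [IsGalois F₂ E₂]

/-- a solvably closed field is closed under square roots. -/
theorem exists_sq_of_solvablyClosed {E : Type*} [Field E]
    (h : Crest.NumberTheoryR.IsSolvablyClosed E) (x : E) : ∃ y : E, y ^ 2 = x := by
  classical
  let p : Polynomial E := Polynomial.X ^ 2 - Polynomial.C x
  have hdeg : p.natDegree = 2 := Polynomial.natDegree_X_pow_sub_C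
  have hcomm : ∀ a b : p.Gal, a * b = b * a := by
    have hcard : Nat.card p.Gal ≤ 2 := by
      have hfact : Fact (Polynomial.map (algebraMap E p.SplittingField) p).Splits :=
        ⟨Polynomial.SplittingField.splits p⟩
      have h1 : Function.Injective (Polynomial.Gal.galActionHom p p.SplittingField) :=
        Polynomial.Gal.galActionHom_injective p p.SplittingField
      have h2 := Nat.card_le_card_of_injective _ h1
      have h3 : Nat.card (Equiv.Perm (p.rootSet p.SplittingField)) ≤ 2 := by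
        rw [Nat.card_perm]
        have h4 : Nat.card (p.rootSet p.SplittingField) ≤ 2 := by
          rw [← hdeg, Polynomial.rootSet_def, Nat.card_coe_set_eq, Set.ncard_coe_finset]
          refine (Multiset.toFinset_card_le _).trans ((Polynomial.card_roots' _).trans ?_)
          rw [Polynomial.natDegree_map]
        interval_cases Nat.card (p.rootSet p.SplittingField) <;> simp
      exact h2.trans h3
    intro a b
    by_contra hne
    have h1 : (1 : p.Gal) ≠ a := by rintro rfl; simp at hne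
    have h2 : (1 : p.Gal) ≠ b := by rintro rfl; simp at hne
    have h3 : a ≠ b := by rintro rfl; simp at hne
    have h4 : ({1, a, b} : Finset p.Gal).card = 3 := by
      rw [Finset.card_insert_of_notMem, Finset.card_pair h3]
      simp [h1, h2]
    have h5 : ({1, a, b} : Finset p.Gal).card ≤ Nat.card p.Gal := by
      rw [Nat.card_eq_fintype_card]; exact Finset.card_le_univ _
    omega
  have hsp := h p hcomm
  obtain ⟨y, hy⟩ := hsp.exists_eval_eq_zero (by
    intro h0
    have h00 := Polynomial.natDegree_eq_of_degree_eq_some h0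
    rw [hdeg] at h00
    exact absurd h00 (by norm_num))
  refine ⟨y, ?_⟩
  have : y ^ 2 - x = 0 := by simpa [p] using hy
  exact sub_eq_zero.mp this

end descent

end Crest.Agent.R018.EndAx245
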