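import Mathlib
import Crest.Agent.R018.Places_484
import Crest.Agent.R018.LCIneB_925
import Crest.Agent.R018.EndDef_924

-- ▼ part R018/LCOrd_925
section

/-!
# Row 18: the order lemma (helper925)

* `exists_prime_dvd_orderOf` : for `a ≥ 2`, `n ≥ 1` and a finite set `S` there is a prime `l`
  outside `S`, not dividing `a`, such that `n` divides the order of `a` modulo `l`.
-/

set_option autoImplicit false

namespace Crest.Agent.R018.LCOrdx925

open Polynomial

theorem exists_prime_dvd_orderOf (a n : ℕ) (ha : 2 ≤ a) (hn : 1 ≤ n) (S : Finset ℕ) :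
    ∃ l : ℕ, l.Prime ∧ l ∉ S ∧ ¬ l ∣ a ∧ n ∣ orderOf ((a : ZMod l)) := by
  classical
  set P : ℕ := ∏ s ∈ S.filter (fun s => s ≠ 0), s with hP
  have hP0 : 0 < P := by
    refine Finset.prod_pos ?_
    intro s hs
    exact Nat.pos_of_ne_zero (Finset.mem_filter.1 hs).2
  set m : ℕ := n * 6 * P with hm
  have hm0 : 0 < m := by positivity
  have hm6 : 6 ∣ m := ⟨n * P, by rw [hm]; ring⟩
  have hm1 : 1 < m := by
    obtain ⟨c, hc⟩ := hm6
    have : 0 < c := by
      rcases Nat.eq_zero_or_pos c with h | h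
      · rw [h] at hc; omega
      · exact h
    omega
  set t : ℕ := Nat.totient m with ht
  have ht0 : 0 < t := Nat.totient_pos.2 hm0
  set A : ℕ := a ^ t with hA
  have hA2 : 2 ≤ A := by
    calc 2 ≤ a := ha
      _ = a ^ 1 := (pow_one a).symm
      _ ≤ a ^ t := Nat.pow_le_pow_right (by omega) ht0
  -- the value of the cyclotomic polynomial
  set v : ℤ := (cyclotomic m ℤ).eval (A : ℤ) with hv
  have hv1 : 1 < v := by
    have h1 : ((A : ℝ) - 1) ^ Nat.totient m < (cyclotomic m ℝ).eval (A : ℝ) := by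
      have := Polynomial.sub_one_pow_totient_lt_cyclotomic_eval (n := m) (q := (A : ℝ)) hm1
        (by exact_mod_cast (by omega : 1 < A))
      simpa using this
    have h2 : (1 : ℝ) ≤ ((A : ℝ) - 1) ^ Nat.totient m := by
      apply one_le_pow₀
      have : (2 : ℝ) ≤ A := by exact_mod_cast hA2
      linarith
    have h3 : ((v : ℤ) : ℝ) = (cyclotomic m ℝ).eval (A : ℝ) := by
      rw [hv]
      have := Polynomial.eval_intCast_map (Int.castRingHom ℝ) (cyclotomic m ℤ) (A : ℤ)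
      rw [map_cyclotomic] at this
      simpa using this.symm
    have : (1 : ℝ) < (v : ℝ) := by rw [h3]; linarith
    exact_mod_cast this
  -- a prime divisor
  obtain ⟨l, hl, hlv⟩ := Nat.exists_prime_and_dvd (n := v.natAbs) (by omega)
  have hlv' : (l : ℤ) ∣ v := Int.natCast_dvd.2 hlv
  haveI : Fact l.Prime := ⟨hl⟩
  have hroot : (cyclotomic m (ZMod l)).eval ((A : ZMod l)) = 0 := by
    have h1 : ((v : ℤ) : ZMod l) = 0 := (ZMod.intCast_zmod_eq_zero_iff_dvd v l).2 hlv'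
    have h2 := Polynomial.eval_intCast_map (Int.castRingHom (ZMod l)) (cyclotomic m ℤ) (A : ℤ)
    rw [map_cyclotomic] at h2
    have h3 : (cyclotomic m (ZMod l)).eval ((A : ZMod l)) = ((v : ℤ) : ZMod l) := by
      rw [hv]; simpa using h2
    rw [h3, h1]
  -- `l` does not divide `m`
  have hlm : ¬ l ∣ m := by
    intro hdvd
    by_cases hla : l ∣ a
    · have hA0 : (A : ZMod l) = 0 := by
        rw [hA, Nat.cast_pow]
        have : (a : ZMod l) = 0 := (ZMod.natCast_eq_zero_iff a l).2 hla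
        rw [this, zero_pow ht0.ne']
      rw [hA0] at hroot
      have : (cyclotomic m (ZMod l)).eval 0 = 1 := by
        rw [← Polynomial.coeff_zero_eq_eval_zero]
        exact Polynomial.cyclotomic_coeff_zero _ hm1
      rw [this] at hroot
      exact one_ne_zero hroot
    · have hA1 : (A : ZMod l) = 1 := by
        have hdt : (l - 1) ∣ t := by
          rw [ht, ← Nat.totient_prime hl]
          exact Nat.totient_dvd_of_dvd hdvd
        obtain ⟨c, hc⟩ := hdt
        have hne : (a : ZMod l) ≠ 0 := fun h => hla ((ZMod.natCast_eq_zero_iff a l).1 h)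
        rw [hA, Nat.cast_pow, hc, pow_mul, ZMod.pow_card_sub_one_eq_one hne, one_pow]
      rw [hA1] at hroot
      have h1 : (cyclotomic m (ZMod l)).eval 1 = 1 := by
        apply Polynomial.eval_one_cyclotomic_not_prime_pow
        intro p hp k hk
        have h2 : 2 ∣ p ^ k := by rw [hk]; exact Dvd.dvd.trans (by norm_num) hm6
        have h3 : 3 ∣ p ^ k := by rw [hk]; exact Dvd.dvd.trans (by norm_num) hm6
        have h2' := (Nat.prime_dvd_prime_iff_eq Nat.prime_two hp).1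
          (Nat.prime_two.dvd_of_dvd_pow h2)
        have h3' := (Nat.prime_dvd_prime_iff_eq Nat.prime_three hp).1
          (Nat.prime_three.dvd_of_dvd_pow h3)
        omega
      rw [h1] at hroot
      exact one_ne_zero hroot
  have hmne : NeZero ((m : ZMod l)) := ⟨fun h => hlm ((ZMod.natCast_eq_zero_iff m l).1 h)⟩
  have hprim : IsPrimitiveRoot ((A : ZMod l)) m :=
    (Polynomial.isRoot_cyclotomic_iff).1 hroot
  have hAne : (A : ZMod l) ≠ 0 := hprim.ne_zero hm0.ne'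
  have hla : ¬ l ∣ a := by
    intro h
    apply hAne
    rw [hA, Nat.cast_pow, (ZMod.natCast_eq_zero_iff a l).2 h, zero_pow ht0.ne']
  refine ⟨l, hl, ?_, hla, ?_⟩
  · intro hlS
    apply hlm
    have : l ∣ P := by
      rw [hP]
      exact Finset.dvd_prod_of_mem _ (Finset.mem_filter.2 ⟨hlS, hl.ne_zero⟩)
    exact Dvd.dvd.mul_left this _
  · have h1 : orderOf ((A : ZMod l)) = m := hprim.eq_orderOf.symm
    have h2 : orderOf ((A : ZMod l)) ∣ orderOf ((a : ZMod l)) := by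
      rw [hA, Nat.cast_pow]
      exact orderOf_pow_dvd t
    rw [h1] at h2
    exact (Dvd.intro (6 * P) (by rw [hm]; ring)).trans h2

end Crest.Agent.R018.LCOrdx925
end

-- ▼ part R018/LCRes_925
section

/-!
# Row 18: automorphisms of an algebraic closure of a finite field and roots of unity (helper925)

* `fix_of_fix` : `K` a field of characteristic `q`, `τ : K →+* K`; if for all primes `l` outside a
  finite set `S` the field `K` has a primitive `l`-th root of unity fixed by `τ`, then `τ` fixes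
  every `m`-th root of unity with `m` prime to `q`.
-/

set_option autoImplicit false

namespace Crest.Agent.R018.LCResx925

open Polynomial

/-- If `x ^ (q ^ e) = x` and `F` is a finite subfield with `q ^ e` elements, then `x ∈ F`. -/
theorem mem_of_pow_card_eq {K : Type*} [Field K] (F : Subfield K) [Finite F] (x : K)
    (hx : x ^ (Nat.card F) = x) : x ∈ F := by
  classical
  haveI : Fintype F := Fintype.ofFinite F
  by_contra hxF
  set N := Nat.card F with hN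
  have hN1 : 1 < N := Finite.one_lt_card
  set f : K[X] := X ^ N - X with hf
  have hf0 : f ≠ 0 := FiniteField.X_pow_card_sub_X_ne_zero K hN1
  have hdeg : f.natDegree = N := FiniteField.X_pow_card_sub_X_natDegree_eq K hN1
  -- the roots
  set T : Finset K := insert x (Finset.univ.image (fun y : F => (y : K))) with hT
  have hcard : T.card = N + 1 := by
    rw [hT, Finset.card_insert_of_notMem]
    · rw [Finset.card_image_of_injective _ Subtype.val_injective, Finset.card_univ, hN,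
        Nat.card_eq_fintype_card]
    · intro h
      obtain ⟨y, _, hy⟩ := Finset.mem_image.1 h
      exact hxF (hy ▸ y.2)
  have hsub : T ⊆ f.roots.toFinset := by
    intro z hz
    rw [Multiset.mem_toFinset, mem_roots hf0, IsRoot.def, hf, eval_sub, eval_pow, eval_X]
    rcases Finset.mem_insert.1 hz with h | h
    · rw [h, hx, sub_self]
    · obtain ⟨y, _, hy⟩ := Finset.mem_image.1 h
      rw [← hy]
      have h1 : y ^ Fintype.card F = y := FiniteField.pow_card y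
      have h2 : (y : K) ^ N = (y : K) := by
        rw [hN, Nat.card_eq_fintype_card]
        exact_mod_cast congrArg (Subtype.val) h1
      rw [h2, sub_self]
  have h1 : T.card ≤ f.natDegree :=
    (Finset.card_le_card hsub).trans ((Multiset.toFinset_card_le _).trans (card_roots' f))
  omega


end Crest.Agent.R018.LCResx925
end

-- ▼ part R018/LCResB_925
section

/-!
# Row 18: endomorphisms of algebraic extensions of finite fields and roots of unity (helper925)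

* `eq_of_eq` : `K` a field of characteristic `q`, `τ, τ' : K →+* K`; if for all primes `l` outside
  a finite set `S` there is a primitive `l`-th root of unity `ξ` in `K` with `τ ξ = τ' ξ`, then
  `τ x = τ' x` for every `x` with `x ^ (q ^ n) = x`.
* `eq_of_eq_of_isIntegral` : the same for all `x` algebraic over the prime field.
-/

set_option autoImplicit false

namespace Crest.Agent.R018.LCResBx925

theorem eq_of_eq {K : Type*} [Field K] (q : ℕ) [hq : Fact q.Prime] [CharP K q]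
    (τ τ' : K →+* K) (S : Finset ℕ)
    (hτ : ∀ l : ℕ, l.Prime → l ∉ S → l ≠ q → ∃ ξ : K, IsPrimitiveRoot ξ l ∧ τ ξ = τ' ξ)
    (n : ℕ) (hn1 : 1 ≤ n) (x : K) (hx : x ^ (q ^ n) = x) : τ x = τ' x := by
  classical
  obtain ⟨l, hl, hlS, hlq, hnl⟩ :=
    LCOrdx925.exists_prime_dvd_orderOf q n hq.out.two_le hn1 S
  have hlne : l ≠ q := fun h => hlq (h ▸ dvd_rfl)
  obtain ⟨ξ, hξ, hτξ⟩ := hτ l hl hlS hlne
  letI : Algebra (ZMod q) K := ZMod.algebra K q
  -- the finite subfield generated by `ξ`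
  have hξint : IsIntegral (ZMod q) ξ := hξ.isIntegral hl.pos |>.tower_top
  set F : IntermediateField (ZMod q) K := IntermediateField.adjoin (ZMod q) {ξ} with hF
  haveI : FiniteDimensional (ZMod q) F := IntermediateField.adjoin.finiteDimensional hξint
  haveI : Finite F := Module.finite_of_finite (ZMod q)
  haveI : Fintype F := Fintype.ofFinite F
  have hcardF : Nat.card F = q ^ Module.finrank (ZMod q) F := by
    rw [Nat.card_eq_fintype_card, Module.card_eq_pow_finrank (K := ZMod q) (V := F), ZMod.card]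
  set e := Module.finrank (ZMod q) F with he
  -- `l ∣ q ^ e - 1`
  have hξF : ξ ∈ F := IntermediateField.mem_adjoin_simple_self (ZMod q) ξ
  have hξpow : ξ ^ (q ^ e - 1) = 1 := by
    have h0 : (⟨ξ, hξF⟩ : F) ≠ 0 := by
      intro h
      exact hξ.ne_zero hl.ne_zero (congrArg Subtype.val h)
    have h1 : (⟨ξ, hξF⟩ : F) ^ (Fintype.card F - 1) = 1 := FiniteField.pow_card_sub_one_eq_one _ h0
    rw [← Nat.card_eq_fintype_card, hcardF] at h1
    have h2 := congrArg Subtype.val h1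
    simpa using h2
  have hldvd : l ∣ q ^ e - 1 := (hξ.pow_eq_one_iff_dvd _).1 hξpow
  have hqe : 1 ≤ q ^ e := Nat.one_le_pow _ _ hq.out.pos
  haveI : Fact l.Prime := ⟨hl⟩
  have hord : orderOf ((q : ZMod l)) ∣ e := by
    apply orderOf_dvd_of_pow_eq_one
    have h1 : ((q ^ e - 1 : ℕ) : ZMod l) = 0 := (ZMod.natCast_eq_zero_iff _ _).2 hldvd
    rw [Nat.cast_sub hqe, Nat.cast_one, Nat.cast_pow, sub_eq_zero] at h1
    exact h1
  obtain ⟨c, hc⟩ : n ∣ e := hnl.trans hord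
  have hxe : x ^ (q ^ e) = x := by
    rw [hc, pow_mul]
    have : ∀ c : ℕ, x ^ ((q ^ n) ^ c) = x := by
      intro c
      induction c with
      | zero => simp
      | succ c ih => rw [pow_succ, pow_mul, ih, hx]
    exact this c
  have hxF : x ∈ F.toSubfield := by
    haveI : Finite F.toSubfield := ‹Finite F›
    apply LCResx925.mem_of_pow_card_eq F.toSubfield x
    have : Nat.card F.toSubfield = q ^ e := hcardF
    rw [this, hxe]
  have key : ∀ x ∈ F, τ x = τ' x := by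
    intro x hx
    refine IntermediateField.adjoin_induction (F := ZMod q) (E := K) (s := {ξ})
      (p := fun y _ => τ y = τ' y) ?_ ?_ ?_ ?_ ?_ hx
    · intro y hy
      rw [Set.mem_singleton_iff] at hy
      rw [hy, hτξ]
    · intro y
      have := RingHom.congr_fun (Subsingleton.elim (τ.comp (algebraMap (ZMod q) K))
        (τ'.comp (algebraMap (ZMod q) K))) y
      exact this
    · intro y z _ _ hy hz
      rw [map_add, hy, hz, map_add]
    · intro y _ hy
      rw [map_inv₀, hy, map_inv₀]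
    · intro y z _ _ hy hz
      rw [map_mul, hy, hz, map_mul]
  exact key x hxF

theorem exists_pow_eq {K : Type*} [Field K] (q : ℕ) [hq : Fact q.Prime] [Algebra (ZMod q) K]
    (x : K) (hx : IsIntegral (ZMod q) x) : ∃ n : ℕ, 1 ≤ n ∧ x ^ (q ^ n) = x := by
  set F : IntermediateField (ZMod q) K := IntermediateField.adjoin (ZMod q) {x} with hF
  haveI : FiniteDimensional (ZMod q) F := IntermediateField.adjoin.finiteDimensional hx
  haveI : Finite F := Module.finite_of_finite (ZMod q)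
  haveI : Fintype F := Fintype.ofFinite F
  have hcardF : Fintype.card F = q ^ Module.finrank (ZMod q) F := by
    rw [Module.card_eq_pow_finrank (K := ZMod q) (V := F), ZMod.card]
  refine ⟨Module.finrank (ZMod q) F, Module.finrank_pos, ?_⟩
  have hxF : x ∈ F := IntermediateField.mem_adjoin_simple_self (ZMod q) x
  have h1 : (⟨x, hxF⟩ : F) ^ Fintype.card F = ⟨x, hxF⟩ := FiniteField.pow_card _
  rw [hcardF] at h1
  have h2 := congrArg Subtype.val h1
  simpa using h2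

theorem eq_of_eq_of_isIntegral {K : Type*} [Field K] (q : ℕ) [hq : Fact q.Prime]
    [Algebra (ZMod q) K]
    (τ τ' : K →+* K) (S : Finset ℕ)
    (hτ : ∀ l : ℕ, l.Prime → l ∉ S → l ≠ q → ∃ ξ : K, IsPrimitiveRoot ξ l ∧ τ ξ = τ' ξ)
    (x : K) (hx : IsIntegral (ZMod q) x) : τ x = τ' x := by
  haveI : CharP K q := charP_of_injective_algebraMap (algebraMap (ZMod q) K).injective q
  obtain ⟨n, hn, h⟩ := exists_pow_eq q x hx
  exact eq_of_eq q τ τ' S hτ n hn x h

end Crest.Agent.R018.LCResBx925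
end

-- ▼ part R018/LCPl_925
section

/-!
# Row 18: roots of unity in the residue field of a place (helper925)

`P` a place of `E` (`CharZero E`), `q = P.rchar`.

* `isIntegral_mk` : the residue field is algebraic over `ℤ/q`.
* `mk_primitive` : primitive `l`-th roots of unity (`l ≠ q` prime) stay primitive.
* `eq_of_agree` : two ring endomorphisms of `𝓞 E` stabilising `P` (mapping `P` into `P`) which agree
  modulo `P` on one primitive `l`-th root of unity for almost all primes `l`, agree modulo `P`.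
-/

set_option autoImplicit false

open NumberField Ideal
open Crest.Agent.R018.Placesx484

namespace Crest.Agent.R018.LCPlx925

section

variable {E : Type*} [Field E] [CharZero E] (P : Place E)

theorem charP_residue : CharP (𝓞 E ⧸ P.ideal) P.rchar := by
  constructor
  intro n
  rw [← map_natCast (Ideal.Quotient.mk P.ideal), Ideal.Quotient.eq_zero_iff_mem]
  exact P.natCast_mem_iff n

theorem mk_ne_one {l : ℕ} (hl : l.Prime) (hlq : l ≠ P.rchar) {ξ : 𝓞 E}
    (hξ : IsPrimitiveRoot ξ l) : Ideal.Quotient.mk P.ideal ξ ≠ 1 := by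
  intro h
  have h1 : ∑ i ∈ Finset.range l, ξ ^ i = 0 := hξ.geom_sum_eq_zero hl.one_lt
  have h2 := congrArg (Ideal.Quotient.mk P.ideal) h1
  rw [map_sum, map_zero] at h2
  simp only [map_pow, h, one_pow, Finset.sum_const, Finset.card_range, nsmul_eq_mul, mul_one] at h2
  haveI := charP_residue P
  have h3 := (CharP.cast_eq_zero_iff (𝓞 E ⧸ P.ideal) P.rchar l).1 h2
  exact hlq ((Nat.prime_dvd_prime_iff_eq P.rchar_prime hl).1 h3).symm

theorem mk_primitive {l : ℕ} (hl : l.Prime) (hlq : l ≠ P.rchar) {ξ : 𝓞 E}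
    (hξ : IsPrimitiveRoot ξ l) : IsPrimitiveRoot (Ideal.Quotient.mk P.ideal ξ) l := by
  haveI : Fact l.Prime := ⟨hl⟩
  rw [IsPrimitiveRoot.iff_orderOf]
  apply orderOf_eq_prime
  · rw [← map_pow, hξ.pow_eq_one, map_one]
  · exact mk_ne_one P hl hlq hξ

/-- endomorphisms of `𝓞 E` agreeing at almost all prime levels agree on the residue field -/
theorem eq_of_agree (S : Finset ℕ) (τ τ' : 𝓞 E →+* 𝓞 E)
    (h : ∀ x ∈ P.ideal, τ x ∈ P.ideal) (h' : ∀ x ∈ P.ideal, τ' x ∈ P.ideal)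
    (hτ : ∀ l : ℕ, l.Prime → l ∉ S → l ≠ P.rchar →
      ∃ ξ : 𝓞 E, IsPrimitiveRoot ξ l ∧ τ ξ - τ' ξ ∈ P.ideal) (x : 𝓞 E) :
    τ x - τ' x ∈ P.ideal := by
  haveI := P.isMaximal
  letI : Field (𝓞 E ⧸ P.ideal) := Ideal.Quotient.field P.ideal
  haveI : Fact P.rchar.Prime := ⟨P.rchar_prime⟩
  haveI := charP_residue P
  letI : Algebra (ZMod P.rchar) (𝓞 E ⧸ P.ideal) := ZMod.algebra _ P.rchar
  let t : 𝓞 E ⧸ P.ideal →+* 𝓞 E ⧸ P.ideal :=
    Ideal.quotientMap P.ideal τ (fun x hx => Ideal.mem_comap.2 (h x hx))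
  let t' : 𝓞 E ⧸ P.ideal →+* 𝓞 E ⧸ P.ideal :=
    Ideal.quotientMap P.ideal τ' (fun x hx => Ideal.mem_comap.2 (h' x hx))
  have ht : ∀ x : 𝓞 E, t (Ideal.Quotient.mk P.ideal x) = Ideal.Quotient.mk P.ideal (τ x) :=
    fun x => rfl
  have ht' : ∀ x : 𝓞 E, t' (Ideal.Quotient.mk P.ideal x) = Ideal.Quotient.mk P.ideal (τ' x) :=
    fun x => rfl
  have hint : IsIntegral (ZMod P.rchar) (Ideal.Quotient.mk P.ideal x) := by
    have h1 : IsIntegral ℤ x := NumberField.RingOfIntegers.isIntegral x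
    have h2 : IsIntegral ℤ (Ideal.Quotient.mk P.ideal x) :=
      h1.map (Ideal.Quotient.mkₐ ℤ P.ideal)
    exact h2.tower_top
  have key := LCResBx925.eq_of_eq_of_isIntegral P.rchar t t' S ?_ _ hint
  · rw [ht, ht'] at key
    exact (Ideal.Quotient.eq).1 key
  · intro l hl hlS hlq
    obtain ⟨ξ, hξ, hξ2⟩ := hτ l hl hlS hlq
    refine ⟨Ideal.Quotient.mk P.ideal ξ, mk_primitive P hl hlq hξ, ?_⟩
    rw [ht, ht']
    exact (Ideal.Quotient.eq).2 hξ2

end

end Crest.Agent.R018.LCPlx925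
end

-- ▼ part R018/LCMain_925
section

/-!
# Row 18: from the cyclotomic characters and the decomposition groups to the local correspondence
(helper925)

* `main` : BLOCK LC in terms of places.
-/

set_option autoImplicit false

open NumberField Ideal
open scoped Pointwise Topology
open Crest.Agent.R018.Placesx484

namespace Crest.Agent.R018.LCMainx925

section

variable {E : Type*} [Field E]

theorem frob_stab {G : Type*} [Group G] [MulSemiringAction G E] (P : Place E) (d : G) (p : ℕ)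
    (hp : p ≠ 0) (hd : ∀ x : 𝓞 E, d • x - x ^ p ∈ P.ideal) : d • P = P := by
  have key : ∀ y : 𝓞 E, d • y ∈ P.ideal ↔ y ∈ P.ideal := by
    intro y
    constructor
    · intro h
      have h1 := Ideal.sub_mem _ h (hd y)
      rw [sub_sub_cancel] at h1
      exact P.isPrime.mem_of_pow_mem _ h1
    · intro h
      have h1 := Ideal.add_mem _ (hd y) (Ideal.pow_mem_of_mem _ h p (Nat.pos_of_ne_zero hp))
      simpa using h1
  apply Place.ext
  ext x
  rw [Place.mem_smul_ideal, ← key, smul_inv_smul]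

theorem inertia_stab {G : Type*} [Group G] [MulSemiringAction G E] (P : Place E) (d : G)
    (hd : ∀ x : 𝓞 E, d • x - x ∈ P.ideal) : d • P = P :=
  frob_stab P d 1 one_ne_zero (fun x => by simpa using hd x)

theorem coe_smul_int {G : Type*} [Group G] [MulSemiringAction G E] (g : G) (x : 𝓞 E) :
    algebraMap (𝓞 E) E (g • x) = g • algebraMap (𝓞 E) E x :=
  algebraMap.smul' g x E

theorem modEq_of_pow_eq {R : Type*} [CommRing R] {x : R} {l : ℕ} (hl : l ≠ 0)
    (hx : IsPrimitiveRoot x l) {b m : ℕ} (h : x ^ b = x ^ m) : b ≡ m [MOD l] := by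
  have h4 := (hx.isUnit hl)
  have h5 : IsPrimitiveRoot h4.unit l := by
    rw [← IsPrimitiveRoot.coe_units_iff]
    exact hx
  have h6 : h4.unit ^ b = h4.unit ^ m := by
    apply Units.ext
    simpa using h
  rw [pow_eq_pow_iff_modEq] at h6
  rwa [← h5.eq_orderOf] at h6

theorem aut_eq_pow {F : Type*} [Field F] [Algebra F E] (s : E ≃ₐ[F] E) {l : ℕ} [NeZero l] {ζ : E}
    (hζ : IsPrimitiveRoot ζ l) (a : ℕ) (hs : s ζ = ζ ^ a) : ∀ x : E, x ^ l = 1 → s x = x ^ a := by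
  intro x hx
  obtain ⟨i, _, rfl⟩ := hζ.eq_pow_of_pow_eq_one hx
  rw [map_pow, hs, ← pow_mul, ← pow_mul, mul_comm]

theorem exists_aut_pow {F : Type*} [Field F] [Algebra F E] (s : E ≃ₐ[F] E) {l : ℕ} [NeZero l]
    {ζ : E} (hζ : IsPrimitiveRoot ζ l) : ∃ a : ℕ, s ζ = ζ ^ a := by
  obtain ⟨i, _, hi⟩ := hζ.eq_pow_of_pow_eq_one (ξ := s ζ) (by
    rw [← map_pow, hζ.pow_eq_one, map_one])
  exact ⟨i, hi.symm⟩

theorem smul_int_eq {F : Type*} [Field F] [Algebra F E] (s : E ≃ₐ[F] E) {ζ : E} {ξ : 𝓞 E}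
    (hξ : algebraMap (𝓞 E) E ξ = ζ) {b : ℕ} (hb : s ζ = ζ ^ b) : s • ξ = ξ ^ b := by
  apply NumberField.RingOfIntegers.coe_injective
  have h2 : algebraMap (𝓞 E) E (s • ξ) = s • algebraMap (𝓞 E) E ξ := coe_smul_int s ξ
  have h3 : algebraMap (𝓞 E) E (ξ ^ b) = (algebraMap (𝓞 E) E ξ) ^ b := map_pow _ _ _
  refine h2.trans ?_
  rw [hξ]
  refine Eq.trans ?_ h3.symm
  rw [hξ]
  exact hb

/-- a primitive root of unity as an algebraic integer -/
theorem exists_int_root {l : ℕ} (hl : l ≠ 0) {ζ : E} (hζ : IsPrimitiveRoot ζ l) :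
    ∃ ξ : 𝓞 E, IsPrimitiveRoot ξ l ∧ algebraMap (𝓞 E) E ξ = ζ := by
  refine ⟨⟨ζ, hζ.isIntegral (Nat.pos_of_ne_zero hl)⟩, ?_, rfl⟩
  exact (IsPrimitiveRoot.map_iff_of_injective
    (f := algebraMap (𝓞 E) E) NumberField.RingOfIntegers.coe_injective).1 hζ

end

section

variable {F₁ E₁ F₂ E₂ : Type*} [Field F₁] [NumberField F₁] [Field E₁] [CharZero E₁]
  [Algebra F₁ E₁] [IsGalois F₁ E₁] [Field F₂] [Field E₂] [CharZero E₂] [Algebra F₂ E₂]
  [IsGalois F₂ E₂]

/-- cyclotomic compatibility at one level -/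
def CycAt (α : (E₁ ≃ₐ[F₁] E₁) →* (E₂ ≃ₐ[F₂] E₂)) (l : ℕ) : Prop :=
  ∀ (s : E₁ ≃ₐ[F₁] E₁) (a : ℕ), (∀ ζ : E₁, ζ ^ l = 1 → s ζ = ζ ^ a) →
    ∀ ζ : E₂, ζ ^ l = 1 → α s ζ = ζ ^ a

/-- the conclusion of the local correspondence at one place: the decomposition group goes into a
decomposition group -/
def DecAt (α : (E₁ ≃ₐ[F₁] E₁) →* (E₂ ≃ₐ[F₂] E₂)) (P : Place E₁) (Q : Place E₂) : Prop :=
  ∀ d : E₁ ≃ₐ[F₁] E₁, d • P = P → α d • Q = Q

/-- the image of the inertia group of `P` has order divisible by `r` at a finite level -/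
def RamAt (α : (E₁ ≃ₐ[F₁] E₁) →* (E₂ ≃ₐ[F₂] E₂)) (r : ℕ) (P : Place E₁) : Prop :=
  ∃ s : E₁ ≃ₐ[F₁] E₁, (∀ x : 𝓞 E₁, s • x - x ∈ P.ideal) ∧
    ∃ N : Subgroup (E₂ ≃ₐ[F₂] E₂), N.Normal ∧ IsOpen (N : Set (E₂ ≃ₐ[F₂] E₂)) ∧
      ∀ n : ℕ, (α s) ^ n ∈ N → r ∣ n

/-- the cyclotomic part: `RamAt` for every prime `r ∣ p - 1` -/
theorem ramAt_of_dvd (α : (E₁ ≃ₐ[F₁] E₁) →* (E₂ ≃ₐ[F₂] E₂)) (p : ℕ) [hp : Fact p.Prime]
    (hroot₁ : ∃ ζ : E₁, IsPrimitiveRoot ζ p) (hroot₂ : ∃ ζ : E₂, IsPrimitiveRoot ζ p)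
    (cyc : CycAt α p) (hd : ¬ (p : ℤ) ∣ discr F₁) (P : Place E₁) (hP : (p : 𝓞 E₁) ∈ P.ideal)
    (r : ℕ) (hr : r.Prime) (hrp : r ∣ p - 1) :
    ∃ s : E₁ ≃ₐ[F₁] E₁, (∀ x : 𝓞 E₁, s • x - x ∈ P.ideal) ∧
      (∀ (ζ : E₂), IsPrimitiveRoot ζ p → α s ζ ≠ ζ) ∧
    ∃ N : Subgroup (E₂ ≃ₐ[F₂] E₂), N.Normal ∧ IsOpen (N : Set (E₂ ≃ₐ[F₂] E₂)) ∧
      ∀ n : ℕ, (α s) ^ n ∈ N → r ∣ n := by
  classical
  haveI : NeZero p := ⟨hp.out.ne_zero⟩
  haveI : Fact r.Prime := ⟨hr⟩
  obtain ⟨ζ₁, hζ₁⟩ := hroot₁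
  obtain ⟨ζ₂, hζ₂⟩ := hroot₂
  -- an element of order `r`
  obtain ⟨u, hu⟩ := exists_prime_orderOf_dvd_card (G := (ZMod p)ˣ) r (by
    rw [ZMod.card_units p]; exact hrp)
  set a : ℕ := (u : ZMod p).val with ha
  have hau : ((a : ℕ) : ZMod p) = (u : ZMod p) := by rw [ha, ZMod.natCast_zmod_val]
  have hpa : ¬ p ∣ a := by
    intro h
    have h1 : ((a : ℕ) : ZMod p) = 0 := (ZMod.natCast_eq_zero_iff _ _).2 h
    rw [hau] at h1
    exact u.ne_zero h1
  obtain ⟨s, hs, hsP⟩ := LCIneBx925.exists_inertia p hζ₁ hd P hP a hpa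
  have h1 : ∀ ζ : E₂, ζ ^ p = 1 → α s ζ = ζ ^ a := cyc s a (aut_eq_pow s hζ₁ a hs)
  have hord : ∀ n : ℕ, ∀ ζ : E₂, IsPrimitiveRoot ζ p → ((α s) ^ n) ζ = ζ → r ∣ n := by
    intro n ζ hζ hn
    have h2 : ∀ n : ℕ, ((α s) ^ n) ζ = ζ ^ (a ^ n) := by
      intro n
      induction n with
      | zero => simp
      | succ n ih =>
        rw [pow_succ', AlgEquiv.mul_apply, ih, map_pow, h1 ζ hζ.pow_eq_one, ← pow_mul, pow_succ,
          mul_comm]
    rw [h2] at hn
    have h3 : ζ ^ (a ^ n) = ζ ^ 1 := by rw [hn, pow_one]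
    have h4 : a ^ n ≡ 1 [MOD p] := modEq_of_pow_eq hp.out.ne_zero hζ h3
    have h5 : (u : ZMod p) ^ n = 1 := by
      have := (ZMod.natCast_eq_natCast_iff _ _ _).2 h4
      rwa [Nat.cast_pow, hau, Nat.cast_one] at this
    have h6 : u ^ n = 1 := by
      apply Units.ext
      rw [Units.val_pow_eq_pow_val, h5, Units.val_one]
    rw [← hu]
    exact orderOf_dvd_of_pow_eq_one h6
  refine ⟨s, hsP, ?_, ?_⟩
  · intro ζ hζ h
    have := hord 1 ζ hζ (by simpa using h)
    exact hr.one_lt.ne' (Nat.dvd_one.1 this)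
  · refine ⟨MulAction.stabilizer (E₂ ≃ₐ[F₂] E₂) ζ₂, ?_, ?_, ?_⟩
    · constructor
      intro g hg h
      rw [MulAction.mem_stabilizer_iff] at hg ⊢
      obtain ⟨b, hb⟩ := exists_aut_pow h⁻¹ hζ₂
      change g ζ₂ = ζ₂ at hg
      change h (g (h⁻¹ ζ₂)) = ζ₂
      rw [hb, map_pow, hg, ← hb]
      rw [← AlgEquiv.mul_apply, mul_inv_cancel, AlgEquiv.one_apply]
    · exact stabilizer_isOpen_of_isIntegral (K := F₂) (L := E₂) ζ₂
    · intro n hn
      exact hord n ζ₂ hζ₂ hn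

/-- **BLOCK LC.** -/
theorem main (α : (E₁ ≃ₐ[F₁] E₁) →* (E₂ ≃ₐ[F₂] E₂)) (S : Finset ℕ)
    (hroot₁ : ∀ l : ℕ, l.Prime → ∃ ζ : E₁, IsPrimitiveRoot ζ l)
    (hroot₂ : ∀ l : ℕ, l.Prime → ∃ ζ : E₂, IsPrimitiveRoot ζ l)
    (cyc : ∀ l : ℕ, l.Prime → l ∉ S → CycAt α l)
    (p : ℕ) [hp : Fact p.Prime] (hpS : p ∉ S) (hd : ¬ (p : ℤ) ∣ discr F₁)
    (r : ℕ) (hr : r.Prime) (hrp : r ∣ p - 1)
    (P : Place E₁) (hP : (p : 𝓞 E₁) ∈ P.ideal)
    (loc : RamAt α r P → ∃ Q : Place E₂, DecAt α P Q) :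
    ∃ Q : Place E₂, (p : 𝓞 E₂) ∈ Q.ideal ∧ DecAt α P Q ∧
      ∀ d : E₁ ≃ₐ[F₁] E₁, (∀ x : 𝓞 E₁, d • x - x ^ p ∈ P.ideal) →
        ∀ x : 𝓞 E₂, (α d) • x - x ^ p ∈ Q.ideal := by
  classical
  haveI : NeZero p := ⟨hp.out.ne_zero⟩
  obtain ⟨s, hsP, hsne, hN⟩ := ramAt_of_dvd α p (hroot₁ p hp.out) (hroot₂ p hp.out)
    (cyc p hp.out hpS) hd P hP r hr hrp
  obtain ⟨Q, hQ⟩ := loc ⟨s, hsP, hN⟩
  have hPp : P.rchar = p := P.rchar_eq_of_mem hp.out hP
  -- Galois action by `d`: what happens at level `l`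
  have lvl : ∀ (d : E₁ ≃ₐ[F₁] E₁) (m : ℕ), (∀ x : 𝓞 E₁, d • x - x ^ m ∈ P.ideal) →
      ∀ l : ℕ, l.Prime → l ∉ S → l ≠ p → ∀ ζ : E₂, ζ ^ l = 1 → α d ζ = ζ ^ m := by
    intro d m hdm l hl hlS hlp
    apply cyc l hl hlS
    haveI : NeZero l := ⟨hl.ne_zero⟩
    obtain ⟨ζ, hζ⟩ := hroot₁ l hl
    apply aut_eq_pow d hζ
    obtain ⟨ξ, hξ, hξζ⟩ := exists_int_root hl.ne_zero hζ
    obtain ⟨b, hb⟩ := exists_aut_pow d hζ
    -- `d ξ = ξ ^ b` and `d ξ ≡ ξ ^ m`
    have h1 : d • ξ = ξ ^ b := smul_int_eq d hξζ hb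
    have h2 : Ideal.Quotient.mk P.ideal ξ ^ b = Ideal.Quotient.mk P.ideal ξ ^ m := by
      have := (Ideal.Quotient.eq).2 (hdm ξ)
      rwa [h1, map_pow, map_pow] at this
    have hprim := LCPlx925.mk_primitive P hl (by rw [hPp]; exact hlp) hξ
    have h3 : b ≡ m [MOD l] := modEq_of_pow_eq hl.ne_zero hprim h2
    rw [hb]
    exact pow_eq_pow_of_modEq h3 hζ.pow_eq_one
  have hSd : ∀ d : E₁ ≃ₐ[F₁] E₁, d • P = P → ∀ x ∈ Q.ideal, (α d) • x ∈ Q.ideal := by
    intro d hdP x hx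
    have h1 := congrArg Place.ideal (hQ d hdP)
    rw [Place.smul_ideal] at h1
    rw [← h1]
    exact Ideal.smul_mem_pointwise_smul _ _ _ hx
  -- the residue characteristic of `Q` is `p`
  have hQp : Q.rchar = p := by
    by_contra hne
    obtain ⟨ζ, hζ⟩ := hroot₂ p hp.out
    obtain ⟨ξ, hξ, hξζ⟩ := exists_int_root hp.out.ne_zero hζ
    have hagree := LCPlx925.eq_of_agree Q (insert p S)
      (MulSemiringAction.toRingHom (E₂ ≃ₐ[F₂] E₂) (𝓞 E₂) (α s)) (RingHom.id _)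
      (fun x hx => hSd s (inertia_stab P s hsP) x hx) (fun x hx => hx) ?_ ξ
    · have h1 : (α s) • ξ - ξ ∈ Q.ideal := hagree
      obtain ⟨b, hb⟩ := exists_aut_pow (α s) hζ
      have h2 : (α s) • ξ = ξ ^ b := smul_int_eq _ hξζ hb
      rw [h2] at h1
      have h3 : Ideal.Quotient.mk Q.ideal ξ ^ b = Ideal.Quotient.mk Q.ideal ξ ^ 1 := by
        have := (Ideal.Quotient.eq).2 h1
        rwa [map_pow, ← pow_one (Ideal.Quotient.mk Q.ideal ξ), ← pow_mul, one_mul] at this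
      have hprim := LCPlx925.mk_primitive Q hp.out (fun h => hne h.symm) hξ
      have h4 : b ≡ 1 [MOD p] := modEq_of_pow_eq hp.out.ne_zero hprim h3
      apply hsne ζ hζ
      rw [hb, pow_eq_pow_of_modEq h4 hζ.pow_eq_one, pow_one]
    · intro l hl hlS _
      rw [Finset.mem_insert, not_or] at hlS
      obtain ⟨ζ', hζ'⟩ := hroot₂ l hl
      obtain ⟨ξ', hξ', hξζ'⟩ := exists_int_root hl.ne_zero hζ'
      refine ⟨ξ', hξ', ?_⟩
      have h1 := lvl s 1 (fun x => by simpa using hsP x) l hl hlS.2 hlS.1 ζ' hζ'.pow_eq_one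
      have h2 : (α s) • ξ' = ξ' := by
        have := smul_int_eq (α s) hξζ' h1
        rwa [pow_one] at this
      change (α s) • ξ' - ξ' ∈ Q.ideal
      rw [h2, sub_self]
      exact Q.ideal.zero_mem
  refine ⟨Q, by rw [Q.natCast_mem_iff, hQp], hQ, ?_⟩
  intro d hdF x
  haveI := LCPlx925.charP_residue Q
  -- the `p`-power map on the residue field: use the quotient
  haveI := Q.isMaximal
  letI : Field (𝓞 E₂ ⧸ Q.ideal) := Ideal.Quotient.field Q.ideal
  haveI : Fact Q.rchar.Prime := ⟨Q.rchar_prime⟩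
  letI : Algebra (ZMod Q.rchar) (𝓞 E₂ ⧸ Q.ideal) := ZMod.algebra _ Q.rchar
  haveI : ExpChar (𝓞 E₂ ⧸ Q.ideal) Q.rchar := ExpChar.prime Q.rchar_prime
  let t : 𝓞 E₂ ⧸ Q.ideal →+* 𝓞 E₂ ⧸ Q.ideal :=
    Ideal.quotientMap Q.ideal (MulSemiringAction.toRingHom (E₂ ≃ₐ[F₂] E₂) (𝓞 E₂) (α d))
      (fun x hx => Ideal.mem_comap.2 (hSd d (frob_stab P d p hp.out.ne_zero hdF) x hx))
  have hint : IsIntegral (ZMod Q.rchar) (Ideal.Quotient.mk Q.ideal x) := by
    have h1 : IsIntegral ℤ x := NumberField.RingOfIntegers.isIntegral x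
    have h2 : IsIntegral ℤ (Ideal.Quotient.mk Q.ideal x) :=
      h1.map (Ideal.Quotient.mkₐ ℤ Q.ideal)
    exact h2.tower_top
  have key := LCResBx925.eq_of_eq_of_isIntegral Q.rchar t
    (frobenius (𝓞 E₂ ⧸ Q.ideal) Q.rchar) (insert p S) ?_ _ hint
  · rw [frobenius_def, ← map_pow, hQp] at key
    exact (Ideal.Quotient.eq).1 key
  · intro l hl hlS _
    rw [Finset.mem_insert, not_or] at hlS
    obtain ⟨ζ', hζ'⟩ := hroot₂ l hl
    obtain ⟨ξ', hξ', hξζ'⟩ := exists_int_root hl.ne_zero hζ'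
    refine ⟨Ideal.Quotient.mk Q.ideal ξ', LCPlx925.mk_primitive Q hl
      (by rw [hQp]; exact hlS.1) hξ', ?_⟩
    have h1 := lvl d p hdF l hl hlS.2 hlS.1 ζ' hζ'.pow_eq_one
    have h2 : (α d) • ξ' = ξ' ^ p := smul_int_eq (α d) hξζ' h1
    rw [frobenius_def, hQp, ← map_pow, ← h2]
    rfl

end

end Crest.Agent.R018.LCMainx925
end

-- ▼ part R018/LCEnd_925

/-!
# Row 18: BLOCK LC in the form used by the end game (helper925)

* `lc` : [weak cyclotomic compatibility] + [local correspondence] ⟹ `EndDefx924.LC`.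
-/

set_option autoImplicit false

open NumberField Ideal
open scoped Pointwise Topology
open Crest.Agent.R018.Placesx484
open Crest.Agent.R018.LCMainx925
open Crest.Agent.R018.EndDefx924

namespace Crest.Agent.R018.LCEndx925

/-- the two rings of algebraic integers -/
def toOO (E : Type*) [Field E] : 𝓞 E ≃+* OO E := RingEquiv.refl (integralClosure ℤ E)

theorem coe_toOO {E : Type*} [Field E] (x : 𝓞 E) : ((toOO E x : OO E) : E) = algebraMap (𝓞 E) E x :=
  rfl

theorem toOO_smul {F E : Type*} [Field F] [Field E] [Algebra F E] (g : E ≃ₐ[F] E) (x : 𝓞 E) :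
    toOO E (g • x) = mapO (g : E →+* E) (toOO E x) := by
  apply Subtype.ext
  rw [coe_toOO, coe_smul_int, coe_mapO, coe_toOO]
  rfl

/-- the place attached to a geometric place -/
noncomputable def placeOf {E : Type*} [Field E] [CharZero E] (p : ℕ) [hp : Fact p.Prime]
    (l : Pl p E) : Place E where
  ideal := RingHom.ker (l.comp (toOO E : 𝓞 E →+* OO E))
  isPrime := RingHom.ker_isPrime _
  ne_bot := by
    intro h
    have h1 : (p : 𝓞 E) ∈ RingHom.ker (l.comp (toOO E : 𝓞 E →+* OO E)) := by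
      rw [RingHom.mem_ker, map_natCast, ← map_natCast (algebraMap (ZMod p) _), ZMod.natCast_self,
        map_zero]
    rw [h, Ideal.mem_bot] at h1
    exact hp.out.ne_zero (by exact_mod_cast h1)

theorem mem_placeOf {E : Type*} [Field E] [CharZero E] (p : ℕ) [hp : Fact p.Prime]
    (l : Pl p E) (x : 𝓞 E) : x ∈ (placeOf p l).ideal ↔ l (toOO E x) = 0 := by
  change x ∈ RingHom.ker (l.comp (toOO E : 𝓞 E →+* OO E)) ↔ _
  rw [RingHom.mem_ker]
  rfl

theorem natCast_mem_placeOf {E : Type*} [Field E] [CharZero E] (p : ℕ) [hp : Fact p.Prime]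
    (l : Pl p E) : (p : 𝓞 E) ∈ (placeOf p l).ideal := by
  rw [mem_placeOf, map_natCast, map_natCast, ← map_natCast (algebraMap (ZMod p) _),
    ZMod.natCast_self, map_zero]

/-- every place above `p` comes from a geometric place -/
theorem exists_geom {E : Type*} [Field E] [CharZero E] (p : ℕ) [hp : Fact p.Prime]
    (Q : Place E) (hQ : (p : 𝓞 E) ∈ Q.ideal) :
    ∃ l : Pl p E, ∀ x : 𝓞 E, x ∈ Q.ideal → l (toOO E x) = 0 := by
  haveI := Q.isMaximal
  letI : Field (𝓞 E ⧸ Q.ideal) := Ideal.Quotient.field Q.ideal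
  have hQp : Q.rchar = p := Q.rchar_eq_of_mem hp.out hQ
  haveI : CharP (𝓞 E ⧸ Q.ideal) p := hQp ▸ LCPlx925.charP_residue Q
  letI : Algebra (ZMod p) (𝓞 E ⧸ Q.ideal) := ZMod.algebra _ p
  haveI : Algebra.IsAlgebraic (ZMod p) (𝓞 E ⧸ Q.ideal) := by
    haveI : Algebra.IsIntegral (ZMod p) (𝓞 E ⧸ Q.ideal) := by
      constructor
      intro y
      obtain ⟨x, rfl⟩ := Ideal.Quotient.mk_surjective y
      have h1 : IsIntegral ℤ x := NumberField.RingOfIntegers.isIntegral x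
      have h2 : IsIntegral ℤ (Ideal.Quotient.mk Q.ideal x) :=
        h1.map (Ideal.Quotient.mkₐ ℤ Q.ideal)
      exact h2.tower_top
    infer_instance
  let f : 𝓞 E ⧸ Q.ideal →ₐ[ZMod p] AlgebraicClosure (ZMod p) := IsAlgClosed.lift
  refine ⟨(f : 𝓞 E ⧸ Q.ideal →+* AlgebraicClosure (ZMod p)).comp
    ((Ideal.Quotient.mk Q.ideal).comp ((toOO E).symm : OO E →+* 𝓞 E)), ?_⟩
  intro x hx
  have h1 : Ideal.Quotient.mk Q.ideal x = 0 := Ideal.Quotient.eq_zero_iff_mem.2 hx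
  change f (Ideal.Quotient.mk Q.ideal ((toOO E).symm (toOO E x))) = 0
  rw [RingEquiv.symm_apply_apply, h1, map_zero]

theorem isAlgebraic_of (F Ω : Type*) [Field F] [CharZero F] [Field Ω] [Algebra F Ω]
    (inst : Algebra ℚ Ω) (h : Algebra.IsAlgebraic ℚ Ω) : Algebra.IsAlgebraic F Ω := by
  haveI : IsScalarTower ℚ F Ω := by
    apply IsScalarTower.of_algebraMap_eq
    intro x
    exact RingHom.congr_fun (Subsingleton.elim (algebraMap ℚ Ω)
      ((algebraMap F Ω).comp (algebraMap ℚ F))) x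
  exact Algebra.IsAlgebraic.tower_top (K := ℚ) F

theorem isGalois_Om (F : Type*) [Field F] [CharZero F] [Algebra F Om] : IsGalois F Om := by
  haveI : Algebra.IsAlgebraic F Om :=
    isAlgebraic_of F Om _ (AlgebraicClosure.isAlgebraic ℚ)
  haveI : IsAlgClosure F Om := ⟨inferInstance, inferInstance⟩
  infer_instance

/-- **BLOCK LC**, final form. -/
theorem lc {F₁ F₂ E₂ : Type*} [Field F₁] [NumberField F₁] [Algebra F₁ Om] [Field F₂] [Field E₂]
    [CharZero E₂] [Algebra F₂ E₂] [IsGalois F₂ E₂]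
    (α : (Om ≃ₐ[F₁] Om) →* (E₂ ≃ₐ[F₂] E₂)) (S : Finset ℕ)
    (hroot₂ : ∀ l : ℕ, l.Prime → ∃ ζ : E₂, IsPrimitiveRoot ζ l)
    (cyc : ∀ l : ℕ, l.Prime → l ∉ S → ∀ (s : Om ≃ₐ[F₁] Om) (a : ℕ),
      (∀ ζ : Om, ζ ^ l = 1 → s ζ = ζ ^ a) → ∀ ζ : E₂, ζ ^ l = 1 → α s ζ = ζ ^ a)
    (loc : ∀ r : ℕ, r.Prime → r ≠ 2 → ∀ P : Place Om, P.rchar ≠ r →
      (∃ s : Om ≃ₐ[F₁] Om, (∀ x : 𝓞 Om, s • x - x ∈ P.ideal) ∧
        ∃ N : Subgroup (E₂ ≃ₐ[F₂] E₂), N.Normal ∧ IsOpen (N : Set (E₂ ≃ₐ[F₂] E₂)) ∧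
          ∀ n : ℕ, (α s) ^ n ∈ N → r ∣ n) →
      ∃ Q : Place E₂, ∀ d : Om ≃ₐ[F₁] Om, d • P = P → α d • Q = Q) :
    ∃ B : ℕ, LC {p : ℕ | B < p ∧ ∃ r : ℕ, r.Prime ∧ r ≠ 2 ∧ r ∣ p - 1} α := by
  haveI : IsGalois F₁ Om := isGalois_Om F₁
  refine ⟨max (S.sup id) (discr F₁).natAbs, ?_⟩
  intro p hp hpPP g hg
  obtain ⟨hB, r, hr, hr2, hrp⟩ := hpPP
  have hpS : p ∉ S := by
    intro h
    have h1 : p ≤ S.sup id := Finset.le_sup (f := id) h
    have h2 := lt_of_le_of_lt (le_max_left (S.sup id) (discr F₁).natAbs) hB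
    omega
  have hd : ¬ (p : ℤ) ∣ discr F₁ := by
    intro h
    have h1 := Int.natAbs_dvd_natAbs.mpr h
    rw [Int.natAbs_natCast] at h1
    have h2 := Nat.le_of_dvd (Int.natAbs_pos.mpr (discr_ne_zero F₁)) h1
    have h3 := lt_of_le_of_lt (le_max_right (S.sup id) (discr F₁).natAbs) hB
    omega
  obtain ⟨l, hl⟩ := hg
  have hP := natCast_mem_placeOf p l
  have hPp : (placeOf p l).rchar = p := (placeOf p l).rchar_eq_of_mem hp.out hP
  have hr1 : p ≠ r := by
    have := hp.out.one_lt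
    have h1 := Nat.le_of_dvd (by omega) hrp
    omega
  have hroot₁ : ∀ l : ℕ, l.Prime → ∃ ζ : Om, IsPrimitiveRoot ζ l := by
    intro l hl
    haveI : NeZero (l : Om) := ⟨by exact_mod_cast hl.ne_zero⟩
    exact HasEnoughRootsOfUnity.exists_primitiveRoot Om l
  obtain ⟨Q, hQ, -, hQ2⟩ := main α S hroot₁ hroot₂ cyc p hpS hd r hr hrp (placeOf p l) hP
    (loc r hr hr2 _ (by rw [hPp]; exact hr1))
  have hfrob : ∀ x : 𝓞 Om, g • x - x ^ p ∈ (placeOf p l).ideal := by
    intro x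
    rw [mem_placeOf, map_sub, map_sub, toOO_smul, map_pow, map_pow, sub_eq_zero]
    exact hl _
  have h2 := hQ2 g hfrob
  obtain ⟨l', hl'⟩ := exists_geom p Q hQ
  refine ⟨l', ?_⟩
  intro y
  obtain ⟨x, rfl⟩ := (toOO E₂).surjective y
  have h3 := hl' _ (h2 x)
  rw [map_sub, map_sub, toOO_smul, map_pow, map_pow, sub_eq_zero] at h3
  exact h3

end Crest.Agent.R018.LCEndx925
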