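import Mathlib
import Crest.Agent.R018.EndA_245
import Crest.Agent.R018.EndB_924
import Crest.Agent.R018.FDAdapt_389
import Crest.Agent.R018.Core_74
import Crest.Agent.R018.CycFT_925
import Crest.Agent.R018.PowResA_693
import Crest.Agent.R018.EndA_924
import Crest.Agent.R018.LChoiceDef_693
import Crest.Agent.R018.DegThm_614
import Crest.Agent.R018.RedA_49
import Crest.Agent.R018.TgtT_656
import Crest.Agent.R018.Kum_568
import Crest.Prelude.Def_SolvClosed
import Crest.Agent.R018.TameF_31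
import Crest.Agent.R018.LCEnd_925
import Crest.Agent.R018.Places3_484
import Crest.Agent.R018.FDE_389
import Crest.Agent.R018.Frobenius_389
import Crest.Agent.R018.CA_933

-- ▼ part R018/EndA2_245
section

/-!
# Row 18, end game, part A, surjectivity-side form (helper245)

`exists_global_embedding_sub`: the version of the end game needed by THEOREM U of the CORE text:
`H ≤ Gal(Ω/F₁)` of finite index, `φ i : H ≃* H` a finite family of automorphisms (conjugations by
elements of `Gal(Ω/ℚ)`), and for every `g ∈ H` ONE of the `φ i g` is pointwise good (at every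
finite level).  Then there is a global embedding `j`.
-/

set_option autoImplicit false

namespace Crest.Agent.R018.EndA2x245

open Crest.Agent.R018.EndAx245
open scoped Pointwise

section unique

variable {F₁ F₂ Ω E₂ : Type*} [Field F₁] [NumberField F₁] [Field F₂] [NumberField F₂] [Field Ω]
  [Field E₂] [Algebra F₁ Ω] [Algebra F₂ E₂]
  {α : (Ω ≃ₐ[F₁] Ω) →* (E₂ ≃ₐ[F₂] E₂)} {K : IntermediateField F₂ E₂}

/-- **existence** (B. H. Neumann), general form: a subgroup `H` of finite index, finitely many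
group automorphisms `φ i` of `H` of which one makes `g` pointwise good: some `C(e)` has finite
index in the whole group. -/
theorem exists_finiteIndex_sub [FiniteDimensional F₂ K] [Normal F₂ K]
    (H : Subgroup (Ω ≃ₐ[F₁] Ω)) (hH : H.FiniteIndex)
    {I : Type*} [Finite I] (φ : I → (H ≃* H))
    (hpt : ∀ g : H, ∃ i, ∃ e : E₂ →+* Ω, ∀ x,
      (φ i g : Ω ≃ₐ[F₁] Ω) (e x) = e (α (φ i g : Ω ≃ₐ[F₁] Ω) x)) :
    ∃ e : E₂ →+* Ω, (C α K e).FiniteIndex := by
  classical
  have hKn : NumberField K := NumberField.of_module_finite F₂ K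
  have hchar : CharZero Ω := charZero_of_injective_algebraMap (algebraMap F₁ Ω).injective
  let U : I → Subgroup H := fun i =>
    ((((AlgEquiv.restrictNormalHom K).comp α).comp H.subtype).comp (φ i).toMonoidHom).ker
  have hUf : ∀ i, (U i).FiniteIndex := fun i => Subgroup.finiteIndex_ker _
  have hU : ∀ i, ∀ g ∈ U i, ∀ x ∈ K, α (φ i g : Ω ≃ₐ[F₁] Ω) x = x := by
    intro i g hg x hx
    rw [MonoidHom.mem_ker, MonoidHom.comp_apply, MonoidHom.comp_apply, MonoidHom.comp_apply] at hg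
    have h1 := AlgEquiv.restrictNormal_commutes (α (φ i g : Ω ≃ₐ[F₁] Ω)) K ⟨x, hx⟩
    have h2 : (α (φ i g : Ω ≃ₐ[F₁] Ω)).restrictNormal K = 1 := hg
    rw [h2] at h1
    exact h1.symm
  let U' : Subgroup H := ⨅ i, U i
  have hU'f : U'.FiniteIndex := Subgroup.finiteIndex_iInf hUf
  have hQ : Finite (H ⧸ U') := inferInstance
  let T := {f : K →+* Ω // ∃ e : E₂ →+* Ω, e.comp (algebraMap K E₂) = f}
  have hT : Finite T := inferInstance
  let ext : T → (E₂ →+* Ω) := fun f => f.2.choose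
  have hext : ∀ f : T, (ext f).comp (algebraMap K E₂) = f.1 := fun f => f.2.choose_spec
  have : Fintype ((H ⧸ U') × (I × T)) := Fintype.ofFinite _
  have hcov : ⋃ i ∈ (Finset.univ : Finset ((H ⧸ U') × (I × T))),
      (i.1.out : H) • ((((C α K (ext i.2.2)).comap H.subtype).comap (φ i.2.1).toMonoidHom :
        Subgroup H) : Set H) = Set.univ := by
    rw [Set.eq_univ_iff_forall]
    intro g
    set q : H ⧸ U' := QuotientGroup.mk g with hq
    have hu : q.out⁻¹ * g ∈ U' := by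
      rw [← QuotientGroup.eq, QuotientGroup.out_eq']
    obtain ⟨i, e, he⟩ := hpt (q.out⁻¹ * g)
    have hui : q.out⁻¹ * g ∈ U i := (Subgroup.mem_iInf.mp hu) i
    have heC : (φ i (q.out⁻¹ * g) : Ω ≃ₐ[F₁] Ω) ∈ C α K e := ⟨hU i _ hui, fun t _ => he t⟩
    let f : T := ⟨e.comp (algebraMap K E₂), e, rfl⟩
    have hfe : ∀ x ∈ K, e x = ext f x := by
      intro x hx
      have := congrArg (fun φ : K →+* Ω => φ ⟨x, hx⟩) (hext f)
      exact this.symm
    rw [C_congr hfe] at heC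
    simp only [Set.mem_iUnion, Finset.mem_univ, exists_true_left]
    refine ⟨(q, (i, f)), ?_⟩
    rw [mem_leftCoset_iff]
    exact heC
  obtain ⟨i, -, hi⟩ := Subgroup.exists_finiteIndex_of_leftCoset_cover hcov
  refine ⟨ext i.2.2, ⟨?_⟩⟩
  have h1 := hi.index_ne_zero
  rw [Subgroup.index_comap_of_surjective _ (φ i.2.1).surjective] at h1
  -- `(C.comap H.subtype).index ≠ 0` means `C.relIndex H ≠ 0`
  have h2 : (C α K (ext i.2.2)).relIndex H ≠ 0 := h1
  have h3 := Subgroup.relIndex_mul_index (inf_le_right : C α K (ext i.2.2) ⊓ H ≤ H)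
  rw [Subgroup.inf_relIndex_right] at h3
  have h4 : (C α K (ext i.2.2) ⊓ H).index ≠ 0 := by
    rw [← h3]; exact mul_ne_zero h2 hH.index_ne_zero
  intro h5
  apply h4
  have h6 := Subgroup.relIndex_mul_index (inf_le_left : C α K (ext i.2.2) ⊓ H ≤ C α K (ext i.2.2))
  rw [h5, mul_zero] at h6
  exact h6.symm

end unique

section main

variable {F₁ F₂ Ω E₂ : Type*} [Field F₁] [NumberField F₁] [Field F₂] [NumberField F₂] [Field Ω]
  [Field E₂] [Algebra F₁ Ω] [Algebra F₂ E₂] [IsGalois F₁ Ω] [IsGalois F₂ E₂]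
  {α : (Ω ≃ₐ[F₁] Ω) →* (E₂ ≃ₐ[F₂] E₂)}

/-- from "some `C(e)` of finite index for every finite normal `K`" to the global embedding -/
theorem exists_global_of_finiteIndex (hsq : ∀ x : E₂, ∃ y, y ^ 2 = x)
    (hfi : ∀ K : IntermediateField F₂ E₂, FiniteDimensional F₂ K → Normal F₂ K →
      ∃ e : E₂ →+* Ω, (C α K e).FiniteIndex) :
    ∃ e : E₂ →+* Ω, ∀ (g : Ω ≃ₐ[F₁] Ω) (x : E₂), g (e x) = e (α g x) := by
  classical
  -- local data
  have hex : ∀ x : E₂, ∃ z : Ω, ∀ K : IntermediateField F₂ E₂, FiniteDimensional F₂ K →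
      Normal F₂ K → x ∈ K → ∀ e : E₂ →+* Ω, (C α K e).FiniteIndex → e x = z := by
    intro x
    obtain ⟨K₀, hK₀, hK₀', hx, -⟩ := exists_normal_mem (F₂ := F₂) x x
    obtain ⟨e₀, he₀⟩ := hfi K₀ hK₀ hK₀'
    refine ⟨e₀ x, ?_⟩
    intro K hK hK' hxK e he
    -- compare on `K ⊓ K₀`
    have h1 : (C α (K ⊓ K₀) e).FiniteIndex :=
      Subgroup.finiteIndex_of_le (C_mono inf_le_left e)
    have h2 : (C α (K ⊓ K₀) e₀).FiniteIndex :=
      Subgroup.finiteIndex_of_le (C_mono inf_le_right e₀)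
    have h3 : FiniteDimensional F₂ ↥(K ⊓ K₀) :=
      FiniteDimensional.of_injective (IntermediateField.inclusion inf_le_left).toLinearMap
        (IntermediateField.inclusion_injective inf_le_left)
    exact eqOn_of_finiteIndex hsq h1 h2 x ⟨hxK, hx⟩
  choose j hj using hex
  -- for any finite normal `K` there is `e` with `j = e` on `K`
  have hloc : ∀ K : IntermediateField F₂ E₂, FiniteDimensional F₂ K → Normal F₂ K →
      ∃ e : E₂ →+* Ω, (∀ x ∈ K, j x = e x) ∧ ∀ g : Ω ≃ₐ[F₁] Ω, ∀ x ∈ K, g (e x) = e (α g x) := by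
    intro K hK hK'
    obtain ⟨e, he⟩ := hfi K hK hK'
    exact ⟨e, fun x hx => (hj x K hK hK' hx e he).symm, equivariant_of_finiteIndex hsq he⟩
  have hone : j 1 = 1 := by
    obtain ⟨K, hK, hK', -, -⟩ := exists_normal_mem (F₂ := F₂) (1 : E₂) 1
    obtain ⟨e, he, -⟩ := hloc K hK hK'
    rw [he _ K.one_mem, map_one]
  have hzero : j 0 = 0 := by
    obtain ⟨K, hK, hK', -, -⟩ := exists_normal_mem (F₂ := F₂) (1 : E₂) 1
    obtain ⟨e, he, -⟩ := hloc K hK hK'
    rw [he _ K.zero_mem, map_zero]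
  have hmul : ∀ x y, j (x * y) = j x * j y := by
    intro x y
    obtain ⟨K, hK, hK', hx, hy⟩ := exists_normal_mem (F₂ := F₂) x y
    obtain ⟨e, he, -⟩ := hloc K hK hK'
    rw [he _ (K.mul_mem hx hy), he _ hx, he _ hy, map_mul]
  have hadd : ∀ x y, j (x + y) = j x + j y := by
    intro x y
    obtain ⟨K, hK, hK', hx, hy⟩ := exists_normal_mem (F₂ := F₂) x y
    obtain ⟨e, he, -⟩ := hloc K hK hK'
    rw [he _ (K.add_mem hx hy), he _ hx, he _ hy, map_add]
  refine ⟨⟨⟨⟨j, hone⟩, hmul⟩, hzero, hadd⟩, ?_⟩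
  intro g x
  obtain ⟨K, hK, hK', hx, -⟩ := exists_normal_mem (F₂ := F₂) x x
  obtain ⟨e, he, he'⟩ := hloc K hK hK'
  change g (j x) = j (α g x)
  rw [he _ hx, he _ (mem_of_normal _ hx)]
  exact he' g x hx

omit [NumberField F₁] [IsGalois F₁ Ω] in
/-- compactness with a finite choice -/
theorem pointwise_of_finite_choice {I : Type*} [Finite I] [CharZero Ω]
    (ψ : I → (Ω ≃ₐ[F₁] Ω))
    (h : ∀ T : Finset E₂, ∃ i, ∃ e : E₂ →+* Ω, ∀ x ∈ T, (ψ i) (e x) = e (α (ψ i) x)) :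
    ∃ i, ∃ e : E₂ →+* Ω, ∀ x, (ψ i) (e x) = e (α (ψ i) x) := by
  classical
  by_contra hcon
  push Not at hcon
  have h1 : ∀ i, ∃ T : Finset E₂, ∀ e : E₂ →+* Ω, ∃ x ∈ T, (ψ i) (e x) ≠ e (α (ψ i) x) := by
    intro i
    by_contra h2
    push Not at h2
    obtain ⟨e, he⟩ := pointwise_of_finite (fun x => isAlgebraic_int (F := F₂) x) (ψ i)
      (α (ψ i)) h2
    obtain ⟨x, hx⟩ := hcon i e
    exact hx (he x)
  choose T hT using h1
  have : Fintype I := Fintype.ofFinite I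
  obtain ⟨i, e, he⟩ := h (Finset.univ.biUnion T)
  obtain ⟨x, hx, hx'⟩ := hT i e
  exact hx' (he x (Finset.mem_biUnion.mpr ⟨i, Finset.mem_univ i, hx⟩))

/-- **Part A of the end game, surjectivity-side form, finite level input.** -/
theorem exists_global_embedding_sub (hsq : ∀ x : E₂, ∃ y, y ^ 2 = x)
    (H : Subgroup (Ω ≃ₐ[F₁] Ω)) (hH : H.FiniteIndex)
    {I : Type*} [Finite I] (φ : I → (H ≃* H))
    (hpt : ∀ (g : H) (T : Finset E₂), ∃ i, ∃ e : E₂ →+* Ω, ∀ x ∈ T,
      (φ i g : Ω ≃ₐ[F₁] Ω) (e x) = e (α (φ i g : Ω ≃ₐ[F₁] Ω) x)) :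
    ∃ e : E₂ →+* Ω, ∀ (g : Ω ≃ₐ[F₁] Ω) (x : E₂), g (e x) = e (α g x) := by
  have hc : CharZero Ω := charZero_of_injective_algebraMap (algebraMap F₁ Ω).injective
  refine exists_global_of_finiteIndex hsq fun K hK hK' => ?_
  exact exists_finiteIndex_sub H hH φ fun g =>
    pointwise_of_finite_choice (fun i => (φ i g : Ω ≃ₐ[F₁] Ω)) (hpt g)

end main

end Crest.Agent.R018.EndA2x245
end

-- ▼ part R018/TheoremU_245
section

/-!
# Row 18: THEOREM U of the CORE text (helper245)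

`HU PP N₀ α` : for every finite `T ⊆ E₂`, for all large primes `q ∈ PP` which split completely in
the field generated by `N₀`, every `q`-Frobenius `β ∈ Gal(E₂/F₂)` agrees on `T` with a conjugate of
`α h`, `h ∈ Gal(Om/F₁)` a `q`-Frobenius.

`theoremU` : `HU` and Frobenius density imply the existence of `j`.
-/

set_option autoImplicit false

namespace Crest.Agent.R018.TheoremUx245

open Crest.Agent.R018.EndDefx924 Crest.Agent.R018.EndAx924 Crest.Agent.R018.EndBx924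
open Crest.Agent.R018.EndAx245 Crest.Agent.R018.EndA2x245
open Polynomial

/-- the hypothesis of THEOREM U -/
def HU {F₁ F₂ E₂ : Type*} [Field F₁] [Algebra F₁ Om] [Field F₂] [Field E₂] [Algebra F₂ E₂]
    (PP : Set ℕ) (N₀ : Set Om) (α : (Om ≃ₐ[F₁] Om) →* (E₂ ≃ₐ[F₂] E₂)) : Prop :=
  ∀ T : Finset E₂, ∃ B : ℕ, ∀ (q : ℕ) [Fact q.Prime], B < q → q ∈ PP →
    (∀ σ : Om ≃ₐ[ℚ] Om, IsFrob q (σ : Om →+* Om) → ∀ x ∈ N₀, σ x = x) →
    ∀ β : E₂ ≃ₐ[F₂] E₂, IsFrob q (β : E₂ →+* E₂) →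
      ∃ (h : Om ≃ₐ[F₁] Om) (γ : E₂ ≃ₐ[F₂] E₂), IsFrob q (h : Om →+* Om) ∧
        ∀ x ∈ T, α h x = γ (β (γ⁻¹ x))

/-! ### auxiliary facts -/

/-- a ring endomorphism of `Om` is an automorphism -/
theorem exists_algEquiv (e : Om →+* Om) : ∃ w : Om ≃ₐ[ℚ] Om, ∀ x, w x = e x := by
  refine ⟨AlgEquiv.ofBijective (e.toRatAlgHom)
    (Algebra.IsAlgebraic.algHom_bijective _), fun x => rfl⟩

/-- extension of an embedding of `F₁` to an automorphism of `Om` -/
theorem exists_extend {F₁ : Type*} [Field F₁] [NumberField F₁] [Algebra F₁ Om] (c : F₁ →+* Om) :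
    ∃ v : Om ≃ₐ[ℚ] Om, ∀ x : F₁, v (algebraMap F₁ Om x) = c x := by
  have : Algebra.IsAlgebraic F₁ Om := Algebra.IsAlgebraic.tower_top (K := ℚ) F₁
  obtain ⟨φ, hφ⟩ := IsAlgClosed.surjective_domRestrict_of_isAlgebraic (K := ℚ) (L := F₁) (M := Om)
    (E := Om) c.toRatAlgHom
  obtain ⟨v, hv⟩ := exists_algEquiv (φ : Om →+* Om)
  refine ⟨v, fun x => ?_⟩
  rw [hv]
  have := congrArg (fun f : F₁ →ₐ[ℚ] Om => f x) hφ
  exact this

/-- an automorphism of `Om` fixing `t(F₂)` induces one of the normal extension `E₂/F₂` -/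
theorem exists_restrict {F₂ E₂ : Type*} [Field F₂] [Field E₂] [Algebra F₂ E₂] [Normal F₂ E₂]
    (t : E₂ →+* Om) (φ : Om ≃ₐ[ℚ] Om)
    (hφ : ∀ x : F₂, φ (t (algebraMap F₂ E₂ x)) = t (algebraMap F₂ E₂ x)) :
    ∃ β : E₂ ≃ₐ[F₂] E₂, ∀ x, φ (t x) = t (β x) := by
  let _ : Algebra E₂ Om := t.toAlgebra
  let _ : Algebra F₂ Om := (t.comp (algebraMap F₂ E₂)).toAlgebra
  have : IsScalarTower F₂ E₂ Om := IsScalarTower.of_algebraMap_eq fun x => rfl
  let φ' : Om ≃ₐ[F₂] Om := AlgEquiv.ofRingEquiv (f := φ.toRingEquiv) hφ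
  refine ⟨φ'.restrictNormal E₂, fun x => ?_⟩
  exact (AlgEquiv.restrictNormal_commutes φ' E₂ x).symm

/-- two Frobenius elements at two places are conjugate at finite level -/
theorem exists_conj (S : Finset (OO Om))
    (hS : ∀ σ : Om →+* Om, ∀ x ∈ S, mapO σ x ∈ S) : ∃ B : ℕ, ∀ (q : ℕ) [Fact q.Prime], B < q →
      ∀ (l l' : Pl q Om) (φ h : Om →+* Om), IsFrobAt q l φ → IsFrobAt q l' h →
        ∃ w : Om ≃ₐ[ℚ] Om, ∀ x ∈ S, φ (w x) = w (h x) := by
  classical
  obtain ⟨B1, hB1⟩ := exists_embedding (E := Om) S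
  obtain ⟨B2, hB2⟩ := exists_bound_uniform S (fun p x => ∀ _ : Fact p.Prime, ∀ l : Pl p Om,
    ∀ a b : OO Om, eval₂ (Int.castRingHom (OO Om)) a (minpoly ℤ (x : Om)) = 0 →
      eval₂ (Int.castRingHom (OO Om)) b (minpoly ℤ (x : Om)) = 0 → l a = l b → a = b) (by
    intro x _
    obtain ⟨B, hB⟩ := roots_bound (E := Om) (minpoly ℤ (x : Om)) (minpoly.ne_zero x.2)
    exact ⟨B, fun p hp _ => hB p hp⟩)
  refine ⟨max B1 B2, fun q _ hq l l' φ h hφ hh => ?_⟩
  obtain ⟨e, he⟩ := hB1 q ((le_max_left _ _).trans_lt hq) l l'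
  obtain ⟨w, hw⟩ := exists_algEquiv e
  refine ⟨w, fun x hx => ?_⟩
  have h1 := hB2 x hx q ((le_max_right _ _).trans_lt hq) inferInstance l
      (mapO (φ.comp e) x) (mapO (e.comp h) x) (root_mapO _ x) (root_mapO _ x) (by
        rw [← mapO_comp, ← mapO_comp, hφ, he x hx, he _ (hS h x hx), hh])
  rw [hw, hw]
  exact congrArg (fun z : OO Om => (z : Om)) h1

theorem exists_conj_field (S : Finset Om) : ∃ B : ℕ, ∀ (q : ℕ) [Fact q.Prime], B < q →
      ∀ (l l' : Pl q Om) (φ h : Om →+* Om), IsFrobAt q l φ → IsFrobAt q l' h →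
        ∃ w : Om ≃ₐ[ℚ] Om, ∀ x ∈ S, φ (w x) = w (h x) := by
  classical
  have hmul : ∀ x : Om, ∃ m : ℤ, m ≠ 0 ∧ IsIntegral ℤ ((m : Om) * x) := by
    intro x
    have halg : IsAlgebraic ℤ x :=
      (IsFractionRing.isAlgebraic_iff ℤ ℚ Om).2 (Algebra.IsAlgebraic.isAlgebraic _)
    obtain ⟨a, ha, hint⟩ := halg.exists_integral_multiple
    exact ⟨a, ha, by rwa [zsmul_eq_mul] at hint⟩
  choose m hm hint using hmul
  let T1 : Finset (OO Om) := S.image fun x => (⟨(m x : Om) * x, hint x⟩ : OO Om)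
  obtain ⟨T', hT1, hT'⟩ := mem_closure_roots T1
  obtain ⟨B, hB⟩ := exists_conj T' hT'
  refine ⟨B, fun q _ hq l l' φ h hφ hh => ?_⟩
  obtain ⟨w, hw⟩ := hB q hq l l' φ h hφ hh
  refine ⟨w, fun x hx => ?_⟩
  have h1 := hw _ (hT1 (Finset.mem_image.2 ⟨x, hx, rfl⟩))
  simp only [map_mul, map_intCast] at h1
  have h2 : ((m x : ℤ) : Om) ≠ 0 := by exact_mod_cast hm x
  exact mul_left_cancel₀ h2 h1

theorem mem_of_normal' (K₀ : IntermediateField ℚ Om) [Normal ℚ K₀] (σ : Om ≃ₐ[ℚ] Om) {x : Om}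
    (hx : x ∈ K₀) : σ x ∈ K₀ := by
  have h1 := AlgEquiv.restrictNormal_commutes σ K₀ ⟨x, hx⟩
  have h2 : σ x = algebraMap K₀ Om ((σ.restrictNormal K₀) ⟨x, hx⟩) := by
    rw [h1]; rfl
  rw [h2]
  exact ((σ.restrictNormal K₀) ⟨x, hx⟩).2

section main

variable {F₁ F₂ E₂ : Type*} [Field F₁] [NumberField F₁] [Algebra F₁ Om] [Field F₂]
  [NumberField F₂] [Field E₂] [Algebra F₂ E₂] [Normal F₂ E₂]

theorem pointwise_integral_U {PP : Set ℕ} (α : (Om ≃ₐ[F₁] Om) →* (E₂ ≃ₐ[F₂] E₂))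
    (hα : Continuous α) (hFD : FD PP) (N₀ : Finset Om) (hHU : HU PP (N₀ : Set Om) α)
    (K₀ : IntermediateField ℚ Om) [FiniteDimensional ℚ K₀] [Normal ℚ K₀]
    (hK1 : ∀ x : F₁, algebraMap F₁ Om x ∈ K₀) (hK2 : ∀ (c : F₂ →+* Om) (x : F₂), c x ∈ K₀)
    (hK3 : ∀ x ∈ N₀, x ∈ K₀) (T : Finset (OO E₂))
    (hT : ∀ σ : E₂ ≃ₐ[F₂] E₂, ∀ x ∈ T, mapO (σ : E₂ →+* E₂) x ∈ T) (s : Om ≃ₐ[F₁] Om)
    (hs : ∀ x ∈ K₀, s x = x) :
    ∃ (w : Om ≃ₐ[ℚ] Om) (e : E₂ →+* Om), ∀ s' : Om ≃ₐ[F₁] Om,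
      (∀ x, s' x = w.symm (s (w x))) → ∀ x ∈ T, s' (e x) = e (α s' x) := by
  classical
  have : CharZero E₂ := charZero_of_injective_algebraMap (algebraMap F₂ E₂).injective
  have : Algebra.IsAlgebraic ℚ E₂ := Algebra.IsAlgebraic.trans ℚ F₂ E₂
  obtain ⟨S0, hS0⟩ := exists_finite_control α hα (T.image (fun x : OO E₂ => (x : E₂)))
  obtain ⟨S1, hS1⟩ := IntermediateField.essFiniteType_iff.mp (inferInstance : Algebra.EssFiniteType ℚ K₀)
  let S2 : Finset Om := T.biUnion fun x =>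
    ((minpoly ℤ (x : E₂)).map (Int.castRingHom Om)).roots.toFinset
  obtain ⟨N, _, hNG, hN⟩ := exists_level ℚ (S0 ∪ S1 ∪ S2)
  have hNG' : IsGalois ℚ N := by
    convert hNG
    exact Subsingleton.elim _ _
  have hNn : Normal ℚ N := hNG'.to_normal
  have hK₀N : ∀ x ∈ K₀, x ∈ N := by
    have h1 : K₀ ≤ N := by
      rw [← hS1, IntermediateField.adjoin_le_iff]
      intro x hx
      exact hN _ (Finset.mem_union_left _ (Finset.mem_union_right _ hx))
    exact h1
  obtain ⟨B1, hB1⟩ := hHU (T.image (fun x : OO E₂ => (x : E₂)))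
  obtain ⟨B2, hB2⟩ := exists_conj_field (S0 ∪ N₀)
  obtain ⟨q, hqF, hqB, hqP, l, φ, hφ, ⟨k, hk⟩, ⟨k', hk'⟩⟩ :=
    hFD N (s.restrictScalars ℚ) (max B1 B2)
  have hqB1 : B1 < q := (le_max_left _ _).trans_lt hqB
  have hqB2 : B2 < q := (le_max_right _ _).trans_lt hqB
  have hspow : ∀ (n : ℕ), ∀ x ∈ K₀, ((s.restrictScalars ℚ) ^ n) x = x := by
    intro n
    induction n with
    | zero => intro x _; rfl
    | succ n ih =>
      intro x hx
      rw [pow_succ, AlgEquiv.mul_apply]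
      have h1 : (s.restrictScalars ℚ) x = x := hs x hx
      rw [h1, ih x hx]
  have hφK : ∀ x ∈ K₀, φ x = x := by
    intro x hx
    rw [hk' x (hK₀N x hx), hspow k' x hx]
  -- the splitting condition
  have hsplit : ∀ σ : Om ≃ₐ[ℚ] Om, IsFrob q (σ : Om →+* Om) → ∀ x ∈ (N₀ : Set Om), σ x = x := by
    rintro σ ⟨l'', hl''⟩ x hx
    obtain ⟨w, hw⟩ := hB2 q hqB2 l l'' φ σ hφ hl''
    have h1 := hw x (Finset.mem_union_right _ hx)
    have h2 : w x ∈ K₀ := mem_of_normal' K₀ w (hK3 x hx)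
    have h3 : (φ : Om →+* Om) (w x) = w x := hφK _ h2
    rw [h3] at h1
    exact (w.injective h1).symm
  -- an embedding and the induced Frobenius
  let t : E₂ →+* Om := (IsAlgClosed.lift : E₂ →ₐ[ℚ] Om)
  obtain ⟨β, hβ⟩ := exists_restrict (F₂ := F₂) t φ
    (fun x => hφK _ (hK2 (t.comp (algebraMap F₂ E₂)) x))
  have hβF : IsFrob q (β : E₂ →+* E₂) := by
    refine ⟨l.comp (mapO t), fun x => ?_⟩
    have h1 : mapO t (mapO (β : E₂ →+* E₂) x) = mapO (φ : Om →+* Om) (mapO t x) := by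
      apply Subtype.val_injective
      exact (hβ x).symm
    rw [RingHom.comp_apply, RingHom.comp_apply, h1]
    exact hφ _
  obtain ⟨h, γ, ⟨l', hl'⟩, hαh⟩ := hB1 q hqB1 hqP hsplit β hβF
  obtain ⟨w, hw⟩ := hB2 q hqB2 l l' φ h hφ hl'
  -- the conjugate of `φ`
  have hφ1 : ∀ x : F₁, w.symm (φ (w (algebraMap F₁ Om x))) = algebraMap F₁ Om x := by
    intro x
    rw [hφK _ (mem_of_normal' K₀ w (hK1 x)), AlgEquiv.symm_apply_apply]
  let φ₁ : Om ≃ₐ[F₁] Om :=
    AlgEquiv.ofRingEquiv (f := ((w.trans φ).trans w.symm).toRingEquiv) hφ1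
  have hφ₁ : ∀ x, φ₁ x = w.symm (φ (w x)) := fun x => rfl
  have hφ₁pow : ∀ (n : ℕ) (x : Om), (φ₁ ^ n) x = w.symm ((φ ^ n) (w x)) := by
    intro n
    induction n with
    | zero => intro x; simp
    | succ n ih =>
      intro x
      rw [pow_succ, pow_succ, AlgEquiv.mul_apply, AlgEquiv.mul_apply, ih, hφ₁,
        AlgEquiv.apply_symm_apply]
  have hφ₁h : ∀ x ∈ S0, φ₁ x = h x := by
    intro x hx
    have h1 : φ (w x) = w (h x) := hw x (Finset.mem_union_left _ hx)
    rw [hφ₁, h1, AlgEquiv.symm_apply_apply]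
  -- control
  have hctl : ∀ a c : Om ≃ₐ[F₁] Om, (∀ z ∈ S0, a z = c z) → ∀ y ∈ T, α a y = α c y := by
    intro a c hac y hy
    have h1 : ∀ z ∈ S0, (c⁻¹ * a) z = z := by
      intro z hz
      rw [AlgEquiv.mul_apply, hac z hz, ← AlgEquiv.mul_apply, inv_mul_cancel,
        AlgEquiv.one_apply]
    have h3 := hS0 _ h1 y (Finset.mem_image.2 ⟨y, hy, rfl⟩)
    rw [map_mul, map_inv, AlgEquiv.mul_apply] at h3
    have h4 := congrArg (α c) h3
    rw [← AlgEquiv.mul_apply, mul_inv_cancel, AlgEquiv.one_apply] at h4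
    exact h4
  let e : E₂ →+* Om := ((w.symm : Om →+* Om).comp t).comp ((γ⁻¹ : E₂ ≃ₐ[F₂] E₂) : E₂ →+* E₂)
  have he : ∀ x, e x = w.symm (t (γ⁻¹ x)) := fun x => rfl
  have key : ∀ x ∈ T, φ₁ (e x) = e (α φ₁ x) := by
    intro x hx
    rw [hctl φ₁ h hφ₁h x hx, hαh _ (Finset.mem_image.2 ⟨x, hx, rfl⟩), hφ₁, he, he,
      AlgEquiv.apply_symm_apply, hβ]
    have h5 : ∀ y, γ⁻¹ (γ y) = y := by
      intro y
      rw [← AlgEquiv.mul_apply, inv_mul_cancel, AlgEquiv.one_apply]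
    rw [h5]
  have keyn : ∀ n : ℕ, ∀ x ∈ T, (φ₁ ^ n) (e x) = e (α (φ₁ ^ n) x) := by
    intro n
    induction n with
    | zero => intro x _; simp
    | succ n ih =>
      intro x hx
      rw [pow_succ, map_mul, AlgEquiv.mul_apply, AlgEquiv.mul_apply, key x hx]
      exact ih _ (hT (α φ₁) x hx)
  refine ⟨w, e, fun s' hs' x hx => ?_⟩
  have hs'N : ∀ z : Om, w z ∈ N → s' z = (φ₁ ^ k) z := by
    intro z hz
    rw [hs', hφ₁pow, ← hk _ hz]
    rfl
  have hS0N : ∀ z ∈ S0, s' z = (φ₁ ^ k) z := by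
    intro z hz
    exact hs'N z (mem_of_normal' N w (hN z (Finset.mem_union_left _ (Finset.mem_union_left _ hz))))
  have hex : w (e x) ∈ N := by
    rw [he, AlgEquiv.apply_symm_apply]
    refine hN _ (Finset.mem_union_right _ (Finset.mem_biUnion.2 ⟨x, hx, ?_⟩))
    rw [Multiset.mem_toFinset, mem_roots, IsRoot.def, eval_map]
    · have h1 := hom_eval₂ (minpoly ℤ (x : E₂)) (Int.castRingHom (OO Om))
        (algebraMap (OO Om) Om) (mapO (t.comp ((γ⁻¹ : E₂ ≃ₐ[F₂] E₂) : E₂ →+* E₂)) x)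
      rw [root_mapO, map_zero, RingHom.ext_int ((algebraMap (OO Om) Om).comp
        (Int.castRingHom (OO Om))) (Int.castRingHom Om)] at h1
      exact h1.symm
    · exact ((minpoly.monic x.2).map _).ne_zero
  rw [hs'N _ hex, hctl s' (φ₁ ^ k) hS0N x hx]
  exact keyn k x hx

omit [NumberField F₁] [Algebra F₁ Om] [Field F₂] [NumberField F₂] [Field E₂] [Algebra F₂ E₂]
  [Normal F₂ E₂] in
theorem exists_finset_range {F : Type*} [Field F] [NumberField F] (c : F →+* Om) :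
    ∃ S : Finset Om, ∀ K : IntermediateField ℚ Om, (∀ x ∈ S, x ∈ K) → ∀ x, c x ∈ K := by
  classical
  let b := Module.finBasis ℚ F
  refine ⟨Finset.univ.image (fun i => c (b i)), fun K hK x => ?_⟩
  rw [← b.sum_repr x, map_sum]
  refine sum_mem fun i _ => ?_
  rw [Algebra.smul_def, map_mul]
  refine mul_mem ?_ (hK _ (Finset.mem_image.2 ⟨i, Finset.mem_univ _, rfl⟩))
  have h1 : c (algebraMap ℚ F (b.repr x i)) = algebraMap ℚ Om (b.repr x i) := by simp
  rw [h1]
  exact K.algebraMap_mem _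

/-- conjugation by `v` of an `F₁`-automorphism which is trivial on a normal `K₀ ⊇ F₁` -/
noncomputable def cj (K₀ : IntermediateField ℚ Om) [Normal ℚ K₀] (hK1 : ∀ x : F₁, algebraMap F₁ Om x ∈ K₀)
    (v : Om ≃ₐ[ℚ] Om) (g : Om ≃ₐ[F₁] Om) (hg : ∀ x ∈ K₀, g x = x) : Om ≃ₐ[F₁] Om :=
  AlgEquiv.ofRingEquiv (f := ((v.toRingEquiv.trans g.toRingEquiv).trans v.symm.toRingEquiv)) (by
    intro x
    change v.symm (g (v (algebraMap F₁ Om x))) = _
    rw [hg _ (mem_of_normal' K₀ v (hK1 x)), AlgEquiv.symm_apply_apply])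

omit [NumberField F₁] in
theorem cj_apply (K₀ : IntermediateField ℚ Om) [Normal ℚ K₀]
    (hK1 : ∀ x : F₁, algebraMap F₁ Om x ∈ K₀)
    (v : Om ≃ₐ[ℚ] Om) (g : Om ≃ₐ[F₁] Om) (hg : ∀ x ∈ K₀, g x = x) (x : Om) :
    cj K₀ hK1 v g hg x = v.symm (g (v x)) := rfl

theorem cj_fix (K₀ : IntermediateField ℚ Om) [Normal ℚ K₀]
    (hK1 : ∀ x : F₁, algebraMap F₁ Om x ∈ K₀)
    (v : Om ≃ₐ[ℚ] Om) (g : Om ≃ₐ[F₁] Om) (hg : ∀ x ∈ K₀, g x = x) :
    ∀ x ∈ K₀, cj K₀ hK1 v g hg x = x := by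
  intro x hx
  rw [cj_apply, hg _ (mem_of_normal' K₀ v hx), AlgEquiv.symm_apply_apply]

/-- the subgroup of the automorphisms trivial on `K₀` -/
def HK (F₁ : Type*) [Field F₁] [Algebra F₁ Om] (K₀ : IntermediateField ℚ Om) :
    Subgroup (Om ≃ₐ[F₁] Om) where
  carrier := {g | ∀ x ∈ K₀, g x = x}
  one_mem' := by intro x _; rfl
  mul_mem' := by
    intro a b ha hb x hx
    rw [AlgEquiv.mul_apply, hb x hx, ha x hx]
  inv_mem' := by
    intro a ha x hx
    have h1 := ha x hx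
    conv_lhs => rw [← h1]
    rw [← AlgEquiv.mul_apply, inv_mul_cancel, AlgEquiv.one_apply]

theorem HK_finiteIndex (K₀ : IntermediateField ℚ Om) [FiniteDimensional ℚ K₀] :
    (HK F₁ K₀).FiniteIndex := by
  have : Finite (K₀ →ₐ[ℚ] Om) := inferInstance
  let f : (Om ≃ₐ[F₁] Om) → (K₀ →ₐ[ℚ] Om) := fun g =>
    ((g.restrictScalars ℚ : Om ≃ₐ[ℚ] Om) : Om →ₐ[ℚ] Om).comp K₀.val
  have hf : ∀ a b : Om ≃ₐ[F₁] Om, f a = f b → a⁻¹ * b ∈ HK F₁ K₀ := by
    intro a b hab x hx
    have h1 : a x = b x := congrArg (fun φ : K₀ →ₐ[ℚ] Om => φ ⟨x, hx⟩) hab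
    rw [AlgEquiv.mul_apply, ← h1, ← AlgEquiv.mul_apply, inv_mul_cancel, AlgEquiv.one_apply]
  have h2 : Finite ((Om ≃ₐ[F₁] Om) ⧸ HK F₁ K₀) := by
    apply Finite.of_injective (fun q : (Om ≃ₐ[F₁] Om) ⧸ HK F₁ K₀ => f q.out)
    intro q q' h
    have h3 := hf _ _ h
    rw [← QuotientGroup.eq] at h3
    simpa using h3
  exact Subgroup.finiteIndex_of_finite_quotient

/-- conjugation by `v` as an automorphism of `HK` -/
noncomputable def cjEquiv (K₀ : IntermediateField ℚ Om) [Normal ℚ K₀]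
    (hK1 : ∀ x : F₁, algebraMap F₁ Om x ∈ K₀) (v : Om ≃ₐ[ℚ] Om) : HK F₁ K₀ ≃* HK F₁ K₀ where
  toFun g := ⟨cj K₀ hK1 v g.1 g.2, cj_fix K₀ hK1 v g.1 g.2⟩
  invFun g := ⟨cj K₀ hK1 v.symm g.1 g.2, cj_fix K₀ hK1 v.symm g.1 g.2⟩
  left_inv g := by
    apply Subtype.ext
    apply AlgEquiv.ext
    intro x
    change v.symm.symm (v.symm (g.1 (v (v.symm x)))) = g.1 x
    simp
  right_inv g := by
    apply Subtype.ext
    apply AlgEquiv.ext
    intro x
    change v.symm (v.symm.symm (g.1 (v.symm (v x)))) = g.1 x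
    simp
  map_mul' a b := by
    apply Subtype.ext
    apply AlgEquiv.ext
    intro x
    change v.symm (a.1 (b.1 (v x))) = v.symm (a.1 (v (v.symm (b.1 (v x)))))
    simp

/-- **THEOREM U.** -/
theorem theoremU {PP : Set ℕ} (hsq : ∀ x : E₂, ∃ y, y ^ 2 = x)
    (α : (Om ≃ₐ[F₁] Om) →* (E₂ ≃ₐ[F₂] E₂))
    (hα : Continuous α) (hFD : FD PP) (N₀ : Finset Om) (hHU : HU PP (N₀ : Set Om) α) :
    ∃ j : E₂ →+* Om, ∀ (g : Om ≃ₐ[F₁] Om) (x : E₂), g (j x) = j (α g x) := by
  classical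
  have hc2 : CharZero E₂ := charZero_of_injective_algebraMap (algebraMap F₂ E₂).injective
  have hg2 : IsGalois F₂ E₂ := ⟨⟩
  have halg2 : Algebra.IsAlgebraic ℚ E₂ := Algebra.IsAlgebraic.trans ℚ F₂ E₂
  have hg1 : IsGalois F₁ Om := isGalois_of_isAlgClosed (fun x =>
    (IsFractionRing.isAlgebraic_iff ℤ ℚ Om).2 (Algebra.IsAlgebraic.isAlgebraic _))
  -- the level `K₀`
  obtain ⟨S1, hS1⟩ := exists_finset_range (algebraMap F₁ Om)
  have hex := fun c : F₂ →+* Om => exists_finset_range c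
  choose S2 hS2 using hex
  have : Fintype (F₂ →+* Om) := Fintype.ofFinite _
  obtain ⟨K₀, hK₀f, hK₀G, hK₀⟩ := exists_level ℚ (S1 ∪ Finset.univ.biUnion S2 ∪ N₀)
  have hK₀G' : IsGalois ℚ K₀ := by
    convert hK₀G
    exact Subsingleton.elim _ _
  have hK₀n : Normal ℚ K₀ := hK₀G'.to_normal
  have hK1 : ∀ x : F₁, algebraMap F₁ Om x ∈ K₀ := hS1 K₀ fun x hx =>
    hK₀ x (Finset.mem_union_left _ (Finset.mem_union_left _ hx))
  have hK2 : ∀ (c : F₂ →+* Om) (x : F₂), c x ∈ K₀ := fun c => hS2 c K₀ fun x hx =>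
    hK₀ x (Finset.mem_union_left _ (Finset.mem_union_right _
      (Finset.mem_biUnion.2 ⟨c, Finset.mem_univ _, hx⟩)))
  have hK3 : ∀ x ∈ N₀, x ∈ K₀ := fun x hx => hK₀ x (Finset.mem_union_right _ hx)
  have hv := fun c : F₁ →+* Om => exists_extend c
  choose v hv using hv
  refine exists_global_embedding_sub hsq (HK F₁ K₀) (HK_finiteIndex K₀)
    (I := F₁ →+* Om) (fun c => cjEquiv K₀ hK1 (v c)) ?_
  intro g T
  -- integral level
  have hmul : ∀ x : E₂, ∃ m : ℤ, m ≠ 0 ∧ IsIntegral ℤ ((m : E₂) * x) := by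
    intro x
    have halg : IsAlgebraic ℤ x :=
      (IsFractionRing.isAlgebraic_iff ℤ ℚ E₂).2 (Algebra.IsAlgebraic.isAlgebraic _)
    obtain ⟨a, ha, hint⟩ := halg.exists_integral_multiple
    exact ⟨a, ha, by rwa [zsmul_eq_mul] at hint⟩
  choose m hm hint using hmul
  let T1 : Finset (OO E₂) := T.image fun x => (⟨(m x : E₂) * x, hint x⟩ : OO E₂)
  obtain ⟨T', hT1, hT'⟩ := mem_closure_roots T1
  obtain ⟨w, e₀, he₀⟩ := pointwise_integral_U α hα hFD N₀ hHU K₀ hK1 hK2 hK3 T'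
    (fun σ x hx => hT' _ x hx) g.1 g.2
  let c : F₁ →+* Om := (w : Om →+* Om).comp (algebraMap F₁ Om)
  have hvc : ∀ x : F₁, v c (algebraMap F₁ Om x) = w (algebraMap F₁ Om x) := hv c
  have hh1 : ∀ x : F₁, w.symm (v c (algebraMap F₁ Om x)) = algebraMap F₁ Om x := by
    intro x
    rw [hvc, AlgEquiv.symm_apply_apply]
  let h₁ : Om ≃ₐ[F₁] Om := AlgEquiv.ofRingEquiv (f := ((v c).trans w.symm).toRingEquiv) hh1
  have hh₁ : ∀ x, h₁ x = w.symm (v c x) := fun x => rfl
  set φg : Om ≃ₐ[F₁] Om := ((cjEquiv K₀ hK1 (v c) g : HK F₁ K₀) : Om ≃ₐ[F₁] Om) with hφg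
  have hφg' : ∀ x, φg x = (v c).symm (g.1 (v c x)) := fun x => rfl
  have hinv : ∀ x, h₁⁻¹ (h₁ x) = x := fun x => by
    rw [← AlgEquiv.mul_apply, inv_mul_cancel, AlgEquiv.one_apply]
  have hinv' : ∀ x, h₁ (h₁⁻¹ x) = x := fun x => by
    rw [← AlgEquiv.mul_apply, mul_inv_cancel, AlgEquiv.one_apply]
  have hs' : ∀ x, (h₁ * φg * h₁⁻¹) x = w.symm (g.1 (w x)) := by
    intro x
    obtain ⟨y, rfl⟩ : ∃ y, h₁ y = x := ⟨h₁⁻¹ x, hinv' x⟩
    rw [AlgEquiv.mul_apply, AlgEquiv.mul_apply, hinv, hh₁, hh₁, hφg', AlgEquiv.apply_symm_apply,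
      AlgEquiv.apply_symm_apply]
  have h2 := he₀ (h₁ * φg * h₁⁻¹) hs'
  refine ⟨c, ((h₁⁻¹ : Om ≃ₐ[F₁] Om) : Om →+* Om).comp (e₀.comp ((α h₁ : E₂ ≃ₐ[F₂] E₂) : E₂ →+* E₂)),
    ?_⟩
  have h3 : ∀ x ∈ T', φg (h₁⁻¹ (e₀ (α h₁ x))) = h₁⁻¹ (e₀ (α h₁ (α φg x))) := by
    intro x hx
    have h4 := h2 (mapO (α h₁ : E₂ →+* E₂) x) (hT' _ x hx)
    change (h₁ * φg * h₁⁻¹) (e₀ (α h₁ x)) = e₀ (α (h₁ * φg * h₁⁻¹) (α h₁ x)) at h4
    have h5 : α (h₁ * φg * h₁⁻¹) (α h₁ x) = α h₁ (α φg x) := by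
      rw [← AlgEquiv.mul_apply, ← map_mul, ← AlgEquiv.mul_apply, ← map_mul]
      congr 2
      group
    rw [h5] at h4
    rw [← h4, AlgEquiv.mul_apply, AlgEquiv.mul_apply, hinv]
  intro x hx
  have h1 := h3 _ (hT1 (Finset.mem_image.2 ⟨x, hx, rfl⟩))
  simp only [map_mul, map_intCast] at h1
  have h2' : ((m x : ℤ) : Om) ≠ 0 := by exact_mod_cast hm x
  exact mul_left_cancel₀ h2' h1

end main

end Crest.Agent.R018.TheoremUx245
end

-- ▼ part R018/TheoremU_819
section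

/-!
# Row 18: the target `TheoremU` of Core_74 from helper245's THEOREM U (helper819)
-/

set_option autoImplicit false

open NumberField
open scoped Pointwise
open Crest.NumberTheoryR

namespace Crest.Agent.R018.TheoremUx819

open Crest.Agent.R018.EndDefx924
open Crest.Agent.R018.Placesx484 Crest.Agent.R018.Corex74
open Crest.Agent.R018.LCEndx925 Crest.Agent.R018.TheoremUx245

/-- the `q`-power map on the residue field of `P` gives a geometric Frobenius -/
theorem isFrob_of_act {F E : Type*} [Field F] [Field E] [CharZero E] [Algebra F E]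
    (q : ℕ) [hq : Fact q.Prime] (P : Place E) (hP : P.rchar = q) (g : E ≃ₐ[F] E)
    (h : Act P g q) : IsFrob q (g : E →+* E) := by
  obtain ⟨l, hl⟩ := exists_geom q P (by rw [← hP]; exact P.rchar_mem)
  refine ⟨l, fun x => ?_⟩
  have h1 := hl _ (h ((toOO E).symm x))
  rw [map_sub, map_sub, map_pow, map_pow, toOO_smul, RingEquiv.apply_symm_apply, sub_eq_zero] at h1
  exact h1

/-- a geometric Frobenius is a Frobenius at the corresponding place -/
theorem act_of_isFrob {F E : Type*} [Field F] [Field E] [CharZero E] [Algebra F E]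
    (q : ℕ) [hq : Fact q.Prime] (g : E ≃ₐ[F] E) (h : IsFrob q (g : E →+* E)) :
    ∃ P : Place E, P.rchar = q ∧ Act P g q := by
  obtain ⟨l, hl⟩ := h
  refine ⟨placeOf q l, (placeOf q l).rchar_eq_of_mem hq.out (natCast_mem_placeOf q l), ?_⟩
  intro x
  rw [mem_placeOf, map_sub, map_sub, map_pow, map_pow, toOO_smul, hl, sub_self]

/-- two elements acting as the same power map differ by inertia -/
theorem inertia_of_act {E H : Type*} [Field E] [CharZero E] [Group H] [MulSemiringAction H E]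
    (P : Place E) (g h : H) {q : ℕ} (hg : Act P g q) (hh : Act P h q) (hgP : g • P = P) :
    ∀ y : 𝓞 E, (g⁻¹ * h) • y - y ∈ P.ideal := by
  intro y
  have h1 : h • y - g • y ∈ P.ideal := by
    have := sub_mem (hh y) (hg y)
    simpa using this
  have h2 : g⁻¹ • (h • y - g • y) ∈ P.ideal := by
    rw [← Place.mem_smul_ideal, hgP]
    exact h1
  rwa [smul_sub, inv_smul_smul, ← mul_smul] at h2

theorem smul_eq_of_act {E H : Type*} [Field E] [CharZero E] [Group H] [MulSemiringAction H E]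
    (P : Place E) (g : H) {q : ℕ} (hq : q ≠ 0) (h : Act P g q) :
    g • P = P := by
  rw [Place.smul_eq_iff]
  intro x hx
  have h1 := h x
  have h2 : x ^ q ∈ P.ideal := Ideal.pow_mem_of_mem _ hx q (Nat.pos_of_ne_zero hq)
  simpa using add_mem h1 h2

/-- **THEOREM U** in the form of Core_74 -/
theorem theoremU_of (hF2 : F2) (hF3 : F3) (hF5 : F5) : TheoremU := by
  classical
  intro D hsurj hU
  apply CycFTx925.ft_of_embedding
  obtain ⟨F₁, hnf, i, j, hji, hij, hi, hcont⟩ :=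
    FTSubx925.exists_transfer D.G D.isOpen_G D.α D.cont
  -- a finite set generating `F₁`
  obtain ⟨N₀, hN₀⟩ := exists_finset_range (algebraMap F₁ Om)
  have hN₀G : ∀ σ : BB, (∀ x ∈ N₀, σ x = x) → σ ∈ D.G := by
    intro σ hσ
    have h1 : ∀ x : F₁, σ (algebraMap F₁ Om x) = algebraMap F₁ Om x := by
      intro x
      have h2 := hN₀ (IntermediateField.fixedField (Subgroup.zpowers σ)) (fun y hy => by
        rintro ⟨τ, hτ⟩
        have h3 : τ ∈ MulAction.stabilizer BB y := by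
          refine (Subgroup.zpowers_le (g := σ)).2 ?_ hτ
          exact hσ y hy
        exact h3) x
      exact h2 ⟨σ, Subgroup.mem_zpowers σ⟩
    let τ : Om ≃ₐ[F₁] Om := AlgEquiv.ofRingEquiv (f := (σ : Om ≃+* Om)) h1
    have h2 : ((i τ : D.G) : BB) = σ := by
      apply AlgEquiv.ext
      intro x
      rw [hi]
      rfl
    rw [← h2]
    exact (i τ).2
  have hsq : ∀ x : Sv, ∃ y, y ^ 2 = x := fun x =>
    Crest.Agent.R018.EndAx245.exists_sq_of_solvablyClosed CycFTx925.sv_isSolvablyClosed x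
  have hHU : HU (Set.univ : Set ℕ) (N₀ : Set Om) (D.α.comp i) := by
    intro T
    obtain ⟨N, hNf, hNG, hN⟩ := EndBx924.exists_level ℚ T
    have hVn : (N.fixingSubgroup : Subgroup SG).Normal := inferInstance
    have hVo : IsOpen ((N.fixingSubgroup : Subgroup SG) : Set SG) :=
      IntermediateField.fixingSubgroup_isOpen N
    obtain ⟨B1, hB1⟩ := hU N.fixingSubgroup hVn hVo
    obtain ⟨B3, hB3⟩ := hF3 N.fixingSubgroup hVo
    refine ⟨max B1 B3, fun q hqp hq _ hsplit β hβ => ?_⟩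
    obtain ⟨P, Q, σ, φ, hP, hQ, hσ, hφ, hV⟩ := hB1 q hqp.out (lt_of_le_of_lt (le_max_left _ _) hq)
    -- the residue degree is one
    have hf : fdeg D.G P = 1 := by
      obtain ⟨ψ, -, hψ⟩ := hF2.2 P
      have h1 : IsFrob q (ψ : Om →+* Om) := isFrob_of_act q P hP ψ (hP ▸ hψ)
      have h2 : ψ ∈ D.G := hN₀G ψ (fun x hx => hsplit ψ h1 x hx)
      have hmem : 1 ∈ {a | 0 < a ∧ ∃ g ∈ D.G, Act P g (P.rchar ^ a)} :=
        ⟨one_pos, ψ, h2, by rw [pow_one]; exact hψ⟩
      have h3 : fdeg D.G P ≤ 1 := Nat.sInf_le hmem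
      have h4 : 0 < fdeg D.G P := (Nat.sInf_mem ⟨1, hmem⟩).1
      omega
    obtain ⟨Q', hQ', hβ'⟩ := act_of_isFrob q β hβ
    obtain ⟨γ, hγ⟩ := hF5.1 Q Q' (hQ.trans hQ'.symm)
    have hβQ : Act Q (γ⁻¹ * β * γ) q := by
      intro y
      have h1 := hβ' (γ • y)
      rw [← hγ, ← smul_pow', ← mul_smul] at h1
      rw [Place.mem_smul_ideal, smul_sub, inv_smul_smul, ← mul_smul, ← mul_assoc] at h1
      exact h1
    have hφQ : φ • Q = Q := smul_eq_of_act Q φ hqp.out.ne_zero hφ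
    have h1 : φ⁻¹ * (γ⁻¹ * β * γ) ∈ N.fixingSubgroup :=
      hB3 Q (by rw [hQ]; exact lt_of_le_of_lt (le_max_right _ _) hq) _
        (inertia_of_act Q φ _ hφ hβQ hφQ)
    rw [hf, pow_one] at hV
    have h2 : (D.α σ)⁻¹ * (γ⁻¹ * β * γ) ∈ N.fixingSubgroup := by
      have := mul_mem hV h1
      rwa [mul_assoc, mul_inv_cancel_left] at this
    refine ⟨j σ, γ⁻¹, ?_, fun x hx => ?_⟩
    · apply isFrob_of_act q P hP
      intro y
      have h3 := hσ.2 y
      rw [hf, pow_one, hP] at h3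
      have h4 : (j σ) • y = (σ : BB) • y := by
        apply NumberField.RingOfIntegers.coe_injective
        have h5 := LCMainx925.coe_smul_int (j σ) y
        have h6 := LCMainx925.coe_smul_int (σ : BB) y
        have h7 : (j σ) (y : Om) = (σ : BB) (y : Om) := by
          rw [← hi, hij]
        exact h5.trans (h7.trans h6.symm)
      rw [h4]
      exact h3
    · have h3 : ((D.α σ)⁻¹ * (γ⁻¹ * β * γ)) x = x := h2 ⟨x, hN x hx⟩
      rw [MonoidHom.comp_apply, hij]
      have h4 : (γ⁻¹ * β * γ) x = D.α σ x := by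
        calc (γ⁻¹ * β * γ) x = (D.α σ * ((D.α σ)⁻¹ * (γ⁻¹ * β * γ))) x := by
              rw [mul_inv_cancel_left]
          _ = D.α σ x := by rw [AlgEquiv.mul_apply, h3]
      rw [← h4, inv_inv]
      rfl
  obtain ⟨e, he⟩ := theoremU hsq (D.α.comp i) hcont FDAdaptx389.fd_univ N₀ hHU
  refine ⟨e, fun g x => ?_⟩
  have h1 := he (j g) x
  rw [← hi, hij] at h1
  rw [h1, MonoidHom.comp_apply, hij]

end Crest.Agent.R018.TheoremUx819
end

-- ▼ part R018/PowResB_693
section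

/-!
# Row 18, CORE (E): an automorphism with prescribed action on radicals of primes (helper693)
-/

set_option autoImplicit false

open NumberField Pointwise
open Crest.Agent.R018.Placesx484 Crest.Agent.R018.Placesx484.Place
open Crest.Agent.R018.EndDefx924 (Om)
open Crest.Agent.R018.PowResAx693

namespace Crest.Agent.R018.PowResBx693

/-- a place above every prime number -/
theorem exists_place (t : ℕ) (ht : t.Prime) : ∃ P : Place Om, P.rchar = t := by
  have hmax : (Ideal.span {(t : ℤ)}).IsMaximal := PrincipalIdealRing.isMaximal_of_irreducible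
      (Nat.prime_iff_prime_int.mp ht).irreducible
  have hinj : Function.Injective (algebraMap ℤ (𝓞 Om)) := by
    intro a b hab
    have h1 := congrArg (algebraMap (𝓞 Om) Om) hab
    simpa using h1
  obtain ⟨I, hI, hI2⟩ := Ideal.exists_ideal_over_prime_of_isIntegral_of_isDomain
    (S := 𝓞 Om) (Ideal.span {(t : ℤ)}) (by
      rw [(RingHom.injective_iff_ker_eq_bot _).1 hinj]
      exact bot_le)
  have hmem : ((t : ℕ) : 𝓞 Om) ∈ I := by
    have h1 : (t : ℤ) ∈ I.comap (algebraMap ℤ (𝓞 Om)) := by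
      rw [hI2]; exact Ideal.mem_span_singleton_self _
    simpa using h1
  have hne : I ≠ ⊥ := by
    rintro rfl
    rw [Ideal.mem_bot] at hmem
    exact ht.ne_zero (by exact_mod_cast hmem)
  exact ⟨⟨I, hI, hne⟩, rchar_eq_of_mem _ ht hmem⟩

/-- a uniform exponent killing the action on `m`-th roots of finitely many numbers -/
theorem exists_exponent (m : ℕ) (hm : 0 < m) (S : Finset ℕ) :
    ∃ e : ℕ, 0 < e ∧ ∀ (τ : Om ≃ₐ[ℚ] Om) (x : Om), (x ^ m = 1 ∨ ∃ q ∈ S, x ^ m = (q : Om)) →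
      (τ ^ e) x = x := by
  classical
  let f : Polynomial ℚ := (Polynomial.X ^ m - 1) * ∏ q ∈ S, (Polynomial.X ^ m - Polynomial.C (q : ℚ))
  have hf0 : f ≠ 0 := by
    refine mul_ne_zero ?_ (Finset.prod_ne_zero_iff.2 fun q _ => ?_)
    · have := Polynomial.X_pow_sub_C_ne_zero (R := ℚ) hm 1
      simpa using this
    · exact Polynomial.X_pow_sub_C_ne_zero hm _
  let N := IntermediateField.adjoin ℚ (f.rootSet Om)
  have hs : (f.map (algebraMap ℚ Om)).Splits := IsAlgClosed.splits _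
  have hN : Polynomial.IsSplittingField ℚ N f :=
    IntermediateField.adjoin_rootSet_isSplittingField hs
  have hNn : Normal ℚ N := Normal.of_isSplittingField f
  have hNf : FiniteDimensional ℚ N := Polynomial.IsSplittingField.finiteDimensional N f
  refine ⟨Nat.card (N ≃ₐ[ℚ] N), Nat.card_pos, fun τ x hx => ?_⟩
  have hxN : x ∈ N := by
    apply IntermediateField.subset_adjoin
    rw [Polynomial.mem_rootSet_of_ne hf0]
    simp only [f, map_mul, map_prod, map_sub, map_pow, Polynomial.aeval_X, map_one,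
      Polynomial.aeval_C]
    rcases hx with hx | ⟨q, hq, hx⟩
    · rw [hx, sub_self, zero_mul]
    · rw [Finset.prod_eq_zero hq, mul_zero]
      rw [hx]; simp
  have h1 : (AlgEquiv.restrictNormalHom N τ) ^ Nat.card (N ≃ₐ[ℚ] N) = 1 := pow_card_eq_one'
  have h2 : AlgEquiv.restrictNormalHom N (τ ^ Nat.card (N ≃ₐ[ℚ] N)) = 1 := by
    rw [map_pow]; exact h1
  have h3 := AlgEquiv.restrictNormal_commutes (τ ^ Nat.card (N ≃ₐ[ℚ] N)) N ⟨x, hxN⟩
  have h4 : (AlgEquiv.restrictNormal (τ ^ Nat.card (N ≃ₐ[ℚ] N)) N) ⟨x, hxN⟩ = ⟨x, hxN⟩ :=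
    DFunLike.congr_fun h2 _
  rw [h4] at h3
  exact h3.symm

/-- the value of a radical of a number prime to the residue characteristic is one -/
theorem v_radical (P : Place Om) {n k : ℕ} (hn : n ≠ 0) (hk : ¬ P.rchar ∣ k) {b : Om}
    (hb : b ^ n = (k : Om)) : P.v b = 1 := by
  have h1 : P.v b ^ n = 1 := by
    rw [← map_pow, hb]
    exact (v_natCast_eq_one_iff P k).2 hk
  exact (pow_eq_one_iff_of_nonneg zero_le hn).1 h1

/-- **the automorphism**: `n = m ρ`, `ρ = ∏ r q`. -/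
theorem exists_aut (m ρ e : ℕ) (hm : 0 < m) (hρ : 0 < ρ) (S : Finset ℕ) (r : ℕ → ℕ)
    (he : ∀ (τ : Om ≃ₐ[ℚ] Om) (x : Om), (x ^ m = 1 ∨ ∃ q ∈ S, x ^ m = (q : Om)) → (τ ^ e) x = x)
    (hS : ∀ q ∈ S, q.Prime ∧ ¬ q ∣ m * ρ) (ζ : Om) (hζ : IsPrimitiveRoot ζ (m * ρ))
    (a : ℕ → Om) (ha : ∀ t, a t ^ (m * ρ) = (t : Om)) (T : Finset ℕ)
    (hT : ∀ t ∈ T, t.Prime ∧ ¬ t ∣ ρ) :
    ∃ s : Om ≃ₐ[ℚ] Om, s (ζ ^ ρ) = ζ ^ ρ ∧ s (ζ ^ m) = ζ ^ m ∧
      (∀ q ∈ S, q ∉ T → s (a q ^ ρ) = a q ^ ρ) ∧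
      (∀ t : ℕ, t.Prime → t ∉ T → s (a t ^ m) = a t ^ m) ∧
      (∀ q ∈ S, q ∈ T → s (a q ^ ρ) = (ζ ^ ρ) ^ r q * a q ^ ρ ∧
        s (a q ^ m) = (ζ ^ m) ^ r q * a q ^ m) ∧
      (∀ t ∈ T, t ∉ S → s (a t ^ m) = (ζ ^ m) ^ e * a t ^ m) := by
  classical
  induction T using Finset.induction_on with
  | empty =>
    refine ⟨1, rfl, rfl, fun _ _ _ => rfl, fun _ _ _ => rfl, ?_, ?_⟩
    · intro q _ h; exact absurd h (Finset.notMem_empty q)
    · intro q h; exact absurd h (Finset.notMem_empty q)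
  | insert t T htT ih =>
    obtain ⟨s, h1, h2, h3, h4, h5, h6⟩ := ih fun t' ht' => hT t' (Finset.mem_insert_of_mem ht')
    obtain ⟨htp, htρ⟩ := hT t (Finset.mem_insert_self t T)
    obtain ⟨P, hP⟩ := exists_place t htp
    by_cases htS : t ∈ S
    · -- `t ∈ S`
      have hnt : ¬ P.rchar ∣ m * ρ := by rw [hP]; exact (hS t htS).2
      obtain ⟨τ, hτ, hτa⟩ := exists_tame P hnt hζ (a := a t) (by rw [ha, hP])
      have hτζ : τ ζ = ζ := inertia_root P hτ hnt hζ.pow_eq_one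
      have hτa' : ∀ t' : ℕ, t'.Prime → t' ≠ t → τ (a t') = a t' := by
        intro t' ht' hne
        have hmρ : m * ρ ≠ 0 := (Nat.mul_pos hm hρ).ne'
        have hk : ¬ P.rchar ∣ t' := by
          rw [hP]; intro h
          exact hne ((Nat.prime_dvd_prime_iff_eq htp ht').1 h).symm
        exact inertia_fix_root P hnt hτ (v_radical P hmρ hk (ha t')) (by
          rw [ha]; exact map_natCast τ t')
      have hpow : ∀ k : ℕ, ∀ x : Om, τ x = x → (τ ^ k) x = x := by
        intro k x hx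
        induction k with
        | zero => rfl
        | succ k ih => rw [pow_succ, AlgEquiv.mul_apply, hx, ih]
      have hpa : ∀ k : ℕ, (τ ^ k) (a t) = ζ ^ k * a t := by
        intro k
        induction k with
        | zero => simp
        | succ k ih => rw [pow_succ', AlgEquiv.mul_apply, ih, map_mul, map_pow, hτζ, hτa]; ring
      have hτρ : ∀ k : ℕ, (τ ^ k) ζ = ζ := fun k => hpow k ζ hτζ
      refine ⟨s * τ ^ r t, ?_, ?_, ?_, ?_, ?_, ?_⟩
      · rw [AlgEquiv.mul_apply, map_pow (τ ^ r t), hτρ, h1]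
      · rw [AlgEquiv.mul_apply, map_pow (τ ^ r t), hτρ, h2]
      · intro q hq hqT
        rw [Finset.mem_insert, not_or] at hqT
        rw [AlgEquiv.mul_apply, map_pow (τ ^ r t), hpow _ _ (hτa' q (hS q hq).1 hqT.1),
          h3 q hq hqT.2]
      · intro t' ht' htT'
        rw [Finset.mem_insert, not_or] at htT'
        rw [AlgEquiv.mul_apply, map_pow (τ ^ r t), hpow _ _ (hτa' t' ht' htT'.1),
          h4 t' ht' htT'.2]
      · intro q hq hqT
        by_cases hqt : q = t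
        · subst hqt
          constructor
          · rw [AlgEquiv.mul_apply, map_pow (τ ^ r q), hpa, mul_pow, ← pow_mul, mul_comm (r q) ρ,
              pow_mul, map_mul, map_pow s, h1, h3 q hq htT]
          · rw [AlgEquiv.mul_apply, map_pow (τ ^ r q), hpa, mul_pow, ← pow_mul, mul_comm (r q) m,
              pow_mul, map_mul, map_pow s, h2, h4 q (hS q hq).1 htT]
        · have hqT' : q ∈ T := (Finset.mem_insert.1 hqT).resolve_left hqt
          have h7 := hpow (r t) _ (hτa' q (hS q hq).1 hqt)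
          constructor
          · rw [AlgEquiv.mul_apply, map_pow (τ ^ r t), h7, (h5 q hq hqT').1]
          · rw [AlgEquiv.mul_apply, map_pow (τ ^ r t), h7, (h5 q hq hqT').2]
      · intro t' ht' htS'
        have hne : t' ≠ t := by rintro rfl; exact htS' htS
        have ht'' : t' ∈ T := (Finset.mem_insert.1 ht').resolve_left hne
        rw [AlgEquiv.mul_apply, map_pow (τ ^ r t),
          hpow _ _ (hτa' t' (hT t' ht').1 hne), h6 t' ht'' htS']
    · -- `t ∉ S`
      have hnt : ¬ P.rchar ∣ ρ := by rw [hP]; exact htρ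
      have hζ' : IsPrimitiveRoot (ζ ^ m) ρ := hζ.pow (Nat.mul_pos hm hρ) rfl
      have haρ : ∀ t' : ℕ, (a t' ^ m) ^ ρ = (t' : Om) := fun t' => by rw [← pow_mul, ha]
      obtain ⟨τ, hτ, hτa⟩ := exists_tame P hnt hζ' (a := a t ^ m) (by rw [haρ, hP])
      have hτζ : τ (ζ ^ m) = ζ ^ m := inertia_root P hτ hnt hζ'.pow_eq_one
      have hτa' : ∀ t' : ℕ, t'.Prime → t' ≠ t → τ (a t' ^ m) = a t' ^ m := by
        intro t' ht' hne
        have hk : ¬ P.rchar ∣ t' := by
          rw [hP]; intro h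
          exact hne ((Nat.prime_dvd_prime_iff_eq htp ht').1 h).symm
        exact inertia_fix_root P hnt hτ (v_radical P hρ.ne' hk (haρ t')) (by
          rw [haρ]; exact map_natCast τ t')
      have hpow : ∀ k : ℕ, ∀ x : Om, τ x = x → (τ ^ k) x = x := by
        intro k x hx
        induction k with
        | zero => rfl
        | succ k ih => rw [pow_succ, AlgEquiv.mul_apply, hx, ih]
      have hpa : ∀ k : ℕ, (τ ^ k) (a t ^ m) = (ζ ^ m) ^ k * a t ^ m := by
        intro k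
        induction k with
        | zero => simp
        | succ k ih => rw [pow_succ', AlgEquiv.mul_apply, ih, map_mul, map_pow τ, hτζ, hτa]; ring
      have he1 : (τ ^ e) (ζ ^ ρ) = ζ ^ ρ := he τ _ (Or.inl (by
        rw [← pow_mul, mul_comm ρ m, hζ.pow_eq_one]))
      have he2 : ∀ q ∈ S, (τ ^ e) (a q ^ ρ) = a q ^ ρ := fun q hq => he τ _ (Or.inr ⟨q, hq, by
        rw [← pow_mul, mul_comm ρ m, ha]⟩)
      refine ⟨s * τ ^ e, ?_, ?_, ?_, ?_, ?_, ?_⟩
      · rw [AlgEquiv.mul_apply, he1, h1]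
      · rw [AlgEquiv.mul_apply, hpow e _ hτζ, h2]
      · intro q hq hqT
        rw [Finset.mem_insert, not_or] at hqT
        rw [AlgEquiv.mul_apply, he2 q hq, h3 q hq hqT.2]
      · intro t' ht' htT'
        rw [Finset.mem_insert, not_or] at htT'
        rw [AlgEquiv.mul_apply, hpow e _ (hτa' t' ht' htT'.1), h4 t' ht' htT'.2]
      · intro q hq hqT
        have hqt : q ≠ t := by rintro rfl; exact htS hq
        have hqT' : q ∈ T := (Finset.mem_insert.1 hqT).resolve_left hqt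
        constructor
        · rw [AlgEquiv.mul_apply, he2 q hq, (h5 q hq hqT').1]
        · rw [AlgEquiv.mul_apply, hpow e _ (hτa' q (hS q hq).1 hqt), (h5 q hq hqT').2]
      · intro t' ht' htS'
        by_cases hne : t' = t
        · subst hne
          rw [AlgEquiv.mul_apply, hpa, map_mul, map_pow s, h2, h4 t' htp htT]
        · have ht'' : t' ∈ T := (Finset.mem_insert.1 ht').resolve_left hne
          rw [AlgEquiv.mul_apply, hpow e _ (hτa' t' (hT t' ht').1 hne), h6 t' ht'' htS']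

end Crest.Agent.R018.PowResBx693
end

-- ▼ part R018/PowResC_693
section

/-!
# Row 18, CORE (E): reading power residue symbols from a Frobenius (helper693)
-/

set_option autoImplicit false

open Crest.Agent.R018.EndDefx924

namespace Crest.Agent.R018.PowResCx693

variable {l : ℕ} [hl : Fact l.Prime]

theorem root_integral {k : ℕ} (hk : k ≠ 0) {c : ℕ} {x : Om} (hx : x ^ k = (c : Om)) :
    IsIntegral ℤ x := by
  refine ⟨Polynomial.X ^ k - Polynomial.C (c : ℤ), Polynomial.monic_X_pow_sub_C _ hk, ?_⟩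
  simp [hx]

/-- a place is injective on roots of unity of order prime to `l` -/
theorem place_root_eq_one (P : Pl l Om) {k : ℕ} (hk : ¬ l ∣ k) (x : OO Om) (hx : x ^ k = 1)
    (h1 : P x = 1) : x = 1 := by
  by_contra hne
  have h2 := geom_sum_mul x k
  rw [hx, sub_self] at h2
  rcases mul_eq_zero.1 h2 with h3 | h3
  · have h4 := congrArg P h3
    rw [map_zero, map_sum] at h4
    simp only [map_pow, h1, one_pow, Finset.sum_const, Finset.card_range, nsmul_eq_mul,
      mul_one] at h4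
    exact hk ((CharP.cast_eq_zero_iff (AlgebraicClosure (ZMod l)) l k).1 h4)
  · exact hne (sub_eq_zero.1 h3)

/-- a Frobenius fixing a primitive `n`-th root of unity -/
theorem dvd_sub_one (P : Pl l Om) (g : Om ≃ₐ[ℚ] Om) (hg : IsFrobAt l P (g : Om →+* Om)) {n : ℕ}
    (hn : ¬ l ∣ n) {ζ : Om} (hζ : IsPrimitiveRoot ζ n) (hfix : g ζ = ζ) : n ∣ l - 1 := by
  have hn0 : n ≠ 0 := by rintro rfl; exact hn (dvd_zero _)
  let z : OO Om := ⟨ζ, root_integral hn0 (c := 1) (by rw [hζ.pow_eq_one]; simp)⟩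
  have hz : z ^ n = 1 := Subtype.ext (by simpa [z] using hζ.pow_eq_one)
  have hgz : mapO (g : Om →+* Om) z = z := Subtype.ext hfix
  have h1 : P z = P z ^ l := by
    have := hg z
    rw [hgz] at this
    exact this
  have hPz : P z ≠ 0 := by
    intro h
    have := congrArg P hz
    rw [map_pow, h, zero_pow hn0, map_one] at this
    exact zero_ne_one this
  have h2 : P z ^ (l - 1) = 1 := by
    have h3 : P z ^ (l - 1) * P z = 1 * P z := by
      rw [← pow_succ, Nat.sub_add_cancel hl.out.one_le, ← h1, one_mul]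
    exact mul_right_cancel₀ hPz h3
  have h3 : z ^ (l - 1) = 1 := by
    apply place_root_eq_one P hn
    · rw [← pow_mul, mul_comm, pow_mul, hz, one_pow]
    · rw [map_pow, h2]
  have h4 : ζ ^ (l - 1) = 1 := by
    have := congrArg Subtype.val h3
    simpa [z] using this
  exact hζ.dvd_of_pow_eq_one _ h4

/-- **power residues and Frobenius** -/
theorem isPow_iff (P : Pl l Om) (g : Om ≃ₐ[ℚ] Om) (hg : IsFrobAt l P (g : Om →+* Om)) {k c : ℕ}
    (hk : k ∣ l - 1) (hc : ¬ l ∣ c) {x : Om} (hx : x ^ k = (c : Om)) :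
    (∃ y : ZMod l, y ^ k = (c : ZMod l)) ↔ g x = x := by
  have hl1 : 0 < l - 1 := Nat.sub_pos_of_lt hl.out.one_lt
  have hk0 : k ≠ 0 := by rintro rfl; exact hl1.ne' (zero_dvd_iff.1 hk)
  have hkl : ¬ l ∣ k := by
    intro h
    have := Nat.le_of_dvd hl1 (h.trans hk)
    omega
  let z : OO Om := ⟨x, root_integral hk0 hx⟩
  have hz : z ^ k = ((c : ℕ) : OO Om) := Subtype.ext (by simpa [z] using hx)
  have hcP : ((c : ℕ) : AlgebraicClosure (ZMod l)) ≠ 0 := by
    intro h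
    exact hc ((CharP.cast_eq_zero_iff (AlgebraicClosure (ZMod l)) l c).1 h)
  have hPz : P z ^ k = ((c : ℕ) : AlgebraicClosure (ZMod l)) := by
    rw [← map_pow, hz, map_natCast]
  have hPz0 : P z ≠ 0 := by
    intro h
    rw [h, zero_pow hk0] at hPz
    exact hcP hPz.symm
  constructor
  · rintro ⟨y, hy⟩
    let y' : AlgebraicClosure (ZMod l) := algebraMap (ZMod l) (AlgebraicClosure (ZMod l)) y
    have hy' : y' ^ k = ((c : ℕ) : AlgebraicClosure (ZMod l)) := by
      rw [← map_pow, hy, map_natCast]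
    have hy0 : y' ≠ 0 := by
      intro h
      rw [h, zero_pow hk0] at hy'
      exact hcP hy'.symm
    have h1 : (P z / y') ^ k = 1 := by
      rw [div_pow, hPz, hy', div_self hcP]
    have h2 : (P z / y') ^ (l - 1) = 1 := by
      obtain ⟨w, hw⟩ := hk
      rw [hw, pow_mul, h1, one_pow]
    have h3 : (P z / y') ^ l = P z / y' := by
      have h31 : (P z / y') ^ l = (P z / y') ^ ((l - 1) + 1) := by
        rw [Nat.sub_add_cancel hl.out.one_le]
      rw [h31, pow_succ, h2, one_mul]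
    have h4 : y' ^ l = y' := by
      rw [← map_pow, ZMod.pow_card]
    have h5 : P z ^ l = P z := by
      rw [div_pow, h4] at h3
      field_simp at h3
      exact h3
    have h6 : P (mapO (g : Om →+* Om) z) = P z := by rw [hg z, h5]
    -- the quotient
    have hx0 : x ≠ 0 := by
      rintro rfl
      apply hPz0
      have : z = 0 := Subtype.ext rfl
      rw [this, map_zero]
    have h7 : (g x / x) ^ k = 1 := by
      rw [div_pow, ← map_pow, hx, map_natCast]
      refine div_self ?_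
      intro h
      rw [h] at hx
      exact hx0 (pow_eq_zero_iff hk0 |>.1 hx)
    let η : OO Om := ⟨g x / x, root_integral hk0 (c := 1) (by rw [h7]; simp)⟩
    have h8 : η ^ k = 1 := Subtype.ext (by simpa [η] using h7)
    have h9 : η * z = mapO (g : Om →+* Om) z := Subtype.ext (div_mul_cancel₀ _ hx0)
    have h10 : P η = 1 := by
      have := congrArg P h9
      rw [map_mul, h6] at this
      have h11 : P η * P z = 1 * P z := by rw [this, one_mul]
      exact mul_right_cancel₀ hPz0 h11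
    have h11 := place_root_eq_one P hkl η h8 h10
    have h12 : g x / x = 1 := by
      have := congrArg Subtype.val h11
      simpa [η] using this
    exact (div_eq_one_iff_eq hx0).1 h12
  · intro hfix
    have hgz : mapO (g : Om →+* Om) z = z := Subtype.ext hfix
    have h1 : P z ^ l = P z := by
      have := hg z
      rw [hgz] at this
      exact this.symm
    obtain ⟨w, hw⟩ := Crest.Agent.R018.EndAx924.eq_intCast_of_pow h1
    refine ⟨(w : ZMod l), ?_⟩
    apply (algebraMap (ZMod l) (AlgebraicClosure (ZMod l))).injective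
    rw [map_pow, map_intCast, map_natCast, ← hw, hPz]

/-! ### cyclic groups -/

/-- in a cyclic group of order `N`, `m ∣ N`, an element which is not a `u`-th power for any prime
`u ∣ m` has order divisible by `m` -/
theorem dvd_orderOf {G : Type*} [CommGroup G] [Finite G] [IsCyclic G] {m : ℕ}
    (hm : m ∣ Nat.card G) (x : G) (h : ∀ u : ℕ, u.Prime → u ∣ m → ¬ ∃ y : G, y ^ u = x) :
    m ∣ orderOf x := by
  obtain ⟨g, hg⟩ := IsCyclic.exists_generator (α := G)
  obtain ⟨j, hj⟩ := (mem_powers_iff_mem_zpowers.2 (hg x))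
  have hord : orderOf g = Nat.card G := orderOf_eq_card_of_forall_mem_zpowers hg
  have h1 : orderOf x = Nat.card G / Nat.gcd (Nat.card G) j := by
    rw [← hj, orderOf_pow, hord]
  set N := Nat.card G with hN
  have hN0 : 0 < N := Nat.card_pos
  set d := Nat.gcd N j with hd
  have hdN : d ∣ N := Nat.gcd_dvd_left _ _
  have h2 : N = d * orderOf x := by
    rw [h1, Nat.mul_div_cancel' hdN]
  have hcop : Nat.Coprime m d := by
    rw [Nat.coprime_iff_gcd_eq_one]
    by_contra hne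
    obtain ⟨u, hu, hud⟩ := Nat.exists_prime_and_dvd hne
    have hum : u ∣ m := hud.trans (Nat.gcd_dvd_left _ _)
    have huj : u ∣ j := (hud.trans (Nat.gcd_dvd_right _ _)).trans (Nat.gcd_dvd_right _ _)
    obtain ⟨w, hw⟩ := huj
    refine h u hu hum ⟨g ^ w, ?_⟩
    rw [← pow_mul, mul_comm, ← hw]
    exact hj
  exact hcop.dvd_of_dvd_mul_left (by rw [← h2]; exact hm)

/-- modular form -/
theorem modEq_of_pow_eq {m q : ℕ} (hm : m ∣ l - 1) (hql : ¬ l ∣ q)
    (h : ∀ u : ℕ, u.Prime → u ∣ m → ¬ ∃ y : ZMod l, y ^ u = (q : ZMod l)) (a b : ℕ)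
    (hab : (q : ZMod l) ^ a = (q : ZMod l) ^ b) : a ≡ b [MOD m] := by
  have hq0 : (q : ZMod l) ≠ 0 := by
    rw [Ne, ZMod.natCast_eq_zero_iff]; exact hql
  let x : (ZMod l)ˣ := Units.mk0 _ hq0
  have hcard : Nat.card (ZMod l)ˣ = l - 1 := by
    rw [Nat.card_eq_fintype_card, ZMod.card_units]
  have h1 : m ∣ orderOf x := by
    apply dvd_orderOf (by rw [hcard]; exact hm)
    rintro u hu hum ⟨y, hy⟩
    exact h u hu hum ⟨y, by rw [← Units.val_pow_eq_pow_val, hy]; rfl⟩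
  have h2 : x ^ a = x ^ b := Units.ext (by simpa [x] using hab)
  exact (pow_eq_pow_iff_modEq.1 h2).of_dvd h1

/-- if `q` is an `r`-th power and `p` is not, then `p ^ f` is not a power of `q` for `0 < f < r` -/
theorem pow_ne_of_not_pow {r p q : ℕ} (hr : r.Prime)
    (hpl : ¬ l ∣ p) (hq : ∃ y : ZMod l, y ^ r = (q : ZMod l))
    (hp : ¬ ∃ y : ZMod l, y ^ r = (p : ZMod l)) (f j : ℕ) (hf : 0 < f) (hfr : f < r) :
    (p : ZMod l) ^ f ≠ (q : ZMod l) ^ j := by
  intro h
  obtain ⟨y, hy⟩ := hq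
  have hp0 : (p : ZMod l) ≠ 0 := by
    rw [Ne, ZMod.natCast_eq_zero_iff]; exact hpl
  have hcop : IsCoprime (f : ℤ) (r : ℤ) := by
    rw [Nat.isCoprime_iff_coprime]
    exact ((Nat.Prime.coprime_iff_not_dvd hr).2 (Nat.not_dvd_of_pos_of_lt hf hfr)).symm
  obtain ⟨a, b, hab⟩ := hcop
  apply hp
  refine ⟨(y ^ j) ^ a * (p : ZMod l) ^ b, ?_⟩
  have h1 : ((y ^ j) ^ r) = (p : ZMod l) ^ f := by
    rw [h, ← hy, ← pow_mul, ← pow_mul, mul_comm]
  rw [mul_pow, ← zpow_natCast ((y ^ j) ^ a), ← zpow_mul, mul_comm a, zpow_mul, zpow_natCast, h1,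
    ← zpow_natCast ((p : ZMod l) ^ b), ← zpow_mul, ← zpow_natCast (p : ZMod l) f, ← zpow_mul,
    ← zpow_add₀ hp0, mul_comm (f : ℤ) a, hab, zpow_one]

end Crest.Agent.R018.PowResCx693
end

-- ▼ part R018/LChoice_693
section

/-!
# Row 18, CORE (E): proof of `LChoice` (helper693)
-/

set_option autoImplicit false

open NumberField
open Crest.Agent.R018.EndDefx924
open Crest.Agent.R018.LChoiceDefx693 Crest.Agent.R018.PowResBx693 Crest.Agent.R018.PowResCx693

namespace Crest.Agent.R018.LChoicex693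

/-- a finite Galois field containing finitely many radicals -/
theorem exists_field (n : ℕ) (hn : 0 < n) (A : Finset ℕ) :
    ∃ N : IntermediateField ℚ Om, FiniteDimensional ℚ N ∧ IsGalois ℚ N ∧
      ∀ x : Om, (x ^ n = 1 ∨ ∃ q ∈ A, x ^ n = (q : Om)) → x ∈ N := by
  classical
  let f : Polynomial ℚ := (Polynomial.X ^ n - 1) * ∏ q ∈ A, (Polynomial.X ^ n - Polynomial.C (q : ℚ))
  have hf0 : f ≠ 0 := by
    refine mul_ne_zero ?_ (Finset.prod_ne_zero_iff.2 fun q _ => ?_)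
    · have := Polynomial.X_pow_sub_C_ne_zero (R := ℚ) hn 1
      simpa using this
    · exact Polynomial.X_pow_sub_C_ne_zero hn _
  let N := IntermediateField.adjoin ℚ (f.rootSet Om)
  have hs : (f.map (algebraMap ℚ Om)).Splits := IsAlgClosed.splits _
  have hN : Polynomial.IsSplittingField ℚ N f :=
    IntermediateField.adjoin_rootSet_isSplittingField hs
  have hNn : Normal ℚ N := Normal.of_isSplittingField f
  have hNf : FiniteDimensional ℚ N := Polynomial.IsSplittingField.finiteDimensional N f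
  refine ⟨N, hNf, ⟨⟩, fun x hx => ?_⟩
  apply IntermediateField.subset_adjoin
  rw [Polynomial.mem_rootSet_of_ne hf0]
  simp only [f, map_mul, map_prod, map_sub, map_pow, Polynomial.aeval_X, map_one,
    Polynomial.aeval_C]
  rcases hx with hx | ⟨q, hq, hx⟩
  · rw [hx, sub_self, zero_mul]
  · rw [Finset.prod_eq_zero hq, mul_zero]
    rw [hx]; simp

theorem lchoice : LChoice := by
  classical
  intro m hm
  refine ⟨m, fun S hS T₀ hT₀ R B => ?_⟩
  -- work with `T = T₀ ∪ S`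
  set T : Finset ℕ := T₀ ∪ S with hTdef
  have hT : ∀ t ∈ T, t.Prime := by
    intro t ht
    rcases Finset.mem_union.1 ht with h | h
    · exact hT₀ t h
    · exact (hS t h).1
  obtain ⟨e, he0, he⟩ := exists_exponent m hm S
  -- the primes `r q`
  let C : ℕ := R + m + e + ∑ t ∈ T, t
  let r : ℕ → ℕ := fun q => Nat.nth Nat.Prime (C + q)
  have hrp : ∀ q, (r q).Prime := fun q => Nat.prime_nth_prime _
  have hrC : ∀ q, C < r q := fun q => by
    have := Nat.add_two_le_nth_prime (C + q)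
    simp only [r]; omega
  have hrinj : Function.Injective r := by
    intro q q' h
    have := Nat.nth_injective Nat.infinite_setOfPred_prime h
    omega
  have hTC : ∀ t ∈ T, t ≤ C := by
    intro t ht
    have h1 : t ≤ ∑ t ∈ T, t :=
      Finset.single_le_sum (f := fun t : ℕ => t) (fun _ _ => Nat.zero_le _) ht
    omega
  set ρ : ℕ := ∏ q ∈ S, r q with hρdef
  have hρ : 0 < ρ := Finset.prod_pos fun q _ => (hrp q).pos
  have hrρ : ∀ q ∈ S, r q ∣ ρ := fun q hq => Finset.dvd_prod_of_mem _ hq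
  have hTρ : ∀ t ∈ T, ¬ t ∣ ρ := by
    intro t ht h
    obtain ⟨q, hq, hq2⟩ := (Prime.dvd_finsetProd_iff (hT t ht).prime _).1 h
    have h1 := (Nat.prime_dvd_prime_iff_eq (hT t ht) (hrp q)).1 hq2
    have h2 := hTC t ht
    have h3 := hrC q
    omega
  have hSm : ∀ q ∈ S, ¬ q ∣ m * ρ := by
    intro q hq h
    rcases (Nat.Prime.dvd_mul (hS q hq).1).1 h with h | h
    · have := Nat.le_of_dvd hm h
      have := (hS q hq).2
      omega
    · exact hTρ q (Finset.mem_union_right _ hq) h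
  have hmρ : 0 < m * ρ := Nat.mul_pos hm hρ
  have hnz : NeZero ((m * ρ : ℕ) : Om) := ⟨by exact_mod_cast hmρ.ne'⟩
  obtain ⟨ζ, hζ⟩ : ∃ ζ : Om, IsPrimitiveRoot ζ (m * ρ) :=
    HasEnoughRootsOfUnity.exists_primitiveRoot Om (m * ρ)
  have hex : ∀ t : ℕ, ∃ x : Om, x ^ (m * ρ) = (t : Om) := fun t =>
    IsAlgClosed.exists_pow_nat_eq _ hmρ
  choose a ha using hex
  obtain ⟨s, s1, s2, -, -, s5, s6⟩ := exists_aut m ρ e hm hρ S r he
    (fun q hq => ⟨(hS q hq).1, hSm q hq⟩) ζ hζ a ha T (fun t ht => ⟨hT t ht, hTρ t ht⟩)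
  obtain ⟨N, hNf, hNg, hN⟩ := exists_field (m * ρ) hmρ T
  have hζN : ζ ∈ N := hN ζ (Or.inl hζ.pow_eq_one)
  have haN : ∀ t ∈ T, a t ∈ N := fun t ht => hN _ (Or.inr ⟨t, ht, ha t⟩)
  obtain ⟨l, hlf, hBl, -, P, g, hg, ⟨k1, hk1⟩, ⟨k2, hk2⟩⟩ :=
    Crest.Agent.R018.FDAdaptx389.fd_univ N s (B + m * ρ + C)
  have hlT : ∀ t ∈ T, ¬ l ∣ t := by
    intro t ht h
    have h1 := Nat.le_of_dvd (hT t ht).pos h
    have h2 := hTC t ht
    omega
  have hlmρ : ¬ l ∣ m * ρ := by
    intro h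
    have := Nat.le_of_dvd hmρ h
    omega
  -- fixed points of `g` and `s`
  have hpow : ∀ (h : Om ≃ₐ[ℚ] Om) (x : Om), h x = x → ∀ k : ℕ, (h ^ k) x = x := by
    intro h x hx k
    induction k with
    | zero => rfl
    | succ k ih => rw [pow_succ, AlgEquiv.mul_apply, hx, ih]
  have hfix : ∀ x ∈ N, g x = x ↔ s x = x := by
    intro x hx
    constructor
    · intro h; rw [hk1 x hx]; exact hpow g x h k1
    · intro h; rw [hk2 x hx]; exact hpow s x h k2
  have hζρN : ζ ^ ρ ∈ N := pow_mem hζN ρ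
  have hζmN : ζ ^ m ∈ N := pow_mem hζN m
  have hζm : IsPrimitiveRoot (ζ ^ ρ) m := hζ.pow hmρ (mul_comm m ρ)
  have hζρ : IsPrimitiveRoot (ζ ^ m) ρ := hζ.pow hmρ rfl
  have hml : m ∣ l - 1 := dvd_sub_one P g hg (fun h => hlmρ (h.mul_right _)) hζm
    ((hfix _ hζρN).2 s1)
  have hρl : ρ ∣ l - 1 := dvd_sub_one P g hg (fun h => hlmρ (h.mul_left _)) hζρ
    ((hfix _ hζmN).2 s2)
  refine ⟨l, hlf.out, by omega, hml, fun q hq => ⟨?_, ?_⟩⟩
  · have hqT : q ∈ T := Finset.mem_union_right _ hq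
    intro x y hxy
    refine modEq_of_pow_eq hml (hlT q hqT) ?_ x y hxy
    intro u hu hum
    obtain ⟨w, hw⟩ := hum
    have hw0 : 0 < w := Nat.pos_of_ne_zero (by rintro rfl; omega)
    have hx : ((a q ^ ρ) ^ w) ^ u = (q : Om) := by
      rw [← ha q, ← pow_mul, ← pow_mul, hw]
      congr 1; ring
    have hxN : (a q ^ ρ) ^ w ∈ N := pow_mem (pow_mem (haN q hqT) _) _
    rw [isPow_iff P g hg ((Dvd.intro _ hw.symm).trans hml) (hlT q hqT) hx, hfix _ hxN]
    intro hs
    rw [map_pow, (s5 q hq hqT).1, mul_pow, ← pow_mul] at hs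
    have hne : (a q ^ ρ) ^ w ≠ 0 := by
      intro h
      rw [h, zero_pow hu.ne_zero] at hx
      exact (hS q hq).1.ne_zero (by exact_mod_cast hx.symm)
    have h1 : (ζ ^ ρ) ^ (r q * w) = 1 := mul_right_cancel₀ hne (by rw [one_mul]; exact hs)
    have h2 : u * w ∣ r q * w := by
      rw [← hw]; exact hζm.dvd_of_pow_eq_one _ h1
    have h3 : u ∣ r q := Nat.dvd_of_mul_dvd_mul_right hw0 h2
    have h4 := (Nat.prime_dvd_prime_iff_eq hu (hrp q)).1 h3
    have h5 : u ≤ m := Nat.le_of_dvd hm (Dvd.intro _ hw.symm)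
    have h6 := hrC q
    omega
  · intro p hp hpq f j hf hfR
    have hqT : q ∈ T := Finset.mem_union_right _ hq
    have hpT : p ∈ T := Finset.mem_union_left _ hp
    obtain ⟨w, hw⟩ := hrρ q hq
    have hw0 : 0 < w := Nat.pos_of_ne_zero (by rintro rfl; omega)
    have hrl : r q ∣ l - 1 := (hrρ q hq).trans hρl
    refine pow_ne_of_not_pow (hrp q) (hlT p hpT) ?_ ?_ f j hf (by have := hrC q; omega)
    · have hx : ((a q ^ m) ^ w) ^ (r q) = (q : Om) := by
        rw [← ha q, ← pow_mul, ← pow_mul, hw]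
        congr 1; ring
      have hxN : (a q ^ m) ^ w ∈ N := pow_mem (pow_mem (haN q hqT) _) _
      rw [isPow_iff P g hg hrl (hlT q hqT) hx, hfix _ hxN, map_pow, (s5 q hq hqT).2, mul_pow,
        ← pow_mul, ← hw, hζρ.pow_eq_one, one_mul]
    · have hx : ((a p ^ m) ^ w) ^ (r q) = (p : Om) := by
        rw [← ha p, ← pow_mul, ← pow_mul, hw]
        congr 1; ring
      have hxN : (a p ^ m) ^ w ∈ N := pow_mem (pow_mem (haN p hpT) _) _
      rw [isPow_iff P g hg hrl (hlT p hpT) hx, hfix _ hxN]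
      -- the exponent
      obtain ⟨E, hE, hsE⟩ : ∃ E : ℕ, ¬ r q ∣ E ∧ s (a p ^ m) = (ζ ^ m) ^ E * a p ^ m := by
        by_cases hpS : p ∈ S
        · refine ⟨r p, ?_, (s5 p hpS hpT).2⟩
          intro h
          exact hpq (hrinj ((Nat.prime_dvd_prime_iff_eq (hrp q) (hrp p)).1 h)).symm
        · refine ⟨e, ?_, s6 p hpT hpS⟩
          intro h
          have h1 := Nat.le_of_dvd he0 h
          have h2 := hrC q
          omega
      intro hs
      rw [map_pow, hsE, mul_pow, ← pow_mul] at hs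
      have hne : (a p ^ m) ^ w ≠ 0 := by
        intro h
        rw [h, zero_pow (hrp q).ne_zero] at hx
        exact (hT p hpT).ne_zero (by exact_mod_cast hx.symm)
      have h1 : (ζ ^ m) ^ (E * w) = 1 := mul_right_cancel₀ hne (by rw [one_mul]; exact hs)
      have h2 : r q * w ∣ E * w := by
        rw [← hw]; exact hζρ.dvd_of_pow_eq_one _ h1
      exact hE (Nat.dvd_of_mul_dvd_mul_right hw0 h2)

end Crest.Agent.R018.LChoicex693
end

-- ▼ part R018/Deg1Holds_614
section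

/-!
# Row 18: `Deg1Thm` of the frozen interface (helper614)
-/

set_option autoImplicit false

noncomputable section

open NumberField Module IsDedekindDomain
open scoped Pointwise
open Crest.Agent.R018.Placesx484 Crest.Agent.R018.Placesx484.Place
  Crest.Agent.R018.WaldNFx614 Crest.Agent.R018.Corex74
open Crest.Agent.R018.EndDefx924 (Om)

namespace Crest.Agent.R018.Deg1Holdsx614

/-- almost all primes are unramified -/
theorem exists_unram (F : Type*) [Field F] [NumberField F] :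
    ∃ N : ℕ, ∀ p : ℕ, p.Prime → N < p → ∀ P : Ideal (𝓞 F), P.IsPrime → (p : 𝓞 F) ∈ P →
      (p : 𝓞 F) ∉ P ^ 2 := by
  refine ⟨(discr F).natAbs, fun p hp hN P hP hmem hmem2 => ?_⟩
  have hpI : Prime (p : ℤ) := Nat.prime_iff_prime_int.mp hp
  have hnd : ¬ (p : ℤ) ∣ discr F := by
    intro hd
    have h1 := Int.natAbs_dvd_natAbs.mpr hd
    rw [Int.natAbs_natCast] at h1
    exact absurd (Nat.le_of_dvd (Int.natAbs_pos.mpr (discr_ne_zero F)) h1) (not_le.mpr hN)
  have hur := (NumberField.not_dvd_discr_iff_forall_mem F (𝓞 F) hpI).mp hnd P hP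
    (by simpa using hmem)
  have h1 : P.ramificationIdx ℤ = 1 := Ideal.ramificationIdx_eq_one P ℤ
  have hlies : P.LiesOver (Ideal.span {(p : ℤ)}) :=
    (Ideal.liesOver_span_iff hP.ne_top hpI).mpr (by simpa using hmem)
  have hmap : (Ideal.span {(p : ℤ)}).map (algebraMap ℤ (𝓞 F)) = Ideal.span {(p : 𝓞 F)} := by
    rw [Ideal.map_span, Set.image_singleton]
    simp
  have hp0 : (p : 𝓞 F) ≠ 0 := by exact_mod_cast hp.ne_zero
  have hne : (Ideal.span {(p : ℤ)}).map (algebraMap ℤ (𝓞 F)) ≠ ⊥ := by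
    rw [hmap, Ne, Ideal.span_singleton_eq_bot]
    exact hp0
  have h2 := Ideal.IsDedekindDomain.ramificationIdx_eq_multiplicity (Ideal.span {(p : ℤ)}) P hne
  rw [h1] at h2
  have h3 : P ^ 2 ∣ (Ideal.span {(p : ℤ)}).map (algebraMap ℤ (𝓞 F)) := by
    rw [hmap, Ideal.dvd_span_singleton]
    exact hmem2
  have hfin : FiniteMultiplicity P ((Ideal.span {(p : ℤ)}).map (algebraMap ℤ (𝓞 F))) := by
    apply FiniteMultiplicity.of_prime_left _ hne
    apply Ideal.prime_of_isPrime _ hP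
    rintro rfl
    exact hp0 (by simpa using hmem)
  have h4 := hfin.le_multiplicity_of_pow_dvd h3
  omega

/-- A finite field in which `x ^ p = x` has at most `p` elements. -/
theorem card_eq_of_frob {k : Type*} [Field k] [Finite k] {p : ℕ} [hp : Fact p.Prime] [CharP k p]
    (h : ∀ x : k, x ^ p = x) : Nat.card k = p := by
  have hbij : Function.Bijective (ZMod.castHom (dvd_refl p) k) := by
    refine ⟨(ZMod.castHom (dvd_refl p) k).injective, fun x => ?_⟩
    obtain ⟨n, hn⟩ := EndAx924.eq_intCast_of_pow (h x)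
    exact ⟨(n : ZMod p), by rw [hn]; simp⟩
  rw [← Nat.card_congr (Equiv.ofBijective _ hbij), Nat.card_zmod]

/-- The prime of `F` below `P` has degree one if a `p`-Frobenius at `P` fixes `F`. -/
theorem absNorm_of_frob (F : IntermediateField ℚ Om) [NumberField F]
    (P : Place Om) (σ : BB) (hσF : ∀ x : F, σ (x : Om) = x) (hσ : Act P σ P.rchar) :
    Ideal.absNorm (P.res F).ideal = P.rchar := by
  have hmax : (P.res F).ideal.IsMaximal := (P.res F).isMaximal
  let _ := Ideal.Quotient.field (P.res F).ideal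
  have hfin : Finite (𝓞 F ⧸ (P.res F).ideal) := Place.finite_residue (P.res F)
  have hp : Fact P.rchar.Prime := ⟨P.rchar_prime⟩
  have hchar : CharP (𝓞 F ⧸ (P.res F).ideal) P.rchar := by
    constructor
    intro x
    rw [← rchar_res F P, ← natCast_mem_iff, ← map_natCast (Ideal.Quotient.mk (P.res F).ideal),
      Ideal.Quotient.eq_zero_iff_mem]
  rw [Ideal.absNorm_apply, Submodule.cardQuot_apply]
  refine card_eq_of_frob (fun x => ?_)
  obtain ⟨y, rfl⟩ := Ideal.Quotient.mk_surjective x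
  rw [← map_pow, Ideal.Quotient.eq, mem_res]
  have h1 := hσ (algebraMap (𝓞 F) (𝓞 Om) y)
  have h2 : σ • (algebraMap (𝓞 F) (𝓞 Om) y) = algebraMap (𝓞 F) (𝓞 Om) y := by
    apply NumberField.RingOfIntegers.coe_injective
    have h3 : algebraMap (𝓞 Om) Om (σ • algebraMap (𝓞 F) (𝓞 Om) y) =
        σ (algebraMap (𝓞 Om) Om (algebraMap (𝓞 F) (𝓞 Om) y)) := algebraMap.smul' _ _ Om
    rw [h3]
    exact hσF (y : F)
  rw [h2] at h1
  rw [map_sub, map_pow]
  have h4 := (P.ideal).neg_mem h1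
  rwa [neg_sub] at h4

theorem deg1_of_frob (F : IntermediateField ℚ Om) [NumberField F] (N : ℕ)
    (hN : ∀ p : ℕ, p.Prime → N < p → ∀ P : Ideal (𝓞 F), P.IsPrime → (p : 𝓞 F) ∈ P →
      (p : 𝓞 F) ∉ P ^ 2)
    (P : Place Om) (hP : N < P.rchar) (σ : BB) (hσF : ∀ x : F, σ (x : Om) = x)
    (hσ : Act P σ P.rchar) :
    Deg1 (⟨(P.res F).ideal, (P.res F).isPrime, (P.res F).ne_bot⟩ : HeightOneSpectrum (𝓞 F))
      P.rchar where
  prime := P.rchar_prime
  absNorm := absNorm_of_frob F P σ hσF hσ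
  unram := by
    apply hN P.rchar P.rchar_prime hP _ (P.res F).isPrime
    have := (P.res F).rchar_mem
    rwa [rchar_res] at this

/-- **`Deg1Thm` holds.** -/
theorem deg1Thm_holds : Deg1Thm := by
  intro G hG l hl hl2 lam hlam h
  let F : IntermediateField ℚ Om := IntermediateField.fixedField G
  have hfix : F.fixingSubgroup = G :=
    InfiniteGalois.fixingSubgroup_fixedField (⟨G, Subgroup.isClosed_of_isOpen G hG⟩ :
      ClosedSubgroup BB)
  have hfd : FiniteDimensional ℚ F := (InfiniteGalois.isOpen_iff_finite F).1 (by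
    change IsOpen (F.fixingSubgroup : Set BB)
    rw [hfix]
    exact hG)
  have hFn : NumberField F := ⟨⟩
  have hgal : IsGalois F Om := IsGalois.tower_top_intermediateField F
  -- the restriction of scalars
  let ρ₀ : (Om ≃ₐ[F] Om) →* BB := AlgEquiv.restrictScalarsHom ℚ
  have hρ₀ : ∀ g, ρ₀ g ∈ G := by
    intro g
    rw [← hfix]
    intro x
    exact g.commutes x
  have hρ₀c : Continuous ρ₀ := by
    apply Redx49.continuous_of_eval
    intro x
    exact Redx49.eval_mem_nhds (K := F) x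
  let ρ : (Om ≃ₐ[F] Om) →* G := ρ₀.codRestrict G hρ₀
  have hρc : Continuous ρ := hρ₀c.subtype_mk _
  have hρs : ∀ s : G, ∃ g, ρ g = s := by
    intro s
    have hs : (s : BB) ∈ F.fixingSubgroup := by rw [hfix]; exact s.2
    exact ⟨IntermediateField.fixingSubgroupEquiv F ⟨s, hs⟩, rfl⟩
  obtain ⟨N, hN⟩ := exists_unram F
  have key : lam.comp ρ = 1 := by
    refine DegThmx614.deg_one hl2 (fun n => ?_) (lam.comp ρ) (hlam.comp hρc) (fun B => ?_)
    · have : NeZero (l ^ n) := ⟨pow_ne_zero _ hl.out.ne_zero⟩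
      exact HasEnoughRootsOfUnity.exists_primitiveRoot Om (l ^ n)
    · obtain ⟨P, σ, hB, hf, ⟨hσG, hσ⟩, hσ1⟩ := h (max B N)
      rw [hf, pow_one] at hσ
      obtain ⟨g, hg⟩ := hρs σ
      have hσF : ∀ x : F, (σ : BB) (x : Om) = x := by
        intro x
        have hs : (σ : BB) ∈ F.fixingSubgroup := by rw [hfix]; exact σ.2
        exact hs x
      refine ⟨P.rchar, _, P, g, (le_max_left _ _).trans_lt hB,
        deg1_of_frob F N hN P ((le_max_right _ _).trans_lt hB) σ hσF hσ, rfl, ?_, ?_⟩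
      · intro x
        have h1 := hσ x
        have h2 : g • x = (σ : BB) • x := by
          rw [← hg]
          rfl
        rw [h2]
        exact h1
      · rw [MonoidHom.comp_apply, hg]
        exact hσ1
  ext s
  obtain ⟨g, rfl⟩ := hρs s
  have := DFunLike.congr_fun key g
  simpa using this

end Crest.Agent.R018.Deg1Holdsx614
end
end

-- ▼ part R018/CoreF_656
section

/-!
# Row 18: the library facts F3, F3', F4, F7 of `Core_74` (helper656)

Also: `Sv` is closed under radicals, contains all roots of unity.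
-/

set_option autoImplicit false

open NumberField Pointwise
open Crest.NumberTheoryR
open Crest.Agent.R018.EndDefx924 (Om)
open Crest.Agent.R018.Placesx484 Crest.Agent.R018.Placesx484.Place
open Crest.Agent.R018.Corex74 Crest.Agent.R018.TgtTx656

namespace Crest.Agent.R018.CoreFx656

/-- `Sv` is closed under radicals in `Om`. -/
theorem sv_rad {n : ℕ} (hn : n ≠ 0) (y : Om) (hy : y ^ n ∈ Sv) : y ∈ Sv := by
  unfold Sv at hy ⊢
  rw [← SetLike.mem_coe, IntermediateField.coe_iInf, Set.mem_iInter] at hy ⊢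
  intro E
  have hE : IsSolvablyClosed E.1 := E.2.2
  obtain ⟨z, hz⟩ := Crest.Agent.R018.Kumx568.exists_pow_eq hE n hn (⟨y ^ n, hy E⟩ : E.1)
  obtain ⟨ζ, hζ⟩ := Crest.Agent.R018.Kumx568.exists_primitiveRoot hE n hn
  have hz' : (z : Om) ^ n = y ^ n := congrArg Subtype.val hz
  by_cases hy0 : y = 0
  · rw [hy0]; exact zero_mem _
  have hz0 : (z : Om) ≠ 0 := by
    intro h
    rw [h, zero_pow hn] at hz'
    exact pow_ne_zero n hy0 hz'.symm
  have hζ' : IsPrimitiveRoot (ζ : Om) n := hζ.map_of_injective (f := algebraMap E.1 Om)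
    (algebraMap E.1 Om).injective
  have h1 : (y / z) ^ n = 1 := by
    rw [div_pow, hz', div_self (pow_ne_zero n hy0)]
  have : NeZero n := ⟨hn⟩
  obtain ⟨i, -, hi⟩ := hζ'.eq_pow_of_pow_eq_one h1
  have h2 : y = (ζ : Om) ^ i * z := by
    rw [hi, div_mul_cancel₀ _ hz0]
  rw [h2]
  exact mul_mem (pow_mem ζ.2 i) z.2


theorem sv_primitive {n : ℕ} (hn : n ≠ 0) : ∃ ζ : Sv, IsPrimitiveRoot ζ n := by
  have : NeZero n := ⟨hn⟩
  have : NeZero (n : Om) := ⟨by exact_mod_cast hn⟩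
  obtain ⟨ζ, hζ⟩ := IsAlgClosed.exists_root (Polynomial.cyclotomic n Om)
    (by rw [Polynomial.degree_cyclotomic]
        exact_mod_cast (Nat.totient_pos.2 (Nat.pos_of_ne_zero hn)).ne')
  have hζ' : IsPrimitiveRoot ζ n := Polynomial.isRoot_cyclotomic_iff.1 hζ
  have hmem : ζ ∈ Sv := sv_rad hn ζ (by rw [hζ'.pow_eq_one]; exact one_mem _)
  exact ⟨⟨ζ, hmem⟩, IsPrimitiveRoot.of_map_of_injective (f := algebraMap Sv Om)
    (by exact hζ') (algebraMap Sv Om).injective⟩

theorem F3_holds : F3 := by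
  intro V hV
  obtain ⟨B, hB⟩ := unram V hV
  exact ⟨B, fun Q hQ g hg => hB Q hQ hg⟩


theorem F4_holds : F4 := by
  intro V hVn hV Q hI φ hφ g hg
  obtain ⟨n, hn⟩ := exists_frob_pow Q V hV (fun g hg => hI g hg) hφ hg
  refine ⟨n, ?_⟩
  have h1 := V.inv_mem hn
  rwa [mul_inv_rev, inv_inv] at h1

theorem F7_holds : F7 := by
  intro V hV l hl ψ hψ Q hQ g hg
  have h1 := inert Q hQ (fun n => sv_primitive (pow_ne_zero n hl.out.ne_zero)) V hV
    (ψ := fun v => Multiplicative.toAdd (ψ v)) hψ (fun u v => by rw [map_mul, toAdd_mul]) g hg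
  exact Multiplicative.toAdd.injective (by rw [h1]; rfl)


end Crest.Agent.R018.CoreFx656
end

-- ▼ part R018/NUA_275
section

/-!
# Row 18, section 4 (Neukirch-Uchida for injective homomorphisms), part A (helper275)

`E₁ / F₁` Galois, solvably closed, `E₁ → Om`; the restriction `Gal(Om/F₁) → Gal(E₁/F₁)` and the
fact that an injective `β : Gal(E₁/F₁) → Gal(E₂/F₂)` is ramified at every place and every prime
`l` different from the residue characteristic.
-/

set_option autoImplicit false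

open NumberField
open scoped Pointwise Topology
open Crest.NumberTheoryR Crest.Agent.R018.Placesx484 Crest.Agent.R018.EndDefx924

namespace Crest.Agent.R018.NUAx275

section top

variable {F₂ E₂ : Type*} [Field F₂] [Field E₂] [Algebra F₂ E₂] [IsGalois F₂ E₂]
variable {G : Type*} [Group G] [TopologicalSpace G] [IsTopologicalGroup G] [CompactSpace G]
  [T2Space G]

omit [IsTopologicalGroup G] [T2Space G] in
/-- an injective continuous homomorphism detects orders at finite level -/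
theorem exists_level (β : G →* (E₂ ≃ₐ[F₂] E₂)) (hβ : Continuous β) (hinj : Function.Injective β)
    (M : Subgroup G) (hM : IsOpen (M : Set G)) :
    ∃ N : Subgroup (E₂ ≃ₐ[F₂] E₂), N.Normal ∧ IsOpen (N : Set (E₂ ≃ₐ[F₂] E₂)) ∧
      ∀ g : G, β g ∈ N → g ∈ M := by
  have h1 : IsCompact ((M : Set G)ᶜ) := hM.isClosed_compl.isCompact
  have h2 : IsClosed (β '' ((M : Set G)ᶜ)) := (h1.image hβ).isClosed
  have h3 : (β '' ((M : Set G)ᶜ))ᶜ ∈ 𝓝 (1 : E₂ ≃ₐ[F₂] E₂) := by
    refine h2.isOpen_compl.mem_nhds ?_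
    rintro ⟨g, hg, hg1⟩
    have h4 : g = 1 := hinj (by rw [hg1, map_one])
    rw [h4] at hg
    exact hg M.one_mem
  rw [krullTopology_mem_nhds_one_iff_of_normal] at h3
  obtain ⟨L, hL, hLn, hsub⟩ := h3
  refine ⟨L.fixingSubgroup, ?_, (InfiniteGalois.isOpen_iff_finite L).2 hL, ?_⟩
  · exact (InfiniteGalois.normal_iff_isGalois L).2 ⟨⟩
  · intro g hg
    by_contra hgM
    exact hsub hg ⟨g, hgM, rfl⟩

end top

theorem isAlgebraic_Om (inst : Algebra ℚ Om) : @Algebra.IsAlgebraic ℚ Om _ _ inst := by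
  have h : inst = AlgebraicClosure.instAlgebra ℚ := Subsingleton.elim _ _
  rw [h]
  exact AlgebraicClosure.isAlgebraic ℚ

section res

variable {F₁ E₁ : Type*} [Field F₁] [Field E₁] [Algebra F₁ E₁] [IsGalois F₁ E₁]
  [Algebra F₁ Om] [Algebra E₁ Om] [IsScalarTower F₁ E₁ Om]

/-- restriction `Gal(Om/F₁) → Gal(E₁/F₁)` -/
noncomputable def rho (F₁ E₁ : Type*) [Field F₁] [Field E₁] [Algebra F₁ E₁] [IsGalois F₁ E₁]
    [Algebra F₁ Om] [Algebra E₁ Om] [IsScalarTower F₁ E₁ Om] :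
    (Om ≃ₐ[F₁] Om) →* (E₁ ≃ₐ[F₁] E₁) := AlgEquiv.restrictNormalHom E₁





end res

section ram

variable {F₁ E₁ : Type*} [Field F₁] [NumberField F₁] [Field E₁] [Algebra F₁ E₁] [IsGalois F₁ E₁]
  [Algebra F₁ Om] [Algebra E₁ Om] [IsScalarTower F₁ E₁ Om]
variable {F₂ E₂ : Type*} [Field F₂] [Field E₂] [Algebra F₂ E₂] [IsGalois F₂ E₂]


end ram

end Crest.Agent.R018.NUAx275
end

-- ▼ part R018/NUCore_275
section

/-!
# Row 18, section 4: Neukirch-Uchida for open subgroups of `Gal(ℚ^solv/ℚ)` (helper275)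

* `nu_of : LocT → NU` (frozen interface `Core_74`), and a slightly more general form
  `nu_hom` (injective continuous homomorphisms from an open subgroup with open range).
-/

set_option autoImplicit false

open NumberField Pointwise
open Crest.NumberTheoryR
open Crest.Agent.R018.EndDefx924 (Om)
open Crest.Agent.R018.Placesx484
open Crest.Agent.R018.Corex74

namespace Crest.Agent.R018.NUCorex275

theorem res_continuous : Continuous res := by
  refine Redx49.continuous_of_eval _ fun x => ?_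
  refine Filter.mem_of_superset (Redx49.eval_mem_nhds (K := ℚ) (x : Om)) ?_
  intro g hg
  apply Subtype.ext
  rw [CycFTx925.coe_res]
  exact hg

theorem res_surjective : Function.Surjective res :=
  AlgEquiv.restrictNormalHom_surjective (F := ℚ) (K₁ := Sv) Om

/-- an element of `Om` fixed by the kernel of the restriction is in `Sv` -/
theorem mem_Sv_of_fixed (y : Om) (h : ∀ g : BB, res g = 1 → g y = y) : y ∈ Sv := by
  have : IsGalois Sv Om := LCEndx925.isGalois_Om Sv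
  have h1 : ∀ g : Om ≃ₐ[Sv] Om, g y = y := by
    intro g
    apply h (g.restrictScalars ℚ)
    ext x
    rw [CycFTx925.coe_res]
    exact g.commutes x
  obtain ⟨x, hx⟩ := (InfiniteGalois.mem_range_algebraMap_iff_fixed y).2 h1
  rw [← hx]
  exact x.2

/-- the data attached to an injective hom on an open subgroup of `SG` -/
noncomputable def datOf (S : Subgroup SG) (hS : IsOpen (S : Set SG)) (β : S →* SG)
    (hβ : Continuous β) (hr : IsOpen (Set.range β)) : Dat where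
  G := S.comap res
  isOpen_G := hS.preimage res_continuous
  α := β.comp (res.subgroupComap S)
  cont := by
    refine hβ.comp ?_
    rw [Topology.IsEmbedding.subtypeVal.continuous_iff]
    exact res_continuous.comp continuous_subtype_val
  open_range := by
    rw [MonoidHom.coe_comp, Set.range_comp]
    have h1 : Set.range (res.subgroupComap S) = Set.univ := by
      rw [Set.range_eq_univ]
      intro s
      obtain ⟨g, hg⟩ := res_surjective (s : SG)
      exact ⟨⟨g, by rw [Subgroup.mem_comap, hg]; exact s.2⟩, Subtype.ext hg⟩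
    rw [h1, Set.image_univ]
    exact hr

variable {S : Subgroup SG} {hS : IsOpen (S : Set SG)} {β : S →* SG}
  {hβ : Continuous β} {hr : IsOpen (Set.range β)}

theorem datOf_α (g : (datOf S hS β hβ hr).G) :
    (datOf S hS β hβ hr).α g = β ⟨res (g : BB), g.2⟩ := rfl

/-- everything is hit -/
theorem hit (hinj : Function.Injective β) (l : ℕ) (hl : l.Prime) (P : Place Om)
    (hP : P.rchar ≠ l) : Hit (datOf S hS β hβ hr) l P := by
  classical
  refine ⟨hP, ?_⟩
  obtain ⟨F₁, hnf, i, j, hji, hij, hi, hcont⟩ := FTSubx925.exists_transfer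
    (datOf S hS β hβ hr).G (datOf S hS β hβ hr).isOpen_G (datOf S hS β hβ hr).α
    (datOf S hS β hβ hr).cont
  have hgal : IsGalois F₁ Om := LCEndx925.isGalois_Om F₁
  have halg : @Algebra.IsAlgebraic ℚ Om _ _ DivisionRing.toRatAlgebra := NUAx275.isAlgebraic_Om _
  have hl0 : NeZero l := ⟨hl.ne_zero⟩
  have hl1 : NeZero (l : Om) := ⟨by exact_mod_cast hl.ne_zero⟩
  obtain ⟨ζ, hζ⟩ := HasEnoughRootsOfUnity.exists_primitiveRoot Om l
  obtain ⟨τ, hτ, π, ϖ, hπ, -, hτπ, -⟩ := Tamex31.exists_moving (K := F₁) P l hl hP ζ hζ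
    (fun x => by
      obtain ⟨y, hy⟩ := IsAlgClosed.exists_pow_nat_eq (algebraMap F₁ Om x) hl.pos
      exact ⟨y, hy⟩)
  have hsm : ∀ (g : Om ≃ₐ[F₁] Om) (x : 𝓞 Om), (i g : BB) • x = g • x := by
    intro g x
    apply NumberField.RingOfIntegers.coe_injective
    exact (LCMainx925.coe_smul_int (i g : BB) x).trans
      ((hi g _).trans (LCMainx925.coe_smul_int g x).symm)
  -- `F₁ ≤ Sv`, hence `π ∈ Sv`
  have hϖ : algebraMap F₁ Om ϖ ∈ Sv := by
    apply mem_Sv_of_fixed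
    intro g hg
    have hgG : g ∈ (datOf S hS β hβ hr).G := by
      change res g ∈ S
      rw [hg]; exact one_mem _
    have h1 : (i (j ⟨g, hgG⟩) : BB) = g := by rw [hij]
    have h2 := hi (j ⟨g, hgG⟩) (algebraMap F₁ Om ϖ)
    rw [h1] at h2
    rw [h2]
    exact (j ⟨g, hgG⟩).commutes _
  have hπS : π ∈ Sv := CycFTx925.root_mem_Sv hl.ne_zero (by rw [hπ]; exact hϖ)
  have hζS : ζ ∈ Sv := CycFTx925.root_mem_Sv hl.ne_zero (by rw [hζ.pow_eq_one]; exact one_mem _)
  have hπ0 : π ≠ 0 := by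
    rintro rfl
    rw [zero_pow hl.ne_zero] at hπ
    exact ϖ.ne_zero ((map_eq_zero _).1 hπ.symm)
  have hN : ¬ P.rchar ∣ l := fun h =>
    hP ((Nat.prime_dvd_prime_iff_eq P.rchar_prime hl).1 h)
  have hτζ : τ ζ = ζ := Placesx484.Place.inertia_root P hτ hN hζ.pow_eq_one
  have hpow : ∀ n : ℕ, ((i τ : BB) ^ n) π = ζ ^ n * π := by
    intro n
    induction n with
    | zero => simp
    | succ n ih =>
      rw [pow_succ', AlgEquiv.mul_apply, ih, map_mul, map_pow, hi, hi, hτζ, hτπ, pow_succ]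
      ring
  -- the level
  let M : Subgroup SG := (IntermediateField.adjoin ℚ {(⟨π, hπS⟩ : Sv)}).fixingSubgroup
  have hMo : IsOpen (M : Set SG) := by
    refine (InfiniteGalois.isOpen_iff_finite _).2 ?_
    exact IntermediateField.adjoin.finiteDimensional (Algebra.IsIntegral.isIntegral _)
  have hcS : CompactSpace S :=
    isCompact_iff_compactSpace.mp (Subgroup.isClosed_of_isOpen S hS).isCompact
  obtain ⟨N, hNn, hNo, hNM⟩ := NUAx275.exists_level β hβ hinj (M.subgroupOf S)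
    (hMo.preimage continuous_subtype_val)
  refine ⟨i τ, fun x => by rw [hsm]; exact hτ x, N, hNn, hNo, fun n hn => ?_⟩
  rw [datOf_α, ← map_pow] at hn
  have h4 := hNM _ hn
  rw [Subgroup.mem_subgroupOf] at h4
  have h5 := (IntermediateField.mem_fixingSubgroup_iff _ _).1 h4 ⟨π, hπS⟩
    (IntermediateField.mem_adjoin_simple_self ℚ _)
  have h6 : (res ((i τ : BB) ^ n) ⟨π, hπS⟩ : Sv) = ⟨π, hπS⟩ := by
    rw [map_pow]
    exact h5
  have h7 := congrArg (Subtype.val : Sv → Om) h6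
  rw [CycFTx925.coe_res] at h7
  change ((i τ : BB) ^ n) π = π at h7
  rw [hpow] at h7
  have h8 : ζ ^ n = 1 := by
    have : ζ ^ n * π = 1 * π := by rw [h7, one_mul]
    exact mul_right_cancel₀ hπ0 this
  exact (hζ.pow_eq_one_iff_dvd n).1 h8

/-- cyclotomic compatibility everywhere if every place is hit -/
theorem cycEq_of_hit (hloc : LocT) (D : Dat) (l : ℕ) (hl : l.Prime) (hl2 : l ≠ 2)
    (hhit : ∀ P : Place Om, P.rchar ≠ l → Hit D l P)
    (g : D.G) : CycEq l (g : BB) (D.α g) := by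
  classical
  obtain ⟨F₁, hnf, i, j, hji, hij, hi, hcont⟩ := FTSubx925.exists_transfer
    D.G D.isOpen_G D.α D.cont
  have hsP : ∀ (g : Om ≃ₐ[F₁] Om) (P : Place Om), (i g : BB) • P = g • P := by
    intro g P
    apply Place.ext
    ext x
    rw [Place.mem_smul_ideal, Place.mem_smul_ideal]
    have h3 : ((i g⁻¹ : D.G) : BB) • x = g⁻¹ • x := by
      apply NumberField.RingOfIntegers.coe_injective
      exact (LCMainx925.coe_smul_int (i g⁻¹ : BB) x).trans
        ((hi g⁻¹ _).trans (LCMainx925.coe_smul_int g⁻¹ x).symm)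
    rw [map_inv] at h3
    have h5 : ((i g : BB))⁻¹ • x = g⁻¹ • x := h3
    rw [h5]
  intro n ζ hζ
  have hm : l ^ n ≠ 0 := pow_ne_zero _ hl.ne_zero
  have key := Densx925.cyc_of_dec (F₁ := F₁) (F₂ := ℚ) (E₂ := Sv) (D.α.comp i) hcont hm
    (Kumx568.exists_primitiveRoot CycFTx925.sv_isSolvablyClosed _ hm) (by
      intro P hP h hh a ha ξ hξ
      by_cases hn : n = 0
      · subst hn
        rw [pow_zero, pow_one] at hξ
        rw [hξ, map_one, one_pow]
      have hP' : P.rchar ≠ l := by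
        intro h0
        exact hP (h0 ▸ dvd_pow_self _ hn)
      obtain ⟨Q, -, -, -, hcyc⟩ := hloc D l hl hl2 P (hhit P hP')
      have h1 := hcyc (i h) (by rw [hsP]; exact hh) n ξ hξ
      apply Subtype.ext
      rw [MonoidHom.comp_apply, h1, hi, ha (ξ : Om) (by
        have := congrArg (Subtype.val : Sv → Om) hξ
        simpa using this)]
      rfl)
  -- `g` acts on `μ_m(Om)` by some power
  have hm1 : NeZero (l ^ n) := ⟨hm⟩
  have hm2 : NeZero ((l ^ n : ℕ) : Om) := ⟨by exact_mod_cast hm⟩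
  obtain ⟨ξ, hξ⟩ := HasEnoughRootsOfUnity.exists_primitiveRoot Om (l ^ n)
  obtain ⟨a, -, ha⟩ := hξ.eq_pow_of_pow_eq_one (ξ := (g : BB) ξ) (by
    rw [← map_pow, hξ.pow_eq_one, map_one])
  have hall : ∀ η : Om, η ^ (l ^ n) = 1 → (g : BB) η = η ^ a := by
    intro η hη
    obtain ⟨b, -, hb⟩ := hξ.eq_pow_of_pow_eq_one hη
    rw [← hb, map_pow, ← ha, ← pow_mul, ← pow_mul, mul_comm]
  have h1 := key (j g) a (fun η hη => by
    rw [← hi, hij]; exact hall η hη) ζ hζ
  rw [MonoidHom.comp_apply, hij] at h1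
  rw [h1, hall (ζ : Om) (by
    have := congrArg (Subtype.val : Sv → Om) hζ
    simpa using this)]
  rfl

/-- **Neukirch-Uchida**, homomorphism form -/
theorem nu_hom (hloc : LocT) (S : Subgroup SG) (hS : IsOpen (S : Set SG)) (β : S →* SG)
    (hβ : Continuous β) (hinj : Function.Injective β) (hr : IsOpen (Set.range β)) :
    ∃ t : SG, ∀ s : S, β s = t⁻¹ * (s : SG) * t := by
  obtain ⟨t, ht⟩ := CycFTx925.cycFT_of_locT hloc (datOf S hS β hβ hr)
    (fun l hl hl2 g => cycEq_of_hit hloc _ l hl hl2 (fun P hP => hit hinj l hl P hP) g)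
  refine ⟨t, fun s => ?_⟩
  obtain ⟨g, hg⟩ := res_surjective (s : SG)
  have hgS : res g ∈ S := by rw [hg]; exact s.2
  have h1 := ht ⟨g, hgS⟩
  rw [datOf_α] at h1
  have h2 : (⟨res g, hgS⟩ : S) = s := Subtype.ext hg
  change β ⟨res g, hgS⟩ = t⁻¹ * res g * t at h1
  rw [h2, hg] at h1
  exact h1

/-- **NU** of the frozen interface -/
theorem nu_of (hloc : LocT) : NU := by
  intro S hS β hβ
  have hinj : Function.Injective (S.subtype.comp β.toMonoidHom) :=
    Subtype.val_injective.comp β.injective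
  have hr : Set.range (S.subtype.comp β.toMonoidHom) = (S : Set SG) := by
    ext x
    constructor
    · rintro ⟨s, rfl⟩
      exact (β s).2
    · intro hx
      exact ⟨β.symm ⟨x, hx⟩, by simp⟩
  obtain ⟨t, ht⟩ := nu_hom hloc S hS (S.subtype.comp β.toMonoidHom)
    (continuous_subtype_val.comp hβ) hinj (by rw [hr]; exact hS)
  exact ⟨t, fun s => ht s⟩

end Crest.Agent.R018.NUCorex275
end

-- ▼ part R018/F1_389
section

/-!
# Row 18: the literals F1, F8 (and F2) of `Core_74`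
-/

set_option autoImplicit false
set_option linter.unusedSectionVars false

open NumberField
open scoped Pointwise
open Crest.Agent.R018.Placesx484 Crest.Agent.R018.Corex74
open Crest.Agent.R018.EndDefx924 (Om)

namespace Crest.Agent.R018.F1x389

section act

variable {E H : Type*} [Field E] [Group H] [MulSemiringAction H E]

theorem act_mul (P : Place E) {g h : H} {a b : ℕ} (hg : Act P g a) (hh : Act P h b) :
    Act P (g * h) (a * b) := by
  intro x
  have h1 := hg (h • x)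
  have h2 := hh x
  have h3 : (h • x) ^ a - (x ^ b) ^ a ∈ P.ideal :=
    Ideal.mem_of_dvd _ (sub_dvd_pow_sub_pow (h • x) (x ^ b) a) h2
  have h4 := P.ideal.add_mem h1 h3
  rw [sub_add_sub_cancel, ← pow_mul, mul_comm b a] at h4
  rw [mul_smul]
  exact h4

theorem act_one (P : Place E) : Act P (1 : H) 1 := by
  intro x
  rw [one_smul, pow_one, sub_self]
  exact P.ideal.zero_mem

theorem act_pow (P : Place E) {g : H} {a : ℕ} (hg : Act P g a) (n : ℕ) :
    Act P (g ^ n) (a ^ n) := by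
  induction n with
  | zero => simpa using act_one P
  | succ n ih => rw [pow_succ, pow_succ]; exact act_mul P ih hg

/-- cancellation: `g` acts as the power `b * c`, `h` as the power `b`, then `g h⁻¹` acts as the
power `c` -/
theorem act_div (P : Place E) {g h : H} {b c : ℕ} (hg : Act P g (b * c)) (hh : Act P h b) :
    Act P (g * h⁻¹) c := by
  intro y
  have h1 := hg (h⁻¹ • y)
  have h2 := hh (h⁻¹ • y)
  rw [smul_inv_smul] at h2
  have h3 : y ^ c - ((h⁻¹ • y) ^ b) ^ c ∈ P.ideal :=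
    Ideal.mem_of_dvd _ (sub_dvd_pow_sub_pow y ((h⁻¹ • y) ^ b) c) h2
  have h4 := P.ideal.sub_mem h1 h3
  rw [mul_smul]
  rw [pow_mul] at h4
  have e : g • h⁻¹ • y - ((h⁻¹ • y) ^ b) ^ c - (y ^ c - ((h⁻¹ • y) ^ b) ^ c) =
      g • h⁻¹ • y - y ^ c := by ring
  rwa [e] at h4

end act

theorem f2_holds : F2 := by
  refine ⟨fun Q => ?_, fun P => ?_⟩
  · obtain ⟨F, h1, h2⟩ := FDEx389.exists_frobQ Q
    exact ⟨F, h1, h2⟩
  · obtain ⟨F, h1, h2⟩ := FDEx389.exists_frobQ P
    exact ⟨F, h1, h2⟩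

theorem f1_holds : F1 := by
  intro G hG P
  -- a Frobenius over `ℚ`
  obtain ⟨φ, -, hφ⟩ := f2_holds.2 P
  have hfin : G.FiniteIndex := by
    have : CompactSpace BB := inferInstance
    have : Finite (BB ⧸ G) := G.quotient_finite_of_isOpen hG
    exact G.finiteIndex_of_finite_quotient
  have hpow : ∃ n : ℕ, 0 < n ∧ n ≤ G.index ∧ φ ^ n ∈ G := by
    obtain ⟨n, h1, h2, h3⟩ := Subgroup.exists_pow_mem_of_index_ne_zero (H := G)
      hfin.index_ne_zero φ
    exact ⟨n, h1, h2, h3⟩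
  obtain ⟨n, hn0, hn, hnG⟩ := hpow
  have hmem : n ∈ {a | 0 < a ∧ ∃ g ∈ G, Act P g (P.rchar ^ a)} :=
    ⟨hn0, φ ^ n, hnG, act_pow P hφ n⟩
  have hne : {a | 0 < a ∧ ∃ g ∈ G, Act P g (P.rchar ^ a)}.Nonempty := ⟨n, hmem⟩
  obtain ⟨hpos, σ, hσG, hσ⟩ := Nat.sInf_mem hne
  refine ⟨hpos, (Nat.sInf_le hmem).trans hn, ⟨σ, hσG, hσ⟩, ?_⟩
  intro g hg a ha hga
  change Act P σ (P.rchar ^ fdeg G P) at hσ
  rw [Nat.dvd_iff_mod_eq_zero]
  by_contra hr
  have hr0 : 0 < a % fdeg G P := Nat.pos_of_ne_zero hr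
  have hlt : a % fdeg G P < fdeg G P := Nat.mod_lt _ hpos
  have h1 := act_pow P hσ (a / fdeg G P)
  have h2 : Act P (g * (σ ^ (a / fdeg G P))⁻¹) (P.rchar ^ (a % fdeg G P)) := by
    refine act_div P ?_ h1
    rw [← pow_mul, ← pow_add, Nat.div_add_mod]
    exact hga
  have h3 : fdeg G P ≤ a % fdeg G P :=
    Nat.sInf_le ⟨hr0, _, G.mul_mem hg (G.inv_mem (G.pow_mem hσG _)), h2⟩
  omega

theorem f8_holds : F8 := by
  intro V hV hVo s B
  obtain ⟨Q, φ, h1, h2, ⟨k, hk⟩, ⟨j, hj⟩⟩ := FDEx389.fde Sv V hVo s B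
  refine ⟨Q, φ, h1, h2, ⟨k, ?_⟩, ⟨j, ?_⟩⟩
  · rw [← inv_pow]; exact hk
  · rw [← inv_pow]; exact hj

end Crest.Agent.R018.F1x389
end

-- ▼ part R018/SetupA_678
section

/-!
# Row 18, set-up of section 7 (helper678), arithmetic part

`exists_indep`: in a number field `F` Galois over `ℚ` there are, for every `n` and every modulus
`M ≠ 0`, algebraic integers `x 0, …, x (n-1)`, all `≡ 1 mod M`, all of whose conjugates
`γ • x i` are independent modulo squares.
-/

set_option autoImplicit false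
set_option linter.unusedSectionVars false

open NumberField Ideal MulAction
open scoped Pointwise

namespace Crest.Agent.R018.SetupAx678

variable {F : Type*} [Field F] [NumberField F] [IsGalois ℚ F]

theorem natCast_mem_smul {P : Ideal (𝓞 F)} {p : ℕ} (h : (p : 𝓞 F) ∈ P) (γ : Gal(F/ℚ)) :
    (p : 𝓞 F) ∈ γ • P := by
  rw [Ideal.mem_pointwise_smul_iff_inv_smul_mem]
  have : γ⁻¹ • (p : 𝓞 F) = p :=
    map_natCast (MulSemiringAction.toRingHom Gal(F/ℚ) (𝓞 F) γ⁻¹) p
  rwa [this]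

instance smul_isPrime {P : Ideal (𝓞 F)} [hP : P.IsPrime] (γ : Gal(F/ℚ)) : (γ • P).IsPrime := by
  infer_instance

theorem smul_ne_bot {P : Ideal (𝓞 F)} (hP0 : P ≠ ⊥) (γ : Gal(F/ℚ)) : γ • P ≠ ⊥ := by
  intro h
  apply hP0
  have h1 : γ⁻¹ • (γ • P) = γ⁻¹ • (⊥ : Ideal (𝓞 F)) := by rw [h]
  rw [inv_smul_smul] at h1
  rw [h1]
  exact Ideal.map_bot

/-- one element, with a simple zero at `P` and nonzero at the other conjugates of `P`. -/
theorem exists_one (p : ℕ) (hp : p.Prime) (P : Ideal (𝓞 F)) [hP : P.IsPrime] (hP0 : P ≠ ⊥)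
    (hmem : (p : 𝓞 F) ∈ P) (hst : stabilizer Gal(F/ℚ) P = ⊥) (M : ℕ) (hM : ¬ p ∣ M) :
    ∃ x : 𝓞 F, (M : 𝓞 F) ∣ x - 1 ∧ x ∈ P ∧ x ∉ P ^ 2 ∧ ∀ γ : Gal(F/ℚ), γ ≠ 1 → x ∉ γ • P := by
  classical
  obtain ⟨π, hπ, hπ2⟩ : ∃ π, π ∈ P ∧ π ∉ P ^ 2 := by
    have hlt : P ^ 2 < P := by
      have := Ideal.pow_right_strictAnti P hP0 hP.ne_top (show 1 < 2 by norm_num)
      simpa using this
    exact SetLike.exists_of_lt hlt
  let I : Option Gal(F/ℚ) → Ideal (𝓞 F) := fun o =>
    o.elim (span {(M : 𝓞 F)}) (fun γ => if γ = 1 then P ^ 2 else γ • P)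
  have hMc : ∀ γ : Gal(F/ℚ), IsCoprime (span {(M : 𝓞 F)}) (γ • P) := by
    intro γ
    have hc : IsCoprime (M : ℤ) (p : ℤ) := by
      rw [Nat.isCoprime_iff_coprime]
      exact ((Nat.Prime.coprime_iff_not_dvd hp).mpr hM).symm
    obtain ⟨a, b, hab⟩ := hc
    rw [Ideal.isCoprime_iff_exists]
    refine ⟨(a : 𝓞 F) * M, Ideal.mul_mem_left _ _ (Ideal.mem_span_singleton_self _),
      (b : 𝓞 F) * p, Ideal.mul_mem_left _ _ (natCast_mem_smul hmem γ), ?_⟩
    have := congrArg (Int.cast : ℤ → 𝓞 F) hab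
    push_cast at this
    exact this
  have hne : ∀ γ γ' : Gal(F/ℚ), γ ≠ γ' → IsCoprime (γ • P) (γ' • P) := by
    intro γ γ' h
    rw [Ideal.isCoprime_iff_sup_eq]
    have h1 : (γ • P).IsMaximal := (smul_isPrime γ).isMaximal (smul_ne_bot hP0 γ)
    have h2 : (γ' • P).IsMaximal := (smul_isPrime γ').isMaximal (smul_ne_bot hP0 γ')
    apply h1.coprime_of_ne h2
    intro he
    apply h
    have h3 : γ'⁻¹ * γ ∈ stabilizer Gal(F/ℚ) P := by
      rw [mem_stabilizer_iff, mul_smul, he, inv_smul_smul]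
    rw [hst, Subgroup.mem_bot] at h3
    exact (inv_mul_eq_one.mp h3).symm
  have hI : Pairwise (Function.onFun IsCoprime I) := by
    have key : ∀ γ : Gal(F/ℚ), IsCoprime (span {(M : 𝓞 F)}) (I (some γ)) := by
      intro γ
      change IsCoprime _ (if γ = 1 then P ^ 2 else γ • P)
      split_ifs with h
      · have := hMc 1
        rw [one_smul] at this
        exact this.pow_right
      · exact hMc γ
    have key2 : ∀ γ γ' : Gal(F/ℚ), γ ≠ γ' → IsCoprime (I (some γ)) (I (some γ')) := by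
      intro γ γ' h
      change IsCoprime (if γ = 1 then P ^ 2 else γ • P) (if γ' = 1 then P ^ 2 else γ' • P)
      have h0 := hne γ γ' h
      split_ifs with h1 h2 h2
      · exact absurd (h1.trans h2.symm) h
      · rw [h1, one_smul] at h0
        exact h0.pow_left
      · rw [h2, one_smul] at h0
        exact h0.pow_right
      · exact h0
    rintro (_ | γ) (_ | γ') h
    · exact absurd rfl h
    · exact key γ'
    · exact (key γ).symm
    · exact key2 γ γ' (fun he => h (by rw [he]))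
  obtain ⟨x, hx⟩ := Ideal.exists_forall_sub_mem_ideal hI
    (fun o => o.elim (1 : 𝓞 F) (fun γ => if γ = 1 then π else 1))
  have hx1 : x - π ∈ P ^ 2 := by
    have := hx (some 1)
    simpa [I] using this
  refine ⟨x, ?_, ?_, ?_, ?_⟩
  · have := hx none
    exact Ideal.mem_span_singleton.mp this
  · have h2 : x - π ∈ P := Ideal.pow_le_self two_ne_zero hx1
    have := P.add_mem h2 hπ
    simpa using this
  · intro h
    apply hπ2
    have := (P ^ 2).sub_mem h hx1
    simpa using this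
  · intro γ hγ h
    have h1 : x - 1 ∈ γ • P := by
      have := hx (some γ)
      simpa [I, hγ] using this
    have h2 : (1 : 𝓞 F) ∈ γ • P := by
      have := (γ • P).sub_mem h h1
      simpa using this
    exact (smul_isPrime γ).ne_top ((Ideal.eq_top_iff_one _).mpr h2)

/-- a bound beyond which primes are found: infinitely many primes `p` with a prime `P | p` of `F`
of trivial decomposition group. -/
theorem exists_split (B : ℕ) : ∃ p : ℕ, p.Prime ∧ B < p ∧ ∃ P : Ideal (𝓞 F), P.IsPrime ∧ P ≠ ⊥ ∧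
    (p : 𝓞 F) ∈ P ∧ stabilizer Gal(F/ℚ) P = ⊥ := by
  obtain ⟨p, hp, hB, -, P, hP, hP0, hmem, hst, -⟩ :=
    Crest.Agent.R018.Frobeniusx389.exists_frob_rat (1 : Gal(F/ℚ)) B
  exact ⟨p, hp, hB, P, hP, hP0, hmem, by rw [hst, Subgroup.zpowers_one_eq_bot]⟩

/-- increasing sequence of such primes. -/
theorem exists_split_seq (B : ℕ) (n : ℕ) : ∃ (p : Fin n → ℕ) (P : Fin n → Ideal (𝓞 F)),
    Function.Injective p ∧ (∀ i, (p i).Prime) ∧ (∀ i, B < p i) ∧ (∀ i, (P i).IsPrime) ∧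
    (∀ i, P i ≠ ⊥) ∧ (∀ i, ((p i : ℕ) : 𝓞 F) ∈ P i) ∧
    ∀ i, stabilizer Gal(F/ℚ) (P i) = ⊥ := by
  induction n with
  | zero => exact ⟨Fin.elim0, Fin.elim0, fun i => i.elim0, fun i => i.elim0, fun i => i.elim0,
      fun i => i.elim0, fun i => i.elim0, fun i => i.elim0, fun i => i.elim0⟩
  | succ n ih =>
    obtain ⟨p, P, hinj, h1, h2, h3, h4, h5, h6⟩ := ih
    obtain ⟨q, hq, hBq, Q, hQ, hQ0, hQm, hQs⟩ :=
      exists_split (F := F) (max B (Finset.univ.sup p))
    have hlt : ∀ i, p i < q := fun i =>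
      lt_of_le_of_lt ((Finset.le_sup (Finset.mem_univ i)).trans (le_max_right _ _)) hBq
    refine ⟨Fin.cons q p, Fin.cons Q P, ?_, ?_, ?_, ?_, ?_, ?_, ?_⟩
    · rw [Fin.cons_injective_iff]
      refine ⟨?_, hinj⟩
      rintro ⟨i, hi⟩
      exact absurd hi (hlt i).ne
    all_goals
      intro i
      refine Fin.cases ?_ (fun j => ?_) i
    · simpa using hq
    · simpa using h1 j
    · simpa using lt_of_le_of_lt (le_max_left _ _) hBq
    · simpa using h2 j
    · simpa using hQ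
    · simpa using h3 j
    · simpa using hQ0
    · simpa using h4 j
    · simpa using hQm
    · simpa using h5 j
    · simpa using hQs
    · simpa using h6 j

/-- **independence modulo squares**. -/
theorem exists_indep (n : ℕ) (M : ℕ) (hM : M ≠ 0) : ∃ x : Fin n → 𝓞 F,
    (∀ i, (M : 𝓞 F) ∣ x i - 1) ∧ (∀ i, x i ≠ 0) ∧
    ∀ S : Finset (Gal(F/ℚ) × Fin n), S.Nonempty →
      ¬ IsSquare (∏ s ∈ S, ((s.1 • x s.2 : 𝓞 F) : F)) := by
  classical
  obtain ⟨p, P, hinj, hp, hB, hP, hP0, hm, hst⟩ := exists_split_seq (F := F) M n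
  have hex : ∀ i, ∃ x : 𝓞 F, ((M * ∏ j ∈ Finset.univ.erase i, p j : ℕ) : 𝓞 F) ∣ x - 1 ∧
      x ∈ P i ∧ x ∉ P i ^ 2 ∧ ∀ γ : Gal(F/ℚ), γ ≠ 1 → x ∉ γ • P i := by
    intro i
    have := hP i
    refine exists_one (p i) (hp i) (P i) (hP0 i) (hm i) (hst i) _ ?_
    rw [(hp i).dvd_mul, not_or]
    refine ⟨fun h => ?_, fun h => ?_⟩
    · exact absurd (Nat.le_of_dvd (Nat.pos_of_ne_zero hM) h) (not_le.mpr (hB i))
    · rw [(hp i).prime.dvd_finsetProd_iff] at h
      obtain ⟨j, hj, hj'⟩ := h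
      have h1 := (Nat.prime_dvd_prime_iff_eq (hp i) (hp j)).mp hj'
      exact (Finset.mem_erase.mp hj).1 (hinj h1).symm
  choose x hx1 hx2 hx3 hx4 using hex
  have hMx : ∀ i, (M : 𝓞 F) ∣ x i - 1 := by
    intro i
    refine dvd_trans ?_ (hx1 i)
    push_cast
    exact dvd_mul_right _ _
  have hoff : ∀ i j, i ≠ j → ∀ γ γ' : Gal(F/ℚ), γ • x i ∉ γ' • P j := by
    intro i j hij γ γ' h
    have h1 : ((p j : ℕ) : 𝓞 F) ∣ x i - 1 := by
      refine dvd_trans ?_ (hx1 i)
      push_cast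
      refine Dvd.dvd.mul_left (Finset.dvd_prod_of_mem (fun j => ((p j : ℕ) : 𝓞 F)) ?_) _
      exact Finset.mem_erase.mpr ⟨hij.symm, Finset.mem_univ _⟩
    rw [Ideal.mem_pointwise_smul_iff_inv_smul_mem, smul_smul] at h
    have h2 : x i ∈ (γ'⁻¹ * γ)⁻¹ • P j := by
      rw [Ideal.mem_pointwise_smul_iff_inv_smul_mem, inv_inv]
      exact h
    have h3 : x i - 1 ∈ (γ'⁻¹ * γ)⁻¹ • P j := by
      obtain ⟨c, hc⟩ := h1
      rw [hc]
      exact Ideal.mul_mem_right _ _ (natCast_mem_smul (hm j) _)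
    have h4 : (1 : 𝓞 F) ∈ (γ'⁻¹ * γ)⁻¹ • P j := by
      have := Ideal.sub_mem _ h2 h3
      simpa using this
    have := hP j
    exact (smul_isPrime (P := P j) (γ'⁻¹ * γ)⁻¹).ne_top ((Ideal.eq_top_iff_one _).mpr h4)
  refine ⟨x, hMx, ?_, ?_⟩
  · intro i h0
    exact hx3 i (by rw [h0]; exact Submodule.zero_mem _)
  · intro S hS hsq
    obtain ⟨⟨γ₀, i₀⟩, hs₀⟩ := hS
    have hPi := hP i₀
    have hprime : (γ₀ • P i₀).IsPrime := smul_isPrime γ₀
    obtain ⟨z, hz⟩ := hsq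
    have hzint : IsIntegral ℤ z := by
      have h1 : IsIntegral ℤ (z ^ 2) := by
        rw [sq, ← hz]
        have : (∏ s ∈ S, ((s.1 • x s.2 : 𝓞 F) : F)) =
            algebraMap (𝓞 F) F (∏ s ∈ S, (s.1 • x s.2 : 𝓞 F)) := by
          rw [map_prod]
        rw [this]
        exact RingOfIntegers.isIntegral_coe _
      exact IsIntegral.of_pow (n := 2) (by norm_num) h1
    obtain ⟨y, rfl⟩ : ∃ y : 𝓞 F, (y : F) = z := ⟨⟨z, hzint⟩, rfl⟩
    have hy : (∏ s ∈ S, (s.1 • x s.2 : 𝓞 F)) = y * y := by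
      apply RingOfIntegers.coe_injective
      rw [map_prod, map_mul]
      exact hz
    have hmemy : y ∈ γ₀ • P i₀ := by
      have h1 : y * y ∈ γ₀ • P i₀ := by
        rw [← hy, ← Finset.mul_prod_erase S _ hs₀]
        refine Ideal.mul_mem_right _ _ ?_
        exact Ideal.smul_mem_pointwise_smul γ₀ _ _ (hx2 i₀)
      rcases hprime.mem_or_mem h1 with h | h <;> exact h
    have h2 : (∏ s ∈ S, (s.1 • x s.2 : 𝓞 F)) ∈ (γ₀ • P i₀) ^ 2 := by
      rw [hy, sq]
      exact Ideal.mul_mem_mul hmemy hmemy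
    rw [← Finset.mul_prod_erase S _ hs₀, mul_comm] at h2
    rcases Ideal.IsPrime.mul_mem_pow (γ₀ • P i₀) h2 with h | h
    · rw [hprime.prod_mem_iff] at h
      obtain ⟨⟨γ, i⟩, hs, hsm⟩ := h
      rw [Finset.mem_erase] at hs
      simp only at hsm
      by_cases hi : i = i₀
      · subst hi
        have hγ : γ ≠ γ₀ := fun h => hs.1 (by rw [h])
        have h3 : x i ∈ (γ⁻¹ * γ₀) • P i := by
          rw [Ideal.mem_pointwise_smul_iff_inv_smul_mem] at hsm ⊢
          rw [smul_smul] at hsm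
          rw [mul_inv_rev, inv_inv]
          exact hsm
        exact hx4 i _ (fun he => hγ (inv_mul_eq_one.mp he)) h3
      · exact hoff i i₀ hi γ γ₀ hsm
    · have h3 : x i₀ ∈ P i₀ ^ 2 := by
        have h4 : (γ₀ • P i₀) ^ 2 = γ₀ • (P i₀ ^ 2) := by
          rw [Ideal.pointwise_smul_def, Ideal.pointwise_smul_def, Ideal.map_pow]
        simp only at h
        rw [h4, Ideal.mem_pointwise_smul_iff_inv_smul_mem, inv_smul_smul] at h
        exact h
      exact hx3 i₀ h3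

end Crest.Agent.R018.SetupAx678
end

-- ▼ part R018/F9_530
section

/-!
# Row 18: F9 and F10 of Core_74 (helper530)
-/

set_option autoImplicit false

open NumberField Pointwise

namespace Crest.Agent.R018.F9x530

open Crest.Agent.R018.Placesx484
open Crest.Agent.R018.Corex74

section General

variable {E : Type*} [Field E] [CharZero E] [IsGalois ℚ E]

/-- `Gen` for an arbitrary Galois extension of `ℚ` -/
def GenE (V : Subgroup (E ≃ₐ[ℚ] E)) (x : E) : Prop :=
  x ≠ 0 ∧ (∀ v ∈ V, v x = x) ∧ (∀ γ : E ≃ₐ[ℚ] E, γ x = x → γ ∈ V) ∧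
    ∀ T : Finset E, T.Nonempty → (∀ y ∈ T, ∃ γ : E ≃ₐ[ℚ] E, y = γ x) →
      ¬ ∃ z : E, (∀ v ∈ V, v z = z) ∧ z ^ 2 = ∏ y ∈ T, y

theorem exists_gen (V : Subgroup (E ≃ₐ[ℚ] E)) (hVn : V.Normal) (hV : IsOpen (V : Set (E ≃ₐ[ℚ] E)))
    (n M : ℕ) (hM : M ≠ 0) :
    ∃ x : Fin n → 𝓞 E, (∀ i, (M : 𝓞 E) ∣ x i - 1) ∧
      ∀ J : Finset (Fin n), J.Nonempty → GenE V (∏ j ∈ J, (x j : E)) := by
  classical
  set F : IntermediateField ℚ E := IntermediateField.fixedField V with hF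
  have hfix : F.fixingSubgroup = V :=
    InfiniteGalois.fixingSubgroup_fixedField (⟨V, Subgroup.isClosed_of_isOpen V hV⟩ :
      ClosedSubgroup (E ≃ₐ[ℚ] E))
  have hfd0 : FiniteDimensional ℚ F := (InfiniteGalois.isOpen_iff_finite F).1 (by
    change IsOpen (F.fixingSubgroup : Set (E ≃ₐ[ℚ] E))
    rw [hfix]
    exact hV)
  have hg0 : @IsGalois ℚ _ F _ F.algebra' := (InfiniteGalois.normal_iff_isGalois F).1 (by
    rw [hfix]; exact hVn)
  have ealg : (DivisionRing.toRatAlgebra : Algebra ℚ F) = F.algebra' := Subsingleton.elim _ _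
  have hfd1 : @FiniteDimensional ℚ F _ _ (@Algebra.toModule _ _ _ _ F.algebra') := hfd0
  have hfd2 : @FiniteDimensional ℚ F _ _ (@Algebra.toModule _ _ _ _ DivisionRing.toRatAlgebra) := by
    rw [ealg]; exact hfd1
  have hFn : NumberField F := { to_charZero := inferInstance, to_finiteDimensional := hfd2 }
  have hgal : @IsGalois ℚ _ F _ DivisionRing.toRatAlgebra := by
    rw [ealg]; exact hg0
  obtain ⟨x, hx1, hx0, hind⟩ := SetupAx678.exists_indep (F := F) n M hM
  have hVF : ∀ y : E, y ∈ F ↔ ∀ v ∈ V, v y = y := by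
    intro y
    rw [hF, IntermediateField.mem_fixedField_iff]
  have hmem : ∀ (γ : E ≃ₐ[ℚ] E) (y : E), y ∈ F → γ y ∈ F := by
    intro γ y hy
    rw [hVF] at hy ⊢
    intro v hv
    have h1 := hy (γ⁻¹ * v * γ) (by simpa using hVn.conj_mem v hv γ⁻¹)
    have h2 : γ ((γ⁻¹ * v * γ) y) = v (γ y) := by
      rw [← AlgEquiv.mul_apply, ← AlgEquiv.mul_apply]
      congr 1
      group
    rw [← h2, h1]
  have hres : ∀ γ : E ≃ₐ[ℚ] E, ∃ δ : Gal(F/ℚ), ∀ y : F, ((δ y : F) : E) = γ (y : E) := by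
    intro γ
    let e : F ≃+* F :=
      { toFun := fun y => ⟨γ y, hmem γ y y.2⟩
        invFun := fun y => ⟨γ.symm y, hmem γ.symm y y.2⟩
        left_inv := fun y => by ext; simp
        right_inv := fun y => by ext; simp
        map_mul' := fun a b => by ext; simp
        map_add' := fun a b => by ext; simp }
    exact ⟨AlgEquiv.ofRingEquiv (f := e) (fun r => by simp), fun y => rfl⟩
  choose δ hδ using hres
  -- the elements in `𝓞 E`
  let X : Fin n → 𝓞 E := fun i => RingOfIntegers.mapRingHom (algebraMap F E) (x i)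
  have hXc : ∀ i, (X i : E) = ((x i : F) : E) := fun i => rfl
  refine ⟨X, fun i => ?_, fun J hJ => ?_⟩
  · have h := map_dvd (RingOfIntegers.mapRingHom (algebraMap F E)) (hx1 i)
    simpa using h
  have hprod : (∏ j ∈ J, (X j : E)) = ((∏ j ∈ J, (x j : F) : F) : E) := by
    push_cast
    rfl
  rw [hprod]
  set Y : F := ∏ j ∈ J, (x j : F) with hY
  have hact : ∀ g : Gal(F/ℚ), ∏ j ∈ J, ((g • x j : 𝓞 F) : F) = g Y := by
    intro g
    rw [hY, map_prod]
    rfl
  have hYne : Y ≠ 0 := by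
    rw [hY, Finset.prod_ne_zero_iff]
    intro j _
    have := hx0 j
    exact fun h => this (by exact_mod_cast RingOfIntegers.coe_eq_zero_iff.1 h)
  refine ⟨by exact_mod_cast hYne, fun v hv => (hVF _).1 Y.2 v hv, fun γ hγ => ?_, fun T hT hTy => ?_⟩
  · by_contra hne
    have hδ1 : δ γ ≠ 1 := by
      intro h1
      apply hne
      rw [← hfix, IntermediateField.mem_fixingSubgroup_iff]
      intro y hy
      have := hδ γ ⟨y, hy⟩
      rw [h1] at this
      exact this.symm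
    have hfixY : (δ γ) Y = Y := by
      apply Subtype.ext
      rw [hδ γ Y]
      exact hγ
    apply hind (({1, δ γ} : Finset Gal(F/ℚ)) ×ˢ J)
    · obtain ⟨j, hj⟩ := hJ
      exact ⟨(1, j), by simp [hj]⟩
    · rw [Finset.prod_product, Finset.prod_pair (Ne.symm hδ1)]
      simp only [hact]
      rw [hfixY]
      exact ⟨Y, rfl⟩
  · rintro ⟨z, hzV, hz⟩
    have hzF : z ∈ F := (hVF z).2 hzV
    choose! γ hγ using hTy
    have hinj : Set.InjOn (fun y => δ (γ y)) (T : Set E) := by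
      intro a ha b hb hab
      have h1 := hδ (γ a) Y
      have h2 := hδ (γ b) Y
      have hab' : δ (γ a) = δ (γ b) := hab
      rw [hab', h2] at h1
      rw [hγ a ha, hγ b hb, h1]
    apply hind ((T.image (fun y => δ (γ y))) ×ˢ J)
    · obtain ⟨j, hj⟩ := hJ
      obtain ⟨y, hy⟩ := hT
      exact ⟨(δ (γ y), j), by simp only [Finset.mem_product]; exact ⟨Finset.mem_image_of_mem _ hy, hj⟩⟩
    · rw [Finset.prod_product, Finset.prod_image (fun a ha b hb h => hinj ha hb h)]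
      simp only [hact]
      refine ⟨⟨z, hzF⟩, ?_⟩
      apply Subtype.ext
      have h3 : ((∏ y ∈ T, (δ (γ y)) Y : F) : E) = ∏ y ∈ T, y := by
        push_cast
        refine Finset.prod_congr rfl fun y hy => ?_
        rw [hδ]
        exact (hγ y hy).symm
      rw [h3, ← hz, sq]
      rfl

end General

theorem F9_holds : F9 := by
  intro V hVn hV
  obtain ⟨x, -, hx⟩ := exists_gen (E := Sv) V hVn hV 2 1 one_ne_zero
  refine ⟨x 0, x 1, ?_, ?_, ?_⟩
  · have := hx {0} ⟨0, by simp⟩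
    simpa [GenE, Gen] using this
  · have := hx {1} ⟨1, by simp⟩
    simpa [GenE, Gen] using this
  · have := hx {0, 1} ⟨0, by simp⟩
    rw [Finset.prod_pair (by decide)] at this
    exact this

theorem F10_holds : F10 := by
  intro V hVn hV q hq hq2 _
  obtain ⟨x, hx1, hx⟩ := exists_gen (E := Sv) V hVn hV 1 q hq.ne_zero
  have hG : Gen V (x 0 : Sv) := by
    have := hx {0} ⟨0, by simp⟩
    rw [Finset.prod_singleton] at this
    exact this
  refine ⟨x 0, hG, fun Q hQ g hg hgQ => ⟨hg, fun γ z hz => ?_⟩⟩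
  -- `g` fixes `γ x`
  have hfix : g (γ (x 0 : Sv)) = γ (x 0 : Sv) := by
    have h1 := hG.2.1 (γ⁻¹ * g * γ) (by simpa using hVn.conj_mem g hg γ⁻¹)
    have h2 : γ ((γ⁻¹ * g * γ) (x 0 : Sv)) = g (γ (x 0 : Sv)) := by
      rw [← AlgEquiv.mul_apply, ← AlgEquiv.mul_apply]
      congr 1
      group
    rw [← h2, h1]
  have hsq : (g z) ^ 2 = z ^ 2 := by rw [← map_pow, hz, hfix]
  rcases sq_eq_sq_iff_eq_or_eq_neg.1 hsq with h | h
  · exact h
  exfalso
  -- the square root is an algebraic integer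
  have hzi : IsIntegral ℤ z := by
    have h0 : IsIntegral ℤ (z ^ 2) := by
      rw [hz]
      exact ((x 0).2).map γ
    exact IsIntegral.of_pow (n := 2) two_pos h0
  let zI : 𝓞 Sv := ⟨z, hzi⟩
  have hzz : zI * zI = γ • (x 0) := by
    apply RingOfIntegers.ext
    change z * z = γ (x 0 : Sv)
    rw [← hz, sq]
  have hd : (q : 𝓞 Sv) ∣ zI * zI - 1 := by
    obtain ⟨c, hc⟩ := hx1 0
    refine ⟨γ • c, ?_⟩
    rw [hzz]
    have h3 : γ • (x 0 - 1) = γ • ((q : 𝓞 Sv) * c) := by rw [hc]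
    rw [smul_sub, smul_one, smul_mul'] at h3
    rw [h3]
    congr 1
    exact map_natCast (MulSemiringAction.toRingHom SG (𝓞 Sv) γ) q
  have hqQ : (q : 𝓞 Sv) ∈ Q.ideal := hQ ▸ Q.rchar_mem
  have hmem : (zI - 1) * (zI + 1) ∈ Q.ideal := by
    obtain ⟨c, hc⟩ := hd
    have : (zI - 1) * (zI + 1) = q * c := by rw [← hc]; ring
    rw [this]
    exact Ideal.mul_mem_right _ _ hqQ
  have hgz : g • zI = - zI := by
    apply RingOfIntegers.ext
    change g z = -z
    exact h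
  have hgm : ∀ y : 𝓞 Sv, y ∈ Q.ideal → g • y ∈ Q.ideal := by
    intro y hy
    have h4 : g • y ∈ (g • Q).ideal := Ideal.smul_mem_pointwise_smul g y _ hy
    rwa [hgQ] at h4
  have h2 : ((2 : ℕ) : 𝓞 Sv) ∈ Q.ideal := by
    rcases Q.isPrime.mem_or_mem hmem with h5 | h5
    · have h6 := hgm _ h5
      rw [smul_sub, smul_one, hgz] at h6
      have h7 : ((2 : ℕ) : 𝓞 Sv) = - ((zI - 1) + (-zI - 1)) := by push_cast; ring
      rw [h7]
      exact Ideal.neg_mem_iff _ |>.2 (Ideal.add_mem _ h5 h6)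
    · have h6 := hgm _ h5
      rw [smul_add, smul_one, hgz] at h6
      have h7 : ((2 : ℕ) : 𝓞 Sv) = (zI + 1) + (-zI + 1) := by push_cast; ring
      rw [h7]
      exact Ideal.add_mem _ h5 h6
  have h8 := (Q.natCast_mem_iff 2).1 h2
  rw [hQ] at h8
  exact hq2 ((Nat.prime_dvd_prime_iff_eq hq Nat.prime_two).1 h8)

end Crest.Agent.R018.F9x530
end

-- ▼ part R018/F56_791
section

/-!
# Row 18: `F5` and `F6` of `Core_74` (helper791)
-/

set_option autoImplicit false

open NumberField Pointwise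
open Crest.NumberTheoryR

namespace Crest.Agent.R018.F56x791

open Crest.Agent.R018.EndDefx924 (Om)
open Crest.Agent.R018.Placesx484
open Crest.Agent.R018.Corex74

/-- two places of `ℚ` with the same residue characteristic are equal -/
theorem rat_place_eq (I J : Place ℚ) (h : I.rchar = J.rchar) : I = J := by
  apply Place.ext_of_ideal_le
  intro x hx
  obtain ⟨n, rfl⟩ : ∃ n : ℤ, (n : 𝓞 ℚ) = x :=
    ⟨Rat.ringOfIntegersEquiv x, by
      apply Rat.ringOfIntegersEquiv.injective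
      rw [map_intCast]
      rfl⟩
  have key : ∀ K : Place ℚ, ((n : ℤ) : 𝓞 ℚ) ∈ K.ideal ↔ K.rchar ∣ n.natAbs := by
    intro K
    rw [← K.natCast_mem_iff]
    rcases Int.natAbs_eq n with h1 | h1
    · conv_lhs => rw [h1]
      rw [Int.cast_natCast]
    · conv_lhs => rw [h1]
      rw [Int.cast_neg, Int.cast_natCast, neg_mem_iff]
  rw [key] at hx ⊢
  rwa [← h]

theorem exists_smul {E : Type*} [Field E] [CharZero E] [IsGalois ℚ E] (P Q : Place E)
    (h : P.rchar = Q.rchar) : ∃ g : E ≃ₐ[ℚ] E, g • P = Q := by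
  apply Place.exists_smul_eq_of_res_eq
  apply rat_place_eq
  rw [Place.rchar_res, Place.rchar_res, h]

theorem F5_holds : F5 := ⟨fun Q Q' h => exists_smul Q Q' h, fun P P' h => exists_smul P P' h⟩

theorem F6_holds : F6 := by
  intro D l P Q s
  constructor
  · rintro ⟨h1, x, hx, N, hN, hNo, hdvd⟩
    refine ⟨by rw [Place.rchar_smul]; exact h1, s * x * s⁻¹, ?_, N, hN, hNo, ?_⟩
    · intro y
      have h2 := (Place.smul_mem_smul_ideal (s : BB) P ((x : BB) • ((s : BB)⁻¹ • y) - (s : BB)⁻¹ • y)).2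
        (hx _)
      rw [smul_sub, smul_inv_smul] at h2
      have h3 : ((s * x * s⁻¹ : D.G) : BB) • y = (s : BB) • (x : BB) • (s : BB)⁻¹ • y := by
        rw [Subgroup.coe_mul, Subgroup.coe_mul, mul_smul, mul_smul]
        rfl
      rw [h3]
      exact h2
    · intro n hn
      apply hdvd n
      rw [map_mul, map_mul, map_inv, conj_pow] at hn
      have := hN.conj_mem _ hn (D.α s)⁻¹
      have h4 : (D.α s)⁻¹ * (D.α s * D.α x ^ n * (D.α s)⁻¹) * (D.α s)⁻¹⁻¹ = D.α x ^ n := by group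
      rwa [h4] at this
  · intro h d hd
    have h1 : ((s⁻¹ * d * s : D.G) : BB) • P = P := by
      rw [Subgroup.coe_mul, Subgroup.coe_mul, mul_smul, mul_smul, hd]
      exact inv_smul_smul (s : BB) P
    have h2 := h _ h1
    rw [map_mul, map_mul, map_inv, mul_smul, mul_smul, inv_smul_eq_iff] at h2
    exact h2

end Crest.Agent.R018.F56x791
end

-- ▼ part R018/CB_933

/-!
# Row 18: consequence (B) (helper933)
-/

set_option autoImplicit false

open NumberField Pointwise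
open Crest.NumberTheoryR

namespace Crest.Agent.R018.CBx933

open Crest.Agent.R018.EndDefx924 (Om)
open Crest.Agent.R018.Placesx484
open Crest.Agent.R018.Corex74
open Crest.Agent.R018.BadPhix933
open Crest.Agent.R018.BadPhiBx933
open Crest.Agent.R018.CAx933

theorem isOpen_normalCore {H : Subgroup SG} (hH : IsOpen (H : Set SG)) :
    IsOpen (H.normalCore : Set SG) := by
  have hfin : Finite (SG ⧸ H) := Subgroup.quotient_finite_of_isOpen H hH
  have : H.FiniteIndex := Subgroup.finiteIndex_of_finite_quotient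
  exact Subgroup.isOpen_of_isClosed_of_finiteIndex _
    (Subgroup.normalCore_isClosed H (Subgroup.isClosed_of_isOpen H hH))

section span

variable {V : Subgroup SG} [hV : V.Normal] {x : Sv} {l : ℕ} [Fact l.Prime]

/-- properties of elements of the span of the translates -/
theorem span_props (hF7 : F7) (hVo : IsOpen (V : Set SG)) (p : Probe V x l)
    {f : V2 V x → ℤ_[l]} (hf : f ∈ Submodule.span ℤ_[l] (Set.range (tr p))) :
    (∀ a b, f (a * b) = f a + f b) ∧ Continuous f ∧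
      ∀ Q : Place Sv, Q.rchar ≠ l → ∀ n : V2 V x, (∀ y : 𝓞 Sv, (n : SG) • y - y ∈ Q.ideal) →
        f n = 0 := by
  induction hf using Submodule.span_induction with
  | mem f hf =>
    obtain ⟨γ, rfl⟩ := hf
    refine ⟨tr_map_mul p γ, ?_, fun Q hQ n hn => tr_inertia hF7 hVo p γ Q hQ n hn⟩
    exact continuous_toAdd.comp (continuous_trHom p γ)
  | zero => exact ⟨fun _ _ => by simp, continuous_zero, fun _ _ _ _ => rfl⟩
  | add f g _ _ hf hg =>
    refine ⟨fun a b => ?_, hf.2.1.add hg.2.1, fun Q hQ n hn => ?_⟩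
    · simp only [Pi.add_apply, hf.1, hg.1]; ring
    · simp only [Pi.add_apply, hf.2.2 Q hQ n hn, hg.2.2 Q hQ n hn, add_zero]
  | smul c f _ hf =>
    refine ⟨fun a b => ?_, hf.2.1.const_smul c, fun Q hQ n hn => ?_⟩
    · simp only [Pi.smul_apply, hf.1, smul_add]
    · simp only [Pi.smul_apply, hf.2.2 Q hQ n hn, smul_zero]

omit hV in
theorem f_one {f : V2 V x → ℤ_[l]} (h : ∀ a b, f (a * b) = f a + f b) : f 1 = 0 := by
  have := h 1 1
  rw [mul_one] at this
  exact left_eq_add.1 this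

omit hV in
theorem f_inv {f : V2 V x → ℤ_[l]} (h : ∀ a b, f (a * b) = f a + f b) (a : V2 V x) :
    f a⁻¹ = -f a := by
  have := h a a⁻¹
  rw [mul_inv_cancel, f_one h] at this
  exact (neg_eq_of_add_eq_zero_right this.symm).symm

omit hV in
theorem f_pow {f : V2 V x → ℤ_[l]} (h : ∀ a b, f (a * b) = f a + f b) (a : V2 V x) (n : ℕ) :
    f (a ^ n) = n * f a := by
  induction n with
  | zero => simp [f_one h]
  | succ n ih => rw [pow_succ, h, ih]; push_cast; ring

/-- inertia at a conjugate place -/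
theorem inertia_conj {Q : Place Sv} {g : SG} (hg : ∀ y : 𝓞 Sv, g • y - y ∈ Q.ideal) (s : SG)
    (y : 𝓞 Sv) : (s * g * s⁻¹) • y - y ∈ (s • Q).ideal := by
  have h1 := hg (s⁻¹ • y)
  have h2 := (Place.smul_mem_smul_ideal s Q _).2 h1
  rw [smul_sub, smul_inv_smul] at h2
  rw [mul_smul, mul_smul]
  exact h2

/-- **(T4)**: if `f` kills `g ^ o` (`g` a Frobenius at `Q`), it kills `D_Q ∩ V₂` -/
theorem kill_dec (hF4 : F4) {f : V2 V x → ℤ_[l]} (hadd : ∀ a b, f (a * b) = f a + f b)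
    (hcont : Continuous f) (hVo : IsOpen (V : Set SG))
    {Q : Place Sv} (hQ : Q.rchar ≠ l)
    (hin : ∀ Q : Place Sv, Q.rchar ≠ l → ∀ n : V2 V x,
      (∀ y : 𝓞 Sv, (n : SG) • y - y ∈ Q.ideal) → f n = 0)
    (hIn2 : ∀ Q' : Place Sv, Q'.rchar = Q.rchar → ∀ g : SG,
      (∀ y : 𝓞 Sv, g • y - y ∈ Q'.ideal) → g ∈ V2 V x)
    {g : SG} (hg : Act Q g Q.rchar) (o : ℕ) (ho : 0 < o)
    (homin : ∀ j, 0 < j → j < o → g ^ j ∉ V) (hgo : g ^ o ∈ V2 V x)
    (hf0 : f ⟨g ^ o, hgo⟩ = 0) (h : V2 V x) (hh : (h : SG) • Q = Q) : f h = 0 := by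
  by_contra hne
  have hr : 0 < ‖f h‖ := norm_pos_iff.2 hne
  set r := ‖f h‖ with hrdef
  let H : Subgroup SG :=
    { carrier := {n | ∃ hn : n ∈ V2 V x, ‖f ⟨n, hn⟩‖ < r}
      one_mem' := ⟨one_mem _, by
        have : (⟨1, one_mem _⟩ : V2 V x) = 1 := rfl
        rw [this, f_one hadd, norm_zero]; exact hr⟩
      mul_mem' := by
        rintro a b ⟨ha, ha'⟩ ⟨hb, hb'⟩
        refine ⟨mul_mem ha hb, ?_⟩
        have : (⟨a * b, mul_mem ha hb⟩ : V2 V x) = ⟨a, ha⟩ * ⟨b, hb⟩ := rfl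
        rw [this, hadd]
        exact lt_of_le_of_lt (PadicInt.nonarchimedean _ _) (max_lt ha' hb')
      inv_mem' := by
        rintro a ⟨ha, ha'⟩
        refine ⟨inv_mem ha, ?_⟩
        have : (⟨a⁻¹, inv_mem ha⟩ : V2 V x) = ⟨a, ha⟩⁻¹ := rfl
        rw [this, f_inv hadd, norm_neg]
        exact ha' }
  have hHo : IsOpen (H : Set SG) := by
    have h1 : IsOpen {n : V2 V x | ‖f n‖ < r} := isOpen_lt hcont.norm continuous_const
    have h2 : (H : Set SG) = Subtype.val '' {n : V2 V x | ‖f n‖ < r} := by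
      ext n
      constructor
      · rintro ⟨hn, hn'⟩
        exact ⟨⟨n, hn⟩, hn', rfl⟩
      · rintro ⟨n, hn, rfl⟩
        exact ⟨n.2, hn⟩
    rw [h2]
    exact (isOpen_V2 V hVo x).isOpenMap_subtype_val _ h1
  have hNo := isOpen_normalCore hHo
  have hNI : ∀ g : SG, (∀ y : 𝓞 Sv, g • y - y ∈ Q.ideal) → g ∈ H.normalCore := by
    intro g hg s
    have h1 := inertia_conj hg s
    have h2 : s * g * s⁻¹ ∈ V2 V x := hIn2 (s • Q) (Place.rchar_smul s Q) _ h1
    refine ⟨h2, ?_⟩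
    rw [hin (s • Q) (by rw [Place.rchar_smul]; exact hQ) ⟨_, h2⟩ h1, norm_zero]
    exact hr
  obtain ⟨i, hi⟩ := hF4 H.normalCore inferInstance hNo Q hNI g hg (h : SG) hh
  have hiH : (g ^ i)⁻¹ * (h : SG) ∈ H := H.normalCore_le hi
  obtain ⟨hi2, hi3⟩ := hiH
  have hgi2 : g ^ i ∈ V2 V x := by
    have := (V2 V x).mul_mem h.2 ((V2 V x).inv_mem hi2)
    rwa [mul_inv_rev, inv_inv, mul_inv_cancel_left] at this
  have hdvd : o ∣ i := dvd_of_pow_mem V g o ho (V2_le V x hgo) homin (V2_le V x hgi2)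
  obtain ⟨m, rfl⟩ := hdvd
  have h5 : f ⟨g ^ (o * m), hgi2⟩ = 0 := by
    have e : (⟨g ^ (o * m), hgi2⟩ : V2 V x) = ⟨g ^ o, hgo⟩ ^ m :=
      Subtype.ext (by
        rw [Subgroup.coe_pow]
        exact pow_mul g o m)
    rw [e, f_pow hadd, hf0, mul_zero]
  have h6 : h = ⟨g ^ (o * m), hgi2⟩ * ⟨(g ^ (o * m))⁻¹ * (h : SG), hi2⟩ :=
    Subtype.ext (by simp)
  have h7 : f h = f ⟨(g ^ (o * m))⁻¹ * (h : SG), hi2⟩ := by
    conv_lhs => rw [h6]
    rw [hadd, h5, zero_add]
  rw [← h7] at hi3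
  exact lt_irrefl _ hi3

end span

theorem cb_of (hCA : CA) (hNL : NDLevel) (hLG : LemmaG) (hPE : ProbeEx)
    (hF1 : F1) (hF2 : F2) (hF3 : F3) (hF4 : F4) (hF5 : F5) (hF6 : F6) (hF7 : F7) (hF9 : F9)
    (hF10 : F10) : CB := by
  classical
  intro D hND
  have hsurj := hCA D hND
  obtain ⟨i, hi⟩ := exists_I
  -- a biquadratic field
  obtain ⟨y₁, y₂, hy₁, hy₂, hy₁₂⟩ := hF9 ⊤ inferInstance isOpen_univ
  obtain ⟨z₁, hz₁⟩ := exists_sqrt ((1 : SG) y₁)
  obtain ⟨z₂, hz₂⟩ := exists_sqrt ((1 : SG) y₂)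
  obtain ⟨V, hVn, hVo, hVV', hNDat, hVN⟩ := hNL D hND
    (MulAction.stabilizer SG i ⊓ (MulAction.stabilizer SG z₁ ⊓ MulAction.stabilizer SG z₂))
    ((isOpen_stab i).inter ((isOpen_stab z₁).inter (isOpen_stab z₂)))
  have hinv : ∀ v ∈ V, v * v = 1 → v = 1 := fun v hv hvv => eq_one_of_sq hvv hi (hVV' hv).1
  -- `SG / V` is not cyclic
  have hnc : ∀ g : SG, ∃ γ : SG, ∀ k : ℕ, (g ^ k)⁻¹ * γ ∉ V := by
    intro g
    by_contra hcon
    push Not at hcon
    have hfix : ∀ w : Sv, (∀ v ∈ V, v w = w) → g w = w → ∀ γ ∈ (⊤ : Subgroup SG), γ w = w := by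
      intro w hw hgw γ _
      obtain ⟨k, hk⟩ := hcon γ
      have h1 : (g ^ k) w = w := by
        clear hk
        induction k with
        | zero => simp
        | succ k ih => rw [pow_succ, AlgEquiv.mul_apply, hgw, ih]
      have h2 : γ = g ^ k * ((g ^ k)⁻¹ * γ) := by group
      rw [h2, AlgEquiv.mul_apply, hw _ hk, h1]
    have hv1 : ∀ v ∈ V, v z₁ = z₁ := fun v hv => (hVV' hv).2.1
    have hv2 : ∀ v ∈ V, v z₂ = z₂ := fun v hv => (hVV' hv).2.2
    have hns : ∀ (y z : Sv), Gen ⊤ y → z ^ 2 = y → (∀ γ ∈ (⊤ : Subgroup SG), γ z = z) → False := by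
      intro y z hy hz hall
      refine hy.2.2.2 {y} ⟨y, by simp⟩ (fun y' hy' => ⟨1, by
        rw [Finset.mem_singleton.1 hy']; rfl⟩) ⟨z, hall, ?_⟩
      rw [Finset.prod_singleton, hz]
    rcases sign_cases hy₁ hz₁ (a := g) (Subgroup.mem_top g) with h1 | h1
    · exact hns y₁ z₁ hy₁ hz₁ (hfix z₁ hv1 h1)
    · rcases sign_cases hy₂ hz₂ (a := g) (Subgroup.mem_top g) with h2 | h2
      · exact hns y₂ z₂ hy₂ hz₂ (hfix z₂ hv2 h2)
      · refine hns (y₁ * y₂) (z₁ * z₂) hy₁₂ (by rw [mul_pow, hz₁, hz₂]; rfl)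
          (hfix (z₁ * z₂) (fun v hv => by rw [map_mul, hv1 v hv, hv2 v hv]) ?_)
        rw [map_mul, h1, h2]; ring
  obtain ⟨B3, hB3⟩ := hF3 V hVo
  refine ⟨max B3 2, fun q hq hqB => ?_⟩
  have hq3 : B3 < q := lt_of_le_of_lt (le_max_left _ _) hqB
  have hq2 : 2 < q := lt_of_le_of_lt (le_max_right _ _) hqB
  by_contra hcon
  push Not at hcon
  have hI : ∀ Q : Place Sv, Q.rchar = q → ∀ g : SG, (∀ y : 𝓞 Sv, g • y - y ∈ Q.ideal) → g ∈ V :=
    fun Q hQ => hB3 Q (by omega)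
  obtain ⟨x, hx, hxD⟩ := hF10 V hVn hVo q hq (by omega) hI
  obtain ⟨-, Q0, -, -, -, -, -, hQ0, -⟩ := hcon 0
  obtain ⟨g, hgQ, hgA⟩ := hF2.1 Q0
  have hpowQ : ∀ (g : SG), g • Q0 = Q0 → ∀ k : ℕ, g ^ k • Q0 = Q0 := by
    intro g hg k
    induction k with
    | zero => simp
    | succ k ih => rw [pow_succ, mul_smul, hg, ih]
  have hIn2 : ∀ Q' : Place Sv, Q'.rchar = Q0.rchar → ∀ g : SG,
      (∀ y : 𝓞 Sv, g • y - y ∈ Q'.ideal) → g ∈ V2 V x := by
    intro Q' hQ' g hg
    refine hxD Q' (hQ'.trans hQ0) g (hI Q' (hQ'.trans hQ0) g hg) ?_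
    exact act_stab (m := 1) (fun y => by rw [pow_one]; exact hg y) one_ne_zero
  have hexo : ∃ k, 0 < k ∧ g ^ k ∈ V := exists_pow_mem V hVn hVo g
  set o := Nat.find hexo with ho
  have ho0 : 0 < o := (Nat.find_spec hexo).1
  have hoV : g ^ o ∈ V := (Nat.find_spec hexo).2
  have homin : ∀ j, 0 < j → j < o → g ^ j ∉ V := fun j hj hjo hjV => Nat.find_min hexo hjo ⟨hj, hjV⟩
  have hoV2 : g ^ o ∈ V2 V x := hxD Q0 hQ0 _ hoV (hpowQ g hgQ o)
  obtain ⟨γ, hγ⟩ := hnc g
  -- the probe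
  obtain ⟨L0, hL0⟩ := hPE V hVo hinv x hx
  obtain ⟨l, hlL, hlp⟩ := Nat.exists_infinite_primes (L0 + q + 3)
  have : Fact l.Prime := ⟨hlp⟩
  have hl2 : l ≠ 2 := by omega
  have hQl : Q0.rchar ≠ l := by omega
  obtain ⟨p⟩ := hL0 l (by omega)
  set φ₁ : V2 V x → ℤ_[l] := psum p g 1 o (fun _ => 1) with hφ₁
  set φ₂ : V2 V x → ℤ_[l] := psum p g γ o (fun _ => 1) with hφ₂
  obtain ⟨c₁, c₂, hc, hc0⟩ : ∃ c₁ c₂ : ℤ_[l], (c₁ ≠ 0 ∨ c₂ ≠ 0) ∧
      c₁ * φ₁ ⟨g ^ o, hoV2⟩ + c₂ * φ₂ ⟨g ^ o, hoV2⟩ = 0 := by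
    by_cases h : φ₁ ⟨g ^ o, hoV2⟩ = 0
    · exact ⟨1, 0, Or.inl one_ne_zero, by rw [h]; ring⟩
    · exact ⟨φ₂ ⟨g ^ o, hoV2⟩, -φ₁ ⟨g ^ o, hoV2⟩, Or.inr (neg_ne_zero.2 h), by ring⟩
  set φ : V2 V x → ℤ_[l] := c₁ • φ₁ + c₂ • φ₂ with hφ
  have hmem : φ ∈ Submodule.span ℤ_[l] (Set.range (tr p)) :=
    Submodule.add_mem _ (Submodule.smul_mem _ _ (psum_mem p g 1 o _))
      (Submodule.smul_mem _ _ (psum_mem p g γ o _))
  have hne : φ ≠ 0 := by
    intro h0
    have hdist : ∀ i j : ℕ, i < o → j < o → (g ^ i)⁻¹ * (g ^ j * γ) ∉ V := by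
      intro i j _ hj h
      apply hγ (i + (o - j))
      have h1 : (g ^ (i + (o - j)))⁻¹ * γ = (g ^ o)⁻¹ * ((g ^ i)⁻¹ * (g ^ j * γ)) := by
        rw [← mul_assoc, ← mul_assoc]
        congr 1
        have h2 : g ^ (i + (o - j)) * (g ^ o)⁻¹ * (g ^ i)⁻¹ * g ^ j = 1 := by
          have e1 : g ^ (i + (o - j)) = g ^ i * g ^ (o - j) := pow_add _ _ _
          have e2 : g ^ o = g ^ (o - j) * g ^ j := by rw [← pow_add]; congr 1; omega
          have c1 : Commute (g ^ i) (g ^ j) := (Commute.refl g).pow_pow i j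
          have c2 : Commute (g ^ i) (g ^ (o - j)) := (Commute.refl g).pow_pow _ _
          rw [e1, e2, mul_inv_rev]
          calc g ^ i * g ^ (o - j) * ((g ^ j)⁻¹ * (g ^ (o - j))⁻¹) * (g ^ i)⁻¹ * g ^ j
              = g ^ i * (g ^ (o - j) * (g ^ j)⁻¹ * (g ^ (o - j))⁻¹) * (g ^ i)⁻¹ * g ^ j := by
                group
            _ = g ^ i * (g ^ j)⁻¹ * (g ^ i)⁻¹ * g ^ j := by
                have c3 : Commute (g ^ (o - j)) (g ^ j)⁻¹ :=
                  ((Commute.refl g).pow_pow _ _).inv_right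
                rw [c3.eq, mul_inv_cancel_right]
            _ = 1 := by
                rw [c1.inv_right.eq, mul_inv_cancel_right, inv_mul_cancel]
        rw [inv_eq_iff_mul_eq_one]
        simpa [mul_assoc] using h2
      rw [h1]
      exact V.mul_mem (V.inv_mem hoV) h
    have h1 := indep hx p ((Finset.range o) ×ˢ (Finset.univ : Finset Bool))
      (fun t => g ^ t.1 * (if t.2 then γ else 1)) (by
        rintro ⟨i, b⟩ hi ⟨j, b'⟩ hj hij
        have hi' : i < o := Finset.mem_range.1 (Finset.mem_product.1 hi).1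
        have hj' : j < o := Finset.mem_range.1 (Finset.mem_product.1 hj).1
        rcases Bool.eq_false_or_eq_true b with rfl | rfl <;>
          rcases Bool.eq_false_or_eq_true b' with rfl | rfl
        · exact pow_coset g _ o homin hi' hj' (fun h => hij (congrArg (fun t => (t, _)) h))
        · intro h
          apply hdist j i hj' hi'
          have := V.inv_mem h
          simpa using this
        · intro h
          apply hdist i j hi' hj'
          simpa using h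
        · exact pow_coset g _ o homin hi' hj' (fun h => hij (congrArg (fun t => (t, _)) h)))
      (fun t => if t.2 then c₂ else c₁) (by
        rw [Finset.sum_product]
        simp only [Fintype.sum_bool, if_true, Bool.false_eq_true, if_false]
        rw [Finset.sum_add_distrib, ← h0, hφ, hφ₁, hφ₂]
        unfold psum
        rw [Finset.smul_sum, Finset.smul_sum, add_comm]
        congr 1 <;> exact Finset.sum_congr rfl fun j _ => by rw [one_smul])
    rcases hc with hc | hc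
    · exact hc (by simpa using h1 (0, false) (by simp [ho0]))
    · exact hc (by simpa using h1 (0, true) (by simp [ho0]))
  have hact : ∀ j : ℕ, act (g ^ j) φ = φ := by
    intro j
    rw [hφ, act_add, act_smul, act_smul,
      act_psum_mul p g 1 o _ hoV (fun z hz => hoV2.2 1 z hz) (fun _ => rfl) 1 (fun _ => rfl) j
        (one_dvd j),
      act_psum_mul p g γ o _ hoV (fun z hz => hoV2.2 γ z hz) (fun _ => rfl) 1 (fun _ => rfl) j
        (one_dvd j)]
  obtain ⟨hadd, hcont, hin⟩ := span_props hF7 hVo p hmem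
  have hV2n : (V2 V x).Normal := V2_normal V x
  have hV2o := isOpen_V2 V hVo x
  obtain ⟨B1, hB1⟩ := lemmaG_unif hLG D V hVo hNDat hVN x hx l hl2 p φ hmem hne
  obtain ⟨P, Q, l', hl', hl'2, hHit, hCor, hQq, hPB⟩ := hcon B1
  obtain ⟨s, hs⟩ := hF5.1 Q Q0 (by rw [hQq, hQ0])
  obtain ⟨d, hd⟩ := hsurj s
  have hCor' : Cor D ((d : BB) • P) Q0 := by
    have := (hF6 D l' P Q d).2 hCor
    rwa [hd, hs] at this
  have hP' : B1 < ((d : BB) • P).rchar := by rw [Place.rchar_smul]; exact hPB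
  obtain ⟨-, -, ⟨σ, hσ⟩, -⟩ := hF1 D.G D.isOpen_G ((d : BB) • P)
  set σ' : D.G := ⟨σ, hσ.1⟩ with hσ'
  have hσP : σ • ((d : BB) • P) = (d : BB) • P :=
    act_stab hσ.2 (pow_ne_zero _ ((d : BB) • P).rchar_prime.ne_zero)
  have hαQ : D.α σ' • Q0 = Q0 := hCor' σ' hσP
  obtain ⟨j, hj⟩ := hF4 (V2 V x) hV2n hV2o Q0 (hIn2 Q0 rfl) g hgA (D.α σ') hαQ
  have hσg : (D.α σ')⁻¹ * g ^ j ∈ V2 V x := by
    have := (V2 V x).inv_mem hj
    rwa [mul_inv_rev, inv_inv] at this
  obtain ⟨k, hk0, hk⟩ := exists_pow_mem (V2 V x) hV2n hV2o (D.α σ')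
  refine hB1 _ hP' σ' hσ (g ^ j) (hact j) hσg k hk hk0 ?_
  refine kill_dec hF4 hadd hcont hVo hQl hin hIn2 hgA o ho0 homin hoV2 ?_ _ (hpowQ _ hαQ k)
  rw [hφ, Pi.add_apply, Pi.smul_apply, Pi.smul_apply, smul_eq_mul, smul_eq_mul]
  exact hc0

end Crest.Agent.R018.CBx933
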