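import Mathlib
import Crest.Agent.R018.Desc_820
import Crest.Agent.R018.GDef_791
import Crest.Agent.R018.Step2Def_924
import Crest.Agent.R018.ConsDef_933
import Crest.Agent.R018.LocDef_31
import Crest.Agent.R018.LChoiceDef_693
import Crest.Agent.R018.Kum_568

-- ▼ part R018/DescQ_820
section

/-!
# Row 18, CORE section 6 (helper820), part 2: the induction in the shape of `TheoremAFor`

* `nu_of_equiv`: the form of N-U with `β : V₁ ≃* V₂` (helper275) implies `NU`;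
* `theoremA_for`: `TheoremAFor E G₁` for all open `G₁` from N-U, trivial centralizers, and the
  (ND) case.
-/

set_option autoImplicit false

namespace Crest.Agent.R018.DescQx820

open Crest.Agent.R018.Descx820 Crest.Agent.R018.EndDefx924 Crest.Agent.R018.EndAx924
  Crest.Agent.R018.Step2x924 Crest.NumberTheoryR

section adapter

variable {S : Type*} [Group S] [TopologicalSpace S] [IsTopologicalGroup S] [CompactSpace S]
  [T2Space S]

/-- the equivalence form of N-U implies `NU` -/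
theorem nu_of_equiv
    (h : ∀ V₁ V₂ : Subgroup S, IsOpen (V₁ : Set S) → IsOpen (V₂ : Set S) → ∀ β : V₁ ≃* V₂,
      Continuous β → Continuous β.symm → ∃ t : S, ∀ v : V₁, ((β v : V₂) : S) = t⁻¹ * v * t) :
    NU S := by
  intro V hV β hβ hinj hr
  have hVc : IsClosed (V : Set S) := Subgroup.isClosed_of_isOpen V hV
  have : CompactSpace V := isCompact_iff_compactSpace.mp hVc.isCompact
  have hr' : IsOpen (β.range : Set S) := by rw [MonoidHom.coe_range]; exact hr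
  let e : V ≃* β.range := MonoidHom.ofInjective hinj
  have he : ∀ v, ((e v : β.range) : S) = β v := fun v => MonoidHom.ofInjective_apply hinj
  have hec : Continuous e := by
    rw [Topology.IsEmbedding.subtypeVal.continuous_iff]
    have : (Subtype.val ∘ e : V → S) = β := funext he
    rw [this]; exact hβ
  have hes : Continuous e.symm := by
    have h1 : Continuous (e.toEquiv : V → β.range) := hec
    exact (Continuous.homeoOfEquivCompactToT2 (f := e.toEquiv) h1).symm.continuous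
  obtain ⟨t, ht⟩ := h V β.range hV hr' e hec hes
  refine ⟨t⁻¹, fun v => ?_⟩
  rw [← he, ht, inv_inv]


end adapter

variable {E : Type} [Field E] [CharZero E] [IsGalois ℚ E]

/-- `α` is field theoretic -/
def FT (E : Type) [Field E] [CharZero E] (G : Subgroup (Om ≃ₐ[ℚ] Om)) (α : G →* (E ≃ₐ[ℚ] E)) :
    Prop :=
  ∃ t : E →+* Om, ∀ (g : G) (x : E), (g : Om ≃ₐ[ℚ] Om) (t x) = t (α g x)

/-- **Theorem A from its (ND) case.** -/
theorem theoremA_for (hNU : NU (E ≃ₐ[ℚ] E)) (hCF : CF (E ≃ₐ[ℚ] E))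
    (hND : ∀ (G : Subgroup (Om ≃ₐ[ℚ] Om)) (α : G →* (E ≃ₐ[ℚ] E)),
      IsOpen (G : Set (Om ≃ₐ[ℚ] Om)) → Continuous α → IsOpen (Set.range α) →
      Crest.Agent.R018.GDefx791.ND G α → FT E G α)
    (G₁ : Subgroup (Om ≃ₐ[ℚ] Om)) (hG₁ : IsOpen (G₁ : Set (Om ≃ₐ[ℚ] Om))) :
    TheoremAFor E G₁ := by
  intro α hα hr
  refine induct (B := Om ≃ₐ[ℚ] Om) (S := E ≃ₐ[ℚ] E) hNU hCF (fun G α => FT E G α) ?_ ?_
    G₁ α hG₁ hα hr
  · rintro G G₀ h α α₀ hext ⟨t, ht⟩
    refine ⟨t, fun g x => ?_⟩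
    have := ht ⟨g, h g.2⟩ x
    rw [hext] at this
    exact this
  · intro G α hG hα hr hnd
    exact hND G α hG hα hr hnd

/-- **Theorem A from its (ND) case**, all fields at once. -/
theorem theoremA
    (hNU : ∀ (E : Type) [Field E] [CharZero E] [IsGalois ℚ E], IsSolvablyClosed E →
      ∀ V₁ V₂ : Subgroup (E ≃ₐ[ℚ] E), IsOpen (V₁ : Set (E ≃ₐ[ℚ] E)) →
        IsOpen (V₂ : Set (E ≃ₐ[ℚ] E)) → ∀ β : V₁ ≃* V₂, Continuous β → Continuous β.symm →
        ∃ t : E ≃ₐ[ℚ] E, ∀ v : V₁, ((β v : V₂) : E ≃ₐ[ℚ] E) = t⁻¹ * v * t)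
    (hCF : ∀ (E : Type) [Field E] [CharZero E] [IsGalois ℚ E], IsSolvablyClosed E →
      ∀ V : Subgroup (E ≃ₐ[ℚ] E), IsOpen (V : Set (E ≃ₐ[ℚ] E)) → ∀ t : E ≃ₐ[ℚ] E,
        (∀ v ∈ V, t * v = v * t) → t = 1)
    (hND : ∀ (E : Type) [Field E] [CharZero E] [IsGalois ℚ E], IsSolvablyClosed E →
      ∀ (G : Subgroup (Om ≃ₐ[ℚ] Om)) (α : G →* (E ≃ₐ[ℚ] E)),
      IsOpen (G : Set (Om ≃ₐ[ℚ] Om)) → Continuous α → IsOpen (Set.range α) →
      Crest.Agent.R018.GDefx791.ND G α → FT E G α) : TheoremA := by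
  intro E _ _ _ hE G₁ hG₁
  exact theoremA_for (nu_of_equiv (hNU E hE)) (hCF E hE) (hND E hE) G₁ hG₁

end Crest.Agent.R018.DescQx820
end

-- ▼ part R018/HeartDef_74

/-!
# Row 18: frozen interface of the (ND) case of Theorem A, abstract `E` (helper74)

`E : Type`, characteristic zero, Galois over `ℚ` (default algebra), solvably closed;
`G1 ≤ B = Gal(Om/ℚ)` open, `α : G1 →* (E ≃ₐ[ℚ] E)` continuous with open range.
-/

set_option autoImplicit false

open Crest.NumberTheoryR Crest.Agent.R018.EndDefx924 Crest.Agent.R018.Placesx484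
  Crest.Agent.R018.GDefx791 Crest.Agent.R018.ConsDefx933 Crest.Agent.R018.LocDefx31
  Crest.Agent.R018.DescQx820
open scoped NumberField

namespace Crest.Agent.R018.HeartDefx74

section defs

variable {E : Type} [Field E] [CharZero E] (G1 : Subgroup B) (α : G1 →* (E ≃ₐ[ℚ] E))

/-- `S ∈ S1(l)` for some prime `l ≥ 5` and `S → Q` -/
def Rel (S : Place Om) (Q : Place E) : Prop :=
  ∃ l : ℕ, l.Prime ∧ 5 ≤ l ∧ S1 α l S ∧ Goes α S Q



/-- `ψ_l = (χ₂ ∘ α) / χ₁` has finite order -/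
def FinPsi (l : ℕ) : Prop :=
  ∃ k : ℕ, 0 < k ∧ ∀ (g : G1) (n : ℕ), CycAt α Om E (l ^ n) (g ^ k)

/-- `q` is not hit by `S1(l)` -/
def Bad (l q : ℕ) : Prop :=
  ∀ (S : Place Om) (Q : Place E), S1 α l S → Goes α S Q → Q.rchar ≠ q

/-- **(S2)** the uniform bound -/
def BadBound : Prop := ∀ l : ℕ, l.Prime → 5 ≤ l → FinPsi G1 α l →
  ∀ s : Finset ℕ, (∀ q ∈ s, q.Prime ∧ q ≠ l ∧ Bad G1 α l q) → s.card ≤ 2 * G1.index


/-- the hypothesis of Theorem U (for surjective `α`): at every finite level, for almost all `q`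
there are places `S`, `Q` above `q`, a Frobenius lift `σ` at `S` over `Om^G1` (residue degree `k`)
and a Frobenius `φ` at `Q` over `ℚ` with `α σ ≡ φ ^ k` -/
def HypU : Prop :=
  ∀ V : Subgroup (E ≃ₐ[ℚ] E), V.Normal → IsOpen (V : Set (E ≃ₐ[ℚ] E)) →
    ∃ B0 : ℕ, ∀ q : ℕ, q.Prime → B0 < q →
      ∃ (S : Place Om) (Q : Place E) (k : ℕ) (σ : B) (hσ : IsFrobLift G1 S q k σ)
        (φ : E ≃ₐ[ℚ] E), S.rchar = q ∧ Q.rchar = q ∧ FrobQ Q φ ∧
          (α ⟨σ, hσ.1⟩)⁻¹ * φ ^ k ∈ V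

/-- the standing hypotheses -/
structure Setup : Prop where
  closed : IsSolvablyClosed E
  isOpen : IsOpen (G1 : Set B)
  cont : Continuous α
  open_range : IsOpen (Set.range α)

end defs

/-! ## the blocks -/

/-- quantifier over all data -/
def All (P : ∀ (E : Type) [Field E] [CharZero E] [IsGalois ℚ E] (G1 : Subgroup B)
    (_ : G1 →* (E ≃ₐ[ℚ] E)), Prop) : Prop :=
  ∀ (E : Type) [Field E] [CharZero E] [IsGalois ℚ E] (G1 : Subgroup B)
    (α : G1 →* (E ≃ₐ[ℚ] E)), Setup G1 α → P E G1 α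












/-- (C): 656 -/
def TC : Prop := All fun E _ _ _ G1 α => Function.Surjective α →
  ∀ (U20 : Subgroup (E ≃ₐ[ℚ] E)) [U20.Normal], IsOpen (U20 : Set (E ≃ₐ[ℚ] E)) → Good G1 α U20 →
    (∃ i : E, i ^ 2 = -1 ∧ ∀ u ∈ U20, (u : E ≃ₐ[ℚ] E) i = i) → ConsB (Rel G1 α) U20 →
      ConsC G1 α (Rel G1 α) U20



/-- THEOREM U: 245 -/
def TU : Prop := All fun E _ _ _ G1 α => Function.Surjective α → HypU G1 α → FT E G1 α







end Crest.Agent.R018.HeartDefx74
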