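import Crest.Agent.R018.Places3_484
import Crest.Agent.R018.TameC_31
import Crest.Agent.R018.Rig4_931
import Crest.Agent.R018.TameP_31

-- ▼ part R018/LCA_484
section

/-!
# Local correspondence, group side A: pulled back Kummer characters, rank at most two
(row 18, helper484)
-/

set_option autoImplicit false

namespace Crest.Agent.R018.LCAx484

open Crest.Agent.R018.Tamex31
open Crest.Agent.R018.Rig4x931

/-- linear algebra: three characters, pairwise dependent on `I`, those trivial on `I` pairwise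
dependent, are dependent. -/
theorem rank_core {U C : Type*} [Group U] [CommGroup C] {l : ℕ} (hl : l.Prime)
    (π : Fin 3 → (U →* C)) (I : Set U)
    (hI : ∀ i j, ∃ m k : ℤ, IsCoprime m k ∧ ∀ u ∈ I, π i u ^ m * π j u ^ k = 1)
    (hU : ∀ e f : Fin 3 → ℤ, (∀ u ∈ I, ∏ i, π i u ^ e i = 1) → (∀ u ∈ I, ∏ i, π i u ^ f i = 1) →
      ∃ m k : ℤ, IsCoprime m k ∧ ∀ u, (∏ i, π i u ^ e i) ^ m * (∏ i, π i u ^ f i) ^ k = 1) :
    ∃ e : Fin 3 → ℤ, (∃ i, ¬ (l : ℤ) ∣ e i) ∧ ∀ u, ∏ i, π i u ^ e i = 1 := by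
  have hlp : Prime (l : ℤ) := Nat.prime_iff_prime_int.1 hl
  have hco : ∀ m k : ℤ, IsCoprime m k → (l : ℤ) ∣ m → (l : ℤ) ∣ k → False := by
    intro m k h h1 h2
    exact hlp.not_unit (h.isUnit_of_dvd' h1 h2)
  obtain ⟨m, k, hmk, h01⟩ := hI 0 1
  by_cases hk : (l : ℤ) ∣ k
  · have hm : ¬ (l : ℤ) ∣ m := fun h => hco m k hmk h hk
    obtain ⟨m', k', hmk', h12⟩ := hI 1 2
    obtain ⟨a, b, hab, h⟩ := hU ![m, k, 0] ![0, m', k'] (by
      intro u hu
      simpa [Fin.prod_univ_three] using h01 u hu) (by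
      intro u hu
      simpa [Fin.prod_univ_three] using h12 u hu)
    refine ⟨![a * m, a * k + b * m', b * k'], ?_, ?_⟩
    · by_contra hcon
      push Not at hcon
      have e0 := hcon 0
      have e1 := hcon 1
      have e2 := hcon 2
      simp only [Matrix.cons_val_zero, Matrix.cons_val_one, Matrix.cons_val_two,
        Matrix.head_cons, Matrix.tail_cons, Matrix.cons_val] at e0 e1 e2
      have ha : (l : ℤ) ∣ a := (hlp.dvd_or_dvd e0).resolve_right hm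
      have hb : ¬ (l : ℤ) ∣ b := fun h => hco a b hab ha h
      have hk' : (l : ℤ) ∣ k' := (hlp.dvd_or_dvd e2).resolve_left hb
      have hm' : (l : ℤ) ∣ b * m' := (dvd_add_right (Dvd.dvd.mul_right ha k)).1 e1
      exact hco m' k' hmk' ((hlp.dvd_or_dvd hm').resolve_left hb) hk'
    · intro u
      have := h u
      simp only [Fin.prod_univ_three, Matrix.cons_val_zero, Matrix.cons_val_one,
        Matrix.cons_val_two, Matrix.head_cons, Matrix.tail_cons, Matrix.cons_val, zpow_zero,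
        mul_one, one_mul] at this ⊢
      rw [mul_zpow, mul_zpow, ← zpow_mul, ← zpow_mul, ← zpow_mul, ← zpow_mul] at this
      rw [zpow_add, mul_comm a m, mul_comm a k, mul_comm b m', mul_comm b k', ← this]
      simp only [mul_assoc]
  · obtain ⟨m', k', hmk', h02⟩ := hI 0 2
    obtain ⟨a, b, hab, h⟩ := hU ![m, k, 0] ![m', 0, k'] (by
      intro u hu
      simpa [Fin.prod_univ_three] using h01 u hu) (by
      intro u hu
      simpa [Fin.prod_univ_three] using h02 u hu)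
    refine ⟨![a * m + b * m', a * k, b * k'], ?_, ?_⟩
    · by_contra hcon
      push Not at hcon
      have e0 := hcon 0
      have e1 := hcon 1
      have e2 := hcon 2
      simp only [Matrix.cons_val_zero, Matrix.cons_val_one, Matrix.cons_val_two,
        Matrix.head_cons, Matrix.tail_cons, Matrix.cons_val] at e0 e1 e2
      have ha : (l : ℤ) ∣ a := (hlp.dvd_or_dvd e1).resolve_right hk
      have hb : ¬ (l : ℤ) ∣ b := fun h => hco a b hab ha h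
      have hk' : (l : ℤ) ∣ k' := (hlp.dvd_or_dvd e2).resolve_left hb
      have hm' : (l : ℤ) ∣ b * m' := (dvd_add_right (Dvd.dvd.mul_right ha m)).1 e0
      exact hco m' k' hmk' ((hlp.dvd_or_dvd hm').resolve_left hb) hk'
    · intro u
      have := h u
      simp only [Fin.prod_univ_three, Matrix.cons_val_zero, Matrix.cons_val_one,
        Matrix.cons_val_two, Matrix.head_cons, Matrix.tail_cons, Matrix.cons_val, zpow_zero,
        mul_one, one_mul] at this ⊢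
      rw [mul_zpow, mul_zpow, ← zpow_mul, ← zpow_mul, ← zpow_mul, ← zpow_mul] at this
      rw [zpow_add, mul_comm a m, mul_comm a k, mul_comm b m', mul_comm b k', ← this]
      simp only [mul_assoc]
      congr 1
      rw [mul_left_comm]

section Kap

variable {F₁ E₁ F₂ E₂ : Type*} [Field F₁] [Field E₁] [Algebra F₁ E₁] [Field F₂] [Field E₂]
  [Algebra F₂ E₂]

/-- Data for the Kummer character of `y` on `U` (pulled back along `α`) at level `N`. -/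
structure KData (α : (E₁ ≃ₐ[F₁] E₁) →* (E₂ ≃ₐ[F₂] E₂)) (U : Subgroup (E₁ ≃ₐ[F₁] E₁)) (N : ℕ)
    (y : E₂) : Prop where
  ne_zero : y ≠ 0
  fix : ∀ u ∈ U, α u (y ^ N) = y ^ N
  root : ∀ u ∈ U, ∀ z : E₂, z ^ N = 1 → α u z = z

variable {α : (E₁ ≃ₐ[F₁] E₁) →* (E₂ ≃ₐ[F₂] E₂)} {U : Subgroup (E₁ ≃ₐ[F₁] E₁)} {N : ℕ} [NeZero N]
  {y : E₂}

theorem KData.mono {U' : Subgroup (E₁ ≃ₐ[F₁] E₁)} (h : KData α U N y) (hU : U' ≤ U) :
    KData α U' N y := ⟨h.ne_zero, fun u hu => h.fix u (hU hu), fun u hu => h.root u (hU hu)⟩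

theorem KData.pow_eq_one (h : KData α U N y) {u : E₁ ≃ₐ[F₁] E₁} (hu : u ∈ U) :
    (α u y / y) ^ N = 1 := by
  rw [div_pow, ← map_pow, h.fix u hu, div_self (pow_ne_zero _ h.ne_zero)]

/-- the Kummer character -/
noncomputable def KData.kap (h : KData α U N y) : U →* rootsOfUnity N E₂ where
  toFun u := rootsOfUnity.mkOfPowEq (α u y / y) (h.pow_eq_one u.2)
  map_one' := by
    ext
    simp [div_self h.ne_zero]
  map_mul' u v := by
    ext
    have h1 : α u (α v y / y) = α v y / y := h.root u u.2 _ (h.pow_eq_one v.2)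
    rw [map_div₀] at h1
    have hy : α u y ≠ 0 := by simpa using h.ne_zero
    simp only [Subgroup.coe_mul, map_mul, AlgEquiv.mul_apply, rootsOfUnity.val_mkOfPowEq_coe,
      Units.val_mul]
    have hy0 := h.ne_zero
    rw [div_eq_div_iff hy hy0] at h1
    field_simp
    linear_combination h1

theorem KData.kap_spec (h : KData α U N y) (u : U) :
    α (u : E₁ ≃ₐ[F₁] E₁) y = ((h.kap u : E₂ˣ) : E₂) * y := by
  have hy0 := h.ne_zero
  change _ = ((rootsOfUnity.mkOfPowEq (α u y / y) (h.pow_eq_one u.2) : E₂ˣ) : E₂) * y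
  rw [rootsOfUnity.val_mkOfPowEq_coe]
  field_simp

theorem KData.kap_eq_one_iff (h : KData α U N y) (u : U) :
    h.kap u = 1 ↔ α (u : E₁ ≃ₐ[F₁] E₁) y = y := by
  rw [h.kap_spec u]
  constructor
  · intro h1; rw [h1]; simp
  · intro h1
    have h2 : ((h.kap u : E₂ˣ) : E₂) = 1 := by
      have := mul_right_cancel₀ h.ne_zero (h1.trans (one_mul y).symm)
      exact this
    apply Subtype.ext
    apply Units.ext
    simpa using h2

theorem KData.openKer [Algebra.IsIntegral F₂ E₂] (h : KData α U N y) (hα : Continuous α) :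
    OpenKer h.kap := by
  have h1 : IsOpen (MulAction.stabilizer (E₂ ≃ₐ[F₂] E₂) y : Set (E₂ ≃ₐ[F₂] E₂)) :=
    stabilizer_isOpen_of_isIntegral y
  have h2 : (α ⁻¹' (MulAction.stabilizer (E₂ ≃ₐ[F₂] E₂) y : Set (E₂ ≃ₐ[F₂] E₂))) ∈
      nhds (1 : E₁ ≃ₐ[F₁] E₁) := by
    apply (h1.preimage hα).mem_nhds
    change α 1 ∈ MulAction.stabilizer (E₂ ≃ₐ[F₂] E₂) y
    rw [map_one]
    exact Subgroup.one_mem _
  rw [krullTopology_mem_nhds_one_iff] at h2
  obtain ⟨L, hL, hL'⟩ := h2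
  refine ⟨L, hL, fun u hu => ?_⟩
  rw [h.kap_eq_one_iff]
  have h3 : (u : E₁ ≃ₐ[F₁] E₁) ∈ (L.fixingSubgroup : Set (E₁ ≃ₐ[F₁] E₁)) := by
    intro x
    exact hu x x.2
  exact MulAction.mem_stabilizer_iff.1 (hL' h3)

end Kap

section Rank

variable {F₁ E₁ F₂ E₂ : Type*} [Field F₁] [Field E₁] [Algebra F₁ E₁] [Field F₂] [Field E₂]
  [Algebra F₂ E₂]

/-- unramified characters of `U` of order `l` are pairwise dependent -/
def UnrDep (A : ValuationSubring E₁) (l : ℕ) (U : Subgroup (E₁ ≃ₐ[F₁] E₁)) : Prop :=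
  ∀ π₁ π₂ : U →* Multiplicative (ZMod l), OpenKer π₁ → OpenKer π₂ →
    (∀ u : U, (u : E₁ ≃ₐ[F₁] E₁) ∈ inS F₁ A → π₁ u = 1 ∧ π₂ u = 1) →
    ∃ m k : ℤ, IsCoprime m k ∧ ∀ u, π₁ u ^ m * π₂ u ^ k = 1

/-- any two characters of a group of inertia elements are dependent -/
theorem dep_inertia [IsGalois F₁ E₁] {A : ValuationSubring E₁} (hA : RankOne A)
    {V : Subgroup (E₁ ≃ₐ[F₁] E₁)} (hV : V ≤ inS F₁ A) {N : ℕ} [NeZero N]
    (hN : A.valuation (N : E₁) = 1) {ζ : E₁} (hζ : IsPrimitiveRoot ζ N)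
    {C : Type*} [CommGroup C] [Finite C] [IsCyclic C] (hC : Nat.card C = N) (π₁ π₂ : V →* C)
    (h₁ : OpenKer π₁) (h₂ : OpenKer π₂) :
    ∃ m k : ℤ, IsCoprime m k ∧ ∀ x, π₁ x ^ m * π₂ x ^ k = 1 := by
  have hcard : Nat.card (rootsOfUnity N E₁) = N := hζ.card_rootsOfUnity
  have : IsCyclic (rootsOfUnity N E₁) := rootsOfUnity.isCyclic E₁ N
  let e : C ≃* rootsOfUnity N E₁ := mulEquivOfCyclicCardEq (by rw [hcard, hC])
  let φ : C →* E₁ˣ := (rootsOfUnity N E₁).subtype.comp e.toMonoidHom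
  have hφ : Function.Injective φ := Subtype.val_injective.comp e.injective
  have hpow : ∀ c : C, φ c ^ N = 1 := fun c => (mem_rootsOfUnity N _).mp (e c).2
  obtain ⟨m, k, hmk, h⟩ := char_dependent hA hV hN (χ₁ := φ.comp π₁) (χ₂ := φ.comp π₂)
    (h₁.comp _) (h₂.comp _) (fun x => hpow _) (fun x => hpow _)
  refine ⟨m, k, hmk, fun x => hφ ?_⟩
  rw [map_mul, map_zpow, map_zpow, map_one]
  exact h x

theorem openKer_mul {C : Type*} [CommGroup C] {U : Subgroup (E₁ ≃ₐ[F₁] E₁)} {π₁ π₂ : U →* C}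
    (h₁ : OpenKer π₁) (h₂ : OpenKer π₂) : OpenKer (π₁ * π₂) := by
  obtain ⟨L₁, hL₁, h1⟩ := h₁
  obtain ⟨L₂, hL₂, h2⟩ := h₂
  refine ⟨L₁ ⊔ L₂, inferInstance, fun u hu => ?_⟩
  rw [MonoidHom.mul_apply, h1 u (fun x hx => hu x (le_sup_left (a := L₁) hx)),
    h2 u (fun x hx => hu x (le_sup_right (a := L₁) hx)), one_mul]

theorem openKer_zpow {C : Type*} [CommGroup C] {U : Subgroup (E₁ ≃ₐ[F₁] E₁)} {π₁ : U →* C}
    (h₁ : OpenKer π₁) (n : ℤ) : OpenKer (π₁ ^ n) := by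
  obtain ⟨L₁, hL₁, h1⟩ := h₁
  refine ⟨L₁, hL₁, fun u hu => ?_⟩
  rw [MonoidHom.zpow_apply, h1 u hu, one_zpow]

/-- the Kummer rank of the fixed field of `α(U)`, `U` inside a tame decomposition group, is at
most two. -/
theorem rankLE [IsGalois F₁ E₁] [Algebra.IsIntegral F₂ E₂]
    {α : (E₁ ≃ₐ[F₁] E₁) →* (E₂ ≃ₐ[F₂] E₂)} (hα : Continuous α)
    {A : ValuationSubring E₁} (hA : RankOne A) {l : ℕ} [hl : Fact l.Prime]
    (hlA : A.valuation (l : E₁) = 1) {ζ₁ : E₁} (hζ₁ : IsPrimitiveRoot ζ₁ l)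
    {ζ₂ : E₂} (hζ₂ : IsPrimitiveRoot ζ₂ l) (hroot : ∀ y : E₂, ∃ z, z ^ l = y)
    {U : Subgroup (E₁ ≃ₐ[F₁] E₁)} (hμ : ∀ u ∈ U, ∀ z : E₂, z ^ l = 1 → α u z = z)
    (hunr : UnrDep A l U) : RankLE E₂ l (U.map α) := by
  intro b hb0 hbV
  choose β hβ using fun i => hroot (b i)
  have hl0 : l ≠ 0 := hl.out.ne_zero
  haveI : NeZero l := ⟨hl0⟩
  have hβ0 : ∀ i, β i ≠ 0 := by
    intro i h
    apply hb0 i
    rw [← hβ i, h, zero_pow hl0]
  have hK : ∀ i, KData α U l (β i) := by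
    intro i
    refine ⟨hβ0 i, fun u hu => ?_, hμ⟩
    rw [hβ i]
    exact hbV i (α u) (Subgroup.mem_map_of_mem α hu)
  have hcard : Nat.card (rootsOfUnity l E₂) = l := hζ₂.card_rootsOfUnity
  have hcyc : IsCyclic (rootsOfUnity l E₂) := rootsOfUnity.isCyclic E₂ l
  let e : rootsOfUnity l E₂ ≃* Multiplicative (ZMod l) :=
    mulEquivOfCyclicCardEq (by rw [hcard]; simp)
  let π : Fin 3 → (U →* Multiplicative (ZMod l)) := fun i => e.toMonoidHom.comp (hK i).kap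
  have hπo : ∀ i, OpenKer (π i) := fun i => ((hK i).openKer hα).comp _
  obtain ⟨f, hf, h⟩ := rank_core hl.out π {u : U | (u : E₁ ≃ₐ[F₁] E₁) ∈ inS F₁ A} (by
    intro i j
    have hV : U ⊓ inS F₁ A ≤ inS F₁ A := inf_le_right
    obtain ⟨m, k, hmk, h⟩ := dep_inertia hA hV hlA hζ₁ (C := Multiplicative (ZMod l)) (by simp)
      ((π i).comp (Subgroup.inclusion inf_le_left)) ((π j).comp (Subgroup.inclusion inf_le_left))
      ((hπo i).restrict inf_le_left) ((hπo j).restrict inf_le_left)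
    exact ⟨m, k, hmk, fun u hu => h ⟨u.1, u.2, hu⟩⟩) (by
    intro e₁ e₂ h₁ h₂
    have := hunr (∏ i, π i ^ e₁ i) (∏ i, π i ^ e₂ i) (by
      rw [Fin.prod_univ_three]
      exact openKer_mul (openKer_mul (openKer_zpow (hπo 0) _) (openKer_zpow (hπo 1) _))
        (openKer_zpow (hπo 2) _)) (by
      rw [Fin.prod_univ_three]
      exact openKer_mul (openKer_mul (openKer_zpow (hπo 0) _) (openKer_zpow (hπo 1) _))
        (openKer_zpow (hπo 2) _)) (by
      intro u hu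
      constructor
      · have := h₁ u hu
        rw [← this]
        simp [Fin.prod_univ_three]
      · have := h₂ u hu
        rw [← this]
        simp [Fin.prod_univ_three])
    obtain ⟨m, k, hmk, h⟩ := this
    refine ⟨m, k, hmk, fun u => ?_⟩
    have := h u
    simpa [Fin.prod_univ_three] using this)
  refine ⟨f, hf, ∏ i, β i ^ f i, ?_, ?_⟩
  · rintro g ⟨u, hu, rfl⟩
    have h1 := h ⟨u, hu⟩
    have h2 : ∏ i, ((hK i).kap ⟨u, hu⟩) ^ f i = 1 := by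
      apply e.injective
      rw [map_prod, map_one, ← h1]
      refine Finset.prod_congr rfl fun i _ => ?_
      rw [map_zpow]; rfl
    change α u (∏ i, β i ^ f i) = _
    rw [map_prod]
    have h3 : ∀ i, α u (β i ^ f i) =
        (((((hK i).kap ⟨u, hu⟩) ^ f i : rootsOfUnity l E₂) : E₂ˣ) : E₂) * β i ^ f i := by
      intro i
      rw [map_zpow₀, show α u (β i) = _ from (hK i).kap_spec ⟨u, hu⟩, mul_zpow]
      simp
    rw [Finset.prod_congr rfl fun i _ => h3 i, Finset.prod_mul_distrib]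
    have h4 : ∏ i, (((((hK i).kap ⟨u, hu⟩) ^ f i : rootsOfUnity l E₂) : E₂ˣ) : E₂) = 1 := by
      have := congrArg (fun z : rootsOfUnity l E₂ => ((z : E₂ˣ) : E₂)) h2
      simpa using this
    rw [h4, one_mul]
  · rw [← Finset.prod_pow]
    refine Finset.prod_congr rfl fun i _ => ?_
    rw [← hβ i, ← zpow_natCast, ← zpow_natCast, ← zpow_mul, ← zpow_mul, mul_comm]

end Rank

end Crest.Agent.R018.LCAx484
end

-- ▼ part R018/LCB_484

/-!
# Local correspondence, group side B: cyclotomic compatibility, rank at least two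
(row 18, helper484)
-/

set_option autoImplicit false

open NumberField Pointwise

namespace Crest.Agent.R018.LCBx484

open Crest.Agent.R018.Placesx484
open Crest.Agent.R018.Placesx484.Place
open Crest.Agent.R018.Tamex31
open Crest.Agent.R018.Rig4x931
open Crest.Agent.R018.LCAx484

/-- lifting the exponent, in the form used below -/
theorem lte_aux {l : ℕ} (hl : l.Prime) (hl2 : l ≠ 2) {a : ℤ} (ha : (l : ℤ) ∣ a - 1) {N k j : ℕ}
    (hN : ¬ l ^ (k + 1) ∣ N) (h : (l : ℤ) ^ (j + k) ∣ a ^ N - 1) : (l : ℤ) ^ j ∣ a - 1 := by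
  have hla : ¬ (l : ℤ) ∣ a := by
    intro h1
    have h2 : (l : ℤ) ∣ 1 := by
      have := dvd_sub h1 ha
      simpa using this
    exact (Nat.prime_iff_prime_int.1 hl).not_unit (isUnit_of_dvd_one h2)
  have h1 := Int.emultiplicity_pow_sub_pow hl (hl.odd_of_ne_two hl2) (x := a) (y := 1)
    (by simpa using ha) hla N
  rw [one_pow] at h1
  rw [pow_dvd_iff_le_emultiplicity] at h ⊢
  rw [h1] at h
  have h2 : emultiplicity l N ≤ k := by
    have : emultiplicity l N < (k + 1 : ℕ) := emultiplicity_lt_iff_not_dvd.2 hN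
    exact Order.le_of_lt_add_one (by exact_mod_cast this)
  have h3 : ((j + k : ℕ) : ℕ∞) ≤ emultiplicity (l : ℤ) (a - 1) + k :=
    h.trans (by gcongr)
  push_cast at h3
  exact (ENat.add_le_add_iff_right (ENat.coe_ne_top k)).1 h3

theorem prim_pow_mod {M : Type*} [CommMonoid M] {ζ : M} {k i j : ℕ} (h : IsPrimitiveRoot ζ k)
    (hk : 0 < k) (H : ζ ^ i = ζ ^ j) : i % k = j % k := by
  apply h.pow_inj (Nat.mod_lt _ hk) (Nat.mod_lt _ hk)
  have h1 : ∀ m, ζ ^ (m % k) = ζ ^ m := fun m => by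
    conv_lhs => rw [h.eq_orderOf, pow_mod_orderOf]
  rw [h1, h1, H]

section

variable {F₁ E₁ F₂ E₂ : Type*} [Field F₁] [Field E₁] [Algebra F₁ E₁] [Field F₂] [Field E₂]
  [Algebra F₂ E₂] [IsGalois F₁ E₁]
  {α : (E₁ ≃ₐ[F₁] E₁) →* (E₂ ≃ₐ[F₂] E₂)} {A : ValuationSubring E₁}

theorem card_ker_unitsMap {l n : ℕ} (hl : l.Prime) (hn : 0 < n) :
    Nat.card (ZMod.unitsMap (dvd_pow_self l hn.ne')).ker ∣ l ^ n := by
  haveI : Fact l.Prime := ⟨hl⟩
  haveI : NeZero (l ^ n) := ⟨pow_ne_zero _ hl.ne_zero⟩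
  haveI : NeZero l := ⟨hl.ne_zero⟩
  have h1 := Subgroup.card_mul_index (ZMod.unitsMap (dvd_pow_self l hn.ne')).ker
  rw [Subgroup.index_ker, MonoidHom.range_eq_top.2
    (ZMod.unitsMap_surjective (dvd_pow_self l hn.ne')), Subgroup.card_top] at h1
  have h2 : Nat.card (ZMod (l ^ n))ˣ = l ^ (n - 1) * (l - 1) := by
    rw [Nat.card_eq_fintype_card, ZMod.card_units_eq_totient, Nat.totient_prime_pow hl hn]
  have h3 : Nat.card (ZMod l)ˣ = l - 1 := by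
    rw [Nat.card_eq_fintype_card, ZMod.card_units_eq_totient, Nat.totient_prime hl]
  rw [h2, h3] at h1
  have h4 : 0 < l - 1 := by have := hl.two_le; omega
  have h5 := Nat.eq_of_mul_eq_mul_right h4 h1
  rw [h5]
  exact pow_dvd_pow _ (Nat.sub_le _ _)

/-- (B1) inertia acts trivially, through `α`, on the `l`-power roots of unity -/
theorem cyc_inertia [Algebra.IsIntegral F₂ E₂] (hα : Continuous α) {l : ℕ} (hl : l.Prime)
    (hl2 : l ≠ 2) (hlA : A.valuation (l : E₁) = 1)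
    (hr₁ : ∀ n, ∃ ζ : E₁, IsPrimitiveRoot ζ (l ^ n))
    (hr₂ : ∀ n, ∃ ζ : E₂, IsPrimitiveRoot ζ (l ^ n))
    {U : Subgroup (E₁ ≃ₐ[F₁] E₁)} (hUA : U ≤ decS F₁ A)
    (hμ : ∀ u ∈ U, ∀ z : E₂, z ^ l = 1 → α u z = z)
    {s : E₁ ≃ₐ[F₁] E₁} (hs : s ∈ U) {c : ℕ} (hc : 2 ≤ c)
    (hsc : ∀ n, ∀ ζ : E₁, ζ ^ (l ^ n) = 1 → s ζ = ζ ^ c)
    {x : E₁ ≃ₐ[F₁] E₁} (hx : x ∈ U) (hxI : x ∈ inS F₁ A) (j : ℕ) (z : E₂)
    (hz : z ^ (l ^ j) = 1) : α x z = z := by
  haveI : Fact l.Prime := ⟨hl⟩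
  -- the exponent
  obtain ⟨k, hk⟩ : ∃ k : ℕ, ¬ l ^ (k + 1) ∣ (c - 1) := by
    refine ⟨c, fun h => ?_⟩
    have h1 := Nat.le_of_dvd (by omega) h
    have h2 : c < l ^ c := Nat.lt_pow_self hl.one_lt
    have h3 : l ^ c ≤ l ^ (c + 1) := Nat.pow_le_pow_right hl.pos (by omega)
    omega
  set n := j + k + 1 with hn
  have hn0 : 0 < n := by omega
  haveI : NeZero (l ^ n) := ⟨pow_ne_zero _ hl.ne_zero⟩
  haveI : NeZero l := ⟨hl.ne_zero⟩
  obtain ⟨ζ₁, hζ₁⟩ := hr₁ n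
  obtain ⟨ζ₂, hζ₂⟩ := hr₂ n
  let V : Subgroup (E₁ ≃ₐ[F₁] E₁) := U ⊓ inS F₁ A
  have hdvd : l ∣ l ^ n := dvd_pow_self l hn0.ne'
  -- the cyclotomic action
  let a : (E₁ ≃ₐ[F₁] E₁) →* (ZMod (l ^ n))ˣ := (hζ₂.autToPow F₂).comp α
  have ha : ∀ g, ζ₂ ^ ((a g : (ZMod (l ^ n))ˣ) : ZMod (l ^ n)).val = α g ζ₂ :=
    fun g => hζ₂.autToPow_spec F₂ (α g)
  have hamem : ∀ v : V, a v ∈ (ZMod.unitsMap hdvd).ker := by
    intro v
    rw [MonoidHom.mem_ker]
    -- action on `ζ₂ ^ (l ^ (n-1))` is trivial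
    have h1 : (ζ₂ ^ (l ^ (n - 1))) ^ l = 1 := by
      rw [← pow_mul, ← pow_succ, Nat.sub_add_cancel hn0, hζ₂.pow_eq_one]
    have h2 := hμ v v.2.1 _ h1
    rw [map_pow, ← ha, ← pow_mul, mul_comm, pow_mul] at h2
    have hprim : IsPrimitiveRoot (ζ₂ ^ (l ^ (n - 1))) l :=
      hζ₂.pow (pow_pos hl.pos _) (by rw [← pow_succ, Nat.sub_add_cancel hn0])
    have h3 : (ζ₂ ^ (l ^ (n - 1))) ^ ((a v : (ZMod (l ^ n))ˣ) : ZMod (l ^ n)).val =
        (ζ₂ ^ (l ^ (n - 1))) ^ 1 := by rw [h2, pow_one]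
    have h4 := prim_pow_mod hprim hl.pos h3
    ext
    rw [ZMod.unitsMap_def, Units.coe_map]
    change ZMod.castHom hdvd (ZMod l) ((a v : (ZMod (l ^ n))ˣ) : ZMod (l ^ n)) = 1
    rw [← ZMod.natCast_zmod_val ((a v : (ZMod (l ^ n))ˣ) : ZMod (l ^ n)), map_natCast]
    have h5 : ((((a v : (ZMod (l ^ n))ˣ) : ZMod (l ^ n)).val : ℕ) : ZMod l) = ((1 : ℕ) : ZMod l) :=
      (ZMod.natCast_eq_natCast_iff _ _ _).2 h4
    rw [h5, Nat.cast_one]
  let π : V →* (ZMod.unitsMap hdvd).ker := (a.comp V.subtype).codRestrict _ hamem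
  have hπ : OpenKer π := by
    have h1 : IsOpen (MulAction.stabilizer (E₂ ≃ₐ[F₂] E₂) ζ₂ : Set (E₂ ≃ₐ[F₂] E₂)) :=
      stabilizer_isOpen_of_isIntegral ζ₂
    have h2 : (α ⁻¹' (MulAction.stabilizer (E₂ ≃ₐ[F₂] E₂) ζ₂ : Set (E₂ ≃ₐ[F₂] E₂))) ∈
        nhds (1 : E₁ ≃ₐ[F₁] E₁) := by
      apply (h1.preimage hα).mem_nhds
      change α 1 ∈ MulAction.stabilizer (E₂ ≃ₐ[F₂] E₂) ζ₂
      rw [map_one]
      exact Subgroup.one_mem _
    rw [krullTopology_mem_nhds_one_iff] at h2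
    obtain ⟨L, hL, hL'⟩ := h2
    refine ⟨L, hL, fun u hu => ?_⟩
    have h3 : (u : E₁ ≃ₐ[F₁] E₁) ∈ (L.fixingSubgroup : Set (E₁ ≃ₐ[F₁] E₁)) := by
      intro x
      exact hu x x.2
    have h4 : α (u : E₁ ≃ₐ[F₁] E₁) ζ₂ = ζ₂ := MulAction.mem_stabilizer_iff.1 (hL' h3)
    apply Subtype.ext
    change a u = 1
    have h5 := ha u
    rw [h4] at h5
    have h6 : ((a u : (ZMod (l ^ n))ˣ) : ZMod (l ^ n)).val = 1 % (l ^ n) := by
      have := prim_pow_mod hζ₂ (pow_pos hl.pos _) (h5.trans (pow_one ζ₂).symm)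
      rwa [Nat.mod_eq_of_lt (ZMod.val_lt _)] at this
    ext
    rw [Units.val_one]
    apply ZMod.val_injective
    rw [h6, ZMod.val_one_eq_one_mod]
  have hcyc : IsCyclic (ZMod (l ^ n))ˣ := ZMod.isCyclic_units_of_prime_pow l hl hl2 n
  have hN : A.valuation ((l ^ n : ℕ) : E₁) = 1 := by
    rw [Nat.cast_pow, map_pow, hlA, one_pow]
  have hsV : ∀ y ∈ V, s * y * s⁻¹ ∈ V := fun y hy =>
    ⟨U.mul_mem (U.mul_mem hs hy.1) (U.inv_mem hs), conj_mem_inS (hUA hs) hy.2⟩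
  have key := conj_eq_pow (inf_le_right : V ≤ inS F₁ A) hN hζ₁
    (card_ker_unitsMap hl hn0) π hπ (hUA hs) hsV (hsc n ζ₁ hζ₁.pow_eq_one) ⟨x, hx, hxI⟩
  have key2 : a (s * x * s⁻¹) = a x ^ c := congrArg Subtype.val key
  have key3 : a x ^ (c - 1) = 1 := by
    rw [map_mul, map_mul, map_inv, mul_inv_cancel_comm] at key2
    have h1 : a x ^ (c - 1) * a x = 1 * a x := by
      rw [← pow_succ, Nat.sub_add_cancel (by omega), ← key2, one_mul]
    exact mul_right_cancel h1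
  set b : ℕ := ((a x : (ZMod (l ^ n))ˣ) : ZMod (l ^ n)).val with hb
  have hbcast : ((b : ℕ) : ZMod (l ^ n)) = ((a x : (ZMod (l ^ n))ˣ) : ZMod (l ^ n)) :=
    ZMod.natCast_zmod_val _
  have h1 : ((l : ℤ) ^ n) ∣ (b : ℤ) ^ (c - 1) - 1 := by
    have h2 : (((b : ℤ) ^ (c - 1) - 1 : ℤ) : ZMod (l ^ n)) = 0 := by
      push_cast
      rw [hbcast, ← Units.val_pow_eq_pow_val, key3, Units.val_one, sub_self]
    have := (ZMod.intCast_zmod_eq_zero_iff_dvd _ _).1 h2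
    exact_mod_cast this
  have h2 : (l : ℤ) ∣ (b : ℤ) - 1 := by
    have h3 := hamem ⟨x, hx, hxI⟩
    rw [MonoidHom.mem_ker] at h3
    have h4 := congrArg (fun u : (ZMod l)ˣ => (u : ZMod l)) h3
    simp only [ZMod.unitsMap_def, Units.coe_map, Units.val_one] at h4
    change ZMod.castHom hdvd (ZMod l) ((a x : (ZMod (l ^ n))ˣ) : ZMod (l ^ n)) = 1 at h4
    rw [← hbcast, map_natCast] at h4
    have h5 : (((b : ℤ) - 1 : ℤ) : ZMod l) = 0 := by
      push_cast; rw [h4, sub_self]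
    exact (ZMod.intCast_zmod_eq_zero_iff_dvd _ _).1 h5
  have h3 : (l : ℤ) ^ (j + 1) ∣ (b : ℤ) - 1 := by
    apply lte_aux hl hl2 h2 hk
    have : j + 1 + k = n := by omega
    rw [this]; exact h1
  -- conclusion
  have hbz : ∀ w : E₂, w ^ (l ^ n) = 1 → α x w = w ^ b := by
    intro w hw
    obtain ⟨i, _, hi⟩ := hζ₂.eq_pow_of_pow_eq_one hw
    rw [← hi, map_pow, ← ha, ← hb, ← pow_mul, ← pow_mul, mul_comm]
  have hzn : z ^ (l ^ n) = 1 := by
    have : l ^ n = l ^ j * l ^ (k + 1) := by rw [← pow_add]; congr 1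
    rw [this, pow_mul, hz, one_pow]
  rw [hbz z hzn]
  have h4 : (l : ℤ) ^ j ∣ (b : ℤ) - 1 := (pow_dvd_pow _ (Nat.le_succ j)).trans h3
  have hb1 : 1 ≤ b := by
    by_contra hcon
    have hb0 : b = 0 := by omega
    rw [hb0] at h2
    have h5 : (l : ℤ) ∣ 1 := by simpa using h2
    exact (Nat.prime_iff_prime_int.1 hl).not_isUnit (isUnit_of_dvd_one h5)
  have h5 : l ^ j ∣ b - 1 := by
    have : ((l ^ j : ℕ) : ℤ) ∣ ((b - 1 : ℕ) : ℤ) := by
      rw [Nat.cast_sub hb1]; push_cast; exact h4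
    exact_mod_cast this
  obtain ⟨t, ht⟩ := h5
  have hbt : b = l ^ j * t + 1 := by omega
  rw [hbt, pow_succ, pow_mul, hz, one_pow, one_mul]

/-- (B2) cyclotomic compatibility on a group with a ramified Kummer element -/
theorem cyc_compat [Algebra.IsIntegral F₂ E₂] (hα : Continuous α) {l : ℕ} (hl : l.Prime)
    (hlA : A.valuation (l : E₁) = 1)
    {U : Subgroup (E₁ ≃ₐ[F₁] E₁)} (hUA : U ≤ decS F₁ A) {n : ℕ}
    {ζ₁ : E₁} (hζ₁ : IsPrimitiveRoot ζ₁ (l ^ n)) {ζ₂ : E₂} (hζ₂ : IsPrimitiveRoot ζ₂ (l ^ n))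
    (hμ : ∀ u ∈ U, u ∈ inS F₁ A → ∀ z : E₂, z ^ (l ^ n) = 1 → α u z = z)
    {y : E₂} (hy0 : y ≠ 0) (hy : ∀ u ∈ U, α u (y ^ (l ^ n)) = y ^ (l ^ n))
    {x : E₁ ≃ₐ[F₁] E₁} (hx : x ∈ U) (hxI : x ∈ inS F₁ A) {m : ℕ}
    (hxy : α x (y ^ (l ^ m)) ≠ y ^ (l ^ m))
    {s : E₁ ≃ₐ[F₁] E₁} (hs : s ∈ U) {c : ℕ} (hsc : s ζ₁ = ζ₁ ^ c) (z : E₂)
    (hz : z ^ (l ^ (m + 1)) = 1) : α s z = z ^ c := by
  haveI : Fact l.Prime := ⟨hl⟩
  haveI : NeZero (l ^ n) := ⟨pow_ne_zero _ hl.ne_zero⟩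
  haveI : NeZero l := ⟨hl.ne_zero⟩
  let V : Subgroup (E₁ ≃ₐ[F₁] E₁) := U ⊓ inS F₁ A
  have hK : KData α V (l ^ n) y := ⟨hy0, fun u hu => hy u hu.1, fun u hu => hμ u hu.1 hu.2⟩
  have hcyc : IsCyclic (rootsOfUnity (l ^ n) E₂) := rootsOfUnity.isCyclic E₂ (l ^ n)
  have hcard : Nat.card (rootsOfUnity (l ^ n) E₂) = l ^ n := hζ₂.card_rootsOfUnity
  have hN : A.valuation ((l ^ n : ℕ) : E₁) = 1 := by
    rw [Nat.cast_pow, map_pow, hlA, one_pow]
  have hsV : ∀ y ∈ V, s * y * s⁻¹ ∈ V := fun y hy =>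
    ⟨U.mul_mem (U.mul_mem hs hy.1) (U.inv_mem hs), conj_mem_inS (hUA hs) hy.2⟩
  have key := conj_eq_pow (inf_le_right : V ≤ inS F₁ A) hN hζ₁ (by rw [hcard])
    hK.kap (hK.openKer hα) (hUA hs) hsV hsc ⟨x, hx, hxI⟩
  set κ : E₂ := ((hK.kap ⟨x, hx, hxI⟩ : E₂ˣ) : E₂) with hκ
  have hκy : α x y = κ * y := hK.kap_spec ⟨x, hx, hxI⟩
  have hκn : κ ^ (l ^ n) = 1 := by
    have := (mem_rootsOfUnity (l ^ n) _).1 (hK.kap ⟨x, hx, hxI⟩).2
    rw [hκ, ← Units.val_pow_eq_pow_val, this, Units.val_one]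
  have h1 : α (s * x * s⁻¹) y = κ ^ c * y := by
    have := hK.kap_spec ⟨s * x * s⁻¹, hsV x ⟨hx, hxI⟩⟩
    rw [key] at this
    simpa [hκ] using this
  -- direct computation
  set w := α s⁻¹ y with hw
  have hsw : α s w = y := by
    rw [hw, ← AlgEquiv.mul_apply, ← map_mul, mul_inv_cancel, map_one, AlgEquiv.one_apply]
  have hwn : w ^ (l ^ n) = y ^ (l ^ n) := by
    rw [hw, ← map_pow, hy _ (U.inv_mem hs)]
  set η := w / y with hη
  have hηn : η ^ (l ^ n) = 1 := by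
    rw [hη, div_pow, hwn, div_self (pow_ne_zero _ hy0)]
  have hwη : w = η * y := by rw [hη]; field_simp
  have h2 : α (s * x * s⁻¹) y = α s κ * y := by
    rw [map_mul, map_mul, AlgEquiv.mul_apply, AlgEquiv.mul_apply, ← hw, hwη, map_mul,
      hμ x hx hxI η hηn, hκy]
    have : η * (κ * y) = κ * w := by rw [hwη]; ring
    rw [this, map_mul, hsw]
  have h3 : α s κ = κ ^ c := mul_right_cancel₀ hy0 (h2.symm.trans h1)
  -- `κ` is primitive of high order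
  have hκ1 : κ ^ (l ^ m) ≠ 1 := by
    intro h
    apply hxy
    rw [map_pow, hκy, mul_pow, h, one_mul]
  obtain ⟨k, _, hk⟩ := (Nat.dvd_prime_pow hl).1 (orderOf_dvd_of_pow_eq_one hκn)
  have hmk : m + 1 ≤ k := by
    by_contra hcon
    apply hκ1
    rw [← orderOf_dvd_iff_pow_eq_one, hk]
    exact pow_dvd_pow _ (by omega)
  have hprim : IsPrimitiveRoot κ (l ^ k) := by
    rw [← hk]; exact IsPrimitiveRoot.orderOf κ
  have hzk : z ^ (l ^ k) = 1 := by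
    obtain ⟨r, rfl⟩ := Nat.exists_eq_add_of_le hmk
    rw [pow_add, pow_mul, hz, one_pow]
  haveI : NeZero (l ^ k) := ⟨pow_ne_zero _ hl.ne_zero⟩
  obtain ⟨i, _, hi⟩ := hprim.eq_pow_of_pow_eq_one hzk
  rw [← hi, map_pow, h3, ← pow_mul, ← pow_mul, mul_comm]

/-- the Kummer group of the fixed field of `V` has rank at least two -/
def RankGE {G : Type*} [Group G] (E : Type*) [Field E] [MulSemiringAction G E] (l : ℕ)
    (V : Subgroup G) : Prop :=
  ∃ b c : E, b ≠ 0 ∧ c ≠ 0 ∧ Fx V b ∧ Fx V c ∧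
    ∀ m n : ℤ, (∃ z, Fx V z ∧ z ^ l = b ^ m * c ^ n) → (l : ℤ) ∣ m ∧ (l : ℤ) ∣ n

theorem exists_pow_root {K : Type*} [Field K] {l : ℕ} (h : ∀ y : K, ∃ z, z ^ l = y) (n : ℕ)
    (y : K) : ∃ z, z ^ (l ^ n) = y := by
  induction n generalizing y with
  | zero => exact ⟨y, by rw [pow_zero, pow_one]⟩
  | succ n ih =>
    obtain ⟨w, hw⟩ := h y
    obtain ⟨z, hz⟩ := ih w
    exact ⟨z, by rw [pow_succ, pow_mul, hz, hw]⟩

theorem coprime_pow_ne_one {K : Type*} [Field K] {l n : ℕ} (hl : l.Prime) {κ : K}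
    (h1 : κ ^ (l ^ n) = 1) (hκ : κ ≠ 1) {k : ℤ} (hk : ¬ (l : ℤ) ∣ k) : κ ^ k ≠ 1 := by
  intro h
  apply hκ
  have hκ0 : κ ≠ 0 := by
    rintro rfl
    rw [zero_pow (pow_ne_zero _ hl.ne_zero)] at h1
    exact zero_ne_one h1
  have hco : IsCoprime ((l : ℤ) ^ n) k :=
    IsCoprime.pow_left ((Prime.coprime_iff_not_dvd (Nat.prime_iff_prime_int.1 hl)).2 hk)
  obtain ⟨a, b, hab⟩ := hco
  have : κ ^ (a * (l : ℤ) ^ n + b * k) = 1 := by
    rw [zpow_add₀ hκ0, mul_comm a, mul_comm b, zpow_mul, zpow_mul, h, one_zpow, mul_one]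
    have : κ ^ ((l : ℤ) ^ n) = 1 := by
      have h2 : ((l : ℤ) ^ n) = ((l ^ n : ℕ) : ℤ) := by push_cast; rfl
      rw [h2, zpow_natCast, h1]
    rw [this, one_zpow]
  rwa [hab, zpow_one] at this

/-- (B3) rank at least two from a ramified Kummer element of some level -/
theorem rankGE [Algebra.IsIntegral F₂ E₂] (hα : Continuous α) {l : ℕ} (hl : l.Prime)
    (hl2 : l ≠ 2) (hlA : A.valuation (l : E₁) = 1)
    (hr₁ : ∀ n, ∃ ζ : E₁, IsPrimitiveRoot ζ (l ^ n))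
    (hr₂ : ∀ n, ∃ ζ : E₂, IsPrimitiveRoot ζ (l ^ n))
    (hroot : ∀ y : E₂, ∃ z, z ^ l = y)
    {U : Subgroup (E₁ ≃ₐ[F₁] E₁)} (hUA : U ≤ decS F₁ A)
    (hμ : ∀ u ∈ U, ∀ z : E₂, z ^ l = 1 → α u z = z)
    {s : E₁ ≃ₐ[F₁] E₁} (hs : s ∈ U) {c : ℕ} (hc : 2 ≤ c)
    (hsc : ∀ n, ∀ ζ : E₁, ζ ^ (l ^ n) = 1 → s ζ = ζ ^ c)
    (hunr : UnrDep A l U)
    {x : E₁ ≃ₐ[F₁] E₁} (hx : x ∈ U) (hxI : x ∈ inS F₁ A) {n : ℕ} {y : E₂} (hy0 : y ≠ 0)
    (hy : ∀ u ∈ U, α u (y ^ (l ^ n)) = y ^ (l ^ n)) (hxy : α x y ≠ y) :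
    RankGE E₂ l (U.map α) := by
  haveI : Fact l.Prime := ⟨hl⟩
  haveI : NeZero l := ⟨hl.ne_zero⟩
  have hI : ∀ u ∈ U, u ∈ inS F₁ A → ∀ j, ∀ z : E₂, z ^ (l ^ j) = 1 → α u z = z :=
    fun u hu huI j z hz => cyc_inertia hα hl hl2 hlA hr₁ hr₂ hUA hμ hs hc hsc hu huI j z hz
  -- `s` acts as `c` on all `l`-power roots of unity of `E₂`
  have hsz : ∀ j, ∀ z : E₂, z ^ (l ^ j) = 1 → α s z = z ^ c := by
    intro j z hz
    obtain ⟨Y, hY⟩ := exists_pow_root hroot j y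
    obtain ⟨ζ₁, hζ₁⟩ := hr₁ (n + j)
    obtain ⟨ζ₂, hζ₂⟩ := hr₂ (n + j)
    have hY0 : Y ≠ 0 := by
      rintro rfl
      rw [zero_pow (pow_ne_zero _ hl.ne_zero)] at hY
      exact hy0 hY.symm
    refine cyc_compat hα hl hlA hUA (n := n + j) hζ₁ hζ₂ (fun u hu huI => hI u hu huI _) hY0 ?_
      hx hxI (m := j) ?_ hs (hsc _ _ hζ₁.pow_eq_one) z ?_
    · intro u hu
      have : Y ^ (l ^ (n + j)) = y ^ (l ^ n) := by
        rw [pow_add, mul_comm, pow_mul, hY]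
      rw [this]; exact hy u hu
    · rw [hY]; exact hxy
    · rw [pow_succ, pow_mul, hz, one_pow]
  -- the level `k`
  have hex : ∃ j, ∃ u ∈ U, ∃ z : E₂, z ^ (l ^ j) = 1 ∧ α u z ≠ z := by
    obtain ⟨ζ, hζ⟩ := hr₂ c
    refine ⟨c, s, hs, ζ, hζ.pow_eq_one, fun h => ?_⟩
    have h1 := hsz c ζ hζ.pow_eq_one
    rw [h] at h1
    have h2 := prim_pow_mod hζ (pow_pos hl.pos _) ((pow_one ζ).trans h1)
    have h3 : c < l ^ c := Nat.lt_pow_self hl.one_lt
    rw [Nat.mod_eq_of_lt (by omega), Nat.mod_eq_of_lt h3] at h2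
    omega
  classical
  obtain ⟨u₀, hu₀, z₀, hz₀, hu₀z₀⟩ := Nat.find_spec hex
  set J := Nat.find hex with hJ
  have hJmin : ∀ j < J, ∀ u ∈ U, ∀ z : E₂, z ^ (l ^ j) = 1 → α u z = z := by
    intro j hj u hu z hz
    by_contra hcon
    exact Nat.find_min hex hj ⟨u, hu, z, hz, hcon⟩
  have hJ1 : 2 ≤ J := by
    by_contra hcon
    have : J = 0 ∨ J = 1 := by omega
    rcases this with h | h
    · rw [h, pow_zero, pow_one] at hz₀
      apply hu₀z₀
      rw [hz₀, map_one]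
    · rw [h, pow_one] at hz₀
      exact hu₀z₀ (hμ u₀ hu₀ z₀ hz₀)
  obtain ⟨γ, hγ⟩ := hr₂ J
  haveI : NeZero (l ^ J) := ⟨pow_ne_zero _ hl.ne_zero⟩
  have hγ0 : γ ≠ 0 := hγ.ne_zero (pow_ne_zero _ hl.ne_zero)
  have hγu : α u₀ γ ≠ γ := by
    intro h
    apply hu₀z₀
    obtain ⟨i, _, hi⟩ := hγ.eq_pow_of_pow_eq_one hz₀
    rw [← hi, map_pow, h]
  have hγl : ∀ u ∈ U, α u (γ ^ l) = γ ^ l := by
    intro u hu
    apply hJmin (J - 1) (by omega) u hu
    rw [← pow_mul, ← pow_succ', Nat.sub_add_cancel (by omega), hγ.pow_eq_one]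
  have hKγ : KData α U l γ := ⟨hγ0, hγl, hμ⟩
  -- the ramified element of level one
  obtain ⟨e, -⟩ : ∃ _e : rootsOfUnity l E₂ ≃* Multiplicative (ZMod l), True := by
    obtain ⟨ζ, hζ⟩ := hr₂ 1
    rw [pow_one] at hζ
    have hcard : Nat.card (rootsOfUnity l E₂) = l := hζ.card_rootsOfUnity
    have hcyc : IsCyclic (rootsOfUnity l E₂) := rootsOfUnity.isCyclic E₂ l
    exact ⟨mulEquivOfCyclicCardEq (by rw [hcard]; simp), trivial⟩
  have hstep : ∀ n : ℕ, ∀ y : E₂, y ≠ 0 → (∀ u ∈ U, α u (y ^ (l ^ n)) = y ^ (l ^ n)) →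
      α x y ≠ y → ∃ β : E₂, β ≠ 0 ∧ (∀ u ∈ U, α u (β ^ l) = β ^ l) ∧
        ∃ x' ∈ U, x' ∈ inS F₁ A ∧ α x' β ≠ β := by
    intro n
    induction n with
    | zero =>
      intro y _ hy hxy
      exact absurd (by simpa using hy x hx) hxy
    | succ n ih =>
      intro y hy0 hy hxy
      by_cases hram : ∃ x' ∈ U, x' ∈ inS F₁ A ∧ α x' (y ^ (l ^ n)) ≠ y ^ (l ^ n)
      · refine ⟨y ^ (l ^ n), pow_ne_zero _ hy0, ?_, hram⟩
        intro u hu
        rw [← pow_mul, ← pow_succ]; exact hy u hu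
      · push Not at hram
        have hKb : KData α U l (y ^ (l ^ n)) := ⟨pow_ne_zero _ hy0, fun u hu => by
          rw [← pow_mul, ← pow_succ]; exact hy u hu, hμ⟩
        obtain ⟨m, k, hmk, hdep⟩ := hunr (e.toMonoidHom.comp hKγ.kap) (e.toMonoidHom.comp hKb.kap)
          ((hKγ.openKer hα).comp _) ((hKb.openKer hα).comp _) (by
            intro u hu
            constructor
            · have : hKγ.kap u = 1 := (hKγ.kap_eq_one_iff u).2
                (hI u u.2 hu J γ hγ.pow_eq_one)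
              simp [this]
            · have : hKb.kap u = 1 := (hKb.kap_eq_one_iff u).2 (hram u u.2 hu)
              simp [this])
        have hdep' : ∀ u : U, hKγ.kap u ^ m * hKb.kap u ^ k = 1 := by
          intro u
          apply e.injective
          rw [map_mul, map_zpow, map_zpow, map_one]
          exact hdep u
        have hroot1 : ∀ ω : rootsOfUnity l E₂, ω ^ (l : ℤ) = 1 := by
          intro ω
          rw [zpow_natCast]
          exact Subtype.ext ((mem_rootsOfUnity l _).1 ω.2)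
        have hk : ¬ (l : ℤ) ∣ k := by
          rintro ⟨k', rfl⟩
          have h1 := hdep' ⟨u₀, hu₀⟩
          rw [zpow_mul, hroot1, one_zpow, mul_one] at h1
          have h2 : hKγ.kap ⟨u₀, hu₀⟩ = 1 := by
            have hco : IsCoprime m (l : ℤ) := hmk.of_mul_right_left
            obtain ⟨a, b, hab⟩ := hco
            calc hKγ.kap ⟨u₀, hu₀⟩ = (hKγ.kap ⟨u₀, hu₀⟩) ^ (a * m + b * l) := by
                  rw [hab, zpow_one]
              _ = 1 := by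
                  rw [zpow_add, mul_comm a, zpow_mul, h1, one_zpow, one_mul, mul_comm b,
                    zpow_mul, hroot1, one_zpow]
          exact hγu ((hKγ.kap_eq_one_iff _).1 h2)
        obtain ⟨Γ, hΓ⟩ := exists_pow_root hroot n γ
        have hΓ0 : Γ ≠ 0 := by
          rintro rfl
          rw [zero_pow (pow_ne_zero _ hl.ne_zero)] at hΓ
          exact hγ0 hΓ.symm
        have hΓ1 : Γ ^ (l ^ (n + J)) = 1 := by rw [pow_add, pow_mul, hΓ, hγ.pow_eq_one]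
        have hy1 : (y ^ k * Γ ^ m) ^ (l ^ n) = (y ^ (l ^ n)) ^ k * γ ^ m := by
          rw [mul_pow, ← zpow_natCast, ← zpow_natCast, ← zpow_mul, ← zpow_mul, mul_comm k,
            mul_comm m, zpow_mul, zpow_mul, zpow_natCast, zpow_natCast, hΓ]
        refine ih (y ^ k * Γ ^ m) (mul_ne_zero (zpow_ne_zero _ hy0) (zpow_ne_zero _ hΓ0)) ?_ ?_
        · intro u hu
          rw [hy1, map_mul, map_zpow₀, map_zpow₀,
            show α u (y ^ (l ^ n)) = _ from hKb.kap_spec ⟨u, hu⟩,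
            show α u γ = _ from hKγ.kap_spec ⟨u, hu⟩, mul_zpow, mul_zpow]
          have h1 := congrArg (fun z : rootsOfUnity l E₂ => ((z : E₂ˣ) : E₂)) (hdep' ⟨u, hu⟩)
          simp only [Subgroup.coe_mul, Subgroup.coe_zpow, Units.val_mul, Units.val_zpow_eq_zpow_val,
            Subgroup.coe_one, Units.val_one] at h1
          linear_combination (y ^ (l ^ n)) ^ k * γ ^ m * h1
        · intro h
          rw [map_mul, map_zpow₀, map_zpow₀, hI x hx hxI (n + J) Γ hΓ1] at h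
          have h1 : (α x y) ^ k = y ^ k := mul_right_cancel₀ (zpow_ne_zero _ hΓ0) h
          have h2 : (α x y / y) ^ k = 1 := by
            rw [div_zpow, h1, div_self (zpow_ne_zero _ hy0)]
          have h3 : (α x y / y) ^ (l ^ (n + 1)) = 1 := by
            rw [div_pow, ← map_pow, hy x hx, div_self (pow_ne_zero _ hy0)]
          refine coprime_pow_ne_one hl h3 ?_ hk h2
          intro h4
          exact hxy ((div_eq_one_iff_eq hy0).1 h4)
  obtain ⟨β, hβ0, hβ, x', hx', hx'I, hx'β⟩ := hstep n y hy0 hy hxy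
  have hfx : ∀ w : E₂, (∀ u ∈ U, α u w = w) → Fx (U.map α) w := by
    rintro w hw g ⟨u, hu, rfl⟩
    exact hw u hu
  refine ⟨β ^ l, γ ^ l, pow_ne_zero _ hβ0, pow_ne_zero _ hγ0, hfx _ hβ, hfx _ hγl, ?_⟩
  rintro m k ⟨z, hz, hzl⟩
  have hzU : ∀ u ∈ U, α u z = z := fun u hu => hz (α u) (Subgroup.mem_map_of_mem α hu)
  have hz0 : z ≠ 0 := by
    rintro rfl
    rw [zero_pow hl.ne_zero] at hzl
    exact mul_ne_zero (zpow_ne_zero _ (pow_ne_zero _ hβ0)) (zpow_ne_zero _ (pow_ne_zero _ hγ0))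
      hzl.symm
  have hω : (β ^ m * γ ^ k / z) ^ l = 1 := by
    rw [div_pow, hzl, mul_pow, ← zpow_natCast, ← zpow_natCast (γ ^ k), ← zpow_mul, ← zpow_mul,
      mul_comm m, mul_comm k, zpow_mul, zpow_mul, zpow_natCast, zpow_natCast]
    exact div_self (mul_ne_zero (zpow_ne_zero _ (pow_ne_zero _ hβ0))
      (zpow_ne_zero _ (pow_ne_zero _ hγ0)))
  have hprod : ∀ u ∈ U, α u (β ^ m * γ ^ k) = β ^ m * γ ^ k := by
    intro u hu
    have h1 := hμ u hu _ hω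
    rw [map_div₀, hzU u hu, div_left_inj' hz0] at h1
    exact h1
  have hrel : ∀ u ∈ U, (α u β / β) ^ m * (α u γ / γ) ^ k = 1 := by
    intro u hu
    have h1 := hprod u hu
    rw [map_mul, map_zpow₀, map_zpow₀] at h1
    rw [div_zpow, div_zpow, div_mul_div_comm, h1]
    exact div_self (mul_ne_zero (zpow_ne_zero _ hβ0) (zpow_ne_zero _ hγ0))
  have hm : (l : ℤ) ∣ m := by
    by_contra hcon
    have h1 := hrel x' hx'
    rw [hI x' hx' hx'I J γ hγ.pow_eq_one, div_self hγ0, one_zpow, mul_one] at h1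
    have h3 : (α x' β / β) ^ (l ^ 1) = 1 := by
      rw [pow_one, div_pow, ← map_pow, hβ x' hx', div_self (pow_ne_zero _ hβ0)]
    refine coprime_pow_ne_one hl h3 ?_ hcon h1
    intro h4
    exact hx'β ((div_eq_one_iff_eq hβ0).1 h4)
  refine ⟨hm, ?_⟩
  by_contra hcon
  obtain ⟨m', rfl⟩ := hm
  have h1 := hrel u₀ hu₀
  have h2 : (α u₀ β / β) ^ (l : ℤ) = 1 := by
    rw [zpow_natCast, div_pow, ← map_pow, hβ u₀ hu₀, div_self (pow_ne_zero _ hβ0)]
  rw [zpow_mul, h2, one_zpow, one_mul] at h1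
  have h3 : (α u₀ γ / γ) ^ (l ^ 1) = 1 := by
    rw [pow_one, div_pow, ← map_pow, hγl u₀ hu₀, div_self (pow_ne_zero _ hγ0)]
  refine coprime_pow_ne_one hl h3 ?_ hcon h1
  intro h4
  exact hγu ((div_eq_one_iff_eq hγ0).1 h4)

/-- unramified characters of closed subgroups of a decomposition group are dependent -/
theorem unrDep_of_closed {p : ℕ} [Fact p.Prime] (hA : TorsRes p A) {l : ℕ} (hl : l.Prime)
    {U : Subgroup (E₁ ≃ₐ[F₁] E₁)} (hUc : IsClosed (U : Set (E₁ ≃ₐ[F₁] E₁)))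
    (hUA : U ≤ decS F₁ A) : UnrDep A l U := by
  intro π₁ π₂ h₁ h₂ hI
  haveI : Fact l.Prime := ⟨hl⟩
  by_cases hne : π₁ = 1
  · exact ⟨1, 0, isCoprime_one_left, fun u => by simp [hne]⟩
  · obtain ⟨k, hk⟩ := unram_powers hA hUc hUA (Z := Multiplicative (ZMod l)) (l := l)
      (by simp) h₁ h₂ (fun u hu => (hI u hu).1) (fun u hu => (hI u hu).2) hne
    refine ⟨k, -1, isCoprime_one_right.neg_right, fun u => ?_⟩
    rw [hk, MonoidHom.zpow_apply, zpow_neg_one, mul_inv_cancel]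

end

end Crest.Agent.R018.LCBx484
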