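import Mathlib

-- ▼ part R018/Rig1_931
section

/-!
# Row 18: valuations from rigid elements (helper931)

`T ≤ H` subgroups of `Fˣ`, `-1 ∈ T`, `Fˣ/H` has no element of order two, every `x ∉ H` is
`T`-rigid (`1 + x ∈ T ∪ x T`).  Then there is a valuation subring `A` of `F` with
unit group contained in `H` and `1 + m_A ⊆ T`.
-/

set_option autoImplicit false

namespace Crest.Agent.R018.Rig1x931

variable {F : Type*} [Field F]

/-- membership of a field element in a subgroup of the unit group -/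
def In (S : Subgroup Fˣ) (x : F) : Prop := ∃ u ∈ S, (u : F) = x

theorem In.ne_zero {S : Subgroup Fˣ} {x : F} (h : In S x) : x ≠ 0 := by
  obtain ⟨u, -, rfl⟩ := h
  exact u.ne_zero

theorem in_coe {S : Subgroup Fˣ} {u : Fˣ} : In S (u : F) ↔ u ∈ S := by
  constructor
  · rintro ⟨v, hv, h⟩
    rwa [Units.ext h] at hv
  · intro h
    exact ⟨u, h, rfl⟩

theorem in_one {S : Subgroup Fˣ} : In S (1 : F) := ⟨1, S.one_mem, rfl⟩

theorem In.mul {S : Subgroup Fˣ} {x y : F} (hx : In S x) (hy : In S y) : In S (x * y) := by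
  obtain ⟨u, hu, rfl⟩ := hx
  obtain ⟨v, hv, rfl⟩ := hy
  exact ⟨u * v, S.mul_mem hu hv, by simp⟩

theorem In.inv {S : Subgroup Fˣ} {x : F} (hx : In S x) : In S x⁻¹ := by
  obtain ⟨u, hu, rfl⟩ := hx
  exact ⟨u⁻¹, S.inv_mem hu, by simp⟩

theorem In.div {S : Subgroup Fˣ} {x y : F} (hx : In S x) (hy : In S y) : In S (x / y) := by
  rw [div_eq_mul_inv]
  exact hx.mul hy.inv

theorem In.mono {S S' : Subgroup Fˣ} (h : S ≤ S') {x : F} (hx : In S x) : In S' x := by
  obtain ⟨u, hu, rfl⟩ := hx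
  exact ⟨u, h hu, rfl⟩

theorem in_mul_left {S : Subgroup Fˣ} {x y : F} (hx : In S x) : In S (x * y) ↔ In S y := by
  constructor
  · intro h
    have := hx.inv.mul h
    rwa [inv_mul_cancel_left₀ hx.ne_zero] at this
  · exact hx.mul

theorem in_mul_right {S : Subgroup Fˣ} {x y : F} (hy : In S y) : In S (x * y) ↔ In S x := by
  rw [mul_comm]
  exact in_mul_left hy

theorem in_inv {S : Subgroup Fˣ} {x : F} : In S x⁻¹ ↔ In S x := by
  constructor
  · intro h
    simpa using h.inv
  · exact In.inv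

/-- the hypotheses of the main construction -/
structure Rigid (T H : Subgroup Fˣ) : Prop where
  le : T ≤ H
  neg_one : In T (-1 : F)
  sq : ∀ x : F, In H (x * x) → In H x
  rig : ∀ x : F, x ≠ 0 → ¬ In H x → In T (1 + x) ∨ In T ((1 + x) / x)

variable {T H : Subgroup Fˣ}

theorem In.neg (hR : Rigid T H) {x : F} (hx : In T x) : In T (-x) := by
  have := hR.neg_one.mul hx
  simpa using this

theorem In.negH (hR : Rigid T H) {x : F} (hx : In H x) : In H (-x) := by
  have := (hR.neg_one.mono hR.le).mul hx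
  simpa using this

theorem in_negH (hR : Rigid T H) {x : F} : In H (-x) ↔ In H x := by
  constructor
  · intro h
    simpa using h.negH hR
  · exact In.negH hR

/-- small elements outside `H` -/
def Om (T H : Subgroup Fˣ) (x : F) : Prop := x ≠ 0 ∧ ¬ In H x ∧ In T (1 + x)

/-- integral elements of `H` -/
def Op (T H : Subgroup Fˣ) (x : F) : Prop := In H x ∧ ∀ z, Om T H z → Om T H (x * z)

/-- rigidity for `t₁ + t₂ x` -/
theorem Rigid.rig2 (hR : Rigid T H) {a b x : F} (ha : In T a) (hb : In T b) (hx0 : x ≠ 0)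
    (hx : ¬ In H x) : In T (a + b * x) ∨ In T ((a + b * x) / x) := by
  have h1 : b / a * x ≠ 0 := mul_ne_zero (div_ne_zero hb.ne_zero ha.ne_zero) hx0
  have h2 : ¬ In H (b / a * x) := by
    rw [in_mul_left ((hb.div ha).mono hR.le)]
    exact hx
  have ha0 := ha.ne_zero
  have hb0 := hb.ne_zero
  rcases hR.rig _ h1 h2 with h | h
  · left
    have := ha.mul h
    have e : a * (1 + b / a * x) = a + b * x := by field_simp
    rwa [e] at this
  · right
    have := hb.mul h
    have e : b * ((1 + b / a * x) / (b / a * x)) = (a + b * x) / x := by field_simp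
    rwa [e] at this

/-- uniqueness: the alternative in rigidity is exclusive -/
theorem excl (hR : Rigid T H) {c x : F} (hx0 : x ≠ 0) (hx : ¬ In H x) (h1 : In T c)
    (h2 : In T (c / x)) : False := by
  apply hx
  have := (h1.div h2).mono hR.le
  have hc := h1.ne_zero
  have e : c / (c / x) = x := by field_simp
  rwa [e] at this

theorem not_om_inv (hR : Rigid T H) {x : F} (h1 : Om T H x) (h2 : Om T H x⁻¹) : False := by
  refine excl hR h1.1 h1.2.1 h1.2.2 ?_
  have e : (1 + x) / x = 1 + x⁻¹ := by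
    have := h1.1
    field_simp
    ring
  rw [e]
  exact h2.2.2

theorem om_or_inv (hR : Rigid T H) {x : F} (hx0 : x ≠ 0) (hx : ¬ In H x) :
    Om T H x ∨ Om T H x⁻¹ := by
  rcases hR.rig x hx0 hx with h | h
  · exact Or.inl ⟨hx0, hx, h⟩
  · refine Or.inr ⟨inv_ne_zero hx0, by rwa [in_inv], ?_⟩
    have e : (1 + x) / x = 1 + x⁻¹ := by
      field_simp
      ring
    rwa [e] at h

theorem Om.neg (hR : Rigid T H) {x : F} (h : Om T H x) : Om T H (-x) := by
  obtain ⟨hx0, hx, h1⟩ := h
  refine ⟨neg_ne_zero.mpr hx0, by rwa [in_negH hR], ?_⟩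
  have hx' : ¬ In H (-x) := by rwa [in_negH hR]
  rcases hR.rig (-x) (neg_ne_zero.mpr hx0) hx' with h2 | h2
  · exact h2
  · exfalso
    -- `(1+x)(1-x) = 1 - x² ∈ x T`
    have h3 : In T ((1 - x * x) / (-x)) := by
      have := h1.mul h2
      have e : (1 + x) * ((1 + -x) / -x) = (1 - x * x) / (-x) := by ring
      rwa [e] at this
    have hxx : ¬ In H (x * x) := fun h => hx (hR.sq x h)
    have hxx' : ¬ In H (-(x * x)) := by rwa [in_negH hR]
    have hxx0 : -(x * x) ≠ 0 := neg_ne_zero.mpr (mul_ne_zero hx0 hx0)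
    rcases hR.rig _ hxx0 hxx' with h4 | h4
    · have h5 := (h4.div h3).mono hR.le
      have hne : 1 - x * x ≠ 0 := by
        have := h4.ne_zero
        intro h
        apply this
        rw [← h]
        ring
      have e : (1 + -(x * x)) / ((1 - x * x) / (-x)) = -x := by
        rw [← sub_eq_add_neg, div_div_eq_mul_div, mul_comm, mul_div_assoc, div_self hne, mul_one]
      rw [e] at h5
      exact hx' h5
    · have h5 := (h3.div h4).mono hR.le
      have hne : 1 - x * x ≠ 0 := by
        intro h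
        apply h3.ne_zero
        rw [h]
        simp
      have e : (1 - x * x) / (-x) / ((1 + -(x * x)) / -(x * x)) = x := by
        rw [← sub_eq_add_neg]
        generalize 1 - x * x = c at hne
        field_simp
      rw [e] at h5
      exact hx h5

theorem om_mul (hR : Rigid T H) {x y : F} (hx : Om T H x) (hy : Om T H y)
    (hxy : ¬ In H (x * y)) : Om T H (x * y) := by
  have hxn := hx.neg hR
  have hyn := hy.neg hR
  have hx0 := hx.1
  have hy0 := hy.1
  refine ⟨mul_ne_zero hx0 hy0, hxy, ?_⟩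
  rcases hR.rig _ (mul_ne_zero hx0 hy0) hxy with h | h
  · exact h
  exfalso
  -- `1 + xy = (1 - x) + x (1 + y)`
  have h1 : In T (1 + x * y) ∨ In T ((1 + x * y) / x) := by
    have := hR.rig2 (a := 1 - x) (b := 1 + y) (x := x)
      (by simpa [sub_eq_add_neg] using hxn.2.2) hy.2.2 hx0 hx.2.1
    have e : (1 - x) + (1 + y) * x = 1 + x * y := by ring
    rwa [e] at this
  rcases h1 with h1 | h1
  · exact excl hR (mul_ne_zero hx0 hy0) hxy h1 h
  · have := (h1.div h).mono hR.le
    have hne : 1 + x * y ≠ 0 := by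
      intro h0
      apply h1.ne_zero
      rw [h0]; simp
    have e : (1 + x * y) / x / ((1 + x * y) / (x * y)) = y := by field_simp
    rw [e] at this
    exact hy.2.1 this

theorem op_mul_of_om (hR : Rigid T H) {x y : F} (hx : Om T H x) (hy : Om T H y)
    (hxy : In H (x * y)) : Op T H (x * y) := by
  refine ⟨hxy, fun z hz => ?_⟩
  have hxyz : ¬ In H (x * y * z) := by
    rw [in_mul_left hxy]
    exact hz.2.1
  by_cases hxz : In H (x * z)
  · -- then `y z ∉ H`
    have hyz : ¬ In H (y * z) := by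
      intro hyz
      apply hz.2.1
      apply hR.sq
      have := (hxz.mul hyz).div hxy
      have e : x * z * (y * z) / (x * y) = z * z := by
        have := hx.1
        have := hy.1
        field_simp
      rwa [e] at this
    have h1 := om_mul hR hy hz hyz
    have h2 := om_mul hR hx h1 (by rwa [← mul_assoc])
    rwa [← mul_assoc] at h2
  · have h1 := om_mul hR hx hz hxz
    have h2 := om_mul hR h1 hy (by
      have e : x * z * y = x * y * z := by ring
      rwa [e])
    have e : x * z * y = x * y * z := by ring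
    rwa [e] at h2

theorem op_one_add (hR : Rigid T H) {x : F} (hx : Om T H x) : Op T H (1 + x) := by
  refine ⟨hx.2.2.mono hR.le, fun y hy => ?_⟩
  have hx0 := hx.1
  have hy0 := hy.1
  have hxy' : ¬ In H ((1 + x) * y) := by
    rw [in_mul_left (hx.2.2.mono hR.le)]
    exact hy.2.1
  refine ⟨mul_ne_zero hx.2.2.ne_zero hy0, hxy', ?_⟩
  -- in `T ∪ y T`
  have h1 : In T (1 + (1 + x) * y) ∨ In T ((1 + (1 + x) * y) / y) :=
    hR.rig2 in_one hx.2.2 hy0 hy.2.1
  rcases h1 with h1 | h1
  · exact h1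
  exfalso
  have hne : 1 + (1 + x) * y ≠ 0 := by
    intro h0
    apply h1.ne_zero
    rw [h0]; simp
  by_cases hxy : In H (x * y)
  · -- `1 + (1+x) y = (1+x)(1+y) - x`
    have h2 : In T (1 + (1 + x) * y) ∨ In T ((1 + (1 + x) * y) / (-x)) := by
      have := hR.rig2 (a := (1 + x) * (1 + y)) (b := 1) (x := -x) (hx.2.2.mul hy.2.2) in_one
        (neg_ne_zero.mpr hx0) (by rw [in_negH hR]; exact hx.2.1)
      have e : (1 + x) * (1 + y) + 1 * -x = 1 + (1 + x) * y := by ring
      rwa [e] at this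
    rcases h2 with h2 | h2
    · exact excl hR hy0 hy.2.1 h2 h1
    · apply hy.2.1
      apply hR.sq
      -- `y / x ∈ H`, `x y ∈ H`
      have h3 := (h2.div h1).mono hR.le
      have e : (1 + (1 + x) * y) / (-x) / ((1 + (1 + x) * y) / y) = -(y / x) := by
        field_simp
      rw [e, in_negH hR] at h3
      have := h3.mul hxy
      have e : y / x * (x * y) = y * y := by field_simp
      rwa [e] at this
  · have h2 : In T (1 + (1 + x) * y) ∨ In T ((1 + (1 + x) * y) / (x * y)) := by
      have := hR.rig2 (a := 1 + y) (b := 1) (x := x * y) hy.2.2 in_one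
        (mul_ne_zero hx0 hy0) hxy
      have e : 1 + y + 1 * (x * y) = 1 + (1 + x) * y := by ring
      rwa [e] at this
    rcases h2 with h2 | h2
    · exact excl hR hy0 hy.2.1 h2 h1
    · apply hx.2.1
      have h3 := (h1.div h2).mono hR.le
      have e : (1 + (1 + x) * y) / y / ((1 + (1 + x) * y) / (x * y)) = x := by
        field_simp
      rwa [e] at h3

theorem op_one_add_inv (hR : Rigid T H) {x : F} (hx : Om T H x) : Op T H (1 + x)⁻¹ := by
  have h1 := hx.2.2.ne_zero
  have h : Om T H (-(x / (1 + x))) := by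
    refine ⟨neg_ne_zero.mpr (div_ne_zero hx.1 h1), ?_, ?_⟩
    · rw [in_negH hR, div_eq_mul_inv, in_mul_right (hx.2.2.mono hR.le).inv]
      exact hx.2.1
    · have e : 1 + -(x / (1 + x)) = (1 + x)⁻¹ := by
        field_simp
        ring
      rw [e]
      exact hx.2.2.inv
  have := op_one_add hR h
  have e : 1 + -(x / (1 + x)) = (1 + x)⁻¹ := by
    field_simp
    ring
  rwa [e] at this

theorem Op.mul {x y : F} (hx : Op T H x) (hy : Op T H y) : Op T H (x * y) := by
  refine ⟨hx.1.mul hy.1, fun z hz => ?_⟩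
  rw [mul_assoc]
  exact hx.2 _ (hy.2 _ hz)

theorem op_one : Op T H (1 : F) := ⟨in_one, fun z hz => by rwa [one_mul]⟩

theorem op_neg_one (hR : Rigid T H) : Op T H (-1 : F) :=
  ⟨hR.neg_one.mono hR.le, fun z hz => by simpa using hz.neg hR⟩

/-- the valuation ring as a predicate -/
def O (T H : Subgroup Fˣ) (x : F) : Prop := x = 0 ∨ Om T H x ∨ Op T H x

theorem Op.ne_zero {x : F} (hx : Op T H x) : x ≠ 0 := hx.1.ne_zero

theorem o_mul (hR : Rigid T H) {x y : F} (hx : O T H x) (hy : O T H y) : O T H (x * y) := by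
  rcases hx with rfl | hx | hx
  · left; simp
  · rcases hy with rfl | hy | hy
    · left; simp
    · by_cases h : In H (x * y)
      · exact Or.inr (Or.inr (op_mul_of_om hR hx hy h))
      · exact Or.inr (Or.inl (om_mul hR hx hy h))
    · right; left
      rw [mul_comm]
      exact hy.2 _ hx
  · rcases hy with rfl | hy | hy
    · left; simp
    · right; left
      exact hx.2 _ hy
    · exact Or.inr (Or.inr (hx.mul hy))

theorem o_or_inv (hR : Rigid T H) (x : F) : O T H x ∨ O T H x⁻¹ := by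
  by_cases hx0 : x = 0
  · left; left; exact hx0
  by_cases hx : In H x
  · by_contra hcon
    push Not at hcon
    obtain ⟨h1, h2⟩ := hcon
    have h1' : ¬ Op T H x := fun h => h1 (Or.inr (Or.inr h))
    have h2' : ¬ Op T H x⁻¹ := fun h => h2 (Or.inr (Or.inr h))
    unfold Op at h1' h2'
    push Not at h1' h2'
    obtain ⟨a, ha, hxa⟩ := h1' hx
    obtain ⟨b, hb, hxb⟩ := h2' hx.inv
    have ha0 := ha.1
    have hb0 := hb.1
    have hxaH : ¬ In H (x * a) := by
      rw [in_mul_left hx]; exact ha.2.1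
    have hxbH : ¬ In H (x⁻¹ * b) := by
      rw [in_mul_left hx.inv]; exact hb.2.1
    have hA : Om T H (x * a)⁻¹ :=
      (om_or_inv hR (mul_ne_zero hx0 ha0) hxaH).resolve_left hxa
    have hB : Om T H (x⁻¹ * b)⁻¹ :=
      (om_or_inv hR (mul_ne_zero (inv_ne_zero hx0) hb0) hxbH).resolve_left hxb
    by_cases hab : In H (a * b)
    · -- `a⁻¹ x⁻¹ b ∉ H`
      have h3 : ¬ In H ((x * a)⁻¹ * b) := by
        intro h3
        apply hb.2.1
        apply hR.sq
        have := (h3.mul hx).mul hab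
        have e : (x * a)⁻¹ * b * x * (a * b) = b * b := by field_simp
        rwa [e] at this
      have h4 := om_mul hR hA hb h3
      have e : (x * a)⁻¹ * b * (x⁻¹ * b)⁻¹ = a⁻¹ := by field_simp
      have h5 : ¬ In H ((x * a)⁻¹ * b * (x⁻¹ * b)⁻¹) := by
        rw [e, in_inv]; exact ha.2.1
      have h6 := om_mul hR h4 hB h5
      rw [e] at h6
      exact not_om_inv hR ha h6
    · have h3 := om_mul hR ha hb hab
      have e : (x * a)⁻¹ * (x⁻¹ * b)⁻¹ = (a * b)⁻¹ := by field_simp
      have h4 := om_mul hR hA hB (by rw [e, in_inv]; exact hab)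
      rw [e] at h4
      exact not_om_inv hR h3 h4
  · rcases om_or_inv hR hx0 hx with h | h
    · exact Or.inl (Or.inr (Or.inl h))
    · exact Or.inr (Or.inr (Or.inl h))

theorem o_one_add (hR : Rigid T H) {x : F} (hx : O T H x) : O T H (1 + x) := by
  rcases hx with rfl | hx | hx
  · right; right; simpa using op_one
  · exact Or.inr (Or.inr (op_one_add hR hx))
  · by_cases h0 : 1 + x = 0
    · left; exact h0
    by_cases h1 : In H (1 + x)
    · right; right
      refine ⟨h1, fun y hy => ?_⟩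
      have hy0 := hy.1
      have hxy := hx.2 _ hy
      refine ⟨mul_ne_zero h0 hy0, by rw [in_mul_left h1]; exact hy.2.1, ?_⟩
      have h2 := (op_one_add_inv hR hy).2 _ hxy
      have h3 := hy.2.2.mul h2.2.2
      have hne := hy.2.2.ne_zero
      have e : (1 + y) * (1 + (1 + y)⁻¹ * (x * y)) = 1 + (1 + x) * y := by
        field_simp
        ring
      rwa [e] at h3
    · right; left
      rcases om_or_inv hR h0 h1 with h2 | h2
      · exact h2
      · exfalso
        have h3 := hx.2 _ h2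
        -- `1 - y = x y`
        have h4 := (h2.neg hR).2.2
        have e : 1 + -(1 + x)⁻¹ = x * (1 + x)⁻¹ := by
          field_simp
          ring
        rw [e] at h4
        exact h3.2.1 (h4.mono hR.le)

theorem o_add (hR : Rigid T H) {x y : F} (hx : O T H x) (hy : O T H y) : O T H (x + y) := by
  by_cases hy0 : y = 0
  · simpa [hy0] using hx
  by_cases hx0 : x = 0
  · simpa [hx0] using hy
  rcases o_or_inv hR (x / y) with h | h
  · have := o_mul hR hy (o_one_add hR h)
    have e : y * (1 + x / y) = x + y := by field_simp; ring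
    rwa [e] at this
  · have := o_mul hR hx (o_one_add hR h)
    have e : x * (1 + (x / y)⁻¹) = x + y := by field_simp
    rwa [e] at this

/-- the valuation subring attached to rigid data -/
def ring (hR : Rigid T H) : ValuationSubring F where
  carrier := {x | O T H x}
  mul_mem' := fun {_ _} ha hb => o_mul hR ha hb
  one_mem' := Or.inr (Or.inr op_one)
  add_mem' := fun {_ _} ha hb => o_add hR ha hb
  zero_mem' := Or.inl rfl
  neg_mem' := fun {x} hx => by
    have := o_mul hR (Or.inr (Or.inr (op_neg_one hR)) : O T H (-1)) hx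
    simpa using this
  mem_or_inv_mem' := o_or_inv hR


/-- units lie in `H` -/
theorem unit_in (hR : Rigid T H) {x : F} (hx0 : x ≠ 0) (h1 : x ∈ ring hR) (h2 : x⁻¹ ∈ ring hR) :
    In H x := by
  by_contra hx
  have hxi : ¬ In H x⁻¹ := by rwa [in_inv]
  have a : Om T H x := by
    rcases h1 with h | h | h
    · exact absurd h hx0
    · exact h
    · exact absurd h.1 hx
  have b : Om T H x⁻¹ := by
    rcases h2 with h | h | h
    · exact absurd h (inv_ne_zero hx0)
    · exact h
    · exact absurd h.1 hxi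
  exact not_om_inv hR a b

/-- one-units lie in `T` -/
theorem one_add_in (hR : Rigid T H) {x : F} (h1 : x ∈ ring hR) (h2 : x = 0 ∨ x⁻¹ ∉ ring hR) :
    In T (1 + x) := by
  rcases h1 with rfl | h | h
  · simpa using in_one
  · exact h.2.2
  · have hx0 := h.ne_zero
    have h3 : x⁻¹ ∉ ring hR := h2.resolve_left hx0
    have h4 : ¬ Op T H x⁻¹ := fun hh => h3 (Or.inr (Or.inr hh))
    unfold Op at h4
    push Not at h4
    obtain ⟨y, hy, hxy⟩ := h4 h.1.inv
    have hy0 := hy.1
    have hH : ¬ In H (x⁻¹ * y) := by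
      rw [in_mul_left h.1.inv]; exact hy.2.1
    have ha : Om T H (x⁻¹ * y)⁻¹ :=
      (om_or_inv hR (mul_ne_zero (inv_ne_zero hx0) hy0) hH).resolve_left hxy
    set a := (x⁻¹ * y)⁻¹ with hadef
    have hax : a * y = x := by
      rw [hadef]
      field_simp
    have ha' := ha.neg hR
    have h5 : Om T H ((1 + -a)⁻¹ * a) := (op_one_add_inv hR ha').2 _ ha
    have h6 : Om T H ((1 + y) * ((1 + -a)⁻¹ * a)) := (op_one_add hR hy).2 _ h5
    have h7 := ha'.2.2.mul h6.2.2
    have hne := ha'.2.2.ne_zero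
    have e : (1 + -a) * (1 + (1 + y) * ((1 + -a)⁻¹ * a)) = 1 + a * y := by
      field_simp
      ring
    rwa [e, hax] at h7

/-- **rigid elements give a valuation** -/
theorem exists_valuationSubring {T H : Subgroup Fˣ} (hR : Rigid T H) :
    ∃ A : ValuationSubring F, A.unitGroup ≤ H ∧ A.principalUnitGroup ≤ T := by
  refine ⟨ring hR, ?_, ?_⟩
  · intro u hu
    rw [ValuationSubring.mem_unitGroup_iff] at hu
    have h1 : (u : F) ∈ ring hR := by
      rw [← ValuationSubring.valuation_le_one_iff, hu]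
    have h2 : (u : F)⁻¹ ∈ ring hR := by
      rw [← ValuationSubring.valuation_le_one_iff, map_inv₀, hu]
      simp
    exact in_coe.mp (unit_in hR u.ne_zero h1 h2)
  · intro u hu
    rw [ValuationSubring.mem_principalUnitGroup_iff] at hu
    have h1 : (u : F) - 1 ∈ (ring hR).nonunits := by
      rwa [ValuationSubring.mem_nonunits_iff]
    have h2 : (u : F) - 1 ∈ ring hR := ValuationSubring.nonunits_le h1
    rw [ValuationSubring.mem_nonunits_iff_or] at h1
    have h3 := one_add_in hR h2 h1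
    have e : 1 + ((u : F) - 1) = u := by ring
    rw [e] at h3
    exact in_coe.mp h3

end Crest.Agent.R018.Rig1x931
end

-- ▼ part R018/Rig2_931

/-!
# Row 18: from `1 - x ∈ ⟨x⟩ T` to a valuation (helper931)

`l` an odd prime, `T` a subgroup of `Fˣ` containing all `l`-th powers, `Fˣ/T` not cyclic,
and `1 - x ∈ ⟨x⟩ T` for every `x ∉ T`.  Then there are a subgroup `H ≠ ⊤` containing `T` and a
valuation subring `A` with `Aˣ ≤ H` and `1 + m_A ≤ T`.
-/

set_option autoImplicit false

namespace Crest.Agent.R018.Rig2x931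

open Crest.Agent.R018.Rig1x931

variable {F : Type*} [Field F]

theorem In.zpow {S : Subgroup Fˣ} {x : F} (hx : In S x) (n : ℤ) : In S (x ^ n) := by
  obtain ⟨u, hu, rfl⟩ := hx
  exact ⟨u ^ n, S.zpow_mem hu n, by simp⟩

section
variable {T : Subgroup Fˣ} {l : ℕ} [hl : Fact l.Prime]

theorem zpow_dvd (hT : ∀ x : F, x ≠ 0 → In T (x ^ l)) {x : F} (hx0 : x ≠ 0) {n : ℤ}
    (hn : (l : ℤ) ∣ n) : In T (x ^ n) := by
  obtain ⟨k, rfl⟩ := hn
  rw [zpow_mul, zpow_natCast]
  exact In.zpow (hT x hx0) k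

theorem dvd_of_zpow (hT : ∀ x : F, x ≠ 0 → In T (x ^ l)) {x : F} (hx0 : x ≠ 0)
    (hx : ¬ In T x) {n : ℤ} (h : In T (x ^ n)) : (l : ℤ) ∣ n := by
  by_contra hn
  have hp : Prime (l : ℤ) := Nat.prime_iff_prime_int.mp hl.out
  have hc : IsCoprime (l : ℤ) n := (Prime.coprime_iff_not_dvd hp).mpr hn
  obtain ⟨u, v, huv⟩ := hc
  apply hx
  have h1 : In T (x ^ (u * l + v * n)) := by
    rw [zpow_add₀ hx0]
    refine (zpow_dvd hT hx0 (Dvd.intro_left u rfl)).mul ?_
    rw [mul_comm v n, zpow_mul]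
    exact In.zpow h v
  rw [huv, zpow_one] at h1
  exact h1

/-- `1 - x ∈ x ^ k T` -/
def Ex (T : Subgroup Fˣ) (x : F) (k : ℤ) : Prop := In T ((1 - x) / x ^ k)

/-- independence modulo `T` and `l` -/
def Ind (T : Subgroup Fˣ) (l : ℕ) (x y : F) : Prop :=
  ∀ m n : ℤ, In T (x ^ m * y ^ n) → (l : ℤ) ∣ m ∧ (l : ℤ) ∣ n

theorem Ind.left {x y : F} (h : Ind T l x y) : ¬ In T x := by
  intro hx
  have := (h 1 0 (by simpa using hx)).1
  have h2 := hl.out.one_lt
  have h3 := Int.le_of_dvd one_pos this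
  omega

theorem Ind.right {x y : F} (h : Ind T l x y) : ¬ In T y := by
  intro hx
  have := (h 0 1 (by simpa using hx)).2
  have h2 := hl.out.one_lt
  have h3 := Int.le_of_dvd one_pos this
  omega

theorem Ind.mul {x y : F} (h : Ind T l x y) : ¬ In T (x * y) := by
  intro hx
  have := (h 1 1 (by simpa using hx)).1
  have h2 := hl.out.one_lt
  have h3 := Int.le_of_dvd one_pos this
  omega

/-- exceptional elements: `x ∉ T` and the exponent is neither `0` nor `1` -/
def Bad (T : Subgroup Fˣ) (l : ℕ) (x : F) (i : ZMod l) : Prop :=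
  x ≠ 0 ∧ ¬ In T x ∧ i ≠ 0 ∧ i ≠ 1 ∧ ∃ k : ℤ, (k : ZMod l) = i ∧ Ex T x k

theorem key (hT : ∀ x : F, x ≠ 0 → In T (x ^ l)) (hneg : In T (-1 : F))
    (hE : ∀ x : F, x ≠ 0 → ¬ In T x → ∃ k : ℤ, Ex T x k)
    {x y : F} {i j : ZMod l} (hx : Bad T l x i) (hy : Bad T l y j) (hxy : Ind T l x y) :
    i + j - 1 ≠ 0 ∧ Bad T l (x * y) (i * j / (i + j - 1)) := by
  obtain ⟨hx0, hxT, hi0, hi1, i', hi', hxi⟩ := hx
  obtain ⟨hy0, hyT, hj0, hj1, j', hj', hyj⟩ := hy
  have h1x : 1 - x ≠ 0 := by
    intro h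
    apply hxi.ne_zero
    simp [h]
  have h1y : 1 - y ≠ 0 := by
    intro h
    apply hyj.ne_zero
    simp [h]
  have hxyT : ¬ In T (x * y) := hxy.mul
  have hxy0 : x * y ≠ 0 := mul_ne_zero hx0 hy0
  obtain ⟨k, hk⟩ := hE (x * y) hxy0 hxyT
  -- the auxiliary element
  set w : F := -(x * (1 - y) / (1 - x)) with hw
  have hw0 : w ≠ 0 := by
    rw [hw]
    exact neg_ne_zero.mpr (div_ne_zero (mul_ne_zero hx0 h1y) h1x)
  -- class of `w`
  have hwc : In T (w / (x ^ (1 - i') * y ^ j')) := by
    have h := (hneg.mul hyj).div hxi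
    have e : -1 * ((1 - y) / y ^ j') / ((1 - x) / x ^ i') = w / (x ^ (1 - i') * y ^ j') := by
      rw [hw, zpow_sub₀ hx0, zpow_one]
      have := zpow_ne_zero i' hx0
      have := zpow_ne_zero j' hy0
      field_simp
    rwa [e] at h
  have hwT : ¬ In T w := by
    intro h
    have h2 := h.div hwc
    have e : w / (w / (x ^ (1 - i') * y ^ j')) = x ^ (1 - i') * y ^ j' := by
      have := zpow_ne_zero (1 - i') hx0
      have := zpow_ne_zero j' hy0
      field_simp
    rw [e] at h2
    have h3 := (hxy _ _ h2).1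
    apply hi1
    have h4 : ((1 - i' : ℤ) : ZMod l) = 0 := (ZMod.intCast_zmod_eq_zero_iff_dvd _ _).mpr h3
    rw [Int.cast_sub, hi', Int.cast_one, sub_eq_zero] at h4
    exact h4.symm
  obtain ⟨m, hm⟩ := hE w hw0 hwT
  have h1w : 1 - w = (1 - x * y) / (1 - x) := by
    rw [hw]
    field_simp
    ring
  have h1xy : 1 - x * y ≠ 0 := by
    intro h
    apply hk.ne_zero
    simp [h]
  -- compare exponents
  have hrel : In T (x ^ (k - i' - (1 - i') * m) * y ^ (k - j' * m)) := by
    have h := (hm.div hk).mul ((In.zpow hwc m).mul hxi)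
    have h' := h.inv
    have a1 := zpow_ne_zero i' hx0
    have a2 := zpow_ne_zero k hx0
    have a3 := zpow_ne_zero k hy0
    have a4 := zpow_ne_zero m hw0
    have a5 := zpow_ne_zero ((1 - i') * m) hx0
    have a6 := zpow_ne_zero (j' * m) hy0
    have e : ((1 - w) / w ^ m / ((1 - x * y) / (x * y) ^ k) *
        ((w / (x ^ (1 - i') * y ^ j')) ^ m * ((1 - x) / x ^ i')))⁻¹ =
        (x ^ (k - i' - (1 - i') * m) * y ^ (k - j' * m))⁻¹ := by
      congr 1
      rw [h1w, div_zpow, mul_zpow, mul_zpow, ← zpow_mul, ← zpow_mul, zpow_sub₀ hx0, zpow_sub₀ hx0,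
        zpow_sub₀ hy0]
      field_simp
    rw [e] at h'
    simpa using h'.inv
  obtain ⟨d1, d2⟩ := hxy _ _ hrel
  have e1 : ((k - i' - (1 - i') * m : ℤ) : ZMod l) = 0 :=
    (ZMod.intCast_zmod_eq_zero_iff_dvd _ _).mpr d1
  have e2 : ((k - j' * m : ℤ) : ZMod l) = 0 := (ZMod.intCast_zmod_eq_zero_iff_dvd _ _).mpr d2
  push_cast at e1 e2
  rw [hi'] at e1
  rw [hj'] at e2
  set K : ZMod l := (k : ZMod l) with hK
  set M : ZMod l := (m : ZMod l) with hM
  have e3 : M * (i + j - 1) = i := by linear_combination e1 - e2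
  have hij : i + j - 1 ≠ 0 := by
    intro h
    rw [h, mul_zero] at e3
    exact hi0 e3.symm
  have e4 : K * (i + j - 1) = i * j := by
    have : K = j * M := by linear_combination e2
    rw [this, mul_assoc, e3]
    ring
  have e5 : K = i * j / (i + j - 1) := by
    rw [eq_div_iff hij]
    exact e4
  refine ⟨hij, hxy0, hxyT, ?_, ?_, k, ?_, hk⟩
  · exact div_ne_zero (mul_ne_zero hi0 hj0) hij
  · intro h
    rw [div_eq_one_iff_eq hij] at h
    have : (i - 1) * (j - 1) = 0 := by linear_combination h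
    rcases mul_eq_zero.mp this with h | h
    · exact hi1 (sub_eq_zero.mp h)
    · exact hj1 (sub_eq_zero.mp h)
  · exact e5

theorem Bad.inv (hneg : In T (-1 : F)) {x : F} {i : ZMod l} (hx : Bad T l x i) :
    Bad T l x⁻¹ (1 - i) := by
  obtain ⟨hx0, hxT, hi0, hi1, i', hi', hxi⟩ := hx
  refine ⟨inv_ne_zero hx0, by rwa [in_inv], ?_, ?_, 1 - i', by push_cast; rw [hi'], ?_⟩
  · intro h
    exact hi1 (sub_eq_zero.mp h).symm
  · intro h
    apply hi0
    linear_combination -h
  · have h := hneg.mul hxi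
    have e : -1 * ((1 - x) / x ^ i') = (1 - x⁻¹) / x⁻¹ ^ (1 - i') := by
      rw [inv_zpow', zpow_neg, zpow_sub₀ hx0, zpow_one]
      have := zpow_ne_zero i' hx0
      field_simp
      ring
    unfold Ex
    rwa [e] at h

/-- two exceptional elements are dependent -/
theorem not_ind (hT : ∀ x : F, x ≠ 0 → In T (x ^ l)) (hneg : In T (-1 : F))
    (hE : ∀ x : F, x ≠ 0 → ¬ In T x → ∃ k : ℤ, Ex T x k)
    {a b : F} {i j : ZMod l} (ha : Bad T l a i) (hb : Bad T l b j) (hab : Ind T l a b) : False := by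
  have ha0 := ha.1
  have hb0 := hb.1
  have hi0 : i ≠ 0 := ha.2.2.1
  have hi1 : i ≠ 1 := ha.2.2.2.1
  have hj0 : j ≠ 0 := hb.2.2.1
  -- `a ^ n b` is exceptional with `g = g(a)^n g(b)`
  have hind : ∀ n : ℕ, Ind T l a (a ^ n * b) := by
    intro n p q h
    have e : a ^ p * (a ^ n * b) ^ q = a ^ (p + n * q) * b ^ q := by
      rw [mul_zpow, zpow_add₀ ha0, zpow_mul, zpow_natCast]
      ring
    rw [e] at h
    obtain ⟨h1, h2⟩ := hab _ _ h
    refine ⟨?_, h2⟩
    have := dvd_mul_of_dvd_right h2 (n : ℤ)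
    exact (dvd_add_left this).mp h1
  have hseq : ∀ n : ℕ, ∃ k : ZMod l, Bad T l (a ^ n * b) k ∧
      (k - 1) / k = ((i - 1) / i) ^ n * ((j - 1) / j) := by
    intro n
    induction n with
    | zero => exact ⟨j, by simpa using hb, by simp⟩
    | succ n ih =>
      obtain ⟨k, hk, hk2⟩ := ih
      have hk0 : k ≠ 0 := hk.2.2.1
      obtain ⟨h1, h2⟩ := key hT hneg hE ha hk (hind n)
      refine ⟨_, by
        have e : a * (a ^ n * b) = a ^ (n + 1) * b := by ring
        rw [e] at h2
        exact h2, ?_⟩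
      rw [pow_succ', mul_assoc, ← hk2]
      field_simp
      ring
  obtain ⟨k, hk, hk2⟩ := hseq (l - 1)
  have hg : (i - 1) / i ≠ 0 := div_ne_zero (sub_ne_zero.mpr hi1) hi0
  have hk0 : k ≠ 0 := hk.2.2.1
  rw [ZMod.pow_card_sub_one_eq_one hg, one_mul] at hk2
  have hkj : k = j := by
    rw [div_eq_div_iff hk0 hj0] at hk2
    linear_combination hk2
  rw [hkj] at hk
  have hbi := hb.inv hneg
  have hind2 : Ind T l (a ^ (l - 1) * b) b⁻¹ := by
    intro p q h
    have e : (a ^ (l - 1) * b) ^ p * b⁻¹ ^ q = a ^ (((l - 1 : ℕ) : ℤ) * p) * b ^ (p - q) := by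
      rw [mul_zpow, zpow_mul, zpow_natCast, inv_zpow', zpow_neg, zpow_sub₀ hb0]
      ring
    rw [e] at h
    obtain ⟨h1, h2⟩ := hab _ _ h
    have h3 : (l : ℤ) ∣ p := by
      have h4 : ((l - 1 : ℕ) : ℤ) * p = l * p - p := by
        rw [Nat.cast_sub hl.out.one_lt.le]
        push_cast
        ring
      rw [h4] at h1
      exact (dvd_sub_right (dvd_mul_right _ _)).mp h1
    exact ⟨h3, (dvd_sub_right h3).mp h2⟩
  have := (key hT hneg hE hk hbi hind2).1
  apply this
  ring

/-- the rigid pair attached to `T` -/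
theorem exists_rigid (hl2 : l ≠ 2) (hT : ∀ x : F, x ≠ 0 → In T (x ^ l))
    (hE : ∀ x : F, x ≠ 0 → ¬ In T x → ∃ k : ℤ, Ex T x k)
    (hnc : ∀ a : Fˣ, T ⊔ Subgroup.zpowers a ≠ ⊤) :
    ∃ H : Subgroup Fˣ, Rigid T H ∧ H ≠ ⊤ := by
  have hodd : Odd l := hl.out.odd_of_ne_two hl2
  have hneg : In T (-1 : F) := by
    have := hT (-1) (neg_ne_zero.mpr one_ne_zero)
    rwa [hodd.neg_one_pow] at this
  -- it is enough to find `a` with no exceptional elements outside `⟨a⟩ T`
  suffices h : ∃ a : Fˣ, ∀ (x : F) (i : ZMod l), Bad T l x i → In (T ⊔ Subgroup.zpowers a) x by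
    obtain ⟨a, ha⟩ := h
    refine ⟨T ⊔ Subgroup.zpowers a, ⟨le_sup_left, hneg, ?_, ?_⟩, hnc a⟩
    · intro x hxx
      have hx0 : x ≠ 0 := by
        intro h
        apply hxx.ne_zero
        simp [h]
      obtain ⟨c, hc⟩ := hodd
      have h1 : In (T ⊔ Subgroup.zpowers a) (x ^ l) := (hT x hx0).mono le_sup_left
      have h2 := h1.div (In.zpow hxx c)
      have e : x ^ l / (x * x) ^ (c : ℤ) = x := by
        rw [hc, zpow_natCast, pow_succ, pow_mul, mul_comm, pow_two]
        have := pow_ne_zero c (mul_ne_zero hx0 hx0)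
        field_simp
      rwa [e] at h2
    · intro x hx0 hx
      -- apply the hypothesis to `-x`
      have hnx0 : -x ≠ 0 := neg_ne_zero.mpr hx0
      have hnx : ¬ In (T ⊔ Subgroup.zpowers a) (-x) := by
        intro h
        apply hx
        have := (hneg.mono le_sup_left).mul h
        simpa using this
      have hnxT : ¬ In T (-x) := fun h => hnx (h.mono le_sup_left)
      obtain ⟨k, hk⟩ := hE (-x) hnx0 hnxT
      have hk' : ((k : ZMod l) = 0) ∨ ((k : ZMod l) = 1) := by
        by_contra hcon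
        push Not at hcon
        exact hnx (ha (-x) k ⟨hnx0, hnxT, hcon.1, hcon.2, k, rfl, hk⟩)
      rcases hk' with h | h
      · left
        have hd := (ZMod.intCast_zmod_eq_zero_iff_dvd _ _).mp h
        have h1 := hk.mul (zpow_dvd hT hnx0 hd)
        have e : (1 - -x) / (-x) ^ k * (-x) ^ k = 1 + x := by
          have := zpow_ne_zero k hnx0
          field_simp
          ring
        rwa [e] at h1
      · right
        have hd : (l : ℤ) ∣ k - 1 := by
          rw [← ZMod.intCast_zmod_eq_zero_iff_dvd]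
          push_cast
          rw [h]
          ring
        have h1 := (hneg.mul hk).mul (zpow_dvd hT hnx0 hd)
        have e : -1 * ((1 - -x) / (-x) ^ k) * (-x) ^ (k - 1) = (1 + x) / x := by
          rw [zpow_sub₀ hnx0, zpow_one]
          have := zpow_ne_zero k hnx0
          field_simp
          ring
        rwa [e] at h1
  by_cases hS : ∃ (a : F) (i : ZMod l), Bad T l a i
  · obtain ⟨a, i, ha⟩ := hS
    refine ⟨Units.mk0 a ha.1, fun x j hx => ?_⟩
    by_contra hcon
    apply not_ind hT hneg hE ha hx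
    intro m n h
    have hx0 := hx.1
    have hn : (l : ℤ) ∣ n := by
      by_contra hn
      have hp : Prime (l : ℤ) := Nat.prime_iff_prime_int.mp hl.out
      obtain ⟨u, v, huv⟩ := (Prime.coprime_iff_not_dvd hp).mpr hn
      apply hcon
      have h1 : In (T ⊔ Subgroup.zpowers (Units.mk0 a ha.1)) (x ^ (u * l + v * n)) := by
        rw [zpow_add₀ hx0]
        refine ((zpow_dvd hT hx0 (Dvd.intro_left u rfl)).mono le_sup_left).mul ?_
        have h2 := (In.zpow h v).mono (le_sup_left : T ≤ T ⊔ Subgroup.zpowers (Units.mk0 a ha.1))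
        have h3 : In (T ⊔ Subgroup.zpowers (Units.mk0 a ha.1)) a :=
          ⟨Units.mk0 a ha.1, (le_sup_right : Subgroup.zpowers (Units.mk0 a ha.1) ≤ _)
            (Subgroup.mem_zpowers _), rfl⟩
        have h4 := h2.div (In.zpow h3 (m * v))
        have e : (a ^ m * x ^ n) ^ v / a ^ (m * v) = x ^ (v * n) := by
          rw [mul_zpow, ← zpow_mul, ← zpow_mul, mul_comm n v]
          have := zpow_ne_zero (m * v) ha.1
          field_simp
        rwa [e] at h4
      rw [huv, zpow_one] at h1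
      exact h1
    refine ⟨?_, hn⟩
    apply dvd_of_zpow hT ha.1 ha.2.1
    have h1 := h.div (zpow_dvd hT hx0 hn)
    have e : a ^ m * x ^ n / x ^ n = a ^ m := by
      have := zpow_ne_zero n hx0
      field_simp
    rwa [e] at h1
  · refine ⟨1, fun x i hx => ?_⟩
    exact absurd ⟨x, i, hx⟩ hS

end

/-- **valuations from `1 - x ∈ ⟨x⟩ T`**: `l` an odd prime, `T` contains the `l`-th powers,
`Fˣ/T` is not cyclic, `1 - x ∈ ⟨x⟩ T` for `x ∉ T`. -/
theorem exists_valuationSubring (l : ℕ) [hl : Fact l.Prime] (hl2 : l ≠ 2) (T : Subgroup Fˣ)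
    (hT : ∀ x : Fˣ, x ^ l ∈ T)
    (hE : ∀ x y : Fˣ, x ∉ T → (x : F) + y = 1 → ∃ k : ℤ, y * x ^ k ∈ T)
    (hnc : ∀ a : Fˣ, T ⊔ Subgroup.zpowers a ≠ ⊤) :
    ∃ (H : Subgroup Fˣ) (A : ValuationSubring F), T ≤ H ∧ H ≠ ⊤ ∧ A.unitGroup ≤ H ∧
      A.principalUnitGroup ≤ T := by
  have hT' : ∀ x : F, x ≠ 0 → In T (x ^ l) := fun x hx0 =>
    ⟨Units.mk0 x hx0 ^ l, hT _, by simp⟩
  have hE' : ∀ x : F, x ≠ 0 → ¬ In T x → ∃ k : ℤ, Ex T x k := by
    intro x hx0 hx
    have h1 : 1 - x ≠ 0 := by
      intro h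
      apply hx
      rw [sub_eq_zero] at h
      rw [← h]
      exact in_one
    obtain ⟨k, hk⟩ := hE (Units.mk0 x hx0) (Units.mk0 (1 - x) h1)
      (fun h => hx ⟨_, h, rfl⟩) (by simp)
    refine ⟨-k, ⟨_, hk, ?_⟩⟩
    simp
  obtain ⟨H, hR, hH⟩ := exists_rigid hl2 hT' hE' hnc
  obtain ⟨A, h1, h2⟩ := Rig1x931.exists_valuationSubring hR
  exact ⟨H, A, hR.le, hH, h1, h2⟩

end Crest.Agent.R018.Rig2x931
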