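import Mathlib
import Crest.Prelude.Def_SolvClosed
import Crest.Agent.R018.RedA_49
import Crest.Agent.R018.Step2A_924
import Crest.Agent.R018.Kum_568
import Crest.Agent.R018.FT_925

-- ▼ part R018/RedB_49
section

/-! R018 reductions (helper49), part B: the general statement S0024 follows from the core form in
which `E₁ = AlgebraicClosure ℚ` and `α` is surjective. -/

set_option autoImplicit false

universe u₁ u₂ v₁ v₂

open Crest.NumberTheoryR Polynomial

namespace Crest.Agent.R018.Redx49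

/-- `AlgebraicClosure ℚ` -/
abbrev Om : Type := AlgebraicClosure ℚ

/-- The core form of S0024: `E₁ = AlgebraicClosure ℚ`, `α` continuous and surjective. -/
def CoreForm : Prop :=
  ∀ (F₁ : Type u₁) (F₂ : Type u₂) (E₂ : Type v₂) [Field F₁] [NumberField F₁] [Field F₂]
    [NumberField F₂] [Field E₂] [Algebra F₂ E₂] [IsGalois F₂ E₂] [Algebra F₁ Om],
    IsSolvablyClosed E₂ →
    ∀ α : (Om ≃ₐ[F₁] Om) →* (E₂ ≃ₐ[F₂] E₂), Continuous α → Function.Surjective α →
      ∃ j : E₂ →+* Om, ∀ (g : Om ≃ₐ[F₁] Om) (x : E₂), g (j x) = j (α g x)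

theorem algQ : Algebra.IsAlgebraic ℚ Om := by
  have h : @Algebra.IsAlgebraic ℚ Om _ _ (AlgebraicClosure.instAlgebra (k := ℚ)) :=
    AlgebraicClosure.isAlgebraic ℚ
  convert h
  exact Subsingleton.elim _ _

section surj

variable {F₂ E₂ : Type*} [Field F₂] [NumberField F₂] [Field E₂] [Algebra F₂ E₂] [IsGalois F₂ E₂]

/-- Replace the target group by the range of `α`. -/
theorem exists_surjective {G : Type*} [Group G] [TopologicalSpace G] [IsTopologicalGroup G]
    (α : G →* (E₂ ≃ₐ[F₂] E₂)) (hα : Continuous α) (hopen : IsOpen (Set.range α)) :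
    ∃ F₂' : IntermediateField F₂ E₂, FiniteDimensional F₂ F₂' ∧ NumberField F₂' ∧
      ∃ α' : G →* (E₂ ≃ₐ[F₂'] E₂), Continuous α' ∧ Function.Surjective α' ∧
        ∀ (g : G) (x : E₂), α' g x = α g x := by
  have hopen' : IsOpen (α.range : Set (E₂ ≃ₐ[F₂] E₂)) := by
    rw [MonoidHom.coe_range]; exact hopen
  have hclosed : IsClosed (α.range : Set (E₂ ≃ₐ[F₂] E₂)) :=
    Subgroup.isClosed_of_isOpen _ hopen'
  let H : ClosedSubgroup (E₂ ≃ₐ[F₂] E₂) := ⟨α.range, hclosed⟩
  let F' : IntermediateField F₂ E₂ := IntermediateField.fixedField H.1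
  have hfix : F'.fixingSubgroup = α.range := InfiniteGalois.fixingSubgroup_fixedField H
  have hfin : FiniteDimensional F₂ F' := by
    rw [← InfiniteGalois.isOpen_iff_finite]
    change IsOpen (F'.fixingSubgroup : Set (E₂ ≃ₐ[F₂] E₂))
    rw [hfix]; exact hopen'
  have hnf : NumberField F' := NumberField.of_module_finite F₂ F'
  refine ⟨F', hfin, hnf, ?_⟩
  have hmem : ∀ g : G, α g ∈ F'.fixingSubgroup := fun g => by rw [hfix]; exact ⟨g, rfl⟩
  let α' : G →* (E₂ ≃ₐ[F'] E₂) :=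
    (IntermediateField.fixingSubgroupEquiv F').toMonoidHom.comp (α.codRestrict _ hmem)
  have happ : ∀ (g : G) (x : E₂), α' g x = α g x := fun g x => rfl
  refine ⟨α', ?_, ?_, happ⟩
  · apply continuous_of_eval
    intro x
    have h1 := eval_mem_nhds (K := F₂) x
    have h2 : Filter.Tendsto α (nhds 1) (nhds 1) := by
      have := hα.tendsto 1
      rwa [map_one] at this
    refine Filter.mem_of_superset (h2 h1) ?_
    intro g hg
    exact hg
  · intro σ
    obtain ⟨τ, hτ⟩ := (IntermediateField.fixingSubgroupEquiv F').surjective σ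
    have : (τ : E₂ ≃ₐ[F₂] E₂) ∈ α.range := by rw [← hfix]; exact τ.2
    obtain ⟨g, hg⟩ := this
    refine ⟨g, ?_⟩
    rw [← hτ]
    apply AlgEquiv.ext
    intro x
    rw [happ, hg]
    rfl

end surj

/-- **Reduction**: the general statement S0024 follows from the core form. -/
theorem of_coreForm (core : CoreForm.{u₁, v₂, v₂})
    (F₁ : Type u₁) (F₂ : Type u₂) (E₁ : Type v₁) (E₂ : Type v₂) [Field F₁] [NumberField F₁]
    [Field F₂] [NumberField F₂] [Field E₁] [Algebra F₁ E₁] [IsGalois F₁ E₁] [Field E₂]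
    [Algebra F₂ E₂] [IsGalois F₂ E₂] (h₂ : IsSolvablyClosed E₂)
    (α : (E₁ ≃ₐ[F₁] E₁) →* (E₂ ≃ₐ[F₂] E₂)) (hα : Continuous α) (hopen : IsOpen (Set.range α)) :
    ∃ j : E₂ →+* E₁, ∀ g : E₁ ≃ₐ[F₁] E₁, ∀ x : E₂, g (j x) = j (α g x) := by
  have : CharZero E₁ := charZero_of_injective_algebraMap (algebraMap F₁ E₁).injective
  have : Algebra.IsAlgebraic ℚ E₁ := Algebra.IsAlgebraic.trans ℚ F₁ E₁
  let i₁ : E₁ →ₐ[ℚ] Om := IsAlgClosed.lift
  let _ : Algebra E₁ Om := (i₁ : E₁ →+* Om).toAlgebra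
  let _ : Algebra F₁ Om := ((i₁ : E₁ →+* Om).comp (algebraMap F₁ E₁)).toAlgebra
  have : IsScalarTower F₁ E₁ Om := IsScalarTower.of_algebraMap_eq fun _ => rfl
  have : IsScalarTower ℚ F₁ Om := IsScalarTower.rat
  have : IsScalarTower ℚ E₁ Om := IsScalarTower.rat
  have : Algebra.IsAlgebraic ℚ Om := algQ
  have : Algebra.IsAlgebraic F₁ Om := Algebra.IsAlgebraic.tower_top (K := ℚ) F₁
  have : Algebra.IsAlgebraic E₁ Om := Algebra.IsAlgebraic.tower_top (K := ℚ) E₁
  have : IsAlgClosure F₁ Om := ⟨inferInstance, inferInstance⟩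
  have : IsAlgClosure E₁ Om := ⟨inferInstance, inferInstance⟩
  have : CharZero F₁ := inferInstance
  have : Normal F₁ Om := IsAlgClosure.normal F₁ Om
  have : Normal E₁ Om := IsAlgClosure.normal E₁ Om
  have : IsGalois E₁ Om := ⟨⟩
  let r : (Om ≃ₐ[F₁] Om) →* (E₁ ≃ₐ[F₁] E₁) := AlgEquiv.restrictNormalHom E₁
  have hrc : ∀ (g : Om ≃ₐ[F₁] Om) (x : E₁), algebraMap E₁ Om (r g x) = g (algebraMap E₁ Om x) :=
    fun g x => AlgEquiv.restrictNormal_commutes g E₁ x
  have hrs : Function.Surjective r := AlgEquiv.restrictNormalHom_surjective Om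
  have hrcont : Continuous r := by
    apply continuous_of_eval
    intro x
    refine Filter.mem_of_superset (eval_mem_nhds (K := F₁) (algebraMap E₁ Om x)) ?_
    intro g hg
    rw [Set.mem_ofPred_eq] at hg ⊢
    apply (algebraMap E₁ Om).injective
    rw [hrc, hg]
  have hopen' : IsOpen (Set.range (α.comp r)) := by
    have : Set.range (α.comp r) = Set.range α := by
      rw [MonoidHom.coe_comp]; exact hrs.range_comp α
    rw [this]; exact hopen
  obtain ⟨F₂', _, _, α', hc', hs', happ⟩ :=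
    exists_surjective (α.comp r) (hα.comp hrcont) hopen'
  obtain ⟨j, hj⟩ := core F₁ F₂' E₂ h₂ α' hc' hs'
  have hj' : ∀ (g : Om ≃ₐ[F₁] Om) (x : E₂), g (j x) = j (α (r g) x) := by
    intro g x
    rw [hj, happ]; rfl
  have hmem : ∀ x : E₂, j x ∈ (algebraMap E₁ Om).range := by
    intro x
    rw [RingHom.mem_range]
    have := (InfiniteGalois.mem_range_algebraMap_iff_fixed (k := E₁) (K := Om) (j x)).mpr ?_
    · exact this
    intro f
    have h1 : r (f.restrictScalars F₁) = 1 := by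
      apply AlgEquiv.ext
      intro y
      apply (algebraMap E₁ Om).injective
      rw [hrc]
      exact f.commutes y
    have h2 := hj' (f.restrictScalars F₁) x
    rw [h1, map_one] at h2
    exact h2
  let e : E₁ ≃+* (algebraMap E₁ Om).range :=
    RingEquiv.ofBijective (algebraMap E₁ Om).rangeRestrict
      ⟨fun a b hab => (algebraMap E₁ Om).injective (congrArg Subtype.val hab),
        (algebraMap E₁ Om).rangeRestrict_surjective⟩
  let j' : E₂ →+* E₁ := (e.symm : (algebraMap E₁ Om).range →+* E₁).comp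
    (j.codRestrict (algebraMap E₁ Om).range hmem)
  have hj'' : ∀ x : E₂, algebraMap E₁ Om (j' x) = j x := by
    intro x
    have : e (j' x) = ⟨j x, hmem x⟩ := e.apply_symm_apply _
    exact congrArg Subtype.val this
  refine ⟨j', ?_⟩
  intro g x
  obtain ⟨g', rfl⟩ := hrs g
  apply (algebraMap E₁ Om).injective
  rw [hrc, hj'', hj'', hj']

end Crest.Agent.R018.Redx49
end

-- ▼ part R018/Step2B_924
section

/-!
# Row 18, STEP 2, part B: from THEOREM A (for `E = Qs`) to cyclotomic compatibility for every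
solvably closed target (helper924)
-/

set_option autoImplicit false

open Crest.NumberTheoryR Crest.Agent.R018.EndDefx924 Crest.Agent.R018.EndAx924 Polynomial
open Crest.Agent.R018.Redx49 (continuous_of_eval eval_mem_nhds)

namespace Crest.Agent.R018.Step2x924

/-- `Qs` is contained in the image of every solvably closed field. -/
theorem qs_le_range {E : Type*} [Field E] [CharZero E] (hE : IsSolvablyClosed E) (i : E →+* Om)
    (x : Om) (hx : x ∈ Qs) : x ∈ i.fieldRange := by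
  let R : IntermediateField ℚ Om := i.fieldRange.toIntermediateField fun q => by
    rw [RingHom.mem_fieldRange]
    exact ⟨(q : E), by simp⟩
  have hle : Qs ≤ R := by
    apply solvableByRad_le
    intro y n hn hy
    obtain ⟨a, ha⟩ : ∃ a, i a = y ^ n := hy
    let _ : Algebra E Om := i.toAlgebra
    obtain ⟨b, hb⟩ := mem_of_pow_mem (K := E) (L := Om)
      (fun n hn => Crest.Agent.R018.Kumx568.exists_primitiveRoot hE n hn)
      (fun n hn a => Crest.Agent.R018.Kumx568.exists_pow_eq hE n hn a) n hn y a ha.symm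
    exact ⟨b, hb⟩
  exact hle hx

/-- `Qs` embeds into every solvably closed algebraic field of characteristic zero. -/
theorem exists_qs_embedding {E : Type*} [Field E] [CharZero E] [Algebra.IsAlgebraic ℚ E]
    (hE : IsSolvablyClosed E) : Nonempty (Qs →+* E) := by
  let i : E →ₐ[ℚ] Om := IsAlgClosed.lift
  let e : E ≃+* (i : E →+* Om).fieldRange :=
    RingEquiv.ofBijective (i : E →+* Om).rangeRestrictField
      ⟨fun a b hab => (i : E →+* Om).injective (congrArg Subtype.val hab),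
        (i : E →+* Om).rangeRestrictField_bijective.2⟩
  exact ⟨(e.symm : (i : E →+* Om).fieldRange →+* E).comp
    ((algebraMap Qs Om).codRestrict (i : E →+* Om).fieldRange
      fun x => qs_le_range hE (i : E →+* Om) x x.2)⟩

section restrict

set_option linter.unusedSectionVars false

variable {F₂ E₂ : Type*} [Field F₂] [NumberField F₂] [Field E₂] [CharZero E₂] [Algebra F₂ E₂]

/-- restriction of automorphisms along `j : E →+* E₂`, `E/ℚ` normal -/
theorem exists_restrict {E : Type*} [Field E] [CharZero E] [Normal ℚ E] (j : E →+* E₂) :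
    ∃ ρ : (E₂ ≃ₐ[F₂] E₂) →* (E ≃ₐ[ℚ] E), ∀ σ x, j (ρ σ x) = σ (j x) := by
  let _ : Algebra E E₂ := j.toAlgebra
  have : IsScalarTower ℚ E E₂ := IsScalarTower.rat
  have : IsScalarTower ℚ F₂ E₂ := IsScalarTower.rat
  refine ⟨(AlgEquiv.restrictNormalHom (F := ℚ) (K₁ := E₂) E).comp
    (AlgEquiv.restrictScalarsHom ℚ), fun σ x => ?_⟩
  exact AlgEquiv.restrictNormal_commutes (σ.restrictScalars ℚ) E x

theorem restrict_continuous [Algebra.IsAlgebraic F₂ E₂] {E : Type*} [Field E] [CharZero E]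
    [Algebra.IsAlgebraic ℚ E]
    (j : E →+* E₂) (ρ : (E₂ ≃ₐ[F₂] E₂) →* (E ≃ₐ[ℚ] E)) (hρ : ∀ σ x, j (ρ σ x) = σ (j x)) :
    Continuous ρ := by
  apply continuous_of_eval
  intro x
  refine Filter.mem_of_superset (eval_mem_nhds (K := F₂) (j x)) ?_
  intro g hg
  rw [Set.mem_ofPred_eq] at hg ⊢
  apply j.injective
  rw [hρ, hg]

theorem restrict_range_open [IsGalois F₂ E₂] {E : Type*} [Field E] [CharZero E]
    [IsGalois ℚ E]
    (j : E →+* E₂) (ρ : (E₂ ≃ₐ[F₂] E₂) →* (E ≃ₐ[ℚ] E)) (hρ : ∀ σ x, j (ρ σ x) = σ (j x)) :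
    IsOpen (Set.range ρ) := by
  have hcont : Continuous ρ := restrict_continuous j ρ hρ
  have hclosed : IsClosed (Set.range ρ) := (isCompact_range hcont).isClosed
  rw [← MonoidHom.coe_range] at hclosed ⊢
  let H : ClosedSubgroup (E ≃ₐ[ℚ] E) := ⟨ρ.range, hclosed⟩
  let K₀ : IntermediateField ℚ E := IntermediateField.fixedField H.1
  have hfix : K₀.fixingSubgroup = ρ.range := InfiniteGalois.fixingSubgroup_fixedField H
  have hmem : ∀ x : K₀, j x ∈ (algebraMap F₂ E₂).range := by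
    intro x
    rw [RingHom.mem_range]
    refine (InfiniteGalois.mem_range_algebraMap_iff_fixed (k := F₂) (K := E₂) (j x)).mpr ?_
    intro f
    have h1 : ρ f ∈ K₀.fixingSubgroup := by rw [hfix]; exact ⟨f, rfl⟩
    rw [IntermediateField.mem_fixingSubgroup_iff] at h1
    rw [← hρ, h1 x x.2]
  let e : F₂ ≃+* (algebraMap F₂ E₂).range :=
    RingEquiv.ofBijective (algebraMap F₂ E₂).rangeRestrict
      ⟨fun a b hab => (algebraMap F₂ E₂).injective (congrArg Subtype.val hab),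
        (algebraMap F₂ E₂).rangeRestrict_surjective⟩
  let φ : K₀ →+* F₂ := (e.symm : (algebraMap F₂ E₂).range →+* F₂).comp
    ((j.comp (algebraMap K₀ E)).codRestrict (algebraMap F₂ E₂).range hmem)
  have hfin : FiniteDimensional ℚ K₀ := by
    have h1 := FiniteDimensional.of_injective φ.toRatAlgHom.toLinearMap φ.injective
    convert h1
  rw [← hfix]
  exact IntermediateField.fixingSubgroup_isOpen K₀

end restrict

section source

set_option linter.unusedSectionVars false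

variable (F₁ : Type*) [Field F₁] [NumberField F₁] [Algebra F₁ Om]

/-- `Gal(Om/F₁)` as a subgroup of `Gal(Om/ℚ)` -/
def gsub : Subgroup (Om ≃ₐ[ℚ] Om) where
  carrier := {g | ∀ x : F₁, g (algebraMap F₁ Om x) = algebraMap F₁ Om x}
  one_mem' := fun _ => rfl
  mul_mem' := fun {a b} ha hb x => by rw [AlgEquiv.mul_apply, hb x, ha x]
  inv_mem' := fun {a} ha x => by
    have h := congrArg (a⁻¹ : Om ≃ₐ[ℚ] Om) (ha x)
    rw [← AlgEquiv.mul_apply, inv_mul_cancel, AlgEquiv.one_apply] at h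
    exact h.symm


theorem gsub_open : IsOpen (gsub F₁ : Set (Om ≃ₐ[ℚ] Om)) := by
  classical
  let b := Module.finBasis ℚ F₁
  have h1 : (⋂ i, {g : Om ≃ₐ[ℚ] Om | g (algebraMap F₁ Om (b i)) = algebraMap F₁ Om (b i)}) ∈
      nhds (1 : Om ≃ₐ[ℚ] Om) := Filter.iInter_mem.2 fun i => eval_mem_nhds (K := ℚ) _
  refine Subgroup.isOpen_of_mem_nhds (g := 1) _ (Filter.mem_of_superset h1 ?_)
  intro g hg x
  rw [Set.mem_iInter] at hg
  rw [← b.sum_repr x, map_sum, map_sum]
  refine Finset.sum_congr rfl fun i _ => ?_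
  have h2 : algebraMap F₁ Om (b.repr x i • b i) =
      algebraMap ℚ Om (b.repr x i) * algebraMap F₁ Om (b i) := by
    rw [Algebra.smul_def, map_mul]
    congr 1
    simp
  rw [h2, map_mul, AlgEquiv.commutes]
  congr 1
  exact hg i

/-- the identification `gsub F₁ ≃ Gal(Om/F₁)` -/
noncomputable def kap : gsub F₁ →* (Om ≃ₐ[F₁] Om) where
  toFun g := AlgEquiv.ofRingEquiv (f := (g : Om ≃ₐ[ℚ] Om).toRingEquiv) g.2
  map_one' := rfl
  map_mul' := fun _ _ => rfl

@[simp] theorem kap_apply (g : gsub F₁) (x : Om) : kap F₁ g x = (g : Om ≃ₐ[ℚ] Om) x := rfl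

theorem kap_surjective : Function.Surjective (kap F₁) := by
  intro g
  refine ⟨⟨g.restrictScalars ℚ, fun x => g.commutes x⟩, ?_⟩
  apply AlgEquiv.ext
  intro x
  rfl

theorem isAlgebraic_om : Algebra.IsAlgebraic F₁ Om := by
  have : IsScalarTower ℚ F₁ Om := IsScalarTower.rat
  exact Algebra.IsAlgebraic.tower_top (K := ℚ) F₁

theorem kap_continuous : Continuous (kap F₁) := by
  have := isAlgebraic_om F₁
  apply continuous_of_eval
  intro x
  have h1 := eval_mem_nhds (K := ℚ) x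
  have h2 : Filter.Tendsto (fun g : gsub F₁ => (g : Om ≃ₐ[ℚ] Om)) (nhds 1) (nhds 1) :=
    continuous_subtype_val.tendsto (1 : gsub F₁)
  exact h2 h1

end source

section cyc

universe u₁ u₂ v₂

/-- **STEP 2, cyclotomic compatibility**: Theorem A for `E = Qs` gives the cyclotomic compatibility
for every solvably closed target. -/
theorem exists_qs_semiconj (hA : ∀ G₁ : Subgroup (Om ≃ₐ[ℚ] Om),
      IsOpen (G₁ : Set (Om ≃ₐ[ℚ] Om)) → TheoremAFor Qs G₁)
    {F₁ : Type u₁} {F₂ : Type u₂} {E₂ : Type v₂} [Field F₁] [NumberField F₁] [Algebra F₁ Om]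
    [Field F₂] [NumberField F₂] [Field E₂] [Algebra F₂ E₂] [IsGalois F₂ E₂]
    (hsc : IsSolvablyClosed E₂) (α : (Om ≃ₐ[F₁] Om) →* (E₂ ≃ₐ[F₂] E₂)) (hα : Continuous α)
    (hs : Function.Surjective α) :
    ∃ (j : Qs →+* E₂) (t : Qs →+* Om) (ρ : (E₂ ≃ₐ[F₂] E₂) →* (Qs ≃ₐ[ℚ] Qs)),
      (∀ σ x, j (ρ σ x) = σ (j x)) ∧
      ∀ (g : Om ≃ₐ[F₁] Om) (x : Qs), g (t x) = t (ρ (α g) x) := by
  have : CharZero E₂ := charZero_of_injective_algebraMap (algebraMap F₂ E₂).injective
  have : Algebra.IsAlgebraic ℚ E₂ := Algebra.IsAlgebraic.trans ℚ F₂ E₂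
  obtain ⟨j⟩ := exists_qs_embedding hsc
  obtain ⟨ρ, hρ⟩ := exists_restrict (F₂ := F₂) j
  have hρc : Continuous ρ := restrict_continuous j ρ hρ
  have hρo : IsOpen (Set.range ρ) := restrict_range_open j ρ hρ
  let β : gsub F₁ →* (Qs ≃ₐ[ℚ] Qs) := (ρ.comp α).comp (kap F₁)
  have hβc : Continuous β := (hρc.comp hα).comp (kap_continuous F₁)
  have hβo : IsOpen (Set.range β) := by
    have h1 : Set.range β = Set.range ρ := by
      have h2 : (β : gsub F₁ → (Qs ≃ₐ[ℚ] Qs)) = ρ ∘ (α ∘ kap F₁) := rfl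
      rw [h2]
      exact (hs.comp (kap_surjective F₁)).range_comp ρ
    rw [h1]
    exact hρo
  obtain ⟨t, ht⟩ := hA (gsub F₁) (gsub_open F₁) β hβc hβo
  refine ⟨j, t, ρ, hρ, fun g x => ?_⟩
  obtain ⟨g', rfl⟩ := kap_surjective F₁ g
  exact ht g' x

theorem cyc_of_theoremA (hA : ∀ G₁ : Subgroup (Om ≃ₐ[ℚ] Om),
      IsOpen (G₁ : Set (Om ≃ₐ[ℚ] Om)) → TheoremAFor Qs G₁)
    {F₁ : Type u₁} {F₂ : Type u₂} {E₂ : Type v₂} [Field F₁] [NumberField F₁] [Algebra F₁ Om]
    [Field F₂] [NumberField F₂] [Field E₂] [Algebra F₂ E₂] [IsGalois F₂ E₂]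
    (hsc : IsSolvablyClosed E₂) (α : (Om ≃ₐ[F₁] Om) →* (E₂ ≃ₐ[F₂] E₂)) (hα : Continuous α)
    (hs : Function.Surjective α) (n : ℕ) (hn : n ≠ 0) (s : Om ≃ₐ[F₁] Om) (a : ℕ)
    (hsa : ∀ ζ : Om, ζ ^ n = 1 → s ζ = ζ ^ a) (ζ : E₂) (hζ : ζ ^ n = 1) : α s ζ = ζ ^ a := by
  obtain ⟨j, t, ρ, hρ, ht⟩ := exists_qs_semiconj hA hsc α hα hs
  obtain ⟨z₀, hz₀⟩ := Crest.Agent.R018.Kumx568.exists_primitiveRoot qs_isSolvablyClosed n hn
  have hz₁ : IsPrimitiveRoot (j z₀) n := hz₀.map_of_injective j.injective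
  have : NeZero n := ⟨hn⟩
  obtain ⟨i, -, hi⟩ := hz₁.eq_pow_of_pow_eq_one hζ
  rw [← map_pow] at hi
  set z := z₀ ^ i with hz
  have hzn : z ^ n = 1 := by rw [hz, ← pow_mul, mul_comm, pow_mul, hz₀.pow_eq_one, one_pow]
  clear_value z
  have h1 : t (ρ (α s) z) = t (z ^ a) := by
    have h3 : t z ^ n = 1 := by rw [← map_pow, hzn, map_one]
    rw [← ht, hsa _ h3, map_pow]
  have h2 : ρ (α s) z = z ^ a := t.injective h1
  rw [← hi, ← hρ, h2, map_pow]

end cyc

end Crest.Agent.R018.Step2x924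
end

-- ▼ part R018/Step2C_924

/-!
# Row 18, STEP 2, part C: `TheoremA` and the local correspondence `LOC` imply the core form of S0024
(helper924)
-/

set_option autoImplicit false

open Crest.NumberTheoryR Crest.Agent.R018.EndDefx924 NumberField
open Crest.Agent.R018.Placesx484
open scoped Pointwise

universe u₁ u₂ v₂

namespace Crest.Agent.R018.Step2x924

/-- **Local correspondence** (931, 484, 31), as consumed by `FTx925.ft_of_cyc`: for every odd prime
`r` and every place `P ∤ r` of `Om` such that some inertia element has an image whose order in some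
finite quotient is divisible by `r`, the image of the decomposition group of `P` is contained in a
decomposition group. -/
def LOC : Prop :=
  ∀ (F₁ : Type u₁) (F₂ : Type u₂) (E₂ : Type v₂) [Field F₁] [NumberField F₁] [Field F₂]
    [NumberField F₂] [Field E₂] [Algebra F₂ E₂] [IsGalois F₂ E₂] [Algebra F₁ Om],
    IsSolvablyClosed E₂ →
    ∀ α : (Om ≃ₐ[F₁] Om) →* (E₂ ≃ₐ[F₂] E₂), Continuous α → Function.Surjective α →
      ∀ r : ℕ, r.Prime → r ≠ 2 → ∀ P : Place Om, P.rchar ≠ r →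
        (∃ s : Om ≃ₐ[F₁] Om, (∀ x : 𝓞 Om, s • x - x ∈ P.ideal) ∧
          ∃ N : Subgroup (E₂ ≃ₐ[F₂] E₂), N.Normal ∧ IsOpen (N : Set (E₂ ≃ₐ[F₂] E₂)) ∧
            ∀ n : ℕ, (α s) ^ n ∈ N → r ∣ n) →
        ∃ Q : Place E₂, ∀ d : Om ≃ₐ[F₁] Om, d • P = P → α d • Q = Q

/-- **STEP 2**: Theorem A for `E = Qs` and the local correspondence give the core form. -/
theorem coreForm_of_qs (hA : ∀ G₁ : Subgroup (Om ≃ₐ[ℚ] Om),
      IsOpen (G₁ : Set (Om ≃ₐ[ℚ] Om)) → TheoremAFor Qs G₁)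
    (hloc : LOC.{u₁, u₂, v₂}) : Crest.Agent.R018.Redx49.CoreForm.{u₁, u₂, v₂} := by
  intro F₁ F₂ E₂ _ _ _ _ _ _ _ _ hsc α hα hs
  refine Crest.Agent.R018.FTx925.ft_of_cyc hsc α hα ∅ ?_ (hloc F₁ F₂ E₂ hsc α hα hs)
  intro l hl _ s a hsa ζ hζ
  exact cyc_of_theoremA hA hsc α hα hs l hl.ne_zero s a hsa ζ hζ


universe v₁


end Crest.Agent.R018.Step2x924
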