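import Mathlib
import Crest.Prelude.Def_SolvClosed
import Crest.Agent.R018.EndA_245
import Crest.Agent.R018.Core_74
import Crest.Agent.R018.Desc_820

-- ▼ part R018/Desc_73
section

/-!
# Row 18, block H7 (helper73): descent and induction (section 6 of the CORE text)

Abstract group theory.  `B` is a compact group (`Gal(Om/ℚ)`), `S` a topological group
(`Gal(Qsolv/ℚ)`).  We assume

* `NU`   : every continuous automorphism of an open subgroup `V` of `S` is conjugation by an
           element of `S` (Neukirch–Uchida);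
* `Centr`: the centralizer in `S` of an open subgroup is trivial.

For a homomorphism `α : G → S`, `G` open in `B`, continuous with open image, condition `ND` says
that for every `b ∉ G` there is `k ∈ ker α ∩ core(G)` with `α (b k b⁻¹) ≠ 1`.  If `ND` fails, `α`
extends to a strictly larger open subgroup.  Hence a property `FT` which is inherited by
restrictions and which holds under `ND`, holds for all `α`.
-/

set_option autoImplicit false

namespace Crest.Agent.R018.Descx73

section defs

variable {B S : Type*} [Group B] [Group S]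

/-- **(ND)**: for every `b` outside `G` there is an element `k` of `ker α` which lies in the normal
core of `G` with `α (b k b⁻¹) ≠ 1`. -/
def ND (G : Subgroup B) (α : G →* S) : Prop :=
  ∀ b : B, b ∉ G → ∃ k : B, ∃ hk : k ∈ G, α ⟨k, hk⟩ = 1 ∧ k ∈ G.normalCore ∧
    ∃ hk' : b * k * b⁻¹ ∈ G, α ⟨b * k * b⁻¹, hk'⟩ ≠ 1

/-- Neukirch–Uchida for automorphisms of open subgroups of `S`. -/
def NU (S : Type*) [Group S] [TopologicalSpace S] : Prop :=
  ∀ V : Subgroup S, IsOpen (V : Set S) → ∀ β : V ≃* V, Continuous β →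
    ∃ t : S, ∀ v : V, ((β v : V) : S) = t * v * t⁻¹

/-- The centralizer of an open subgroup of `S` is trivial. -/
def Centr (S : Type*) [Group S] [TopologicalSpace S] : Prop :=
  ∀ V : Subgroup S, IsOpen (V : Set S) → ∀ t : S, (∀ v ∈ V, t * v = v * t) → t = 1

end defs

section descent

variable {B S : Type*} [Group B] [TopologicalSpace B] [IsTopologicalGroup B] [CompactSpace B]
  [Group S] [TopologicalSpace S] [IsTopologicalGroup S] [T2Space S]

omit [CompactSpace B] [IsTopologicalGroup B] [TopologicalSpace B] [TopologicalSpace S]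
  [IsTopologicalGroup S] [T2Space S] in
/-- conjugation by `b` maps `L` onto `L` as soon as it maps `L` into `L` and a power of `b`
normalizes `L` -/
theorem conj_onto {L : Subgroup B} {b : B} (hb : ∀ k ∈ L, b * k * b⁻¹ ∈ L) {m : ℕ} (hm : 0 < m)
    (hbm : ∀ k ∈ L, (b ^ m)⁻¹ * k * b ^ m ∈ L) : ∀ k ∈ L, b⁻¹ * k * b ∈ L := by
  have hpow : ∀ n : ℕ, ∀ k ∈ L, b ^ n * k * (b ^ n)⁻¹ ∈ L := by
    intro n
    induction n with
    | zero => intro k hk; simpa using hk
    | succ n ih =>
      intro k hk
      have := hb _ (ih k hk)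
      have e : b * (b ^ n * k * (b ^ n)⁻¹) * b⁻¹ = b ^ (n + 1) * k * (b ^ (n + 1))⁻¹ := by
        rw [pow_succ', mul_inv_rev]; group
      rwa [e] at this
  intro k hk
  obtain ⟨n, rfl⟩ : ∃ n, m = n + 1 := ⟨m - 1, by omega⟩
  have h1 := hbm k hk
  have h2 := hpow n _ h1
  have e : b ^ n * ((b ^ (n + 1))⁻¹ * k * b ^ (n + 1)) * (b ^ n)⁻¹ = b⁻¹ * k * b := by
    rw [pow_succ, mul_inv_rev]; group
  rwa [e] at h2

omit [CompactSpace B] [T2Space S] in
/-- a homomorphism which is continuous on an open subgroup is continuous -/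
theorem continuous_of_open {G H : Subgroup B} (hGH : G ≤ H) (hG : IsOpen (G : Set B))
    (f : H →* S) (hf : Continuous fun g : G => f ⟨g, hGH g.2⟩) : Continuous f := by
  apply continuous_of_continuousAt_one f
  have hH : IsOpen (H : Set B) := Subgroup.isOpen_mono hGH hG
  rw [ContinuousAt, map_one]
  intro s hs
  rw [Filter.mem_map]
  have h1 : (fun g : G => f ⟨g, hGH g.2⟩) ⁻¹' s ∈ nhds (1 : G) := by
    apply hf.continuousAt.preimage_mem_nhds
    have : f ⟨((1 : G) : B), hGH (1 : G).2⟩ = 1 := by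
      have : (⟨((1 : G) : B), hGH (1 : G).2⟩ : H) = 1 := rfl
      rw [this, map_one]
    rwa [this]
  -- the inclusion `G → H` is an open embedding
  have hemb : Topology.IsOpenEmbedding (fun g : G => (⟨g, hGH g.2⟩ : H)) := by
    have h2 : Topology.IsOpenEmbedding (Subtype.val : G → B) := hG.isOpenEmbedding_subtypeVal
    have h3 : Topology.IsOpenEmbedding (Subtype.val : H → B) := hH.isOpenEmbedding_subtypeVal
    exact h3.of_comp _ h2
  have h4 := hemb.map_nhds_eq (1 : G)
  have h5 : f ⁻¹' s ∈ Filter.map (fun g : G => (⟨g, hGH g.2⟩ : H)) (nhds 1) := by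
    rw [Filter.mem_map]; exact h1
  rw [h4] at h5
  exact h5

omit [IsTopologicalGroup S] in
/-- Conjugation by `g` induces a continuous automorphism of `α (N)`. -/
theorem exists_aut {N : Subgroup B} [N.Normal] (hN : IsClosed (N : Set B))
    (a : N →* S) (ha : Continuous a) (g : B)
    (h1 : ∀ k : N, a k = 1 → a ⟨g * k * g⁻¹, ‹N.Normal›.conj_mem k k.2 g⟩ = 1)
    (h2 : ∀ k : N, a ⟨g * k * g⁻¹, ‹N.Normal›.conj_mem k k.2 g⟩ = 1 → a k = 1) :
    ∃ β : a.range ≃* a.range, Continuous β ∧ ∀ n : N, β ⟨a n, n, rfl⟩ =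
      ⟨a ⟨g * n * g⁻¹, ‹N.Normal›.conj_mem n n.2 g⟩, _, rfl⟩ := by
  classical
  have : CompactSpace N := isCompact_iff_compactSpace.mp hN.isCompact
  let c : N ≃* N := MulAut.conjNormal g
  have hc : ∀ n : N, c n = ⟨g * n * g⁻¹, ‹N.Normal›.conj_mem n n.2 g⟩ := fun n => by
    ext; simp [c]
  have hcc : Continuous c := by
    have : Continuous fun n : N => (⟨g * n * g⁻¹, ‹N.Normal›.conj_mem n n.2 g⟩ : N) :=
      Continuous.subtype_mk ((continuous_const.mul continuous_subtype_val).mul continuous_const) _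
    refine this.congr fun n => (hc n).symm
  -- the map
  have hker : a.rangeRestrict.ker ≤ (a.rangeRestrict.comp c.toMonoidHom).ker := by
    intro k hk
    rw [MonoidHom.mem_ker] at hk ⊢
    have hk' : a k = 1 := congrArg Subtype.val hk
    have := h1 k hk'
    apply Subtype.ext
    change a (c k) = 1
    rw [hc]; exact this
  have hker' : (a.rangeRestrict.comp c.toMonoidHom).ker ≤ a.rangeRestrict.ker := by
    intro k hk
    rw [MonoidHom.mem_ker] at hk ⊢
    have hk' : a (c k) = 1 := congrArg Subtype.val hk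
    rw [hc] at hk'
    exact Subtype.ext (h2 k hk')
  have hsurj : Function.Surjective a.rangeRestrict := a.rangeRestrict_surjective
  let f : a.range →* a.range :=
    a.rangeRestrict.liftOfSurjective hsurj ⟨a.rangeRestrict.comp c.toMonoidHom, hker⟩
  have hf : ∀ n : N, f (a.rangeRestrict n) = a.rangeRestrict (c n) := fun n =>
    MonoidHom.liftOfRightInverse_comp_apply _ _ _ ⟨_, hker⟩ n
  have hfinj : Function.Injective f := by
    rw [injective_iff_map_eq_one]
    intro v hv
    obtain ⟨n, rfl⟩ := hsurj v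
    rw [hf] at hv
    exact hker' (show n ∈ (a.rangeRestrict.comp c.toMonoidHom).ker from hv)
  have hfsurj : Function.Surjective f := by
    intro v
    obtain ⟨n, rfl⟩ := hsurj v
    refine ⟨a.rangeRestrict (c.symm n), ?_⟩
    rw [hf, MulEquiv.apply_symm_apply]
  refine ⟨MulEquiv.ofBijective f ⟨hfinj, hfsurj⟩, ?_, ?_⟩
  · change Continuous f
    have hcont : Continuous a.rangeRestrict := ha.subtype_mk _
    have hq : Topology.IsQuotientMap a.rangeRestrict :=
      (hcont.isClosedMap).isQuotientMap hcont hsurj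
    rw [hq.continuous_iff]
    have : (f ∘ a.rangeRestrict) = a.rangeRestrict ∘ c := funext hf
    rw [this]
    exact hcont.comp hcc
  · intro n
    change f (a.rangeRestrict n) = _
    rw [hf]
    apply Subtype.ext
    change a (c n) = _
    rw [hc]

/-- **Descent**: if `ND` fails then `α` extends to a strictly larger subgroup. -/
theorem exists_extension [CompactSpace S] (hNU : NU S) (hC : Centr S) (G : Subgroup B)
    (hG : IsOpen (G : Set B))
    (α : G →* S) (hα : Continuous α) (hopen : IsOpen (Set.range α)) (hnd : ¬ ND G α) :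
    ∃ (H : Subgroup B) (hGH : G ≤ H) (α' : H →* S), G ≠ H ∧ Continuous α' ∧
      IsOpen (Set.range α') ∧ ∀ g : G, α' ⟨g, hGH g.2⟩ = α g := by
  classical
  -- the failure of `ND`
  unfold ND at hnd
  push Not at hnd
  obtain ⟨b, hbG, hb⟩ := hnd
  -- `N` = normal core, finite index
  have hfq : Finite (B ⧸ G) := Subgroup.quotient_finite_of_isOpen G hG
  have hfi : G.FiniteIndex := Subgroup.finiteIndex_of_finite_quotient
  set N : Subgroup B := G.normalCore with hNdef
  have hNG : N ≤ G := Subgroup.normalCore_le G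
  have hNn : N.Normal := Subgroup.normalCore_normal G
  have hNfi : N.FiniteIndex := inferInstance
  have hNcl : IsClosed (N : Set B) :=
    G.normalCore_isClosed (Subgroup.isClosed_of_isOpen G hG)
  let a : N →* S := α.comp (Subgroup.inclusion hNG)
  have ha : Continuous a := hα.comp (continuous_inclusion hNG)
  have haα : ∀ (n : B) (hn : n ∈ N), a ⟨n, hn⟩ = α ⟨n, hNG hn⟩ := fun n hn => rfl
  -- `L`
  let L : Subgroup B := a.ker.map N.subtype
  have hL : ∀ k : B, k ∈ L ↔ ∃ hk : k ∈ N, a ⟨k, hk⟩ = 1 := by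
    intro k
    constructor
    · rintro ⟨n, hn, rfl⟩
      exact ⟨n.2, hn⟩
    · rintro ⟨hk, h⟩
      exact ⟨⟨k, hk⟩, h, rfl⟩
  have hGL : ∀ g ∈ G, ∀ k ∈ L, g * k * g⁻¹ ∈ L := by
    intro g hg k hk
    rw [hL] at hk ⊢
    obtain ⟨hk, h⟩ := hk
    refine ⟨hNn.conj_mem k hk g, ?_⟩
    rw [haα] at h ⊢
    have : (⟨g * k * g⁻¹, hNG (hNn.conj_mem k hk g)⟩ : G) =
      ⟨g, hg⟩ * ⟨k, hNG hk⟩ * (⟨g, hg⟩)⁻¹ := rfl
    rw [this, map_mul, map_mul, h, mul_one, map_inv, mul_inv_cancel]
  have hbL : ∀ k ∈ L, b * k * b⁻¹ ∈ L := by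
    intro k hk
    rw [hL] at hk ⊢
    obtain ⟨hk, h⟩ := hk
    have h3 := hb k (hNG hk) h hk (hNG (hNn.conj_mem k hk b))
    exact ⟨hNn.conj_mem k hk b, h3⟩
  let H : Subgroup B := Subgroup.normalizer (L : Set B)
  have hGH : G ≤ H := Subgroup.le_normalizer_iff.mpr hGL
  have hbH : b ∈ H := by
    have hm : 0 < N.index := Nat.pos_of_ne_zero hNfi.index_ne_zero
    have hbm : b ^ N.index ∈ G := hNG (N.pow_index_mem b)
    have h4 := conj_onto hbL hm (fun k hk => by
      have := hGL _ (G.inv_mem hbm) k hk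
      rwa [inv_inv] at this)
    rw [Subgroup.mem_normalizer_iff]
    intro k
    refine ⟨hbL k, fun hk => ?_⟩
    have := h4 _ hk
    have e : b⁻¹ * (b * k * b⁻¹) * b = k := by group
    rwa [e] at this
  have hGneH : G ≠ H := fun h => hbG (h ▸ hbH)
  -- `V = α (N)`
  have hVopen : IsOpen (a.range : Set S) := by
    have hVcl : IsClosed (a.range : Set S) := by
      rw [MonoidHom.coe_range]
      have : CompactSpace N := isCompact_iff_compactSpace.mp hNcl.isCompact
      exact (isCompact_range ha).isClosed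
    have hR : IsOpen (α.range : Set S) := by rw [MonoidHom.coe_range]; exact hopen
    have : Finite (S ⧸ α.range) := Subgroup.quotient_finite_of_isOpen α.range hR
    have hRfi : α.range.FiniteIndex := Subgroup.finiteIndex_of_finite_quotient
    have hV : a.range = (N.subgroupOf G).map α := by
      ext s
      constructor
      · rintro ⟨n, rfl⟩
        exact ⟨⟨n, hNG n.2⟩, n.2, rfl⟩
      · rintro ⟨g, hg, rfl⟩
        exact ⟨⟨g, hg⟩, rfl⟩
    have hVfi : a.range.FiniteIndex := by
      rw [hV]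
      refine ⟨?_⟩
      rw [Subgroup.index_map]
      refine mul_ne_zero ?_ hRfi.index_ne_zero
      have h5 : (N.subgroupOf G).index ≠ 0 := by
        have : (N.subgroupOf G).FiniteIndex := inferInstance
        exact Subgroup.FiniteIndex.index_ne_zero
      intro h6
      apply h5
      exact Nat.eq_zero_of_zero_dvd (h6 ▸ Subgroup.index_dvd_of_le le_sup_left)
    exact Subgroup.isOpen_of_isClosed_of_finiteIndex _ hVcl
  -- existence of `t_g`
  have hex : ∀ g : H, ∃ t : S, ∀ n : N,
      a ⟨g * n * (g : B)⁻¹, hNn.conj_mem n n.2 g⟩ = t * a n * t⁻¹ := by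
    intro g
    have hg := Subgroup.mem_normalizer_iff.mp g.2
    obtain ⟨β, hβ, hβ2⟩ := exists_aut hNcl a ha (g : B)
      (fun k hk => by
        have h6 : (k : B) ∈ L := (hL _).mpr ⟨k.2, hk⟩
        obtain ⟨_, h7⟩ := (hL _).mp ((hg k).mp h6)
        exact h7)
      (fun k hk => by
        have h6 : (g : B) * k * (g : B)⁻¹ ∈ L := (hL _).mpr ⟨hNn.conj_mem k k.2 g, hk⟩
        obtain ⟨_, h7⟩ := (hL _).mp ((hg k).mpr h6)
        exact h7)
    obtain ⟨t, ht⟩ := hNU a.range hVopen β hβ
    refine ⟨t, fun n => ?_⟩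
    have := ht ⟨a n, n, rfl⟩
    rw [hβ2] at this
    exact this
  choose t ht using hex
  -- uniqueness
  have huniq : ∀ s s' : S, (∀ n : N, s * a n * s⁻¹ = s' * a n * s'⁻¹) → s = s' := by
    intro s s' h
    have := hC a.range hVopen (s'⁻¹ * s) (by
      rintro _ ⟨n, rfl⟩
      have h8 := h n
      have h9 : s * a n = s' * a n * s'⁻¹ * s := by rw [← h8]; group
      calc s'⁻¹ * s * a n = s'⁻¹ * (s * a n) := by group
        _ = s'⁻¹ * (s' * a n * s'⁻¹ * s) := by rw [h9]
        _ = a n * (s'⁻¹ * s) := by group)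
    have h10 : s = s' * (s'⁻¹ * s) := by group
    rw [h10, this, mul_one]
  -- the extension
  have hmul : ∀ g h : H, t (g * h) = t g * t h := by
    intro g h
    apply huniq
    intro n
    have e1 := ht (g * h) n
    have e2 := ht h n
    have e3 := ht g ⟨h * n * (h : B)⁻¹, hNn.conj_mem n n.2 h⟩
    have e4 : (⟨((g * h : H) : B) * n * ((g * h : H) : B)⁻¹, hNn.conj_mem n n.2 _⟩ : N) =
        ⟨g * ((⟨h * n * (h : B)⁻¹, hNn.conj_mem n n.2 h⟩ : N) : B) * (g : B)⁻¹,
          hNn.conj_mem _ (⟨h * n * (h : B)⁻¹, hNn.conj_mem n n.2 h⟩ : N).2 g⟩ := by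
      apply Subtype.ext
      change ((g : B) * h) * n * ((g : B) * h)⁻¹ = g * (h * n * (h : B)⁻¹) * (g : B)⁻¹
      group
    rw [← e1, e4, e3, e2]
    group
  let α' : H →* S := MonoidHom.mk' t hmul
  have hα' : ∀ g : G, α' ⟨g, hGH g.2⟩ = α g := by
    intro g
    change t ⟨g, hGH g.2⟩ = α g
    apply huniq
    intro n
    rw [← ht, haα]
    have e5 : (⟨(g : B) * n * (g : B)⁻¹, hNG (hNn.conj_mem n n.2 g)⟩ : G) =
      g * ⟨n, hNG n.2⟩ * g⁻¹ := rfl
    have e6 : α ⟨n, hNG n.2⟩ = a n := rfl
    rw [e5, map_mul, map_mul, map_inv, e6]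
  refine ⟨H, hGH, α', hGneH, ?_, ?_, hα'⟩
  · apply continuous_of_open hGH hG
    exact hα.congr fun g => (hα' g).symm
  · have h11 : (α.range : Set S) ⊆ (α'.range : Set S) := by
      rintro _ ⟨g, rfl⟩
      exact ⟨⟨g, hGH g.2⟩, hα' g⟩
    have h12 : IsOpen (α'.range : Set S) :=
      Subgroup.isOpen_mono (SetLike.coe_subset_coe.mp h11) (by
        rw [MonoidHom.coe_range]; exact hopen)
    rwa [MonoidHom.coe_range] at h12


end descent

end Crest.Agent.R018.Descx73
end

-- ▼ part R018/Centr_275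
section

/-!
# Row 18, section 4 (uniqueness): the centralizer of an open subgroup is trivial (helper275)

`E/ℚ` Galois, closed under square roots, `V ≤ Gal(E/ℚ)` of finite index (for instance open).
A ring endomorphism of `E` which commutes with all elements of `V` is the identity.
-/

set_option autoImplicit false

open Crest.NumberTheoryR Crest.Agent.R018.EndAx245

namespace Crest.Agent.R018.Centrx275

variable {E : Type*} [Field E] [CharZero E] [IsGalois ℚ E]

/-- general form: `V` of finite index (open or not), `E` closed under square roots -/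
theorem eq_id_of_commute (hsq : ∀ x : E, ∃ y, y ^ 2 = x) (V : Subgroup (E ≃ₐ[ℚ] E))
    (hV : V.FiniteIndex) (t : E →+* E) (h : ∀ v ∈ V, ∀ x, v (t x) = t (v x)) :
    ∀ x, t x = x := by
  classical
  set F := IntermediateField.fixedField V with hF
  have hFf : FiniteDimensional ℚ F := finiteDimensional_fixedField V hV
  have hFn : NumberField F := NumberField.of_module_finite ℚ F
  -- the closure of `V` also commutes with `t`
  have hcl : ∀ v ∈ V.topologicalClosure, ∀ x, v (t x) = t (v x) := by
    intro v hv x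
    -- a finite normal subextension containing `x` and `t x`
    obtain ⟨K, hK, hK', hx, htx⟩ := exists_normal_mem (F₂ := ℚ) x (t x)
    have hfi : IsOpen (K.fixingSubgroup : Set (E ≃ₐ[ℚ] E)) :=
      (InfiniteGalois.isOpen_iff_finite K).2 hK
    have hnhd : {w : E ≃ₐ[ℚ] E | v⁻¹ * w ∈ K.fixingSubgroup} ∈ nhds v := by
      have h1 : IsOpen {w : E ≃ₐ[ℚ] E | v⁻¹ * w ∈ K.fixingSubgroup} :=
        hfi.preimage (continuous_const.mul continuous_id)
      exact h1.mem_nhds (by simp)
    have hv' : v ∈ closure (V : Set (E ≃ₐ[ℚ] E)) := hv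
    obtain ⟨w, hw, hwV⟩ := mem_closure_iff_nhds.1 hv' _ hnhd
    have hw' : v⁻¹ * w ∈ K.fixingSubgroup := hw
    rw [IntermediateField.mem_fixingSubgroup_iff] at hw'
    have h1 : w (t x) = v (t x) := by
      have := hw' _ htx
      rw [AlgEquiv.mul_apply] at this
      conv_rhs => rw [← this]
      rw [← AlgEquiv.mul_apply, mul_inv_cancel, AlgEquiv.one_apply]
    have h2 : w x = v x := by
      have := hw' _ hx
      rw [AlgEquiv.mul_apply] at this
      conv_rhs => rw [← this]
      rw [← AlgEquiv.mul_apply, mul_inv_cancel, AlgEquiv.one_apply]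
    rw [← h1, ← h2]
    exact h w hwV x
  have hVc : V.topologicalClosure.FiniteIndex := Subgroup.finiteIndex_of_le V.le_topologicalClosure
  have hFV : F.fixingSubgroup ≤ V.topologicalClosure := by
    let H : ClosedSubgroup (E ≃ₐ[ℚ] E) := ⟨V.topologicalClosure, V.isClosed_topologicalClosure⟩
    have h1 : (IntermediateField.fixedField V.topologicalClosure).fixingSubgroup
        = V.topologicalClosure := InfiniteGalois.fixingSubgroup_fixedField H
    have h3 : IntermediateField.fixedField V.topologicalClosure ≤ F := by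
      intro y hy
      rw [hF, IntermediateField.mem_fixedField_iff]
      rw [IntermediateField.mem_fixedField_iff] at hy
      exact fun g hg => hy g (V.le_topologicalClosure hg)
    rw [← h1]
    exact IntermediateField.fixingSubgroup_le h3
  have hcomm : ∀ g : E ≃ₐ[F] E, ∀ x, g (t x) = t (g x) := by
    intro g x
    have hg : g.restrictScalars ℚ ∈ F.fixingSubgroup := by
      rw [IntermediateField.mem_fixingSubgroup_iff]
      intro y hy
      exact g.commutes ⟨y, hy⟩
    exact hcl _ (hFV hg) x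
  intro x
  obtain ⟨K, hK, hK', hx, -⟩ := exists_normal_mem (F₂ := F) x x
  have hker : (AlgEquiv.restrictNormalHom (F := F) (K₁ := E) K).ker.FiniteIndex :=
    Subgroup.finiteIndex_ker _
  have hfix : ∀ g ∈ (AlgEquiv.restrictNormalHom (F := F) (K₁ := E) K).ker, ∀ x ∈ K, g x = x := by
    intro g hg x hx
    have h1 := AlgEquiv.restrictNormal_commutes g K ⟨x, hx⟩
    have h2 : g.restrictNormal K = 1 := hg
    rw [h2] at h1
    exact h1.symm
  have hC : ∀ e : E →+* E, (∀ g : E ≃ₐ[F] E, ∀ x, g (e x) = e (g x)) →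
      (C (MonoidHom.id (E ≃ₐ[F] E)) K e).FiniteIndex := by
    intro e he
    refine Subgroup.finiteIndex_of_le (H := (AlgEquiv.restrictNormalHom (F := F) (K₁ := E) K).ker) ?_
    intro g hg
    exact ⟨fun y hy => hfix g hg y hy, fun s _ => he g s⟩
  have h1 := eqOn_of_finiteIndex hsq (hC t hcomm) (hC (RingHom.id E) (fun g x => rfl)) x hx
  exact h1

/-- **Centralizer triviality**: an automorphism commuting with an open subgroup is trivial -/
theorem eq_one_of_commute (hE : IsSolvablyClosed E) (V : Subgroup (E ≃ₐ[ℚ] E))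
    (hV : IsOpen (V : Set (E ≃ₐ[ℚ] E))) (t : E ≃ₐ[ℚ] E) (h : ∀ v ∈ V, v * t = t * v) : t = 1 := by
  have hfin : V.FiniteIndex := by
    have := V.quotient_finite_of_isOpen hV
    exact Subgroup.finiteIndex_of_finite_quotient
  ext x
  exact eq_id_of_commute (exists_sq_of_solvablyClosed hE) V hfin (t : E →+* E)
    (fun v hv x => congrArg (fun s : E ≃ₐ[ℚ] E => s x) (h v hv)) x



end Crest.Agent.R018.Centrx275
end

-- ▼ part R018/CoreD_820
section

/-!
# Row 18 (helper820): the targets `Descent`, `NDLevel`, `Slim` of `Core_74`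
-/

set_option autoImplicit false

namespace Crest.Agent.R018.CoreDx820

open Crest.NumberTheoryR
open Crest.Agent.R018.Corex74
open Crest.Agent.R018.EndDefx924 (Om)

/-- **DESCENT** -/
theorem descent_of (hNU : NU) (hS : Slim) : Descent := by
  intro D hnd
  have hNU' : Crest.Agent.R018.Descx73.NU SG := by
    intro V hV β hβ
    obtain ⟨t, ht⟩ := hNU V hV β hβ
    exact ⟨t⁻¹, fun v => by rw [ht, inv_inv]⟩
  have hnd' : ¬ Crest.Agent.R018.Descx73.ND D.G D.α := by
    intro h
    apply hnd
    intro b hb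
    obtain ⟨k, hk, hk1, hkN, hk', hne⟩ := h b hb
    refine ⟨k, hkN, hk1, ?_⟩
    rw [Subgroup.mem_bot]
    exact hne
  obtain ⟨H, hGH, α', hne, hc, ho, hext⟩ :=
    Crest.Agent.R018.Descx73.exists_extension hNU' hS D.G D.isOpen_G D.α D.cont D.open_range hnd'
  refine ⟨⟨H, Subgroup.isOpen_mono hGH D.isOpen_G, α', hc, ho⟩, lt_of_le_of_ne hGH hne, ?_⟩
  intro g hg hg'
  exact hext ⟨g, hg⟩

/-- the image of the normal core is open -/
theorem isOpen_image_N1 (D : Dat) :
    IsOpen {s : SG | ∃ (k : BB) (hk : k ∈ N1 D), αN D k hk = s} := by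
  have h := Crest.Agent.R018.Descx820.isOpen_range_of_le
    (Crest.Agent.R018.Descx820.isOpen_normalCore D.isOpen_G) (N1_le D) D.α D.cont D.open_range
  convert h using 1
  ext s
  constructor
  · rintro ⟨k, hk, rfl⟩
    exact ⟨⟨k, hk⟩, rfl⟩
  · rintro ⟨k, rfl⟩
    exact ⟨k, k.2, rfl⟩

/-- **(ND) at a finite level** -/
theorem ndLevel_holds : NDLevel := by
  classical
  intro D hnd V' hV'
  have hfin : Finite (BB ⧸ D.G) := Subgroup.quotient_finite_of_isOpen D.G D.isOpen_G
  -- data for the representatives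
  have hrep : ∀ q : BB ⧸ D.G, ∃ s : SG, s ≠ 1 ∧ (q.out ∉ D.G → ∃ (k : BB) (hk : k ∈ N1 D),
      αN D k hk = 1 ∧ αN D (q.out * k * q.out⁻¹) (conj_mem_N1 D hk q.out) = s) ∨
      q.out ∈ D.G := by
    intro q
    by_cases hq : q.out ∈ D.G
    · exact ⟨1, Or.inr hq⟩
    · obtain ⟨k, hk, hk1, hk2⟩ := hnd q.out hq
      rw [Subgroup.mem_bot] at hk2
      exact ⟨_, Or.inl ⟨hk2, fun _ => ⟨k, hk, hk1, rfl⟩⟩⟩
  choose s hs using hrep
  let W : Set SG := (V' : Set SG) ∩ {t : SG | ∃ (k : BB) (hk : k ∈ N1 D), αN D k hk = t} ∩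
    ⋂ q ∈ {q : BB ⧸ D.G | q.out ∉ D.G}, {s q}ᶜ
  have hWo : IsOpen W := by
    refine (hV'.inter (isOpen_image_N1 D)).inter ?_
    refine Set.Finite.isOpen_biInter (Set.toFinite _) fun q _ => isOpen_compl_singleton
  have hW1 : (1 : SG) ∈ W := by
    refine ⟨⟨V'.one_mem, 1, (N1 D).one_mem, map_one _⟩, ?_⟩
    simp only [Set.mem_iInter]
    intro q hq
    rcases hs q with h | h
    · exact fun h' => h.1 h'.symm
    · exact absurd h hq
  obtain ⟨V, hV⟩ := ProfiniteGrp.exist_openNormalSubgroup_sub_open_nhds_of_one hWo hW1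
  refine ⟨V.toSubgroup, V.isNormal', V.isOpen', fun v hv => (hV hv).1.1, ?_, fun v hv => (hV hv).1.2⟩
  intro b hb
  set q : BB ⧸ D.G := QuotientGroup.mk b with hq
  have hh : q.out⁻¹ * b ∈ D.G := by
    rw [← QuotientGroup.eq, QuotientGroup.out_eq']
  have hqo : q.out ∉ D.G := by
    intro h
    apply hb
    have := D.G.mul_mem h hh
    simpa using this
  have hsq := (hs q).resolve_right hqo
  obtain ⟨k, hk, hk1, hk2⟩ := hsq.2 hqo
  set h : BB := q.out⁻¹ * b with hhdef
  have hbq : b = q.out * h := by rw [hhdef]; group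
  have hk' : h⁻¹ * k * h ∈ N1 D := by
    have := conj_mem_N1 D hk h⁻¹
    simpa using this
  refine ⟨h⁻¹ * k * h, hk', ?_, ?_⟩
  · have e : αN D (h⁻¹ * k * h) hk' = (D.α ⟨h, hh⟩)⁻¹ * αN D k hk * D.α ⟨h, hh⟩ := by
      unfold αN
      rw [← map_inv, ← map_mul, ← map_mul]
      rfl
    rw [e, hk1]
    group
  · intro hmem
    have e : b * (h⁻¹ * k * h) * b⁻¹ = q.out * k * q.out⁻¹ := by
      rw [hbq]; group
    have e2 : αN D (b * (h⁻¹ * k * h) * b⁻¹) (conj_mem_N1 D hk' b) = s q := by
      rw [← hk2]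
      unfold αN
      congr 1
      exact Subtype.ext e
    have h3 := (hV hmem).2
    rw [e2] at h3
    simp only [Set.mem_iInter] at h3
    exact h3 q hqo rfl

/-- **centralizers of open subgroups are trivial**, given that `Sv` is solvably closed -/
theorem slim_of (hSv : IsSolvablyClosed Sv) : Slim := by
  intro S hS t ht
  exact Crest.Agent.R018.Centrx275.eq_one_of_commute hSv S hS t fun v hv => (ht v hv).symm

end Crest.Agent.R018.CoreDx820
end

-- ▼ part R018/SvClosed_820

/-!
# Row 18 (helper820): `Sv` is solvably closed; the target `Slim`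
-/

set_option autoImplicit false

open Polynomial

namespace Crest.Agent.R018.SvClosedx820

open Crest.NumberTheoryR
open Crest.Agent.R018.Corex74
open Crest.Agent.R018.EndDefx924 (Om)

/-- the Galois group stays commutative after base change -/
theorem gal_comm_map {F E : Type*} [Field F] [Field E] (i : F →+* E) (p : F[X])
    (hp : ∀ a b : p.Gal, a * b = b * a) : ∀ a b : (p.map i).Gal, a * b = b * a := by
  let _ : Algebra F E := i.toAlgebra
  let L := (p.map i).SplittingField
  have hmap : (p.map i).map (algebraMap E L) = p.map (algebraMap F L) := by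
    rw [Polynomial.map_map, IsScalarTower.algebraMap_eq F E L]; rfl
  have hs : Fact ((p.map (algebraMap F L)).Splits) :=
    ⟨by rw [← hmap]; exact SplittingField.splits (p.map i)⟩
  intro a b
  apply Polynomial.Gal.ext
  intro x hx
  have hx' : x ∈ p.rootSet L := by
    rw [Polynomial.rootSet, Polynomial.aroots_def] at hx ⊢
    rwa [hmap] at hx
  let a' : L ≃ₐ[F] L := AlgEquiv.restrictScalars F (a : L ≃ₐ[E] L)
  let b' : L ≃ₐ[F] L := AlgEquiv.restrictScalars F (b : L ≃ₐ[E] L)
  have h1 := Polynomial.Gal.restrict_smul (p := p) (E := L) (a' * b') ⟨x, hx'⟩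
  have h2 := Polynomial.Gal.restrict_smul (p := p) (E := L) (b' * a') ⟨x, hx'⟩
  rw [map_mul, hp, ← map_mul] at h1
  exact h1.symm.trans h2

/-- the intersection of solvably closed subfields is solvably closed -/
theorem isSolvablyClosed_Sv : IsSolvablyClosed Sv := by
  intro p hp
  by_cases hp0 : p = 0
  · rw [hp0]; exact Splits.zero
  refine Splits.of_splits_map (algebraMap Sv Om) (IsAlgClosed.splits _) ?_
  intro x hx
  have hxE : ∀ E : SvFam, x ∈ E.1 := by
    intro E
    have hle : Sv ≤ E.1 := iInf_le _ E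
    let i : Sv →+* E.1 := (IntermediateField.inclusion hle).toRingHom
    have h1 : (p.map i).Splits := E.2.2 _ (gal_comm_map i p hp)
    have h2 : ((p.map i).map (algebraMap E.1 Om)).IsRoot x := by
      have h3 : (p.map i).map (algebraMap E.1 Om) = p.map (algebraMap Sv Om) := by
        rw [Polynomial.map_map]; rfl
      rw [h3]
      exact isRoot_of_mem_roots hx
    obtain ⟨y, hy⟩ := h1.mem_range_of_isRoot ((Polynomial.map_ne_zero_iff i.injective).2 hp0) h2
    rw [← hy]
    exact y.2
  have hxS : x ∈ Sv := by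
    have : Sv = ⨅ E : SvFam, E.1 := rfl
    rw [this, ← SetLike.mem_coe, IntermediateField.coe_iInf, Set.mem_iInter]
    exact hxE
  exact ⟨⟨x, hxS⟩, rfl⟩

/-- **Slim** -/
theorem slim_holds : Slim := Crest.Agent.R018.CoreDx820.slim_of isSolvablyClosed_Sv

/-- **Descent** from N-U -/
theorem descent_of_NU (hNU : NU) : Descent :=
  Crest.Agent.R018.CoreDx820.descent_of hNU slim_holds

end Crest.Agent.R018.SvClosedx820
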