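import Crest.Agent.R018.GLit_791
import Crest.Agent.R018.SvClosed_820
import Crest.Agent.R018.EndA_245
import Crest.Agent.R018.Step2C_924
import Crest.Agent.R018.Core_74
import Crest.Agent.R018.CF_819_Mg
import Crest.Agent.R018.CB_933_Mg
import Crest.Agent.R018.CA_933
import Crest.Agent.R018.Rig2_931
import Crest.Agent.R018.Rig4_931
import Crest.Agent.R018.Places2_484
import Crest.Agent.R018.LCB_484
import Crest.Agent.R018.LocDef_31
import Crest.Agent.R018.LocConv_31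
import Crest.Agent.R018.CycFT_925
import Mathlib
import Crest.Agent.R018.Hit_380
import Crest.Agent.R018.S2Loc_380
import Crest.Agent.R018.HeartDef_74

-- ▼ part R018/LemmaG_791
section

/-!
# Row 18: `Core_74.LemmaG` holds unconditionally (helper791)
-/

set_option autoImplicit false

namespace Crest.Agent.R018.LemmaGx791

open Crest.Agent.R018.Corex74

/-- **LEMMA G** -/
theorem lemmaG_holds : LemmaG :=
  GLitx791.lemmaG_of_sqrt
    (EndAx245.exists_sq_of_solvablyClosed SvClosedx820.isSolvablyClosed_Sv)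

end Crest.Agent.R018.LemmaGx791
end

-- ▼ part R018/Top_924
section

/-!
# Row 18: top wiring, `Sv = Qs` and Theorem A of Core_74 => S0024 (helper924)
-/

set_option autoImplicit false

open Crest.NumberTheoryR Crest.Agent.R018.EndDefx924 Crest.Agent.R018.Corex74
open Crest.Agent.R018.Step2x924 (Qs TheoremAFor LOC qs_le_range qs_isSolvablyClosed)

universe u₁ u₂ v₁ v₂

namespace Crest.Agent.R018.Topx924

theorem sv_eq : Sv = Qs := by
  apply le_antisymm
  · have hQ : Normal ℚ Qs ∧ IsSolvablyClosed Qs :=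
      ⟨Crest.Agent.R018.Step2x924.qs_isGalois.to_normal, qs_isSolvablyClosed⟩
    exact iInf_le (fun E : SvFam => E.1) ⟨Qs, hQ⟩
  · refine le_iInf fun E => ?_
    intro x hx
    obtain ⟨y, hy⟩ := qs_le_range (E := E.1) E.2.2 (algebraMap E.1 Om) x hx
    rw [← hy]
    exact y.2


/-- Theorem A of `Core_74` gives Theorem A in the form of STEP 2. -/
theorem theoremAFor_of_core (h : Crest.Agent.R018.Corex74.TheoremA) :
    ∀ G₁ : Subgroup (Om ≃ₐ[ℚ] Om), IsOpen (G₁ : Set (Om ≃ₐ[ℚ] Om)) → TheoremAFor Qs G₁ := by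
  rw [← sv_eq]
  intro G₁ hG₁ α hα hopen
  obtain ⟨t, ht⟩ := h ⟨G₁, hG₁, α, hα, hopen⟩
  refine ⟨(algebraMap Sv Om).comp (t : Sv →+* Sv), fun g x => ?_⟩
  have h1 : α g = t⁻¹ * res (g : BB) * t := ht g
  have h2 : t (α g x) = res (g : BB) (t x) := by
    rw [h1]
    change t (t⁻¹ (res (g : BB) (t x))) = _
    rw [← AlgEquiv.mul_apply, mul_inv_cancel, AlgEquiv.one_apply]
  change (g : Om ≃ₐ[ℚ] Om) (algebraMap Sv Om (t x)) = algebraMap Sv Om (t (α g x))
  rw [h2]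
  exact (AlgEquiv.restrictNormal_commutes (g : Om ≃ₐ[ℚ] Om) Sv (t x)).symm

/-- **S0024** from Theorem A of `Core_74` and the local correspondence. -/
theorem s0024_of_core (hA : Crest.Agent.R018.Corex74.TheoremA) (hloc : LOC.{u₁, v₂, v₂})
    (F₁ : Type u₁) (F₂ : Type u₂) (E₁ : Type v₁) (E₂ : Type v₂) [Field F₁] [NumberField F₁]
    [Field F₂] [NumberField F₂] [Field E₁] [Algebra F₁ E₁] [IsGalois F₁ E₁] [Field E₂]
    [Algebra F₂ E₂] [IsGalois F₂ E₂] (h₂ : IsSolvablyClosed E₂)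
    (α : (E₁ ≃ₐ[F₁] E₁) →* (E₂ ≃ₐ[F₂] E₂)) (hα : Continuous α) (hopen : IsOpen (Set.range α)) :
    ∃ j : E₂ →+* E₁, ∀ g : E₁ ≃ₐ[F₁] E₁, ∀ x : E₂, g (j x) = j (α g x) :=
  Crest.Agent.R018.Redx49.of_coreForm
    (Crest.Agent.R018.Step2x924.coreForm_of_qs (theoremAFor_of_core hA) hloc)
    F₁ F₂ E₁ E₂ h₂ α hα hopen

end Crest.Agent.R018.Topx924
end

-- ▼ part R018/Wire_819
section

/-!
# Row 18: wiring of the Core_74 targets (helper819)
-/

set_option autoImplicit false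

namespace Crest.Agent.R018.Wirex819

open Crest.Agent.R018.Corex74

theorem ca (hLoc : LocT) (hBF : BadFinite) (hPE : ProbeEx) : CA :=
  CAx933.ca_of CoreDx820.ndLevel_holds LemmaGx791.lemmaG_holds hPE hLoc hBF F1x389.f1_holds
    CoreFx656.F3_holds CoreFx656.F4_holds F56x791.F5_holds F56x791.F6_holds CoreFx656.F7_holds
    F1x389.f8_holds F9x530.F9_holds

theorem cb (hLoc : LocT) (hBF : BadFinite) (hPE : ProbeEx) : CB :=
  CBx933.cb_of (ca hLoc hBF hPE) CoreDx820.ndLevel_holds LemmaGx791.lemmaG_holds hPE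
    F1x389.f1_holds CoreF2x755.F2_holds CoreFx656.F3_holds CoreFx656.F4_holds F56x791.F5_holds
    F56x791.F6_holds CoreFx656.F7_holds F9x530.F9_holds F9x530.F10_holds

/-- Theorem A from the targets which are still open -/
theorem theoremA_of (hLoc : LocT) (hBF : BadFinite) (hBB : BadBound) (hPE : ProbeEx)
    (hCC : CC) : TheoremA := by
  have hF1 : F1 := F1x389.f1_holds
  have hF2 : F2 := CoreF2x755.F2_holds
  have hF3 : F3 := CoreFx656.F3_holds
  have hF4 : F4 := CoreFx656.F4_holds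
  have hF5 : F5 := F56x791.F5_holds
  have hF6 : F6 := F56x791.F6_holds
  have hCA : CA := ca hLoc hBF hPE
  have hCB : CB := cb hLoc hBF hPE
  have hCD : CD := ConsDx814.CD_holds hLoc hBF hCC Deg1Holdsx614.deg1Thm_holds hF1 hF2 hF5 hF6
  have hCF : CF := CFx819.cf_of SvClosedx820.isSolvablyClosed_Sv LChoicex693.lchoice hCA hCB hCD
    hBB hLoc hF1 hF2 hF3 hF4
  exact CoreWx74.theoremA (SvClosedx820.descent_of_NU (NUCorex275.nu_of hLoc)) hCF hCA
    (TheoremUx819.theoremU_of hF2 hF3 hF5)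

end Crest.Agent.R018.Wirex819
end

-- ▼ part R018/Rig5_931
section

/-!
# Row 18: valuation rings of algebraic extensions of `ℚ` (helper931)

`M` algebraic over `ℚ`, `A ≠ ⊤` a valuation subring.
-/

set_option autoImplicit false

open Polynomial

namespace Crest.Agent.R018.Rig5x931

section basic

variable {M : Type*} [Field M] {A : ValuationSubring M}

theorem val_int_le_one (n : ℤ) : A.valuation (n : M) ≤ 1 := by
  rw [A.valuation_le_one_iff]
  exact intCast_mem A n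

theorem val_nat_le_one (n : ℕ) : A.valuation (n : M) ≤ 1 := by
  rw [A.valuation_le_one_iff]
  exact natCast_mem A n

theorem val_one_add {c : M} (hc : A.valuation c < 1) : A.valuation (1 + c) = 1 := by
  rw [Valuation.map_add_eq_of_lt_left] <;> simp [hc]

theorem val_mul_lt {a b : M} (ha : A.valuation a < 1) (hb : A.valuation b ≤ 1) :
    A.valuation (a * b) < 1 := by
  rw [map_mul]
  exact mul_lt_one_of_lt_of_le ha hb


end basic

section alg

variable {M : Type*} [Field M] [CharZero M] [Algebra.IsAlgebraic ℚ M] {A : ValuationSubring M}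

/-- an integer polynomial with nonzero constant term -/
theorem exists_poly (z : M) (hz : z ≠ 0) : ∃ f : ℤ[X], f.coeff 0 ≠ 0 ∧ aeval z f = 0 := by
  have h : IsAlgebraic ℤ z := by
    have := Algebra.IsAlgebraic.isAlgebraic (R := ℚ) z
    exact (IsFractionRing.isAlgebraic_iff ℤ ℚ M).mpr this
  exact h.exists_nonzero_coeff_and_aeval_eq_zero (mem_nonZeroDivisors_of_ne_zero hz)

/-- a nonzero integer lies in `z A` -/
theorem exists_int_le {z : M} (hz : z ≠ 0) :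
    ∃ N : ℤ, N ≠ 0 ∧ A.valuation (N : M) ≤ A.valuation z := by
  rcases le_or_gt (A.valuation z) 1 with h | h
  · obtain ⟨f, hf0, hf⟩ := exists_poly z hz
    refine ⟨f.coeff 0, hf0, ?_⟩
    have h1 : aeval z f = z * aeval z f.divX + (f.coeff 0 : M) := by
      conv_lhs => rw [← divX_mul_X_add f]
      simp [mul_comm]
    rw [hf] at h1
    have h2 : (f.coeff 0 : M) = - (z * aeval z f.divX) := by
      linear_combination -h1
    rw [h2, Valuation.map_neg, map_mul]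
    have h3 : A.valuation (aeval z f.divX) ≤ 1 := by
      rw [A.valuation_le_one_iff] at h ⊢
      rw [aeval_eq_sum_range]
      refine sum_mem fun i _ => ?_
      rw [zsmul_eq_mul]
      exact mul_mem (intCast_mem A _) (pow_mem h i)
    calc A.valuation z * A.valuation (aeval z f.divX) ≤ A.valuation z * 1 := by gcongr
      _ = A.valuation z := mul_one _
  · refine ⟨1, one_ne_zero, ?_⟩
    simpa using h.le

/-- the residue characteristic -/
theorem exists_prime (hA : A ≠ ⊤) : ∃ p : ℕ, p.Prime ∧ A.valuation (p : M) < 1 := by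
  have h1 : ∃ x : M, x ∉ A := by
    by_contra hcon
    push Not at hcon
    apply hA
    ext x
    simp [hcon x]
  obtain ⟨x, hx⟩ := h1
  have hx0 : x ≠ 0 := by
    rintro rfl
    exact hx A.zero_mem
  obtain ⟨N, hN, hNx⟩ := exists_int_le (A := A) (inv_ne_zero hx0)
  have h2 : A.valuation (x⁻¹) < 1 := by
    rw [← A.valuation_le_one_iff, not_le] at hx
    rw [map_inv₀]
    exact inv_lt_one_of_one_lt₀ hx
  have h3 : A.valuation (N : M) < 1 := lt_of_le_of_lt hNx h2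
  have h4 : A.valuation ((N.natAbs : ℕ) : M) < 1 := by
    rcases Int.natAbs_eq N with h | h
    · rw [h] at h3
      simpa using h3
    · rw [h] at h3
      simpa using h3
  by_contra hcon
  push Not at hcon
  have h5 : ∀ n : ℕ, n ≠ 0 → A.valuation (n : M) = 1 := by
    intro n
    induction n using Nat.recOnMul with
    | zero => intro h; exact absurd rfl h
    | one => intro _; simp
    | prime p hp => intro _; exact le_antisymm (val_nat_le_one p) (hcon p hp)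
    | mul a b ha hb =>
      intro h
      rw [Nat.cast_mul, map_mul, ha (by rintro rfl; simp at h), hb (by rintro rfl; simp at h),
        one_mul]
  exact absurd h4 (by rw [h5 _ (Int.natAbs_ne_zero.mpr hN)]; exact lt_irrefl _)

theorem val_coprime {p : ℕ} (hp : p.Prime) (hpA : A.valuation (p : M) < 1) {n : ℤ}
    (hn : ¬ (p : ℤ) ∣ n) : A.valuation (n : M) = 1 := by
  have h1 : IsCoprime (p : ℤ) n := by
    rw [Prime.coprime_iff_not_dvd (Nat.prime_iff_prime_int.mp hp)]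
    exact hn
  obtain ⟨a, b, hab⟩ := h1
  refine le_antisymm (val_int_le_one n) ?_
  by_contra hcon
  rw [not_le] at hcon
  have h2 : (a : M) * (p : M) + (b : M) * (n : M) = 1 := by exact_mod_cast congrArg (Int.cast : ℤ → M) hab
  have h3 : A.valuation ((a : M) * (p : M) + (b : M) * (n : M)) < 1 := by
    refine Valuation.map_add_lt _ ?_ ?_
    · rw [mul_comm]; exact val_mul_lt hpA (val_int_le_one a)
    · rw [mul_comm]; exact val_mul_lt hcon (val_int_le_one b)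
  rw [h2, map_one] at h3
  exact lt_irrefl _ h3

/-- every nonzero element divides a power of `p` -/
theorem exists_pow_le {p : ℕ} (hp : p.Prime) (hpA : A.valuation (p : M) < 1) {z : M} (hz : z ≠ 0) :
    ∃ k : ℕ, A.valuation (p : M) ^ k ≤ A.valuation z := by
  obtain ⟨N, hN, hNz⟩ := exists_int_le (A := A) hz
  obtain ⟨m, hm, hNm⟩ : ∃ m : ℤ, ¬ (p : ℤ) ∣ m ∧ ∃ k : ℕ, N = p ^ k * m := by
    have hfin : FiniteMultiplicity (p : ℤ) N :=
      Int.finiteMultiplicity_iff.mpr ⟨by simpa using hp.ne_one, hN⟩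
    obtain ⟨m, h1, h2⟩ := hfin.exists_eq_pow_mul_and_not_dvd
    exact ⟨m, h2, _, h1⟩
  obtain ⟨k, hk⟩ := hNm
  refine ⟨k, ?_⟩
  rw [hk] at hNz
  push_cast at hNz
  rw [map_mul, val_coprime hp hpA hm, mul_one, map_pow] at hNz
  exact hNz

/-- some power of a non-unit is divisible by `p` -/
theorem exists_pow_le_p {p : ℕ} (hp : p.Prime) (hpA : A.valuation (p : M) < 1) {z : M}
    (hz : A.valuation z < 1) : ∃ n : ℕ, A.valuation z ^ n ≤ A.valuation (p : M) := by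
  classical
  rcases eq_or_ne z 0 with rfl | hz0
  · exact ⟨1, by simp⟩
  obtain ⟨f, hf0, hf⟩ := exists_poly z hz0
  -- make it primitive
  set g := f.primPart with hg
  have hfne : f ≠ 0 := by rintro rfl; simp at hf0
  have hg0 : aeval z g = 0 := by
    rw [f.eq_C_content_mul_primPart, map_mul, aeval_C] at hf
    rcases mul_eq_zero.mp hf with h | h
    · exfalso
      have : (f.content : M) = 0 := by simpa using h
      exact hfne (content_eq_zero_iff.mp (by exact_mod_cast this))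
    · exact h
  have hgp : g.IsPrimitive := f.isPrimitive_primPart
  have hex : ∃ j, ¬ (p : ℤ) ∣ g.coeff j := by
    by_contra hcon
    push Not at hcon
    have h1 : (C (p : ℤ)) ∣ g := (C_dvd_iff_dvd_coeff _ _).mpr hcon
    have h2 := hgp _ h1
    rw [Int.isUnit_iff] at h2
    rcases h2 with h2 | h2
    · exact hp.ne_one (by exact_mod_cast h2)
    · have := hp.pos
      omega
  let j := Nat.find hex
  have hj : ¬ (p : ℤ) ∣ g.coeff j := Nat.find_spec hex
  have hjmin : ∀ i < j, (p : ℤ) ∣ g.coeff i := fun i hi => by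
    have := Nat.find_min hex hi
    push Not at this
    exact this
  refine ⟨j, ?_⟩
  by_contra hcon
  rw [not_le] at hcon
  have hjdeg : j ∈ Finset.range (g.natDegree + 1) := by
    rw [Finset.mem_range]
    by_contra hcon
    have : g.coeff j = 0 := coeff_eq_zero_of_natDegree_lt (by omega)
    rw [this] at hj
    exact hj (dvd_zero _)
  rw [aeval_eq_sum_range, ← Finset.add_sum_erase _ _ hjdeg] at hg0
  have hvz0 : 0 < A.valuation z := (Valuation.pos_iff _).mpr hz0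
  have hvj : A.valuation (g.coeff j • z ^ j) = A.valuation z ^ j := by
    rw [zsmul_eq_mul, map_mul, val_coprime hp hpA hj, one_mul, map_pow]
  have hlt : A.valuation (∑ i ∈ (Finset.range (g.natDegree + 1)).erase j, g.coeff i • z ^ i) <
      A.valuation (g.coeff j • z ^ j) := by
    rw [hvj]
    refine Valuation.map_sum_lt _ (pow_pos hvz0 j).ne' ?_
    intro i hi
    rw [Finset.mem_erase] at hi
    rw [zsmul_eq_mul, map_mul, map_pow]
    rcases lt_or_gt_of_ne hi.1 with hij | hij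
    · obtain ⟨c, hc⟩ := hjmin i hij
      rw [hc]
      push_cast
      rw [map_mul]
      calc A.valuation (p : M) * A.valuation (c : M) * A.valuation z ^ i
          ≤ A.valuation (p : M) * 1 * 1 := by
            gcongr
            · exact val_int_le_one c
            · exact pow_le_one₀ zero_le hz.le
        _ = A.valuation (p : M) := by rw [mul_one, mul_one]
        _ < _ := hcon
    · calc A.valuation (g.coeff i : M) * A.valuation z ^ i ≤ 1 * A.valuation z ^ i := by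
            gcongr
            exact val_int_le_one _
        _ = A.valuation z ^ i := one_mul _
        _ < A.valuation z ^ j := pow_lt_pow_right_of_lt_one₀ hvz0 hz hij
  have h1 := Valuation.map_add_eq_of_lt_left _ hlt
  rw [hg0, map_zero] at h1
  rw [← h1] at hlt
  exact not_lt_zero hlt

/-- rank one: for `c` a non-unit and any `w`, `c ^ n w` is a non-unit for large `n` -/
theorem exists_pow_mul_lt (hA : A ≠ ⊤) {c : M} (hc : A.valuation c < 1) (w : M) :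
    ∃ n₀ : ℕ, ∀ n ≥ n₀, A.valuation (c ^ n * w) < 1 := by
  rcases eq_or_ne w 0 with rfl | hw
  · exact ⟨0, fun n _ => by simp⟩
  obtain ⟨p, hp, hpA⟩ := exists_prime hA
  obtain ⟨k, hk⟩ := exists_pow_le hp hpA (inv_ne_zero hw)
  obtain ⟨m, hm⟩ := exists_pow_le_p hp hpA hc
  refine ⟨m * k + 1, fun n hn => ?_⟩
  obtain ⟨r, rfl⟩ := Nat.exists_eq_add_of_le hn
  rw [map_mul, map_pow, pow_add, pow_add, pow_mul, pow_one]
  have hw' : A.valuation (p : M) ^ k * A.valuation w ≤ 1 := by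
    calc A.valuation (p : M) ^ k * A.valuation w ≤ A.valuation w⁻¹ * A.valuation w := by gcongr
      _ = 1 := by rw [← map_mul, inv_mul_cancel₀ hw, map_one]
  calc (A.valuation c ^ m) ^ k * A.valuation c * A.valuation c ^ r * A.valuation w
      = ((A.valuation c ^ m) ^ k * A.valuation w) * A.valuation c ^ r * A.valuation c := by
        ac_rfl
    _ ≤ (A.valuation (p : M) ^ k * A.valuation w) * 1 * A.valuation c := by
        gcongr
        exact pow_le_one₀ zero_le hc.le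
    _ ≤ 1 * 1 * A.valuation c := by gcongr
    _ < 1 := by simpa using hc

/-- rank one: a nontrivial valuation ring is maximal -/
theorem eq_of_le {A' : ValuationSubring M} (hA' : A' ≠ ⊤) (h : A ≤ A') : A = A' := by
  refine le_antisymm h fun x hx => ?_
  by_contra hxA
  have hx0 : x ≠ 0 := by
    rintro rfl
    exact hxA A.zero_mem
  have hxi : A.valuation x⁻¹ < 1 := by
    rw [← A.valuation_le_one_iff, not_le] at hxA
    rw [map_inv₀]
    exact inv_lt_one_of_one_lt₀ hxA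
  have hxi' : A'.valuation x⁻¹ = 1 := by
    refine le_antisymm ?_ ?_
    · rw [A'.valuation_le_one_iff]
      exact h ((A.valuation_le_one_iff _).mp hxi.le)
    · rw [map_inv₀]
      refine (one_le_inv₀ ?_).mpr ?_
      · exact (Valuation.pos_iff _).mpr hx0
      · exact (A'.valuation_le_one_iff _).mpr hx
  obtain ⟨p, hp, hpA'⟩ := exists_prime hA'
  have hp0 : (p : M) ≠ 0 := by exact_mod_cast hp.ne_zero
  have hpA : A.valuation (p : M) < 1 := by
    by_contra hcon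
    rw [not_lt] at hcon
    have h1 : ((p : M))⁻¹ ∈ A := by
      rw [← A.valuation_le_one_iff, map_inv₀]
      exact inv_le_one_of_one_le₀ hcon
    have h2 := (A'.valuation_le_one_iff _).mpr (h h1)
    rw [map_inv₀] at h2
    have h3 := one_lt_inv₀ ((Valuation.pos_iff A'.valuation).mpr hp0) |>.mpr hpA'
    exact absurd h2 (not_le.mpr h3)
  obtain ⟨n, hn⟩ := exists_pow_le_p hp hpA hxi
  have h1 : (x⁻¹) ^ n / (p : M) ∈ A := by
    rw [← A.valuation_le_one_iff, map_div₀, map_pow]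
    exact div_le_one_of_le₀ hn zero_le
  have h2 := (A'.valuation_le_one_iff _).mpr (h h1)
  rw [map_div₀, map_pow, hxi', one_pow, one_div] at h2
  have h3 := one_lt_inv₀ ((Valuation.pos_iff A'.valuation).mpr hp0) |>.mpr hpA'
  exact absurd h2 (not_le.mpr h3)

/-- **uniqueness** of the valuation ring all of whose one-units are `l`-th powers -/
theorem unique {A' : ValuationSubring M} (hA : A ≠ ⊤) (hA' : A' ≠ ⊤) {l : ℕ} (hl : l ≠ 0)
    (h1 : ∀ x, A.valuation (x - 1) < 1 → ∃ t, t ^ l = x)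
    (h1' : ∀ x, A'.valuation (x - 1) < 1 → ∃ t, t ^ l = x)
    (hne : ∃ x : M, ∀ t, t ^ l ≠ x) : A = A' := by
  by_contra hAA
  have hle : ¬ A ≤ A' := fun h => hAA (eq_of_le hA' h)
  have hle' : ¬ A' ≤ A := fun h => hAA (eq_of_le hA h).symm
  obtain ⟨a, ha, ha'⟩ := SetLike.not_le_iff_exists.mp hle
  obtain ⟨b, hb', hb⟩ := SetLike.not_le_iff_exists.mp hle'
  obtain ⟨x, hx⟩ := hne
  have hx0 : x ≠ 0 := by
    rintro rfl
    exact hx 0 (zero_pow hl)
  have ha0 : a ≠ 0 := by rintro rfl; exact ha' A'.zero_mem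
  have hb0 : b ≠ 0 := by rintro rfl; exact hb A.zero_mem
  rw [← ValuationSubring.valuation_le_one_iff] at ha ha' hb hb'
  rw [not_le] at ha' hb
  have hc : A.valuation (a / b) < 1 := by
    rw [map_div₀]
    exact (div_lt_one₀ ((Valuation.pos_iff _).mpr hb0)).mpr (lt_of_le_of_lt ha hb)
  have hc' : A'.valuation (b / a) < 1 := by
    rw [map_div₀]
    exact (div_lt_one₀ ((Valuation.pos_iff _).mpr ha0)).mpr (lt_of_le_of_lt hb' ha')
  obtain ⟨n₁, hn₁⟩ := exists_pow_mul_lt hA hc (x - 1)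
  obtain ⟨n₂, hn₂⟩ := exists_pow_mul_lt hA' hc' ((1 - x) / x)
  set n := max (max n₁ n₂) 1 with hn
  have hn1 : n₁ ≤ n := le_trans (le_max_left _ _) (le_max_left _ _)
  have hn2 : n₂ ≤ n := le_trans (le_max_right _ _) (le_max_left _ _)
  have hn0 : n ≠ 0 := by have := le_max_right (max n₁ n₂) 1; omega
  have hcn : A.valuation ((a / b) ^ n) < 1 := by
    rw [map_pow]
    exact pow_lt_one₀ zero_le hc hn0
  have hcn' : A'.valuation ((b / a) ^ n) < 1 := by
    rw [map_pow]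
    exact pow_lt_one₀ zero_le hc' hn0
  have hv := val_one_add hcn
  have hv' := val_one_add hcn'
  have hd : (1 : M) + (a / b) ^ n ≠ 0 := by
    intro h
    rw [h, map_zero] at hv
    exact zero_ne_one hv
  have hd' : (1 : M) + (b / a) ^ n ≠ 0 := by
    intro h
    rw [h, map_zero] at hv'
    exact zero_ne_one hv'
  have hY1 : A.valuation (1 + (a / b) ^ n / (1 + (a / b) ^ n) * (x - 1) - 1) < 1 := by
    rw [show 1 + (a / b) ^ n / (1 + (a / b) ^ n) * (x - 1) - 1 =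
      ((a / b) ^ n * (x - 1)) / (1 + (a / b) ^ n) by ring, map_div₀, hv, div_one]
    exact hn₁ n hn1
  have hY2 : A'.valuation ((1 + (a / b) ^ n / (1 + (a / b) ^ n) * (x - 1)) / x - 1) < 1 := by
    rw [show (1 + (a / b) ^ n / (1 + (a / b) ^ n) * (x - 1)) / x - 1 =
      ((b / a) ^ n * ((1 - x) / x)) / (1 + (b / a) ^ n) by
        have e : (b / a) ^ n = ((a / b) ^ n)⁻¹ := by rw [← inv_pow, inv_div]
        have hab : (a / b) ^ n ≠ 0 := pow_ne_zero _ (div_ne_zero ha0 hb0)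
        rw [e] at hd' ⊢
        generalize (a / b) ^ n = c at *
        field_simp
        have : c + 1 ≠ 0 := by rwa [add_comm]
        field_simp
        ring, map_div₀, hv', div_one]
    exact hn₂ n hn2
  generalize 1 + (a / b) ^ n / (1 + (a / b) ^ n) * (x - 1) = Y at hY1 hY2
  have hY0 : Y ≠ 0 := by
    rintro rfl
    rw [zero_sub, Valuation.map_neg, map_one] at hY1
    exact lt_irrefl _ hY1
  obtain ⟨t, ht⟩ := h1 Y hY1
  obtain ⟨s, hs⟩ := h1' _ hY2
  apply hx (t / s)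
  rw [div_pow, ht, hs, div_div_eq_mul_div]
  field_simp

/-- **`l` is a unit**: if the units of `A` lie in a proper subgroup `H` containing the `l`-th powers
and all one-units of `A` are `l`-th powers, then `l` is a unit of `A`. -/
theorem l_unit {l : ℕ} (hl : l.Prime) {H : Subgroup Mˣ} (hH : H ≠ ⊤)
    (hpow : ∀ x : Mˣ, x ^ l ∈ H) (hU : A.unitGroup ≤ H)
    (h1 : ∀ x, A.valuation (x - 1) < 1 → ∃ t, t ^ l = x) : A.valuation (l : M) = 1 := by
  refine le_antisymm (val_nat_le_one l) ?_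
  by_contra hcon
  rw [not_le] at hcon
  have hl0 : (l : M) ≠ 0 := by exact_mod_cast hl.ne_zero
  have hvl0 : A.valuation (l : M) ≠ 0 := (Valuation.ne_zero_iff _).mpr hl0
  have hHU : ∀ x : Mˣ, A.valuation (x : M) = 1 → x ∈ H := fun x hx => hU hx
  -- there is a non-member of `H` strictly between
  have hz : ∃ z : Mˣ, z ∉ H ∧ A.valuation (z : M) < 1 ∧ A.valuation (l : M) ≤ A.valuation (z : M) := by
    by_contra hno
    push Not at hno
    have hlH : Units.mk0 (l : M) hl0 ∈ H := by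
      by_contra hlH
      exact absurd (hno _ hlH hcon) (by simp)
    have hind : ∀ (k : ℕ) (z : Mˣ), A.valuation (z : M) ≤ 1 →
        A.valuation (l : M) ^ k ≤ A.valuation (z : M) → z ∈ H := by
      intro k
      induction k with
      | zero =>
        intro z hz1 hz2
        rw [pow_zero] at hz2
        exact hHU z (le_antisymm hz1 hz2)
      | succ k ih =>
        intro z hz1 hz2
        rcases le_or_gt (A.valuation (z : M)) (A.valuation (l : M)) with h | h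
        · have h2 : z / Units.mk0 (l : M) hl0 ∈ H := by
            apply ih
            · rw [Units.val_div_eq_div_val, map_div₀, Units.val_mk0]
              exact div_le_one_of_le₀ h zero_le
            · rw [Units.val_div_eq_div_val, map_div₀, Units.val_mk0, le_div_iff₀ (zero_lt_iff.mpr hvl0),
                ← pow_succ]
              exact hz2
          have h3 := H.mul_mem h2 hlH
          rwa [div_mul_cancel] at h3
        · rcases hz1.lt_or_eq with h4 | h4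
          · by_contra hzH
            exact absurd (hno z hzH h4) (not_lt.mpr h.le)
          · exact hHU z h4
    apply hH
    rw [eq_top_iff]
    intro z _
    rcases le_or_gt (A.valuation (z : M)) 1 with h | h
    · obtain ⟨k, hk⟩ := exists_pow_le hl hcon (Units.ne_zero z)
      exact hind k z h hk
    · obtain ⟨k, hk⟩ := exists_pow_le hl hcon (Units.ne_zero z⁻¹)
      have h2 : z⁻¹ ∈ H := by
        refine hind k z⁻¹ ?_ hk
        rw [Units.val_inv_eq_inv_val, map_inv₀]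
        exact inv_le_one_of_one_le₀ h.le
      exact (inv_mem_iff (H := H)).mp h2
  obtain ⟨z, hzH, hz1, hz2⟩ := hz
  obtain ⟨t, ht⟩ := h1 (1 + z) (by simpa using hz1)
  have htA : t ∈ A := by
    rw [← A.valuation_le_one_iff]
    have : A.valuation t ^ l = 1 := by rw [← map_pow, ht, val_one_add hz1]
    by_contra h
    rw [not_le] at h
    exact absurd this (one_lt_pow₀ h hl.ne_zero).ne'
  obtain ⟨r, hr⟩ := exists_add_pow_prime_eq hl (⟨t, htA⟩ - 1 : A) 1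
  rw [sub_add_cancel] at hr
  have hr' : t ^ l = (t - 1) ^ l + 1 + l * (t - 1) * r := by
    have := congrArg (fun a : A => (a : M)) hr
    push_cast at this
    simpa using this
  set u := t - 1 with hu
  have hrA : A.valuation (r : M) ≤ 1 := A.valuation_le_one r
  have huA : A.valuation u ≤ 1 := (A.valuation_le_one_iff _).mpr (sub_mem htA A.one_mem)
  have hzu : (z : M) = u ^ l + l * u * r := by
    rw [ht] at hr'
    linear_combination hr'
  have hu1 : A.valuation u < 1 := by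
    rcases huA.lt_or_eq with h | h
    · exact h
    · exfalso
      have h2 : A.valuation (u ^ l + l * u * r) = A.valuation (u ^ l) := by
        apply Valuation.map_add_eq_of_lt_left
        rw [map_pow, h, one_pow, map_mul, map_mul, h, mul_one]
        exact mul_lt_one_of_lt_of_le hcon hrA
      rw [← hzu, map_pow, h, one_pow] at h2
      exact absurd hz1 (by rw [h2]; exact lt_irrefl _)
  have hz0 : A.valuation (z : M) ≠ 0 := (Valuation.ne_zero_iff _).mpr (Units.ne_zero z)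
  have hlt : A.valuation ((l : M) * u * r) < A.valuation (z : M) := by
    rw [map_mul, map_mul]
    calc A.valuation (l : M) * A.valuation u * A.valuation (r : M)
        ≤ A.valuation (z : M) * A.valuation u * 1 := by gcongr
      _ = A.valuation (z : M) * A.valuation u := mul_one _
      _ < A.valuation (z : M) * 1 := by
          exact mul_lt_mul_of_pos_left hu1 (zero_lt_iff.mpr hz0)
      _ = A.valuation (z : M) := mul_one _
  have hul : A.valuation (u ^ l) = A.valuation (z : M) := by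
    have h2 : u ^ l = z + (-(l * u * r)) := by rw [hzu]; ring
    rw [h2]
    apply Valuation.map_add_eq_of_lt_left
    rw [Valuation.map_neg]
    exact hlt
  have hu0 : u ≠ 0 := by
    rintro h
    rw [h, zero_pow hl.ne_zero, map_zero] at hul
    exact hz0 hul.symm
  apply hzH
  have h3 : z / (Units.mk0 u hu0) ^ l ∈ H := by
    apply hHU
    rw [Units.val_div_eq_div_val, map_div₀, Units.val_pow_eq_pow_val, Units.val_mk0, hul,
      div_self hz0]
  have h4 := H.mul_mem h3 (hpow (Units.mk0 u hu0))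
  rwa [div_mul_cancel] at h4

end alg

end Crest.Agent.R018.Rig5x931
end

-- ▼ part R018/Rig6_931
section

/-!
# Row 18: the valuation ring fixed by a group with two Kummer classes everywhere (helper931)
-/

set_option autoImplicit false

open Finset Polynomial

namespace Crest.Agent.R018.Rig6x931

open Crest.Agent.R018.Rig4x931

/-! ### roots close to one -/

section roots

variable {M : Type*} [Field M] {A : ValuationSubring M}

theorem val_eq_one_of_pow {l : ℕ} (hl : l ≠ 0) {x : M} (h : A.valuation x ^ l = 1) :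
    A.valuation x = 1 := by
  rcases lt_trichotomy (A.valuation x) 1 with h1 | h1 | h1
  · exact absurd h (pow_lt_one₀ zero_le h1 hl).ne
  · exact h1
  · exact absurd h (one_lt_pow₀ h1 hl).ne'

theorem exists_root_one {l : ℕ} [hl : Fact l.Prime] {ζ : M} (hζ : IsPrimitiveRoot ζ l) {x t : M}
    (ht : t ^ l = x) (hx : A.valuation (x - 1) < 1) :
    ∃ t', t' ^ l = x ∧ A.valuation (t' - 1) < 1 := by
  have hvζ : A.valuation ζ = 1 := val_eq_one_of_pow hl.out.ne_zero (by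
    rw [← map_pow, hζ.pow_eq_one, map_one])
  have h1 := congrArg (Polynomial.eval t) (X_pow_sub_C_eq_prod hζ hl.out.pos (one_pow l : (1:M)^l = 1))
  simp only [Polynomial.eval_sub, Polynomial.eval_pow, Polynomial.eval_X, Polynomial.eval_C,
    Polynomial.eval_prod, ht, mul_one] at h1
  rw [h1, map_prod] at hx
  have h2 : ∃ i ∈ range l, A.valuation (t - ζ ^ i) < 1 := by
    by_contra hcon
    push Not at hcon
    exact absurd hx (not_lt.mpr (Finset.one_le_prod' hcon))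
  obtain ⟨i, -, hi⟩ := h2
  have hζ0 : ζ ^ i ≠ 0 := pow_ne_zero _ (hζ.ne_zero hl.out.ne_zero)
  refine ⟨t / ζ ^ i, ?_, ?_⟩
  · rw [div_pow, ← pow_mul, mul_comm i l, pow_mul, hζ.pow_eq_one, one_pow, div_one, ht]
  · rw [show t / ζ ^ i - 1 = (t - ζ ^ i) / ζ ^ i by field_simp, map_div₀, map_pow, hvζ, one_pow,
      div_one]
    exact hi

theorem val_sub_one_of_root {l : ℕ} [hl : Fact l.Prime] (hlA : A.valuation (l : M) = 1) {ω : M}
    (hω : ω ^ l = 1) (h : A.valuation (ω - 1) < 1) : ω = 1 := by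
  by_contra hne
  have hprim : IsPrimitiveRoot ω l := IsPrimitiveRoot.iff_orderOf.mpr (orderOf_eq_prime hω hne)
  have h1 : ∑ i ∈ range l, ω ^ i = 0 := hprim.geom_sum_eq_zero hl.out.one_lt
  have h2 : (l : M) = ∑ i ∈ range l, (1 - ω ^ i) := by
    rw [Finset.sum_sub_distrib, h1]
    simp
  have hvω : A.valuation ω = 1 := val_eq_one_of_pow hl.out.ne_zero (by
    rw [← map_pow, hω, map_one])
  have h3 : ∀ i : ℕ, A.valuation (1 - ω ^ i) < 1 := by
    intro i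
    induction i with
    | zero => simp
    | succ i ih =>
      rw [show 1 - ω ^ (i + 1) = (1 - ω ^ i) - ω ^ i * (ω - 1) by ring]
      refine Valuation.map_sub_lt _ ih ?_
      rw [map_mul, map_pow, hvω, one_pow, one_mul]
      exact h
  have h4 : A.valuation (l : M) < 1 := by
    rw [h2]
    exact Valuation.map_sum_lt _ one_ne_zero fun i _ => h3 i
  rw [hlA] at h4
  exact lt_irrefl _ h4

theorem root_unique {l : ℕ} [hl : Fact l.Prime] (hlA : A.valuation (l : M) = 1) {t t' : M}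
    (h : t ^ l = t' ^ l) (ht : A.valuation (t - 1) < 1) (ht' : A.valuation (t' - 1) < 1) :
    t = t' := by
  have e1 : A.valuation t = 1 := by
    have := Rig5x931.val_one_add ht
    simpa using this
  have e1' : A.valuation t' = 1 := by
    have := Rig5x931.val_one_add ht'
    simpa using this
  have h0' : t' ≠ 0 := by
    rintro rfl
    rw [map_zero] at e1'
    exact zero_ne_one e1'
  have h2 : t / t' = 1 := by
    apply val_sub_one_of_root hlA
    · rw [div_pow, h, div_self (pow_ne_zero _ h0')]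
    · rw [show t / t' - 1 = (t - 1 - (t' - 1)) / t' by field_simp; ring, map_div₀, e1', div_one]
      exact Valuation.map_sub_lt _ ht ht'
  exact (div_eq_one_iff_eq h0').mp h2

end roots

/-! ### good valuation rings -/

section good

/-- nontrivial, `l` a unit, all one-units are `l`-th powers -/
structure Good (l : ℕ) {M : Type*} [Field M] (A : ValuationSubring M) : Prop where
  ne_top : A ≠ ⊤
  l_unit : A.valuation (l : M) = 1
  one_units : ∀ x, A.valuation (x - 1) < 1 → ∃ t, t ^ l = x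

variable {M N : Type*} [Field M] [Field N]

theorem lt_one_iff {A : ValuationSubring M} {x : M} : A.valuation x < 1 ↔ x = 0 ∨ x⁻¹ ∉ A := by
  rw [← A.mem_nonunits_iff, A.mem_nonunits_iff_or]

theorem eq_one_iff {A : ValuationSubring M} {x : M} :
    A.valuation x = 1 ↔ x ∈ A ∧ ¬ A.valuation x < 1 := by
  rw [← A.valuation_le_one_iff, not_lt]
  exact ⟨fun h => ⟨h.le, h.ge⟩, fun h => le_antisymm h.1 h.2⟩

theorem comap_lt {A : ValuationSubring N} {f : M →+* N} {x : M} :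
    (A.comap f).valuation x < 1 ↔ A.valuation (f x) < 1 := by
  rw [lt_one_iff, lt_one_iff, ValuationSubring.mem_comap, map_inv₀, map_eq_zero]

theorem comap_eq {A : ValuationSubring N} {f : M →+* N} {x : M} :
    (A.comap f).valuation x = 1 ↔ A.valuation (f x) = 1 := by
  rw [eq_one_iff, eq_one_iff, ValuationSubring.mem_comap, comap_lt]

theorem ne_top_iff {A : ValuationSubring M} : A ≠ ⊤ ↔ ∃ x, x ∉ A := by
  constructor
  · intro h
    by_contra hcon
    push Not at hcon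
    apply h
    ext x
    simp [hcon x]
  · rintro ⟨x, hx⟩ rfl
    exact hx (ValuationSubring.mem_top x)

theorem comap_ne_top [CharZero M] [CharZero N] [Algebra.IsAlgebraic ℚ N] {A : ValuationSubring N}
    (hA : A ≠ ⊤) (f : M →+* N) : A.comap f ≠ ⊤ := by
  obtain ⟨p, hp, hpA⟩ := Rig5x931.exists_prime hA
  rw [ne_top_iff]
  refine ⟨(p : M)⁻¹, ?_⟩
  rw [ValuationSubring.mem_comap, map_inv₀, map_natCast]
  rcases lt_one_iff.mp hpA with h | h
  · exact absurd h (by exact_mod_cast hp.ne_zero)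
  · exact h

theorem Good.comap_surj [CharZero M] [CharZero N] [Algebra.IsAlgebraic ℚ N]
    {l : ℕ} {A : ValuationSubring N} (hA : Good l A) (f : M →+* N) (hf : Function.Surjective f) :
    Good l (A.comap f) where
  ne_top := comap_ne_top hA.ne_top f
  l_unit := by
    rw [comap_eq, map_natCast]
    exact hA.l_unit
  one_units := by
    intro x hx
    rw [comap_lt, map_sub, map_one] at hx
    obtain ⟨t, ht⟩ := hA.one_units _ hx
    obtain ⟨t', rfl⟩ := hf t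
    refine ⟨t', f.injective ?_⟩
    rw [map_pow, ht]

theorem Good.unique [CharZero M] [Algebra.IsAlgebraic ℚ M] {l : ℕ} (hl : l ≠ 0)
    {A A' : ValuationSubring M} (hA : Good l A) (hA' : Good l A') (hne : ∃ x : M, ∀ t, t ^ l ≠ x) :
    A = A' :=
  Rig5x931.unique hA.ne_top hA'.ne_top hl hA.one_units hA'.one_units hne

end good

/-! ### fixed fields -/

section fix

variable {Δ E : Type*} [Group Δ] [Field E] [MulSemiringAction Δ E]

/-- the field of `V`-fixed elements -/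
def K (E : Type*) [Field E] [MulSemiringAction Δ E] (V : Subgroup Δ) : Subfield E where
  carrier := {x | Fx V x}
  mul_mem' := fun ha hb => Fx.mul ha hb
  one_mem' := fx_one
  add_mem' := fun ha hb => Fx.add ha hb
  zero_mem' := fun g _ => smul_zero g
  neg_mem' := by
    intro x hx g hg
    rw [smul_neg, hx g hg]
  inv_mem' := fun _ hx => Fx.inv hx


theorem coe_zpow' {V : Subgroup Δ} (x : K E V) (k : ℤ) : ((x ^ k : K E V) : E) = (x : E) ^ k :=
  map_zpow₀ (K E V).subtype x k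

instance isAlg [CharZero E] [Algebra.IsAlgebraic ℚ E] (V : Subgroup Δ) :
    Algebra.IsAlgebraic ℚ (K E V) :=
  Algebra.IsAlgebraic.of_injective (K E V).subtype.toRatAlgHom (K E V).subtype.injective

/-- two independent Kummer classes -/
def RankGE (E : Type*) [Field E] [MulSemiringAction Δ E] (l : ℕ) (V : Subgroup Δ) : Prop :=
  ∀ a : E, Fx V a → a ≠ 0 → ∃ b : E, Fx V b ∧ b ≠ 0 ∧
    ∀ (k : ℤ) (z : E), Fx V z → z ^ l ≠ b * a ^ k

theorem rankGE_of_two {l : ℕ} [hl : Fact l.Prime] {V : Subgroup Δ} (b : Fin 2 → E)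
    (hb0 : ∀ i, b i ≠ 0) (hb : ∀ i, Fx V (b i))
    (h : ∀ (e : Fin 2 → ℤ) (z : E), Fx V z → z ^ l = b 0 ^ e 0 * b 1 ^ e 1 →
      (l : ℤ) ∣ e 0 ∧ (l : ℤ) ∣ e 1) : RankGE E l V := by
  intro a ha ha0
  by_contra hcon
  push Not at hcon
  obtain ⟨k0, z0, hz0, h0⟩ := hcon (b 0) (hb 0) (hb0 0)
  obtain ⟨k1, z1, hz1, h1⟩ := hcon (b 1) (hb 1) (hb0 1)
  have h2 := h ![k1, -k0] (z0 ^ k1 * z1 ^ (-k0)) ((hz0.zpow _).mul (hz1.zpow _)) (by
    simp only [Matrix.cons_val_zero, Matrix.cons_val_one]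
    rw [mul_pow, ← zpow_natCast, ← zpow_natCast, zpow_comm, zpow_comm (z1), zpow_natCast,
      zpow_natCast, h0, h1, mul_zpow, mul_zpow, ← zpow_mul, ← zpow_mul]
    have : a ^ (k0 * k1) * a ^ (k1 * -k0) = 1 := by
      rw [← zpow_add₀ ha0]
      ring_nf
      simp
    linear_combination (b 0 ^ k1 * b 1 ^ (-k0)) * this)
  simp only [Matrix.cons_val_zero, Matrix.cons_val_one, dvd_neg] at h2
  obtain ⟨⟨m, hm⟩, ⟨n, hn⟩⟩ := h2
  have h3 := h ![1, 0] (z0 * a ^ (-n)) (hz0.mul (ha.zpow _)) (by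
    simp only [Matrix.cons_val_zero, Matrix.cons_val_one, zpow_one, zpow_zero, mul_one]
    rw [mul_pow, h0, hn, ← zpow_natCast (a ^ (-n)) l, ← zpow_mul, mul_assoc, ← zpow_add₀ ha0]
    ring_nf
    simp)
  simp only [Matrix.cons_val_zero] at h3
  have h4 := Int.natCast_dvd_natCast.mp (by simpa using h3.1 : ((l : ℕ) : ℤ) ∣ ((1 : ℕ) : ℤ))
  exact hl.out.one_lt.ne' (Nat.dvd_one.mp h4)

theorem exists_not_pow {l : ℕ} {V : Subgroup Δ} (h : RankGE E l V) :
    ∃ x : K E V, ∀ t, t ^ l ≠ x := by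
  obtain ⟨b, hb, -, h1⟩ := h 1 fx_one one_ne_zero
  refine ⟨⟨b, hb⟩, fun t ht => h1 0 t.1 t.2 ?_⟩
  have := congrArg (fun x : K E V => (x : E)) ht
  simpa using this

/-- **existence of a good valuation ring of the fixed field** -/
theorem exists_good [CharZero E] [Algebra.IsAlgebraic ℚ E] {l : ℕ} [hl : Fact l.Prime]
    (hl3 : 3 ≤ l) (hroot : ∀ x : E, ∃ θ, θ ^ l = x) {ζ : E} (hζ : IsPrimitiveRoot ζ l)
    {V : Subgroup Δ} (hζV : Fx V ζ) (hge : RankGE E l V)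
    (hle : ∀ θ : E, Fx V (θ ^ l) → ¬ Fx V θ → RankLE E l (St V θ)) :
    ∃ A : ValuationSubring (K E V), Good l A := by
  let T : Subgroup (K E V)ˣ := (powMonoidHom l : (K E V)ˣ →* (K E V)ˣ).range
  obtain ⟨H, A, hTH, hH, hAH, hAT⟩ := Rig2x931.exists_valuationSubring l (by omega) T
    (fun x => ⟨x, rfl⟩)
    (by
      intro x y hx hxy
      obtain ⟨θ, hθ⟩ := hroot ((x : K E V) : E)
      have hxf : Fx V (((x : K E V)) : E) := (x : K E V).2
      have hθV : ¬ Fx V θ := by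
        intro hθV
        apply hx
        have hθ0 : θ ≠ 0 := by
          rintro rfl
          rw [zero_pow hl.out.ne_zero] at hθ
          exact x.ne_zero (Subtype.ext hθ.symm)
        refine ⟨Units.mk0 (⟨θ, hθV⟩ : K E V) (fun h => hθ0 (congrArg Subtype.val h)), ?_⟩
        apply Units.ext
        apply Subtype.ext
        simpa using hθ
      obtain ⟨k, m, hm, hmk⟩ := one_sub_mem hl3 V hζ hζV hθ hxf hθV
        (hle θ (by rw [hθ]; exact hxf) hθV)
      refine ⟨k, ?_⟩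
      have hy : (1 : E) - ((x : K E V) : E) = ((y : K E V) : E) := by
        have := congrArg (fun z : K E V => (z : E)) hxy
        simp only [Subfield.coe_add, Subfield.coe_one] at this
        rw [← this]
        ring
      have hm0 : m ≠ 0 := by
        rintro rfl
        rw [zero_pow hl.out.ne_zero, hy] at hmk
        rcases mul_eq_zero.mp hmk.symm with h | h
        · exact y.ne_zero (Subtype.ext h)
        · exact zpow_ne_zero k (fun h => x.ne_zero (Subtype.ext h)) h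
      refine ⟨Units.mk0 (⟨m, hm⟩ : K E V) (fun h => hm0 (congrArg Subtype.val h)), ?_⟩
      apply Units.ext
      apply Subtype.ext
      rw [hy] at hmk
      simpa [coe_zpow'] using hmk)
    (by
      intro a ha
      obtain ⟨b, hb, hb0, hbk⟩ := hge (((a : K E V)) : E) (a : K E V).2
        (fun h => a.ne_zero (Subtype.ext h))
      have hb' : Units.mk0 (⟨b, hb⟩ : K E V) (fun h => hb0 (congrArg Subtype.val h)) ∈
          T ⊔ Subgroup.zpowers a := by
        rw [ha]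
        exact Subgroup.mem_top _
      rw [Subgroup.mem_sup] at hb'
      obtain ⟨_, ⟨z, rfl⟩, _, ⟨k, rfl⟩, hzk⟩ := hb'
      apply hbk (-k) ((z : K E V) : E) (z : K E V).2
      have h1 := congrArg (fun u : (K E V)ˣ => ((u : K E V) : E)) hzk
      simp only [powMonoidHom_apply, Units.val_mul, Units.val_pow_eq_pow_val,
        Units.val_zpow_eq_zpow_val, Subfield.coe_mul, SubmonoidClass.coe_pow,
        Units.val_mk0, coe_zpow'] at h1
      rw [← h1, mul_assoc, ← zpow_add₀ (fun h => a.ne_zero (Subtype.ext h))]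
      simp)
  have hpow : ∀ x : (K E V)ˣ, x ^ l ∈ H := fun x => hTH ⟨x, rfl⟩
  have h1 : ∀ x : K E V, A.valuation (x - 1) < 1 → ∃ t, t ^ l = x := by
    intro x hx
    have hx0 : x ≠ 0 := by
      rintro rfl
      rw [zero_sub, Valuation.map_neg, map_one] at hx
      exact lt_irrefl _ hx
    obtain ⟨t, ht⟩ := hAT (x := Units.mk0 x hx0) (by
      rw [A.mem_principalUnitGroup_iff]
      exact hx)
    refine ⟨t, ?_⟩
    have := congrArg (fun u : (K E V)ˣ => (u : K E V)) ht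
    simpa using this
  refine ⟨A, ?_, ?_, h1⟩
  · rintro rfl
    apply hH
    rw [eq_top_iff]
    intro x _
    apply hAH
    rw [ValuationSubring.mem_unitGroup_iff, eq_one_iff, lt_one_iff]
    refine ⟨ValuationSubring.mem_top _, ?_⟩
    rintro (h | h)
    · exact x.ne_zero h
    · exact h (ValuationSubring.mem_top _)
  · exact Rig5x931.l_unit hl.out hH hpow hAH h1

end fix

end Crest.Agent.R018.Rig6x931
end

-- ▼ part R018/Rig7_931
section

/-!
# Row 18: gluing the valuation rings of the fixed fields (helper931)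

`Δ` acts on `E`, `𝒱` a family of normal subgroups closed under intersection, every element of `E` is
fixed by a member; every `V ∈ 𝒱` has at least two independent Kummer classes, and every
`V ∩ Stab(θ)`, `θ^l` fixed by `V`, `θ` not, has at most two.  Then there is a `Δ`-stable
valuation subring of `E` with `l` a unit (`exists_glued`).
-/

set_option autoImplicit false

open Finset

namespace Crest.Agent.R018.Rig7x931

open Crest.Agent.R018.Rig4x931 Crest.Agent.R018.Rig6x931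

variable {Δ E : Type*} [Group Δ] [Field E] [MulSemiringAction Δ E]

/-- action of `g` on the fixed field of a normal subgroup -/
def gact (V : Subgroup Δ) (hV : V.Normal) (g : Δ) : K E V →+* K E V where
  toFun x := ⟨g • (x : E), by
    intro v hv
    have h1 := hV.conj_mem v hv g⁻¹
    rw [inv_inv] at h1
    have h2 := x.2 _ h1
    rw [← mul_smul, show v * g = g * (g⁻¹ * v * g) by group, mul_smul, h2]⟩
  map_one' := Subtype.ext (smul_one g)
  map_mul' x y := Subtype.ext (smul_mul' g _ _)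
  map_zero' := Subtype.ext (smul_zero g)
  map_add' x y := Subtype.ext (smul_add g _ _)

theorem gact_coe (V : Subgroup Δ) (hV : V.Normal) (g : Δ) (x : K E V) :
    ((gact V hV g x : K E V) : E) = g • (x : E) := rfl

theorem gact_surj (V : Subgroup Δ) (hV : V.Normal) (g : Δ) :
    Function.Surjective (gact (E := E) V hV g) := by
  intro x
  refine ⟨gact V hV g⁻¹ x, Subtype.ext ?_⟩
  rw [gact_coe, gact_coe, smul_inv_smul]

/-- the inclusion of fixed fields -/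
def incl {V W : Subgroup Δ} (h : V ≤ W) : K E W →+* K E V where
  toFun x := ⟨x.1, Fx.mono h x.2⟩
  map_one' := rfl
  map_mul' _ _ := rfl
  map_zero' := rfl
  map_add' _ _ := rfl

theorem incl_coe {V W : Subgroup Δ} (h : V ≤ W) (x : K E W) :
    ((incl h x : K E V) : E) = (x : E) := rfl

theorem good_restrict [CharZero E] [Algebra.IsAlgebraic ℚ E] {l : ℕ} [hl : Fact l.Prime]
    {V W : Subgroup Δ} (hV : V.Normal) (h : V ≤ W) {ζ : E} (hζ : IsPrimitiveRoot ζ l)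
    (hζV : Fx V ζ) {A : ValuationSubring (K E V)} (hA : Good l A)
    (hinv : ∀ (g : Δ) (x : K E V), A.valuation x < 1 → A.valuation (gact V hV g x) < 1) :
    Good l (A.comap (incl h)) where
  ne_top := comap_ne_top hA.ne_top _
  l_unit := by
    rw [comap_eq, map_natCast]
    exact hA.l_unit
  one_units := by
    intro x hx
    rw [comap_lt, map_sub, map_one] at hx
    obtain ⟨t, ht⟩ := hA.one_units _ hx
    have hζ' : IsPrimitiveRoot (⟨ζ, hζV⟩ : K E V) l :=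
      IsPrimitiveRoot.of_map_of_injective (f := (K E V).subtype) hζ (K E V).subtype.injective
    obtain ⟨t', ht', ht1⟩ := exists_root_one hζ' ht hx
    have hfix : Fx W (t' : E) := by
      intro g hg
      have h1 : gact V hV g t' = t' := by
        apply root_unique hA.l_unit
        · rw [← map_pow, ht']
          apply Subtype.ext
          rw [gact_coe, incl_coe]
          exact x.2 g hg
        · have := hinv g _ ht1
          rwa [map_sub, map_one] at this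
        · exact ht1
      rw [← gact_coe V hV, h1]
    refine ⟨⟨t', hfix⟩, Subtype.ext ?_⟩
    have := congrArg (fun z : K E V => (z : E)) ht'
    simpa [incl_coe] using this

/-- the hypotheses on the family of subgroups -/
structure Fam (E : Type*) [Field E] [MulSemiringAction Δ E] (l : ℕ) (𝒱 : Set (Subgroup Δ)) :
    Prop where
  normal : ∀ V ∈ 𝒱, V.Normal
  inf : ∀ V ∈ 𝒱, ∀ W ∈ 𝒱, V ⊓ W ∈ 𝒱
  cover : ∀ x : E, ∃ V ∈ 𝒱, Fx V x
  ge : ∀ V ∈ 𝒱, RankGE E l V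
  le : ∀ V ∈ 𝒱, ∀ θ : E, Fx V (θ ^ l) → ¬ Fx V θ → RankLE E l (St V θ)

/-- **the glued valuation ring** -/
theorem exists_glued [CharZero E] [Algebra.IsAlgebraic ℚ E] {l : ℕ} [hl : Fact l.Prime]
    (hl3 : 3 ≤ l) (hroot : ∀ x : E, ∃ θ, θ ^ l = x) {ζ : E} (hζ : IsPrimitiveRoot ζ l)
    (hζΔ : ∀ g : Δ, g • ζ = ζ) {𝒱 : Set (Subgroup Δ)} (hF : Fam E l 𝒱) :
    ∃ A : ValuationSubring E, A ≠ ⊤ ∧ A.valuation (l : E) = 1 ∧
      (∀ (g : Δ) (x : E), x ∈ A → g • x ∈ A) ∧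
      ∀ V ∈ 𝒱, Good l (A.comap (K E V).subtype) := by
  have hζV : ∀ V : Subgroup Δ, Fx V ζ := fun V g _ => hζΔ g
  have hex : ∀ V (hV : V ∈ 𝒱), ∃ A : ValuationSubring (K E V), Good l A := fun V hV =>
    exists_good hl3 hroot hζ (hζV V) (hF.ge V hV) (hF.le V hV)
  choose Av hAv using hex
  have hu : ∀ V (hV : V ∈ 𝒱) (B : ValuationSubring (K E V)), Good l B → B = Av V hV :=
    fun V hV B hB => hB.unique hl.out.ne_zero (hAv V hV) (exists_not_pow (hF.ge V hV))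
  have hact : ∀ V (hV : V ∈ 𝒱) (g : Δ), (Av V hV).comap (gact V (hF.normal V hV) g) = Av V hV :=
    fun V hV g => hu V hV _ ((hAv V hV).comap_surj _ (gact_surj V _ g))
  have hlt : ∀ V (hV : V ∈ 𝒱) (g : Δ) (x : K E V), (Av V hV).valuation x < 1 →
      (Av V hV).valuation (gact V (hF.normal V hV) g x) < 1 := by
    intro V hV g x hx
    rw [← comap_lt, hact V hV g]
    exact hx
  have hres : ∀ V (hV : V ∈ 𝒱) W (hW : W ∈ 𝒱) (h : V ≤ W), (Av V hV).comap (incl h) = Av W hW :=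
    fun V hV W hW h => hu W hW _ (good_restrict (hF.normal V hV) h hζ (hζV V) (hAv V hV)
      (hlt V hV))
  have hmem : ∀ V (hV : V ∈ 𝒱) W (hW : W ∈ 𝒱) (x : E) (h1 : Fx V x) (h2 : Fx W x),
      (⟨x, h1⟩ : K E V) ∈ Av V hV → (⟨x, h2⟩ : K E W) ∈ Av W hW := by
    intro V hV W hW x h1 h2 hx
    have hVW := hF.inf V hV W hW
    have e1 := hres _ hVW V hV inf_le_left
    have e2 := hres _ hVW W hW inf_le_right
    rw [← e1, ValuationSubring.mem_comap] at hx
    rw [← e2, ValuationSubring.mem_comap]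
    exact hx
  let S : Subring E :=
    { carrier := {x | ∃ V, ∃ hV : V ∈ 𝒱, ∃ hx : Fx V x, (⟨x, hx⟩ : K E V) ∈ Av V hV}
      one_mem' := by
        obtain ⟨V, hV, hx⟩ := hF.cover 1
        exact ⟨V, hV, hx, (Av V hV).one_mem⟩
      zero_mem' := by
        obtain ⟨V, hV, hx⟩ := hF.cover 0
        exact ⟨V, hV, hx, (Av V hV).zero_mem⟩
      neg_mem' := by
        rintro x ⟨V, hV, hx, h⟩
        exact ⟨V, hV, (K E V).neg_mem hx, (Av V hV).neg_mem _ h⟩
      mul_mem' := by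
        rintro x y ⟨V, hV, hx, h⟩ ⟨W, hW, hy, h'⟩
        have hVW := hF.inf V hV W hW
        have h1 := hmem V hV _ hVW x hx (Fx.mono inf_le_left hx) h
        have h2 := hmem W hW _ hVW y hy (Fx.mono inf_le_right hy) h'
        exact ⟨_, hVW, (K E (V ⊓ W)).mul_mem (Fx.mono inf_le_left hx) (Fx.mono inf_le_right hy),
          (Av _ hVW).mul_mem _ _ h1 h2⟩
      add_mem' := by
        rintro x y ⟨V, hV, hx, h⟩ ⟨W, hW, hy, h'⟩
        have hVW := hF.inf V hV W hW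
        have h1 := hmem V hV _ hVW x hx (Fx.mono inf_le_left hx) h
        have h2 := hmem W hW _ hVW y hy (Fx.mono inf_le_right hy) h'
        exact ⟨_, hVW, (K E (V ⊓ W)).add_mem (Fx.mono inf_le_left hx) (Fx.mono inf_le_right hy),
          (Av _ hVW).add_mem _ _ h1 h2⟩ }
  have hS : ∀ x, x ∈ S ↔ ∃ V, ∃ hV : V ∈ 𝒱, ∃ hx : Fx V x, (⟨x, hx⟩ : K E V) ∈ Av V hV :=
    fun x => Iff.rfl
  let A : ValuationSubring E := ValuationSubring.ofSubring S (by
    intro x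
    obtain ⟨V, hV, hx⟩ := hF.cover x
    rcases (Av V hV).mem_or_inv_mem ⟨x, hx⟩ with h | h
    · exact Or.inl ⟨V, hV, hx, h⟩
    · exact Or.inr ⟨V, hV, (K E V).inv_mem hx, h⟩)
  have hA : ∀ x, x ∈ A ↔ x ∈ S := fun x => ValuationSubring.mem_ofSubring _ _ x
  have hAV : ∀ V (hV : V ∈ 𝒱), A.comap (K E V).subtype = Av V hV := by
    intro V hV
    ext x
    rw [ValuationSubring.mem_comap, hA, hS]
    constructor
    · rintro ⟨W, hW, hx, h⟩
      exact hmem W hW V hV _ hx x.2 h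
    · intro h
      exact ⟨V, hV, x.2, h⟩
  obtain ⟨V₀, hV₀, -⟩ := hF.cover 1
  refine ⟨A, ?_, ?_, ?_, ?_⟩
  · rw [ne_top_iff]
    obtain ⟨x, hx⟩ := ne_top_iff.mp (hAv V₀ hV₀).ne_top
    rw [← hAV V₀ hV₀, ValuationSubring.mem_comap] at hx
    exact ⟨_, hx⟩
  · have := (hAv V₀ hV₀).l_unit
    rw [← hAV V₀ hV₀, comap_eq, map_natCast] at this
    exact this
  · intro g x hx
    rw [hA, hS] at hx ⊢
    obtain ⟨V, hV, hx, h⟩ := hx
    refine ⟨V, hV, (gact V (hF.normal V hV) g ⟨x, hx⟩).2, ?_⟩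
    rw [← hact V hV g, ValuationSubring.mem_comap] at h
    exact h
  · intro V hV
    rw [hAV V hV]
    exact hAv V hV

end Crest.Agent.R018.Rig7x931
end

-- ▼ part R018/Rig8_931
section

/-!
# Row 18: the place fixed by a group with rank two Kummer theory everywhere (helper931)
-/

set_option autoImplicit false

open Finset

namespace Crest.Agent.R018.Rig8x931

open Crest.Agent.R018.Rig4x931 Crest.Agent.R018.Rig6x931 Crest.Agent.R018.Rig7x931
open Crest.Agent.R018.Placesx484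

section

variable {Δ E : Type*} [Group Δ] [Field E] [MulSemiringAction Δ E]

/-- two independent Kummer classes, two element form -/
def Two (E : Type*) [Field E] [MulSemiringAction Δ E] (l : ℕ) (V : Subgroup Δ) : Prop :=
  ∃ b c : E, b ≠ 0 ∧ c ≠ 0 ∧ Fx V b ∧ Fx V c ∧
    ∀ m n : ℤ, (∃ z, Fx V z ∧ z ^ l = b ^ m * c ^ n) → (l : ℤ) ∣ m ∧ (l : ℤ) ∣ n

theorem Two.rankGE {l : ℕ} [hl : Fact l.Prime] {V : Subgroup Δ} (h : Two E l V) :
    RankGE E l V := by
  obtain ⟨b, c, hb0, hc0, hb, hc, h⟩ := h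
  refine rankGE_of_two ![b, c] ?_ ?_ ?_
  · intro i
    fin_cases i
    · exact hb0
    · exact hc0
  · intro i
    fin_cases i
    · exact hb
    · exact hc
  · intro e z hz hzl
    exact h _ _ ⟨z, hz, hzl⟩

variable [CharZero E] [Algebra.IsAlgebraic ℚ E]

theorem exists_place' {l : ℕ} [hl : Fact l.Prime]
    (hl3 : 3 ≤ l) (hroot : ∀ x : E, ∃ θ, θ ^ l = x) {ζ : E} (hζ : IsPrimitiveRoot ζ l)
    (hζΔ : ∀ g : Δ, g • ζ = ζ) {𝒱 : Set (Subgroup Δ)} (hF : Fam E l 𝒱) :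
    ∃ Q : Place E, Q.v (l : E) = 1 ∧ (∀ g : Δ, g • Q = Q) ∧
      ∀ V ∈ 𝒱, Good l (Q.val.comap (K E V).subtype) := by
  obtain ⟨A, hA, hAl, hinv, hgood⟩ := exists_glued hl3 hroot hζ hζΔ hF
  refine ⟨Place.ofVal A hA, ?_, ?_, ?_⟩
  · show (Place.ofVal A hA).val.valuation (l : E) = 1
    rw [Place.val_ofVal]
    exact hAl
  · intro g
    apply Place.ext_of_val
    ext x
    rw [Place.mem_smul_val, Place.val_ofVal]
    constructor
    · intro h
      have := hinv g _ h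
      rwa [smul_inv_smul] at this
    · exact hinv g⁻¹ x
  · intro V hV
    rw [Place.val_ofVal]
    exact hgood V hV

end

/-! ### subgroups of an ambient group -/

section sub

variable {G E : Type*} [Group G] [Field E] [MulSemiringAction G E]

theorem fx_subgroupOf (V₀ N : Subgroup G) (x : E) : Fx (N.subgroupOf V₀) x ↔ Fx (V₀ ⊓ N) x := by
  constructor
  · intro h g hg
    exact h ⟨g, hg.1⟩ (Subgroup.mem_subgroupOf.mpr hg.2)
  · intro h g hg
    exact h (g : G) ⟨g.2, Subgroup.mem_subgroupOf.mp hg⟩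

theorem fx_St_subgroupOf (V₀ N : Subgroup G) (θ x : E) :
    Fx (St (N.subgroupOf V₀) θ) x ↔ Fx (St (V₀ ⊓ N) θ) x := by
  constructor
  · intro h g hg
    rw [mem_St] at hg
    exact h ⟨g, hg.1.1⟩ (mem_St.mpr ⟨Subgroup.mem_subgroupOf.mpr hg.1.2, hg.2⟩)
  · intro h g hg
    rw [mem_St] at hg
    exact h (g : G) (mem_St.mpr ⟨⟨g.2, Subgroup.mem_subgroupOf.mp hg.1⟩, hg.2⟩)

/-- **the local correspondence, rigid part.**  `V₀` a subgroup of `G`, `𝒩` a family of normal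
subgroups of `G` closed under intersections such that every element of `E` is fixed by a member.
If for all `N ∈ 𝒩` the group `V₀ ⊓ N` has two independent Kummer classes and all its subgroups
`Stab(θ)`, `θ ^ l` fixed and `θ` not fixed by `V₀ ⊓ N`, have at most two, then `V₀` fixes a place
`Q` of `E` not above `l`. -/
theorem exists_place {l : ℕ} [hl : Fact l.Prime] [CharZero E] [Algebra.IsAlgebraic ℚ E]
    (hl3 : 3 ≤ l) (hroot : ∀ x : E, ∃ θ, θ ^ l = x) {ζ : E} (hζ : IsPrimitiveRoot ζ l)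
    (V₀ : Subgroup G) (hζV : Fx V₀ ζ) (𝒩 : Set (Subgroup G))
    (hnormal : ∀ N ∈ 𝒩, N.Normal)
    (hinf : ∀ N ∈ 𝒩, ∀ N' ∈ 𝒩, N ⊓ N' ∈ 𝒩)
    (hcover : ∀ x : E, ∃ N ∈ 𝒩, Fx (V₀ ⊓ N) x)
    (hge : ∀ N ∈ 𝒩, ∃ b c : E, b ≠ 0 ∧ c ≠ 0 ∧ Fx (V₀ ⊓ N) b ∧ Fx (V₀ ⊓ N) c ∧
      ∀ m n : ℤ, (∃ z, Fx (V₀ ⊓ N) z ∧ z ^ l = b ^ m * c ^ n) → (l : ℤ) ∣ m ∧ (l : ℤ) ∣ n)
    (hle : ∀ N ∈ 𝒩, ∀ θ : E, Fx (V₀ ⊓ N) (θ ^ l) → ¬ Fx (V₀ ⊓ N) θ →
      RankLE E l (St (V₀ ⊓ N) θ)) :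
    ∃ Q : Place E, Q.v (l : E) = 1 ∧ Q.rchar ≠ l ∧ (∀ g ∈ V₀, g • Q = Q) ∧
      ∀ N ∈ 𝒩, ∀ x : E, Fx (V₀ ⊓ N) x → Q.v (x - 1) < 1 → ∃ t, Fx (V₀ ⊓ N) t ∧ t ^ l = x := by
  have hF : Fam E l {V : Subgroup V₀ | ∃ N ∈ 𝒩, V = N.subgroupOf V₀} := by
    refine ⟨?_, ?_, ?_, ?_, ?_⟩
    · rintro _ ⟨N, hN, rfl⟩
      haveI := hnormal N hN
      infer_instance
    · rintro _ ⟨N, hN, rfl⟩ _ ⟨N', hN', rfl⟩
      exact ⟨N ⊓ N', hinf N hN N' hN', rfl⟩
    · intro x
      obtain ⟨N, hN, h⟩ := hcover x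
      exact ⟨_, ⟨N, hN, rfl⟩, (fx_subgroupOf V₀ N x).mpr h⟩
    · rintro _ ⟨N, hN, rfl⟩
      apply Two.rankGE
      obtain ⟨b, c, hb0, hc0, hb, hc, h⟩ := hge N hN
      refine ⟨b, c, hb0, hc0, (fx_subgroupOf V₀ N b).mpr hb, (fx_subgroupOf V₀ N c).mpr hc, ?_⟩
      rintro m n ⟨z, hz, hzl⟩
      exact h m n ⟨z, (fx_subgroupOf V₀ N z).mp hz, hzl⟩
    · rintro _ ⟨N, hN, rfl⟩ θ hθ hθ' b hb0 hb
      obtain ⟨e, he, z, hz, hzl⟩ := hle N hN θ ((fx_subgroupOf V₀ N _).mp hθ)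
        (fun h => hθ' ((fx_subgroupOf V₀ N _).mpr h)) b hb0
        (fun i => (fx_St_subgroupOf V₀ N θ _).mp (hb i))
      exact ⟨e, he, z, (fx_St_subgroupOf V₀ N θ _).mpr hz, hzl⟩
  obtain ⟨Q, hQl, hQ, hgood⟩ := exists_place' hl3 hroot hζ (Δ := V₀)
    (fun g => hζV g g.2) hF
  refine ⟨Q, hQl, ?_, fun g hg => hQ ⟨g, hg⟩, ?_⟩
  · intro h
    rw [Place.v_natCast_eq_one_iff] at hQl
    exact hQl (by rw [h])
  · intro N hN x hx hx1
    have h1 := hgood _ ⟨N, hN, rfl⟩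
    obtain ⟨t, ht⟩ := h1.one_units ⟨x, (fx_subgroupOf V₀ N x).mpr hx⟩ (by
      rw [comap_lt]
      exact hx1)
    refine ⟨t, (fx_subgroupOf V₀ N _).mp t.2, ?_⟩
    have := congrArg (fun z : K E (N.subgroupOf V₀) => (z : E)) ht
    simpa using this

end sub

end Crest.Agent.R018.Rig8x931
end

-- ▼ part R018/LCC_484
section

/-!
# Local correspondence, part C: the theorem (row 18, helper484)
-/

set_option autoImplicit false

open NumberField Pointwise

namespace Crest.Agent.R018.LCCx484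

open Crest.Agent.R018.Placesx484
open Crest.Agent.R018.Placesx484.Place
open Crest.Agent.R018.Tamex31
open Crest.Agent.R018.Rig4x931
open Crest.Agent.R018.LCAx484
open Crest.Agent.R018.LCBx484

section

variable {F₁ E₁ F₂ E₂ : Type*} [Field F₁] [Field E₁] [Algebra F₁ E₁] [Field F₂] [Field E₂]
  [Algebra F₂ E₂] [IsGalois F₁ E₁]
  {α : (E₁ ≃ₐ[F₁] E₁) →* (E₂ ≃ₐ[F₂] E₂)} {A : ValuationSubring E₁}

/-- the two basic Kummer elements -/
theorem exists_basis [Algebra.IsIntegral F₂ E₂] (hα : Continuous α) {l : ℕ} (hl : l.Prime)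
    (hl2 : l ≠ 2) (hlA : A.valuation (l : E₁) = 1)
    (hr₁ : ∀ n, ∃ ζ : E₁, IsPrimitiveRoot ζ (l ^ n))
    (hr₂ : ∀ n, ∃ ζ : E₂, IsPrimitiveRoot ζ (l ^ n))
    (hroot : ∀ y : E₂, ∃ z, z ^ l = y)
    {U : Subgroup (E₁ ≃ₐ[F₁] E₁)} (hUA : U ≤ decS F₁ A)
    (hμ : ∀ u ∈ U, ∀ z : E₂, z ^ l = 1 → α u z = z)
    {s : E₁ ≃ₐ[F₁] E₁} (hs : s ∈ U) {c : ℕ} (hc : 2 ≤ c)
    (hsc : ∀ n, ∀ ζ : E₁, ζ ^ (l ^ n) = 1 → s ζ = ζ ^ c)
    (hunr : UnrDep A l U)
    {x : E₁ ≃ₐ[F₁] E₁} (hx : x ∈ U) (hxI : x ∈ inS F₁ A) {n : ℕ} {y : E₂} (hy0 : y ≠ 0)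
    (hy : ∀ u ∈ U, α u (y ^ (l ^ n)) = y ^ (l ^ n)) (hxy : α x y ≠ y) :
    ∃ β γ : E₂, β ≠ 0 ∧ (∀ u ∈ U, α u (β ^ l) = β ^ l) ∧
      (∃ x' ∈ U, x' ∈ inS F₁ A ∧ α x' β ≠ β) ∧ (∀ u ∈ U, α u (γ ^ l) = γ ^ l) ∧
      (∃ J, 0 < J ∧ γ ^ (l ^ J) = 1) ∧ (∃ u₀ ∈ U, α u₀ γ ≠ γ) := by
  haveI : Fact l.Prime := ⟨hl⟩
  haveI : NeZero l := ⟨hl.ne_zero⟩
  have hI : ∀ u ∈ U, u ∈ inS F₁ A → ∀ j, ∀ z : E₂, z ^ (l ^ j) = 1 → α u z = z :=
    fun u hu huI j z hz => cyc_inertia hα hl hl2 hlA hr₁ hr₂ hUA hμ hs hc hsc hu huI j z hz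
  -- `s` acts as `c` on all `l`-power roots of unity of `E₂`
  have hsz : ∀ j, ∀ z : E₂, z ^ (l ^ j) = 1 → α s z = z ^ c := by
    intro j z hz
    obtain ⟨Y, hY⟩ := exists_pow_root hroot j y
    obtain ⟨ζ₁, hζ₁⟩ := hr₁ (n + j)
    obtain ⟨ζ₂, hζ₂⟩ := hr₂ (n + j)
    have hY0 : Y ≠ 0 := by
      rintro rfl
      rw [zero_pow (pow_ne_zero _ hl.ne_zero)] at hY
      exact hy0 hY.symm
    refine cyc_compat hα hl hlA hUA (n := n + j) hζ₁ hζ₂ (fun u hu huI => hI u hu huI _) hY0 ?_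
      hx hxI (m := j) ?_ hs (hsc _ _ hζ₁.pow_eq_one) z ?_
    · intro u hu
      have : Y ^ (l ^ (n + j)) = y ^ (l ^ n) := by
        rw [pow_add, mul_comm, pow_mul, hY]
      rw [this]; exact hy u hu
    · rw [hY]; exact hxy
    · rw [pow_succ, pow_mul, hz, one_pow]
  -- the level `k`
  have hex : ∃ j, ∃ u ∈ U, ∃ z : E₂, z ^ (l ^ j) = 1 ∧ α u z ≠ z := by
    obtain ⟨ζ, hζ⟩ := hr₂ c
    refine ⟨c, s, hs, ζ, hζ.pow_eq_one, fun h => ?_⟩
    have h1 := hsz c ζ hζ.pow_eq_one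
    rw [h] at h1
    have h2 := prim_pow_mod hζ (pow_pos hl.pos _) ((pow_one ζ).trans h1)
    have h3 : c < l ^ c := Nat.lt_pow_self hl.one_lt
    rw [Nat.mod_eq_of_lt (by omega), Nat.mod_eq_of_lt h3] at h2
    omega
  classical
  obtain ⟨u₀, hu₀, z₀, hz₀, hu₀z₀⟩ := Nat.find_spec hex
  set J := Nat.find hex with hJ
  have hJmin : ∀ j < J, ∀ u ∈ U, ∀ z : E₂, z ^ (l ^ j) = 1 → α u z = z := by
    intro j hj u hu z hz
    by_contra hcon
    exact Nat.find_min hex hj ⟨u, hu, z, hz, hcon⟩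
  have hJ1 : 2 ≤ J := by
    by_contra hcon
    have : J = 0 ∨ J = 1 := by omega
    rcases this with h | h
    · rw [h, pow_zero, pow_one] at hz₀
      apply hu₀z₀
      rw [hz₀, map_one]
    · rw [h, pow_one] at hz₀
      exact hu₀z₀ (hμ u₀ hu₀ z₀ hz₀)
  obtain ⟨γ, hγ⟩ := hr₂ J
  haveI : NeZero (l ^ J) := ⟨pow_ne_zero _ hl.ne_zero⟩
  have hγ0 : γ ≠ 0 := hγ.ne_zero (pow_ne_zero _ hl.ne_zero)
  have hγu : α u₀ γ ≠ γ := by
    intro h
    apply hu₀z₀
    obtain ⟨i, _, hi⟩ := hγ.eq_pow_of_pow_eq_one hz₀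
    rw [← hi, map_pow, h]
  have hγl : ∀ u ∈ U, α u (γ ^ l) = γ ^ l := by
    intro u hu
    apply hJmin (J - 1) (by omega) u hu
    rw [← pow_mul, ← pow_succ', Nat.sub_add_cancel (by omega), hγ.pow_eq_one]
  have hKγ : KData α U l γ := ⟨hγ0, hγl, hμ⟩
  -- the ramified element of level one
  obtain ⟨e, -⟩ : ∃ _e : rootsOfUnity l E₂ ≃* Multiplicative (ZMod l), True := by
    obtain ⟨ζ, hζ⟩ := hr₂ 1
    rw [pow_one] at hζ
    have hcard : Nat.card (rootsOfUnity l E₂) = l := hζ.card_rootsOfUnity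
    have hcyc : IsCyclic (rootsOfUnity l E₂) := rootsOfUnity.isCyclic E₂ l
    exact ⟨mulEquivOfCyclicCardEq (by rw [hcard]; simp), trivial⟩
  have hstep : ∀ n : ℕ, ∀ y : E₂, y ≠ 0 → (∀ u ∈ U, α u (y ^ (l ^ n)) = y ^ (l ^ n)) →
      α x y ≠ y → ∃ β : E₂, β ≠ 0 ∧ (∀ u ∈ U, α u (β ^ l) = β ^ l) ∧
        ∃ x' ∈ U, x' ∈ inS F₁ A ∧ α x' β ≠ β := by
    intro n
    induction n with
    | zero =>
      intro y _ hy hxy
      exact absurd (by simpa using hy x hx) hxy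
    | succ n ih =>
      intro y hy0 hy hxy
      by_cases hram : ∃ x' ∈ U, x' ∈ inS F₁ A ∧ α x' (y ^ (l ^ n)) ≠ y ^ (l ^ n)
      · refine ⟨y ^ (l ^ n), pow_ne_zero _ hy0, ?_, hram⟩
        intro u hu
        rw [← pow_mul, ← pow_succ]; exact hy u hu
      · push Not at hram
        have hKb : KData α U l (y ^ (l ^ n)) := ⟨pow_ne_zero _ hy0, fun u hu => by
          rw [← pow_mul, ← pow_succ]; exact hy u hu, hμ⟩
        obtain ⟨m, k, hmk, hdep⟩ := hunr (e.toMonoidHom.comp hKγ.kap) (e.toMonoidHom.comp hKb.kap)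
          ((hKγ.openKer hα).comp _) ((hKb.openKer hα).comp _) (by
            intro u hu
            constructor
            · have : hKγ.kap u = 1 := (hKγ.kap_eq_one_iff u).2
                (hI u u.2 hu J γ hγ.pow_eq_one)
              simp [this]
            · have : hKb.kap u = 1 := (hKb.kap_eq_one_iff u).2 (hram u u.2 hu)
              simp [this])
        have hdep' : ∀ u : U, hKγ.kap u ^ m * hKb.kap u ^ k = 1 := by
          intro u
          apply e.injective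
          rw [map_mul, map_zpow, map_zpow, map_one]
          exact hdep u
        have hroot1 : ∀ ω : rootsOfUnity l E₂, ω ^ (l : ℤ) = 1 := by
          intro ω
          rw [zpow_natCast]
          exact Subtype.ext ((mem_rootsOfUnity l _).1 ω.2)
        have hk : ¬ (l : ℤ) ∣ k := by
          rintro ⟨k', rfl⟩
          have h1 := hdep' ⟨u₀, hu₀⟩
          rw [zpow_mul, hroot1, one_zpow, mul_one] at h1
          have h2 : hKγ.kap ⟨u₀, hu₀⟩ = 1 := by
            have hco : IsCoprime m (l : ℤ) := hmk.of_mul_right_left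
            obtain ⟨a, b, hab⟩ := hco
            calc hKγ.kap ⟨u₀, hu₀⟩ = (hKγ.kap ⟨u₀, hu₀⟩) ^ (a * m + b * l) := by
                  rw [hab, zpow_one]
              _ = 1 := by
                  rw [zpow_add, mul_comm a, zpow_mul, h1, one_zpow, one_mul, mul_comm b,
                    zpow_mul, hroot1, one_zpow]
          exact hγu ((hKγ.kap_eq_one_iff _).1 h2)
        obtain ⟨Γ, hΓ⟩ := exists_pow_root hroot n γ
        have hΓ0 : Γ ≠ 0 := by
          rintro rfl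
          rw [zero_pow (pow_ne_zero _ hl.ne_zero)] at hΓ
          exact hγ0 hΓ.symm
        have hΓ1 : Γ ^ (l ^ (n + J)) = 1 := by rw [pow_add, pow_mul, hΓ, hγ.pow_eq_one]
        have hy1 : (y ^ k * Γ ^ m) ^ (l ^ n) = (y ^ (l ^ n)) ^ k * γ ^ m := by
          rw [mul_pow, ← zpow_natCast, ← zpow_natCast, ← zpow_mul, ← zpow_mul, mul_comm k,
            mul_comm m, zpow_mul, zpow_mul, zpow_natCast, zpow_natCast, hΓ]
        refine ih (y ^ k * Γ ^ m) (mul_ne_zero (zpow_ne_zero _ hy0) (zpow_ne_zero _ hΓ0)) ?_ ?_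
        · intro u hu
          rw [hy1, map_mul, map_zpow₀, map_zpow₀,
            show α u (y ^ (l ^ n)) = _ from hKb.kap_spec ⟨u, hu⟩,
            show α u γ = _ from hKγ.kap_spec ⟨u, hu⟩, mul_zpow, mul_zpow]
          have h1 := congrArg (fun z : rootsOfUnity l E₂ => ((z : E₂ˣ) : E₂)) (hdep' ⟨u, hu⟩)
          simp only [Subgroup.coe_mul, Subgroup.coe_zpow, Units.val_mul, Units.val_zpow_eq_zpow_val,
            Subgroup.coe_one, Units.val_one] at h1
          linear_combination (y ^ (l ^ n)) ^ k * γ ^ m * h1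
        · intro h
          rw [map_mul, map_zpow₀, map_zpow₀, hI x hx hxI (n + J) Γ hΓ1] at h
          have h1 : (α x y) ^ k = y ^ k := mul_right_cancel₀ (zpow_ne_zero _ hΓ0) h
          have h2 : (α x y / y) ^ k = 1 := by
            rw [div_zpow, h1, div_self (zpow_ne_zero _ hy0)]
          have h3 : (α x y / y) ^ (l ^ (n + 1)) = 1 := by
            rw [div_pow, ← map_pow, hy x hx, div_self (pow_ne_zero _ hy0)]
          refine coprime_pow_ne_one hl h3 ?_ hk h2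
          intro h4
          exact hxy ((div_eq_one_iff_eq hy0).1 h4)
  obtain ⟨β, hβ0, hβ, hx'⟩ := hstep n y hy0 hy hxy
  exact ⟨β, γ, hβ0, hβ, hx', hγl, ⟨J, by omega, hγ.pow_eq_one⟩, u₀, hu₀, hγu⟩

/-- Kummer roots of units of the fixed field are not moved by the inertia of the source. -/
theorem unit_fixed [Algebra.IsIntegral F₂ E₂] {l : ℕ} (hl : l.Prime)
    {B : ValuationSubring E₂} (hlB : B.valuation (l : E₂) = 1)
    (hr₂ : ∃ ζ : E₂, IsPrimitiveRoot ζ l) (hroot : ∀ y : E₂, ∃ z, z ^ l = y)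
    {U : Subgroup (E₁ ≃ₐ[F₁] E₁)}
    (hμ : ∀ u ∈ U, ∀ z : E₂, z ^ l = 1 → α u z = z)
    (hI : ∀ u ∈ U, u ∈ inS F₁ A → ∀ j, ∀ z : E₂, z ^ (l ^ j) = 1 → α u z = z)
    (hunr : UnrDep B l (U.map α))
    {γ : E₂} (hγl : ∀ u ∈ U, α u (γ ^ l) = γ ^ l) {J : ℕ} (hJ : γ ^ (l ^ J) = 1)
    {u₀ : E₁ ≃ₐ[F₁] E₁} (hu₀ : u₀ ∈ U) (hγu : α u₀ γ ≠ γ)
    (n : ℕ) (η : E₂) (hη : B.valuation η = 1)
    (hηU : ∀ u ∈ U, α u (η ^ (l ^ n)) = η ^ (l ^ n)) {x : E₁ ≃ₐ[F₁] E₁} (hx : x ∈ U)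
    (hxI : x ∈ inS F₁ A) : α x η = η := by
  haveI : Fact l.Prime := ⟨hl⟩
  haveI : NeZero l := ⟨hl.ne_zero⟩
  haveI : Algebra.IsAlgebraic F₂ E₂ := inferInstance
  have hγ0 : γ ≠ 0 := by
    rintro rfl
    rw [zero_pow (pow_ne_zero _ hl.ne_zero)] at hJ
    exact zero_ne_one hJ
  obtain ⟨e, -⟩ : ∃ _e : rootsOfUnity l E₂ ≃* Multiplicative (ZMod l), True := by
    obtain ⟨ζ, hζ⟩ := hr₂
    have hcard : Nat.card (rootsOfUnity l E₂) = l := hζ.card_rootsOfUnity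
    have hcyc : IsCyclic (rootsOfUnity l E₂) := rootsOfUnity.isCyclic E₂ l
    exact ⟨mulEquivOfCyclicCardEq (by rw [hcard]; simp), trivial⟩
  have hVμ : ∀ g ∈ U.map α, ∀ z : E₂, z ^ l = 1 → (MonoidHom.id _) g z = z := by
    rintro g ⟨u, hu, rfl⟩ z hz
    exact hμ u hu z hz
  have hγV : ∀ g ∈ U.map α, (MonoidHom.id (E₂ ≃ₐ[F₂] E₂)) g (γ ^ l) = γ ^ l := by
    rintro g ⟨u, hu, rfl⟩
    exact hγl u hu
  have hKγ : KData (MonoidHom.id (E₂ ≃ₐ[F₂] E₂)) (U.map α) l γ := ⟨hγ0, hγV, hVμ⟩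
  -- a unit whose `l`-th power is fixed is not moved by the inertia of the target
  have hin : ∀ w : E₂, B.valuation w = 1 → (∀ u ∈ U, α u (w ^ l) = w ^ l) →
      ∀ g ∈ U.map α, g ∈ inS F₂ B → g w = w := by
    rintro w hw hwl g ⟨u, hu, rfl⟩ hg
    have hw0 : w ≠ 0 := by rintro rfl; simp at hw
    have h1 := in_unit hg hw
    have h2 : (α u w / w) ^ l = 1 := by
      rw [div_pow, ← map_pow, hwl u hu, div_self (pow_ne_zero _ hw0)]
    have h3 := root_eq_one hlB h2 h1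
    exact (div_eq_one_iff_eq hw0).1 h3
  have hvγ : B.valuation γ = 1 := by
    have h1 : B.valuation γ ^ (l ^ J) = 1 := by rw [← map_pow, hJ, map_one]
    exact (pow_eq_one_iff_of_nonneg zero_le (pow_ne_zero _ hl.ne_zero)).mp h1
  induction n generalizing η with
  | zero => simpa using hηU x hx
  | succ n ih =>
    have hη0 : η ≠ 0 := by rintro rfl; simp at hη
    set θ := η ^ (l ^ n) with hθ
    have hθ0 : θ ≠ 0 := pow_ne_zero _ hη0
    have hθl : ∀ u ∈ U, α u (θ ^ l) = θ ^ l := by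
      intro u hu
      rw [hθ, ← pow_mul, ← pow_succ]; exact hηU u hu
    have hθv : B.valuation θ = 1 := by rw [hθ, map_pow, hη, one_pow]
    have hKθ : KData (MonoidHom.id (E₂ ≃ₐ[F₂] E₂)) (U.map α) l θ := ⟨hθ0, by
      rintro g ⟨u, hu, rfl⟩; exact hθl u hu, hVμ⟩
    obtain ⟨m, k, hmk, hdep⟩ := hunr (e.toMonoidHom.comp hKγ.kap) (e.toMonoidHom.comp hKθ.kap)
      ((hKγ.openKer continuous_id).comp _) ((hKθ.openKer continuous_id).comp _) (by
        intro u hu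
        constructor
        · have : hKγ.kap u = 1 := (hKγ.kap_eq_one_iff u).2 (hin γ hvγ hγl u u.2 hu)
          simp [this]
        · have : hKθ.kap u = 1 := (hKθ.kap_eq_one_iff u).2 (hin θ hθv hθl u u.2 hu)
          simp [this])
    have hdep' : ∀ u : U.map α, hKγ.kap u ^ m * hKθ.kap u ^ k = 1 := by
      intro u
      apply e.injective
      rw [map_mul, map_zpow, map_zpow, map_one]
      exact hdep u
    have hroot1 : ∀ ω : rootsOfUnity l E₂, ω ^ (l : ℤ) = 1 := by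
      intro ω
      rw [zpow_natCast]
      exact Subtype.ext ((mem_rootsOfUnity l _).1 ω.2)
    have hmem : ∀ u ∈ U, α u ∈ U.map α := fun u hu => Subgroup.mem_map_of_mem α hu
    have hk : ¬ (l : ℤ) ∣ k := by
      rintro ⟨k', rfl⟩
      have h1 := hdep' ⟨α u₀, hmem u₀ hu₀⟩
      rw [zpow_mul, hroot1, one_zpow, mul_one] at h1
      have h2 : hKγ.kap ⟨α u₀, hmem u₀ hu₀⟩ = 1 := by
        have hco : IsCoprime m (l : ℤ) := hmk.of_mul_right_left
        obtain ⟨a, b, hab⟩ := hco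
        calc hKγ.kap ⟨α u₀, hmem u₀ hu₀⟩ = (hKγ.kap ⟨α u₀, hmem u₀ hu₀⟩) ^ (a * m + b * l) := by
              rw [hab, zpow_one]
          _ = 1 := by
              rw [zpow_add, mul_comm a, zpow_mul, h1, one_zpow, one_mul, mul_comm b,
                zpow_mul, hroot1, one_zpow]
      exact hγu ((hKγ.kap_eq_one_iff _).1 h2)
    obtain ⟨Γ, hΓ⟩ := exists_pow_root hroot n γ
    have hΓ0 : Γ ≠ 0 := by
      rintro rfl
      rw [zero_pow (pow_ne_zero _ hl.ne_zero)] at hΓ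
      exact hγ0 hΓ.symm
    have hΓ1 : Γ ^ (l ^ (n + J)) = 1 := by rw [pow_add, pow_mul, hΓ, hJ]
    have hvΓ : B.valuation Γ = 1 := by
      have h1 : B.valuation Γ ^ (l ^ (n + J)) = 1 := by rw [← map_pow, hΓ1, map_one]
      exact (pow_eq_one_iff_of_nonneg zero_le (pow_ne_zero _ hl.ne_zero)).mp h1
    have hy1 : (η ^ k * Γ ^ m) ^ (l ^ n) = θ ^ k * γ ^ m := by
      rw [mul_pow, ← zpow_natCast, ← zpow_natCast, ← zpow_mul, ← zpow_mul, mul_comm k,
        mul_comm m, zpow_mul, zpow_mul, zpow_natCast, zpow_natCast, hΓ]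
    have h := ih (η ^ k * Γ ^ m) (by
      rw [map_mul, map_zpow₀, map_zpow₀, hη, hvΓ, one_zpow, one_zpow, one_mul]) (by
      intro u hu
      rw [hy1, map_mul, map_zpow₀, map_zpow₀,
        show α u θ = _ from hKθ.kap_spec ⟨α u, hmem u hu⟩,
        show α u γ = _ from hKγ.kap_spec ⟨α u, hmem u hu⟩, mul_zpow, mul_zpow]
      have h1 := congrArg (fun z : rootsOfUnity l E₂ => ((z : E₂ˣ) : E₂))
        (hdep' ⟨α u, hmem u hu⟩)
      simp only [Subgroup.coe_mul, Subgroup.coe_zpow, Units.val_mul, Units.val_zpow_eq_zpow_val,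
        Subgroup.coe_one, Units.val_one] at h1
      linear_combination θ ^ k * γ ^ m * h1)
    rw [map_mul, map_zpow₀, map_zpow₀, hI x hx hxI (n + J) Γ hΓ1] at h
    have h1 : (α x η) ^ k = η ^ k := mul_right_cancel₀ (zpow_ne_zero _ hΓ0) h
    have h2 : (α x η / η) ^ k = 1 := by
      rw [div_zpow, h1, div_self (zpow_ne_zero _ hη0)]
    have h3 : (α x η / η) ^ (l ^ (n + 1)) = 1 := by
      rw [div_pow, ← map_pow, hηU x hx, div_self (pow_ne_zero _ hη0)]
    by_contra hcon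
    exact coprime_pow_ne_one hl h3 (fun h4 => hcon ((div_eq_one_iff_eq hη0).1 h4)) hk h2

/-- cyclotomic compatibility for elements `d` of the decomposition group normalising `U`. -/
theorem cyc_dec [Algebra.IsIntegral F₂ E₂] (hα : Continuous α) {l : ℕ} (hl : l.Prime)
    (hlA : A.valuation (l : E₁) = 1)
    {B : ValuationSubring E₂} (hlB : B.valuation (l : E₂) = 1)
    (hr₂ : ∀ n, ∃ ζ : E₂, IsPrimitiveRoot ζ (l ^ n)) (hroot : ∀ y : E₂, ∃ z, z ^ l = y)
    {U : Subgroup (E₁ ≃ₐ[F₁] E₁)}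
    (hμ : ∀ u ∈ U, ∀ z : E₂, z ^ l = 1 → α u z = z)
    (hI : ∀ u ∈ U, u ∈ inS F₁ A → ∀ j, ∀ z : E₂, z ^ (l ^ j) = 1 → α u z = z)
    (hunr : UnrDep B l (U.map α))
    {γ : E₂} (hγl : ∀ u ∈ U, α u (γ ^ l) = γ ^ l) {J : ℕ} (hJ : γ ^ (l ^ J) = 1)
    {u₀ : E₁ ≃ₐ[F₁] E₁} (hu₀ : u₀ ∈ U) (hγu : α u₀ γ ≠ γ)
    {β : E₂} (hβ0 : β ≠ 0) (hβ : ∀ u ∈ U, α u (β ^ l) = β ^ l)
    {x : E₁ ≃ₐ[F₁] E₁} (hx : x ∈ U) (hxI : x ∈ inS F₁ A) (hxβ : α x β ≠ β)
    {d : E₁ ≃ₐ[F₁] E₁} (hd : d ∈ decS F₁ A) (hdB : α d ∈ decS F₂ B)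
    (hdU : ∀ u ∈ U, d * u * d⁻¹ ∈ U) {n : ℕ}
    {ζ₁ : E₁} (hζ₁ : IsPrimitiveRoot ζ₁ (l ^ (n + 1))) {c : ℕ} (hdc : d ζ₁ = ζ₁ ^ c) (z : E₂)
    (hz : z ^ (l ^ (n + 1)) = 1) : α d z = z ^ c := by
  haveI : Fact l.Prime := ⟨hl⟩
  haveI : NeZero (l ^ (n + 1)) := ⟨pow_ne_zero _ hl.ne_zero⟩
  haveI : NeZero l := ⟨hl.ne_zero⟩
  haveI : Algebra.IsAlgebraic F₂ E₂ := inferInstance
  obtain ⟨y, hyβ⟩ := exists_pow_root hroot n β
  have hy0 : y ≠ 0 := by
    rintro rfl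
    rw [zero_pow (pow_ne_zero _ hl.ne_zero)] at hyβ
    exact hβ0 hyβ.symm
  have hy : ∀ u ∈ U, α u (y ^ (l ^ (n + 1))) = y ^ (l ^ (n + 1)) := by
    intro u hu
    rw [pow_succ, pow_mul, hyβ]; exact hβ u hu
  let V : Subgroup (E₁ ≃ₐ[F₁] E₁) := U ⊓ inS F₁ A
  have hK : KData α V (l ^ (n + 1)) y :=
    ⟨hy0, fun u hu => hy u hu.1, fun u hu => hI u hu.1 hu.2 (n + 1)⟩
  have hcyc : IsCyclic (rootsOfUnity (l ^ (n + 1)) E₂) := rootsOfUnity.isCyclic E₂ (l ^ (n + 1))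
  obtain ⟨ζ₂, hζ₂⟩ := hr₂ (n + 1)
  obtain ⟨ζl, hζl⟩ := hr₂ 1
  rw [pow_one] at hζl
  have hcard : Nat.card (rootsOfUnity (l ^ (n + 1)) E₂) = l ^ (n + 1) := hζ₂.card_rootsOfUnity
  have hN : A.valuation ((l ^ (n + 1) : ℕ) : E₁) = 1 := by
    rw [Nat.cast_pow, map_pow, hlA, one_pow]
  have hsV : ∀ y ∈ V, d * y * d⁻¹ ∈ V := fun y hy => ⟨hdU y hy.1, conj_mem_inS hd hy.2⟩
  have key := conj_eq_pow (inf_le_right : V ≤ inS F₁ A) hN hζ₁ (by rw [hcard])
    hK.kap (hK.openKer hα) hd hsV hdc ⟨x, hx, hxI⟩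
  set κ : E₂ := ((hK.kap ⟨x, hx, hxI⟩ : E₂ˣ) : E₂) with hκ
  have hκy : α x y = κ * y := hK.kap_spec ⟨x, hx, hxI⟩
  have hκn : κ ^ (l ^ (n + 1)) = 1 := by
    have := (mem_rootsOfUnity (l ^ (n + 1)) _).1 (hK.kap ⟨x, hx, hxI⟩).2
    rw [hκ, ← Units.val_pow_eq_pow_val, this, Units.val_one]
  have h1 : α (d * x * d⁻¹) y = κ ^ c * y := by
    have := hK.kap_spec ⟨d * x * d⁻¹, hsV x ⟨hx, hxI⟩⟩
    rw [key] at this
    simpa [hκ] using this
  -- direct computation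
  set w := α d⁻¹ y with hw
  have hsw : α d w = y := by
    rw [hw, ← AlgEquiv.mul_apply, ← map_mul, mul_inv_cancel, map_one, AlgEquiv.one_apply]
  set η := w / y with hη
  have hwη : w = η * y := by rw [hη]; field_simp
  have hvη : B.valuation η = 1 := by
    have hd' : α d⁻¹ ∈ decS F₂ B := by rw [map_inv]; exact (decS F₂ B).inv_mem hdB
    rw [hη, map_div₀, hw, dec_val_eq hd', div_self]
    simpa using hy0
  have hηU : ∀ u ∈ U, α u (η ^ (l ^ (n + 1))) = η ^ (l ^ (n + 1)) := by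
    intro u hu
    rw [hη, div_pow, map_div₀, hy u hu]
    congr 1
    have h2 : α u (w ^ (l ^ (n + 1))) = α d⁻¹ (α (d * u * d⁻¹) (y ^ (l ^ (n + 1)))) := by
      rw [hw, ← map_pow, ← AlgEquiv.mul_apply, ← AlgEquiv.mul_apply, ← map_mul, ← map_mul]
      congr 2
      group
    rw [h2, hy _ (hdU u hu), hw, map_pow]
  have hxη : α x η = η := unit_fixed hl hlB ⟨ζl, hζl⟩ hroot hμ hI hunr hγl hJ hu₀ hγu (n + 1) η
    hvη hηU hx hxI
  have h2 : α (d * x * d⁻¹) y = α d κ * y := by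
    rw [map_mul, map_mul, AlgEquiv.mul_apply, AlgEquiv.mul_apply, ← hw, hwη, map_mul,
      hxη, hκy]
    have : η * (κ * y) = κ * w := by rw [hwη]; ring
    rw [this, map_mul, hsw]
  have h3 : α d κ = κ ^ c := mul_right_cancel₀ hy0 (h2.symm.trans h1)
  have hκ1 : κ ^ (l ^ n) ≠ 1 := by
    intro h
    apply hxβ
    rw [← hyβ, map_pow, hκy, mul_pow, h, one_mul]
  have hprim : IsPrimitiveRoot κ (l ^ (n + 1)) := by
    have h4 : orderOf κ = l ^ (n + 1) := orderOf_eq_prime_pow hκ1 hκn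
    rw [← h4]; exact IsPrimitiveRoot.orderOf κ
  obtain ⟨i, _, hi⟩ := hprim.eq_pow_of_pow_eq_one hz
  rw [← hi, map_pow, h3, ← pow_mul, ← pow_mul, mul_comm]

end

end Crest.Agent.R018.LCCx484
end

-- ▼ part R018/LCD_484
section

/-!
# Local correspondence, part D: the Kummer element and the levels (row 18, helper484)
-/

set_option autoImplicit false

open NumberField Pointwise

namespace Crest.Agent.R018.LCDx484

open Crest.Agent.R018.Placesx484
open Crest.Agent.R018.Placesx484.Place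
open Crest.Agent.R018.Tamex31
open Crest.Agent.R018.Rig4x931
open Crest.Agent.R018.LCAx484
open Crest.Agent.R018.LCBx484
open Crest.Agent.R018.LCCx484

section basics

variable {F E : Type*} [Field F] [Field E] [Algebra F E]

/-- the elements acting trivially on the `l`-th roots of unity -/
def muFix (F E : Type*) [Field F] [Field E] [Algebra F E] (l : ℕ) : Subgroup (E ≃ₐ[F] E) where
  carrier := {g | ∀ z : E, z ^ l = 1 → g z = z}
  mul_mem' := by
    intro a b ha hb z hz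
    rw [AlgEquiv.mul_apply, hb z hz, ha z hz]
  one_mem' := fun z _ => rfl
  inv_mem' := by
    intro a ha z hz
    have h1 := ha z hz
    conv_lhs => rw [← h1]
    rw [← AlgEquiv.mul_apply, inv_mul_cancel, AlgEquiv.one_apply]

theorem mem_muFix {l : ℕ} {g : E ≃ₐ[F] E} : g ∈ muFix F E l ↔ ∀ z : E, z ^ l = 1 → g z = z :=
  Iff.rfl

theorem isOpen_muFix [Algebra.IsIntegral F E] {l : ℕ} [NeZero l] {ζ : E}
    (hζ : IsPrimitiveRoot ζ l) : IsOpen (muFix F E l : Set (E ≃ₐ[F] E)) := by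
  have h1 : muFix F E l = MulAction.stabilizer (E ≃ₐ[F] E) ζ := by
    ext g
    rw [mem_muFix, MulAction.mem_stabilizer_iff]
    constructor
    · intro h
      exact h ζ hζ.pow_eq_one
    · intro h z hz
      obtain ⟨i, _, hi⟩ := hζ.eq_pow_of_pow_eq_one hz
      rw [← hi, map_pow]
      exact congrArg (· ^ i) h
  rw [h1]
  exact stabilizer_isOpen_of_isIntegral ζ

/-- an open subgroup contains an open normal one -/
theorem exists_normal_le [IsGalois F E] {W : Subgroup (E ≃ₐ[F] E)}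
    (hW : IsOpen (W : Set (E ≃ₐ[F] E))) :
    ∃ N : Subgroup (E ≃ₐ[F] E), N.Normal ∧ IsOpen (N : Set (E ≃ₐ[F] E)) ∧ N ≤ W := by
  obtain ⟨N, hN⟩ := ProfiniteGrp.exist_openNormalSubgroup_sub_open_nhds_of_one hW
    (Subgroup.one_mem _)
  exact ⟨N.toSubgroup, inferInstance, N.isOpen', hN⟩

theorem pow_mem_of_isOpen [IsGalois F E] {W : Subgroup (E ≃ₐ[F] E)}
    (hW : IsOpen (W : Set (E ≃ₐ[F] E))) (g : E ≃ₐ[F] E) : ∃ n : ℕ, 0 < n ∧ g ^ n ∈ W := by
  have : Finite ((E ≃ₐ[F] E) ⧸ W) := Subgroup.quotient_finite_of_isOpen W hW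
  have h := Subgroup.finiteIndex_of_finite_quotient (H := W)
  obtain ⟨n, hn, -, h1⟩ := Subgroup.exists_pow_mem_of_index_ne_zero (H := W) h.index_ne_zero g
  exact ⟨n, hn, h1⟩

/-- Lagrange resolvents -/
theorem exists_lagrange {l : ℕ} (hl : l.Prime) (hl0 : (l : E) ≠ 0) {ζ : E}
    (hζ : IsPrimitiveRoot ζ l) {σ : E ≃ₐ[F] E} (hσζ : σ ζ = ζ) {θ : E} (hθl : (σ ^ l) θ = θ)
    (hθ : σ θ ≠ θ) : ∃ β : E, β ≠ 0 ∧ σ β ≠ β ∧ σ (β ^ l) = β ^ l := by
  classical
  have hζ0 : ζ ≠ 0 := hζ.ne_zero hl.ne_zero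
  let B : ℕ → E := fun j => ∑ i ∈ Finset.range l, (ζ⁻¹ ^ j) ^ i * (σ ^ i) θ
  have hB : ∀ j, σ (B j) = ζ ^ j * B j := by
    intro j
    have h1 : σ (B j) = ∑ i ∈ Finset.range l, (ζ⁻¹ ^ j) ^ i * (σ ^ (i + 1)) θ := by
      rw [map_sum]
      refine Finset.sum_congr rfl fun i _ => ?_
      rw [map_mul, map_pow, map_pow, map_inv₀, hσζ, pow_succ', AlgEquiv.mul_apply]
    have h2 : ζ ^ j * B j = ∑ i ∈ Finset.range l, ζ ^ j * ((ζ⁻¹ ^ j) ^ i * (σ ^ i) θ) := by
      rw [Finset.mul_sum]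
    have h3 : ∀ i, (ζ⁻¹ ^ j) ^ i * (σ ^ (i + 1)) θ =
        ζ ^ j * ((ζ⁻¹ ^ j) ^ (i + 1) * (σ ^ (i + 1)) θ) := by
      intro i
      rw [pow_succ (ζ⁻¹ ^ j)]
      have : ζ ^ j * ζ⁻¹ ^ j = 1 := by rw [← mul_pow, mul_inv_cancel₀ hζ0, one_pow]
      linear_combination (-(ζ⁻¹ ^ j) ^ i * (σ ^ (i + 1)) θ) * this
    rw [h1, h2, Finset.sum_congr rfl fun i _ => h3 i]
    have h4 := Finset.sum_range_succ (fun i => ζ ^ j * ((ζ⁻¹ ^ j) ^ i * (σ ^ i) θ)) l
    have h5 := Finset.sum_range_succ' (fun i => ζ ^ j * ((ζ⁻¹ ^ j) ^ i * (σ ^ i) θ)) l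
    rw [h4] at h5
    have h6 : ζ ^ j * ((ζ⁻¹ ^ j) ^ l * (σ ^ l) θ) = ζ ^ j * ((ζ⁻¹ ^ j) ^ 0 * (σ ^ 0) θ) := by
      rw [hθl, ← pow_mul, mul_comm j l, pow_mul, inv_pow, hζ.pow_eq_one, inv_one, one_pow,
        pow_zero, pow_zero, AlgEquiv.one_apply]
    rw [h6] at h5
    exact (add_right_cancel h5).symm
  have hsum : ∑ j ∈ Finset.range l, B j = l * θ := by
    simp only [B]
    rw [Finset.sum_comm]
    have h1 : ∀ i ∈ Finset.range l, ∑ j ∈ Finset.range l, (ζ⁻¹ ^ j) ^ i * (σ ^ i) θ =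
        if i = 0 then (l : E) * θ else 0 := by
      intro i hi
      rw [← Finset.sum_mul]
      split_ifs with h0
      · subst h0
        simp
      · have h2 : ∑ j ∈ Finset.range l, (ζ⁻¹ ^ j) ^ i = 0 := by
          have h3 : ∀ j, (ζ⁻¹ ^ j) ^ i = (ζ⁻¹ ^ i) ^ j := fun j => by
            rw [← pow_mul, ← pow_mul, mul_comm]
          rw [Finset.sum_congr rfl fun j _ => h3 j]
          have h4 : (ζ⁻¹ ^ i) ^ l = 1 := by
            rw [← pow_mul, mul_comm, pow_mul, inv_pow, hζ.pow_eq_one, inv_one, one_pow]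
          have h5 : ζ⁻¹ ^ i ≠ 1 := by
            rw [inv_pow, Ne, inv_eq_one]
            exact hζ.pow_ne_one_of_pos_of_lt h0 (Finset.mem_range.1 hi)
          have h6 := geom_sum_mul (ζ⁻¹ ^ i) l
          rw [h4, sub_self] at h6
          rcases mul_eq_zero.1 h6 with h7 | h7
          · exact h7
          · exact absurd (sub_eq_zero.1 h7) h5
        rw [h2, zero_mul]
    rw [Finset.sum_congr rfl h1, Finset.sum_ite_eq' (Finset.range l) 0,
      if_pos (Finset.mem_range.2 hl.pos)]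
  by_contra hcon
  push Not at hcon
  have hzero : ∀ j ∈ Finset.range l, j ≠ 0 → B j = 0 := by
    intro j hj hj0
    by_contra hBj
    have h1 : ζ ^ j ≠ 1 := hζ.pow_ne_one_of_pos_of_lt hj0 (Finset.mem_range.1 hj)
    refine hcon (B j) hBj ?_ ?_
    · rw [hB j]
      intro h2
      exact h1 (mul_right_cancel₀ hBj (h2.trans (one_mul _).symm))
    · rw [map_pow, hB j, mul_pow, ← pow_mul, mul_comm j l, pow_mul, hζ.pow_eq_one, one_pow,
        one_mul]
  have h1 : ∑ j ∈ Finset.range l, B j = B 0 :=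
    Finset.sum_eq_single_of_mem 0 (Finset.mem_range.2 hl.pos) hzero
  rw [hsum] at h1
  apply hθ
  have h2 := hB 0
  rw [pow_zero, one_mul, ← h1, map_mul, map_natCast] at h2
  exact mul_left_cancel₀ hl0 h2

end basics

section choice

variable {F₁ E₁ F₂ E₂ : Type*} [Field F₁] [Field E₁] [Algebra F₁ E₁] [Field F₂] [Field E₂]
  [Algebra F₂ E₂] [IsGalois F₂ E₂]
  {α : (E₁ ≃ₐ[F₁] E₁) →* (E₂ ≃ₐ[F₂] E₂)}

/-- the Kummer element: some power of `x` has an image acting nontrivially on an `l`-th root of a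
fixed element. -/
theorem exists_kummer [CharZero E₂] {l : ℕ} (hl : l.Prime) (_hl2 : l ≠ 2) {ζ : E₂}
    (hζ : IsPrimitiveRoot ζ l) (x : E₁ ≃ₐ[F₁] E₁) {N : Subgroup (E₂ ≃ₐ[F₂] E₂)}
    (hNo : IsOpen (N : Set (E₂ ≃ₐ[F₂] E₂))) (hN : ∀ n : ℕ, (α x) ^ n ∈ N → l ∣ n) :
    ∃ (e : ℕ) (β : E₂), β ≠ 0 ∧ α (x ^ e) ∈ muFix F₂ E₂ l ∧ α (x ^ e) β ≠ β ∧
      α (x ^ e) (β ^ l) = β ^ l := by
  classical
  have : NeZero l := ⟨hl.ne_zero⟩
  have : Fact l.Prime := ⟨hl⟩
  set C := muFix F₂ E₂ l with hC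
  have hCo : IsOpen (C : Set (E₂ ≃ₐ[F₂] E₂)) := isOpen_muFix hζ
  -- the `l - 1`-th power acts trivially on the `l`-th roots of unity
  have hx1 : α (x ^ (l - 1)) ∈ C := by
    let a : (E₂ ≃ₐ[F₂] E₂) →* (ZMod l)ˣ := hζ.autToPow F₂
    have ha : a (α x ^ (l - 1)) = 1 := by
      rw [map_pow]
      have := ZMod.units_pow_card_sub_one_eq_one l (a (α x))
      exact this
    have h1 := hζ.autToPow_spec F₂ (α x ^ (l - 1))
    rw [show hζ.autToPow F₂ (α x ^ (l - 1)) = 1 from ha] at h1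
    have h2 : ((1 : (ZMod l)ˣ) : ZMod l).val = 1 := by
      rw [Units.val_one, ZMod.val_one_eq_one_mod, Nat.mod_eq_of_lt hl.one_lt]
    rw [h2, pow_one] at h1
    rw [hC, mem_muFix, map_pow]
    intro z hz
    obtain ⟨i, _, hi⟩ := hζ.eq_pow_of_pow_eq_one hz
    rw [← hi, map_pow, ← h1]
  set N₁ := N ⊓ C with hN₁
  have hN₁o : IsOpen (N₁ : Set (E₂ ≃ₐ[F₂] E₂)) := hNo.inter hCo
  have hex : ∃ r : ℕ, 0 < r ∧ (α (x ^ (l - 1))) ^ r ∈ N₁ := pow_mem_of_isOpen hN₁o _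
  obtain ⟨hr0, hr⟩ := Nat.find_spec hex
  set r := Nat.find hex with hrdef
  have hl1 : 0 < l - 1 := by have := hl.two_le; omega
  have hdvd : l ∣ r := by
    have h1 : (α x) ^ ((l - 1) * r) ∈ N := by
      have := hr.1
      rwa [← map_pow, ← pow_mul, map_pow] at this
    rcases hl.dvd_mul.1 (hN _ h1) with h2 | h2
    · exact absurd (Nat.le_of_dvd hl1 h2) (by omega)
    · exact h2
  obtain ⟨r', hr'⟩ := hdvd
  have hr'0 : 0 < r' := by
    rcases Nat.eq_zero_or_pos r' with h | h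
    · rw [h, mul_zero] at hr'; omega
    · exact h
  have hlt : r' < r := by
    rw [hr']
    exact lt_mul_of_one_lt_left hr'0 hl.one_lt
  have hnot : (α (x ^ (l - 1))) ^ r' ∉ N₁ := fun h => Nat.find_min hex hlt ⟨hr'0, h⟩
  set σ := (α (x ^ (l - 1))) ^ r' with hσ
  have hσl : σ ^ l ∈ N₁ := by
    rw [hσ, ← pow_mul, mul_comm, ← hr']
    exact hr
  have hσC : σ ∈ C := C.pow_mem hx1 _
  -- an element of the fixed field moved by `σ`
  have hfix : ∃ θ : E₂, (∀ g ∈ N₁, g θ = θ) ∧ σ θ ≠ θ := by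
    by_contra hcon
    push Not at hcon
    apply hnot
    have hcl : IsClosed (N₁ : Set (E₂ ≃ₐ[F₂] E₂)) := Subgroup.isClosed_of_isOpen N₁ hN₁o
    have h1 := InfiniteGalois.fixingSubgroup_fixedField (⟨N₁, hcl⟩ : ClosedSubgroup (E₂ ≃ₐ[F₂] E₂))
    change (IntermediateField.fixedField N₁).fixingSubgroup = N₁ at h1
    rw [← h1]
    rw [IntermediateField.mem_fixingSubgroup_iff]
    intro y hy
    exact hcon y (fun g hg => hy ⟨g, hg⟩)
  obtain ⟨θ, hθN, hθ⟩ := hfix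
  obtain ⟨β, hβ0, hβ, hβl⟩ := exists_lagrange hl (Nat.cast_ne_zero.2 hl.ne_zero) hζ
    (hσC ζ hζ.pow_eq_one) (hθN _ hσl) hθ
  have hσe : α (x ^ ((l - 1) * r')) = σ := by rw [pow_mul, map_pow]
  refine ⟨(l - 1) * r', β, hβ0, ?_, ?_, ?_⟩
  · rw [hσe]; exact hσC
  · rw [hσe]; exact hβ
  · rw [hσe]; exact hβl

end choice

section level

variable {F₁ E₁ F₂ E₂ : Type*} [Field F₁] [Field E₁] [Algebra F₁ E₁] [Field F₂] [Field E₂]
  [Algebra F₂ E₂]

/-- the elements of the decomposition group of `P` whose image fixes the `l`-th roots of unity and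
`β ^ l`. -/
def DG (α : (E₁ ≃ₐ[F₁] E₁) →* (E₂ ≃ₐ[F₂] E₂)) (l : ℕ) (P : Place E₁) (β : E₂) :
    Subgroup (E₁ ≃ₐ[F₁] E₁) :=
  MulAction.stabilizer (E₁ ≃ₐ[F₁] E₁) P ⊓
    (muFix F₂ E₂ l ⊓ MulAction.stabilizer (E₂ ≃ₐ[F₂] E₂) (β ^ l)).comap α

variable {α : (E₁ ≃ₐ[F₁] E₁) →* (E₂ ≃ₐ[F₂] E₂)} {l : ℕ} {P : Place E₁} {β : E₂}

theorem mem_DG {u : E₁ ≃ₐ[F₁] E₁} : u ∈ DG α l P β ↔ u • P = P ∧
    (∀ z : E₂, z ^ l = 1 → α u z = z) ∧ α u (β ^ l) = β ^ l := Iff.rfl

variable [NumberField F₁] [CharZero E₁] [Algebra.IsAlgebraic ℚ E₁] [IsGalois F₁ E₁]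
  [IsGalois F₂ E₂]

omit [NumberField F₁] [Algebra.IsAlgebraic ℚ E₁] in
theorem isClosed_stab (P : Place E₁) :
    IsClosed (MulAction.stabilizer (E₁ ≃ₐ[F₁] E₁) P : Set (E₁ ≃ₐ[F₁] E₁)) :=
  Place.isClosed_stabilizer P

theorem isOpen_WW (hl : l.Prime) {ζ : E₂} (hζ : IsPrimitiveRoot ζ l) :
    IsOpen ((muFix F₂ E₂ l ⊓ MulAction.stabilizer (E₂ ≃ₐ[F₂] E₂) (β ^ l) :
      Subgroup (E₂ ≃ₐ[F₂] E₂)) : Set (E₂ ≃ₐ[F₂] E₂)) := by
  have : NeZero l := ⟨hl.ne_zero⟩
  exact (isOpen_muFix hζ).inter (stabilizer_isOpen_of_isIntegral _)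

/-- every level contains a Frobenius like element and a ramified Kummer element -/
theorem level (hα : Continuous α) (hl : l.Prime) (hl2 : l ≠ 2) (hP : P.rchar ≠ l)
    (hr₁ : ∀ n, ∃ ζ : E₁, IsPrimitiveRoot ζ (l ^ n))
    (hr₂ : ∀ n, ∃ ζ : E₂, IsPrimitiveRoot ζ (l ^ n))
    (hroot : ∀ y : E₂, ∃ z, z ^ l = y)
    {x : E₁ ≃ₐ[F₁] E₁} (hxI : x ∈ P.ideal.inertia (E₁ ≃ₐ[F₁] E₁)) (hβ0 : β ≠ 0)
    (hxμ : α x ∈ muFix F₂ E₂ l) (hxβ : α x β ≠ β) (hxβl : α x (β ^ l) = β ^ l)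
    {N : Subgroup (E₂ ≃ₐ[F₂] E₂)} (hN : IsOpen (N : Set (E₂ ≃ₐ[F₂] E₂))) :
    ∃ s ∈ DG α l P β ⊓ N.comap α, ∃ c : ℕ, 2 ≤ c ∧
      (∀ n, ∀ ζ : E₁, ζ ^ (l ^ n) = 1 → s ζ = ζ ^ c) ∧
      ∃ x' ∈ DG α l P β ⊓ N.comap α, x' ∈ inS F₁ P.val ∧ ∃ (n : ℕ) (y : E₂), y ≠ 0 ∧
        (∀ u ∈ DG α l P β ⊓ N.comap α, α u (y ^ (l ^ n)) = y ^ (l ^ n)) ∧ α x' y ≠ y := by
  have : NeZero l := ⟨hl.ne_zero⟩
  have : Fact l.Prime := ⟨hl⟩
  obtain ⟨ζl, hζl⟩ := hr₂ 1
  rw [pow_one] at hζl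
  have hlA := val_prime_eq_one P hl hP
  have hPl : ∀ n, ¬ P.rchar ∣ l ^ n := fun n h =>
    hP ((Nat.prime_dvd_prime_iff_eq P.rchar_prime hl).1 (P.rchar_prime.dvd_of_dvd_pow h))
  -- Frobenius
  obtain ⟨φ, hφP, hφ⟩ := exists_frob (F := F₁) P
  have hq := one_lt_qv (F := F₁) P
  set q := P.qv F₁ with hqdef
  have hφζ : ∀ m n, ∀ ζ : E₁, ζ ^ (l ^ n) = 1 → (φ ^ m) ζ = ζ ^ (q ^ m) := by
    intro m
    induction m with
    | zero => intro n ζ _; simp
    | succ m ih =>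
      intro n ζ hζ
      have h1 : φ ζ = ζ ^ q := frob_root P hφ (hPl n) hζ
      rw [pow_succ, AlgEquiv.mul_apply, h1, map_pow, ih n ζ hζ, ← pow_mul, ← pow_succ]
  have hWo := isOpen_WW (F₂ := F₂) (β := β) hl hζl
  -- both elements have powers in the level
  have hpow : ∀ g : E₁ ≃ₐ[F₁] E₁, g • P = P → ∀ M : Subgroup (E₂ ≃ₐ[F₂] E₂),
      IsOpen (M : Set (E₂ ≃ₐ[F₂] E₂)) → ∃ m : ℕ, 0 < m ∧ g ^ m ∈ DG α l P β ⊓ M.comap α := by
    intro g hg M hM
    obtain ⟨m, hm, h1⟩ := pow_mem_of_isOpen (W := (muFix F₂ E₂ l ⊓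
      MulAction.stabilizer (E₂ ≃ₐ[F₂] E₂) (β ^ l)) ⊓ M) (hWo.inter hM) (α g)
    have h2 : α (g ^ m) ∈ (muFix F₂ E₂ l ⊓ MulAction.stabilizer (E₂ ≃ₐ[F₂] E₂) (β ^ l)) ⊓ M := by
      rw [map_pow]; exact h1
    exact ⟨m, hm, ⟨(MulAction.stabilizer (E₁ ≃ₐ[F₁] E₁) P).pow_mem hg m, h2.1⟩, h2.2⟩
  have hxP : x • P = P := smul_eq_of_mem_inertia P hxI
  have hxI' : x ∈ inS F₁ P.val := (mem_inS_val P x).2 hxI
  have hxD : x ∈ DG α l P β := mem_DG.2 ⟨hxP, hxμ, hxβl⟩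
  have hDdec : DG α l P β ≤ decS F₁ P.val := fun u hu => (mem_decS_val P u).2 (mem_DG.1 hu).1
  -- inertia acts trivially on `l`-power roots of unity through `α`
  obtain ⟨m₀, hm₀, hφm₀⟩ := hpow φ hφP ⊤ isOpen_univ
  have hI : ∀ j, ∀ z : E₂, z ^ (l ^ j) = 1 → α x z = z := by
    intro j z hz
    exact cyc_inertia (A := P.val) hα hl hl2 hlA hr₁ hr₂ hDdec (fun u hu => (mem_DG.1 hu).2.1)
      hφm₀.1 (c := q ^ m₀) (lt_of_lt_of_le hq (Nat.le_self_pow hm₀.ne' q))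
      (fun n ζ hζ => hφζ m₀ n ζ hζ) hxD hxI' j z hz
  obtain ⟨m, hm, hφm⟩ := hpow φ hφP N hN
  obtain ⟨m', hm', hxm'⟩ := hpow x hxP N hN
  refine ⟨φ ^ m, hφm, q ^ m, lt_of_lt_of_le hq (Nat.le_self_pow hm.ne' q),
    fun n ζ hζ => hφζ m n ζ hζ, x ^ m', hxm', (inS F₁ P.val).pow_mem hxI' m', ?_⟩
  obtain ⟨y, hy⟩ := exists_pow_root hroot m' β
  have hy0 : y ≠ 0 := by
    rintro rfl
    rw [zero_pow (pow_ne_zero _ hl.ne_zero)] at hy
    exact hβ0 hy.symm
  have hyl : y ^ (l ^ (m' + 1)) = β ^ l := by rw [pow_succ, pow_mul, hy]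
  refine ⟨m' + 1, y, hy0, ?_, ?_⟩
  · intro u hu
    rw [hyl]
    exact (mem_DG.1 hu.1).2.2
  · set κ := α x y / y with hκ
    have hκy : α x y = κ * y := by rw [hκ, div_mul_cancel₀ _ hy0]
    have hκ1 : κ ^ (l ^ (m' + 1)) = 1 := by
      rw [hκ, div_pow, ← map_pow, hyl, hxβl, div_self (pow_ne_zero _ hβ0)]
    have hκ2 : κ ^ (l ^ m') ≠ 1 := by
      intro h
      apply hxβ
      rw [← hy, map_pow, hκy, mul_pow, h, one_mul]
    have hord : orderOf κ = l ^ (m' + 1) := orderOf_eq_prime_pow hκ2 hκ1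
    have hpow' : ∀ j : ℕ, α (x ^ j) y = κ ^ j * y := by
      intro j
      induction j with
      | zero => simp
      | succ j ih =>
        have h1 : α x (κ ^ j) = κ ^ j := by rw [map_pow, hI _ κ hκ1]
        rw [pow_succ', map_mul, AlgEquiv.mul_apply, ih, map_mul, h1, hκy, pow_succ, mul_assoc]
    rw [hpow']
    intro h
    have h1 : κ ^ m' = 1 := mul_right_cancel₀ hy0 (h.trans (one_mul y).symm)
    have h2 := orderOf_dvd_of_pow_eq_one h1
    rw [hord] at h2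
    have h3 := Nat.le_of_dvd hm' h2
    have h4 : m' < l ^ m' := Nat.lt_pow_self hl.one_lt
    have h5 : l ^ m' ≤ l ^ (m' + 1) := Nat.pow_le_pow_right hl.pos (by omega)
    omega

end level

end Crest.Agent.R018.LCDx484
end

-- ▼ part R018/LCE_484
section

/-!
# Local correspondence, part E: the theorem (row 18, helper484)
-/

set_option autoImplicit false

open NumberField Pointwise

namespace Crest.Agent.R018.LCEx484

open Crest.Agent.R018.Placesx484
open Crest.Agent.R018.Placesx484.Place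
open Crest.Agent.R018.Tamex31
open Crest.Agent.R018.Rig4x931
open Crest.Agent.R018.LCAx484
open Crest.Agent.R018.LCBx484
open Crest.Agent.R018.LCCx484
open Crest.Agent.R018.LCDx484

section uniq

variable {F E : Type*} [Field F] [Field E] [CharZero E] [Algebra.IsAlgebraic ℚ E] [Algebra F E]
  [IsGalois F E]

omit [CharZero E] [Algebra.IsAlgebraic ℚ E] in
theorem isClosed_map {F₁ E₁ : Type*} [Field F₁] [Field E₁] [Algebra F₁ E₁] [IsGalois F₁ E₁]
    {α : (E₁ ≃ₐ[F₁] E₁) →* (E ≃ₐ[F] E)} (hα : Continuous α) {U : Subgroup (E₁ ≃ₐ[F₁] E₁)}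
    (hU : IsClosed (U : Set (E₁ ≃ₐ[F₁] E₁))) : IsClosed (U.map α : Set (E ≃ₐ[F] E)) := by
  rw [Subgroup.coe_map]
  exact (hU.isCompact.image hα).isClosed

/-- a closed group whose fixed field has a nontrivial Kummer class fixes at most one place -/
theorem place_unique {V : Subgroup (E ≃ₐ[F] E)} (hV : IsClosed (V : Set (E ≃ₐ[F] E))) {l : ℕ}
    (hl : l.Prime) {ζ : E} (hζ : IsPrimitiveRoot ζ l) (hroot : ∀ y : E, ∃ z, z ^ l = y)
    (hge : RankGE E l V) {Q Q' : Place E} (hQ : ∀ g ∈ V, g • Q = Q)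
    (hQ' : ∀ g ∈ V, g • Q' = Q') : Q = Q' := by
  by_contra hne
  let M := IntermediateField.fixedField V
  have hMV : M.fixingSubgroup = V :=
    InfiniteGalois.fixingSubgroup_fixedField (⟨V, hV⟩ : ClosedSubgroup (E ≃ₐ[F] E))
  have hmem : ∀ g : E ≃ₐ[M] E, (g.restrictScalars F) ∈ V := by
    intro g
    rw [← hMV, IntermediateField.mem_fixingSubgroup_iff]
    intro x hx
    exact g.commutes ⟨x, hx⟩
  have hfx : ∀ R : Place E, (∀ g ∈ V, g • R = R) → ∀ g : E ≃ₐ[M] E, g • R = R := by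
    intro R hR g
    have h1 := hR _ (hmem g)
    exact h1
  have h1 : CharZero M := inferInstance
  have h2 : Algebra.IsAlgebraic ℚ M := ⟨fun x =>
    (isAlgebraic_algebraMap_iff (algebraMap M E).injective).1
      (Algebra.IsAlgebraic.isAlgebraic (algebraMap M E x))⟩
  obtain ⟨b, c, hb0, hc0, hb, hc, h⟩ := hge
  have hbM : b ∈ M := fun g => hb g g.2
  obtain ⟨z, hz⟩ := fkSchmidt (M := M) Q Q' hne (hfx Q hQ) (hfx Q' hQ') hl hζ hroot ⟨b, hbM⟩
  have h3 := (h 1 0 ⟨z, fun g hg => z.2 ⟨g, hg⟩, by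
    have := congrArg (fun t : M => (t : E)) hz
    simpa using this⟩).1
  have h4 : (l : ℤ) ∣ 1 := h3
  exact (Nat.prime_iff_prime_int.1 hl).not_isUnit (isUnit_of_dvd_one h4)

end uniq

section main

variable {F₁ E₁ F₂ E₂ : Type*} [Field F₁] [NumberField F₁] [Field E₁] [CharZero E₁]
  [Algebra.IsAlgebraic ℚ E₁] [Algebra F₁ E₁] [IsGalois F₁ E₁] [Field F₂] [Field E₂] [CharZero E₂]
  [Algebra.IsAlgebraic ℚ E₂] [Algebra F₂ E₂] [IsGalois F₂ E₂]
  {α : (E₁ ≃ₐ[F₁] E₁) →* (E₂ ≃ₐ[F₂] E₂)}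

/-- **The local correspondence at `l`.** -/
theorem main (hα : Continuous α) {l : ℕ} (hl : l.Prime) (hl2 : l ≠ 2)
    (hr₁ : ∀ n, ∃ ζ : E₁, IsPrimitiveRoot ζ (l ^ n))
    (hr₂ : ∀ n, ∃ ζ : E₂, IsPrimitiveRoot ζ (l ^ n))
    (hroot : ∀ y : E₂, ∃ z, z ^ l = y) (P : Place E₁) (hP : P.rchar ≠ l)
    {x : E₁ ≃ₐ[F₁] E₁} (hx : x ∈ P.ideal.inertia (E₁ ≃ₐ[F₁] E₁))
    {N : Subgroup (E₂ ≃ₐ[F₂] E₂)} (hNo : IsOpen (N : Set (E₂ ≃ₐ[F₂] E₂)))
    (hN : ∀ n : ℕ, (α x) ^ n ∈ N → l ∣ n) :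
    ∃ Q : Place E₂, Q.rchar ≠ l ∧ (∀ d : E₁ ≃ₐ[F₁] E₁, d • P = P → α d • Q = Q) ∧
      (∀ Q' : Place E₂, (∀ d : E₁ ≃ₐ[F₁] E₁, d • P = P → α d • Q' = Q') → Q' = Q) ∧
      ∀ d : E₁ ≃ₐ[F₁] E₁, d • P = P → ∀ n c : ℕ,
        (∀ ζ : E₁, ζ ^ (l ^ n) = 1 → d ζ = ζ ^ c) → ∀ z : E₂, z ^ (l ^ n) = 1 → α d z = z ^ c := by
  have hlf : Fact l.Prime := ⟨hl⟩
  have : Fact P.rchar.Prime := ⟨P.rchar_prime⟩
  obtain ⟨ζl, hζl⟩ := hr₂ 1
  rw [pow_one] at hζl
  obtain ⟨ζl₁, hζl₁⟩ := hr₁ 1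
  rw [pow_one] at hζl₁
  obtain ⟨e, β, hβ0, hμe, hmove, hfixl⟩ := exists_kummer hl hl2 hζl x hNo hN
  have hx₀ : x ^ e ∈ P.ideal.inertia (E₁ ≃ₐ[F₁] E₁) := Subgroup.pow_mem _ hx e
  have hlA := val_prime_eq_one P hl hP
  have hDdec : DG α l P β ≤ decS F₁ P.val := fun u hu => (mem_decS_val P u).2 (mem_DG.1 hu).1
  have hDμ : ∀ u ∈ DG α l P β, ∀ z : E₂, z ^ l = 1 → α u z = z := fun u hu => (mem_DG.1 hu).2.1
  have hDcl : IsClosed (DG α l P β : Set (E₁ ≃ₐ[F₁] E₁)) := by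
    have h1 : IsClosed (((muFix F₂ E₂ l ⊓ MulAction.stabilizer (E₂ ≃ₐ[F₂] E₂) (β ^ l) :
      Subgroup (E₂ ≃ₐ[F₂] E₂)) : Set (E₂ ≃ₐ[F₂] E₂))) :=
      Subgroup.isClosed_of_isOpen _ (isOpen_WW hl hζl)
    exact (isClosed_stab P).inter (h1.preimage hα)
  have hUcl : ∀ K : Subgroup (E₂ ≃ₐ[F₂] E₂), IsOpen (K : Set (E₂ ≃ₐ[F₂] E₂)) →
      IsClosed ((DG α l P β ⊓ K.comap α : Subgroup (E₁ ≃ₐ[F₁] E₁)) : Set (E₁ ≃ₐ[F₁] E₁)) :=
    fun K hK => hDcl.inter ((Subgroup.isClosed_of_isOpen K hK).preimage hα)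
  have hunr : ∀ K : Subgroup (E₂ ≃ₐ[F₂] E₂), IsOpen (K : Set (E₂ ≃ₐ[F₂] E₂)) →
      UnrDep P.val l (DG α l P β ⊓ K.comap α) := fun K hK =>
    unrDep_of_closed (torsRes P) hl (hUcl K hK) (inf_le_left.trans hDdec)
  have hlev : ∀ K : Subgroup (E₂ ≃ₐ[F₂] E₂), IsOpen (K : Set (E₂ ≃ₐ[F₂] E₂)) → _ := fun K hK =>
    level hα hl hl2 hP hr₁ hr₂ hroot hx₀ hβ0 hμe hmove hfixl hK
  have hge : ∀ K : Subgroup (E₂ ≃ₐ[F₂] E₂), IsOpen (K : Set (E₂ ≃ₐ[F₂] E₂)) →
      RankGE E₂ l ((DG α l P β ⊓ K.comap α).map α) := by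
    intro K hK
    obtain ⟨s, hs, c, hc, hsc, x', hx', hx'I, n, y, hy0, hy, hxy⟩ := hlev K hK
    exact rankGE (A := P.val) hα hl hl2 hlA hr₁ hr₂ hroot (inf_le_left.trans hDdec)
      (fun u hu => hDμ u hu.1) hs hc hsc (hunr K hK) hx' hx'I hy0 hy hxy
  have hmap : ∀ K : Subgroup (E₂ ≃ₐ[F₂] E₂),
      (DG α l P β).map α ⊓ K = (DG α l P β ⊓ K.comap α).map α := by
    intro K
    ext g
    constructor
    · rintro ⟨⟨u, hu, rfl⟩, hK⟩
      exact ⟨u, ⟨hu, hK⟩, rfl⟩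
    · rintro ⟨u, hu, rfl⟩
      exact ⟨⟨u, hu.1, rfl⟩, hu.2⟩
  have hl3 : 3 ≤ l := by
    have := hl.two_le
    omega
  -- the place fixed by `α(D)`
  obtain ⟨Q, -, hQr, hQ, -⟩ := Rig8x931.exists_place (l := l) (G := E₂ ≃ₐ[F₂] E₂) (E := E₂) hl3
    hroot hζl ((DG α l P β).map α) (by
      rintro g ⟨u, hu, rfl⟩
      exact hDμ u hu ζl hζl.pow_eq_one)
    {K : Subgroup (E₂ ≃ₐ[F₂] E₂) | K.Normal ∧ IsOpen (K : Set (E₂ ≃ₐ[F₂] E₂))}
    (fun K hK => hK.1) (by
      rintro K ⟨hK, hKo⟩ K' ⟨hK', hKo'⟩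
      exact ⟨inferInstance, hKo.inter hKo'⟩) (by
      intro y
      obtain ⟨K, hK, hKo, hKy⟩ := exists_normal_le
        (stabilizer_isOpen_of_isIntegral (K := F₂) y)
      exact ⟨K, ⟨hK, hKo⟩, fun g hg => hKy hg.2⟩) (by
      rintro K ⟨hK, hKo⟩
      rw [hmap]
      exact hge K hKo) (by
      rintro K ⟨hK, hKo⟩ θ hθ hθ'
      have hθo : IsOpen ((K ⊓ MulAction.stabilizer (E₂ ≃ₐ[F₂] E₂) θ :
          Subgroup (E₂ ≃ₐ[F₂] E₂)) : Set (E₂ ≃ₐ[F₂] E₂)) :=
        hKo.inter (stabilizer_isOpen_of_isIntegral θ)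
      have h1 : St ((DG α l P β).map α ⊓ K) θ =
          (DG α l P β ⊓ (K ⊓ MulAction.stabilizer (E₂ ≃ₐ[F₂] E₂) θ).comap α).map α := by
        rw [← hmap]
        ext g
        rw [mem_St]
        constructor
        · rintro ⟨h1, h2⟩
          exact ⟨h1.1, h1.2, h2⟩
        · rintro ⟨h1, h2, h3⟩
          exact ⟨⟨h1, h2⟩, h3⟩
      rw [h1]
      exact rankLE hα (rankOne P) hlA hζl₁ hζl hroot (fun u hu => hDμ u hu.1)
        (hunr _ hθo))
  -- the normal level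
  obtain ⟨N₁, hN₁, hN₁o, hN₁le⟩ := exists_normal_le (isOpen_WW (F₂ := F₂) (β := β) hl hζl)
  set U : Subgroup (E₁ ≃ₐ[F₁] E₁) := DG α l P β ⊓ N₁.comap α with hU
  have hUmem : ∀ u, u ∈ U ↔ u • P = P ∧ α u ∈ N₁ := by
    intro u
    constructor
    · rintro ⟨h1, h2⟩
      exact ⟨(mem_DG.1 h1).1, h2⟩
    · rintro ⟨h1, h2⟩
      exact ⟨⟨h1, hN₁le h2⟩, h2⟩
  have hUconj : ∀ d : E₁ ≃ₐ[F₁] E₁, d • P = P → ∀ u ∈ U, d * u * d⁻¹ ∈ U := by
    intro d hd u hu
    rw [hUmem] at hu ⊢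
    have hd' : d⁻¹ • P = P := by rw [inv_smul_eq_iff, hd]
    refine ⟨by rw [mul_smul, mul_smul, hd', hu.1, hd], ?_⟩
    rw [map_mul, map_mul, map_inv]
    exact hN₁.conj_mem _ hu.2 _
  have hVcl : IsClosed (U.map α : Set (E₂ ≃ₐ[F₂] E₂)) := isClosed_map hα (hUcl N₁ hN₁o)
  have huniq : ∀ R R' : Place E₂, (∀ g ∈ U.map α, g • R = R) → (∀ g ∈ U.map α, g • R' = R') →
      R = R' := fun R R' hR hR' => place_unique hVcl hl hζl hroot (hge N₁ hN₁o) hR hR'
  have hUQ : ∀ g ∈ U.map α, g • Q = Q := by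
    rintro g ⟨u, hu, rfl⟩
    exact hQ _ ⟨u, hu.1, rfl⟩
  have hgoes : ∀ d : E₁ ≃ₐ[F₁] E₁, d • P = P → α d • Q = Q := by
    intro d hd
    symm
    apply huniq Q (α d • Q) hUQ
    rintro g ⟨u, hu, rfl⟩
    have hd' : d⁻¹ • P = P := by rw [inv_smul_eq_iff, hd]
    have h1 := hUQ (α (d⁻¹ * u * d⁻¹⁻¹)) ⟨_, hUconj _ hd' u hu, rfl⟩
    rw [inv_inv, map_mul, map_mul, map_inv, mul_smul, mul_smul, inv_smul_eq_iff] at h1
    exact h1
  refine ⟨Q, hQr, hgoes, ?_, ?_⟩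
  · intro Q' hQ'
    apply huniq Q' Q ?_ hUQ
    rintro g ⟨u, hu, rfl⟩
    exact hQ' u ((hUmem u).1 hu).1
  · intro d hd n c hdc z hz
    rcases n with _ | n
    · rw [pow_zero, pow_one] at hz
      rw [hz, map_one, one_pow]
    obtain ⟨s, hs, c', hc', hsc, x', hx', hx'I, m, y, hy0, hy, hxy⟩ := hlev N₁ hN₁o
    have hUdec : U ≤ decS F₁ P.val := inf_le_left.trans hDdec
    have hUμ : ∀ u ∈ U, ∀ z : E₂, z ^ l = 1 → α u z = z := fun u hu => hDμ u hu.1
    obtain ⟨β', γ, hβ'0, hβ', ⟨x'', hx'', hx''I, hx''β⟩, hγl, ⟨J, hJ, hJγ⟩, u₀, hu₀, hγu⟩ :=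
      exists_basis (A := P.val) hα hl hl2 hlA hr₁ hr₂ hroot hUdec hUμ hs hc' hsc (hunr N₁ hN₁o)
        hx' hx'I hy0 hy hxy
    have hI : ∀ u ∈ U, u ∈ inS F₁ P.val → ∀ j, ∀ z : E₂, z ^ (l ^ j) = 1 → α u z = z :=
      fun u hu huI j z hz => cyc_inertia (A := P.val) hα hl hl2 hlA hr₁ hr₂ hUdec hUμ hs hc' hsc
        hu huI j z hz
    have : Fact Q.rchar.Prime := ⟨Q.rchar_prime⟩
    have hunrQ : UnrDep Q.val l (U.map α) :=
      unrDep_of_closed (torsRes Q) hl hVcl (fun g hg => (mem_decS_val Q g).2 (hUQ g hg))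
    obtain ⟨ζ₁, hζ₁⟩ := hr₁ (n + 1)
    exact cyc_dec (A := P.val) (B := Q.val) hα hl hlA (val_prime_eq_one Q hl hQr) hr₂ hroot hUμ hI
      hunrQ hγl hJγ hu₀ hγu hβ'0 hβ' hx'' hx''I hx''β ((mem_decS_val P d).2 hd)
      ((mem_decS_val Q _).2 (hgoes d hd)) (hUconj d hd) hζ₁ (hdc ζ₁ hζ₁.pow_eq_one) z hz

end main

end Crest.Agent.R018.LCEx484
end

-- ▼ part R018/Step2D_924
section

/-!
# Row 18, STEP 2, part D: helper31's `Loc` gives `LOC` (helper924)
-/

set_option autoImplicit false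

open Crest.NumberTheoryR Crest.Agent.R018.EndDefx924 NumberField
open Crest.Agent.R018.Placesx484 Crest.Agent.R018.LocDefx31
open scoped Pointwise

universe u₁ u₂ v₁ v₂

namespace Crest.Agent.R018.Step2x924

/-- helper31's local correspondence for all `F₁ F₂ E₂` and all odd `l`. -/
def LocAll : Prop :=
  ∀ (F₁ : Type u₁) (F₂ : Type u₂) (E₂ : Type v₂) [Field F₁] [NumberField F₁] [Field F₂]
    [NumberField F₂] [Field E₂] [Algebra F₂ E₂] [IsGalois F₂ E₂] [Algebra F₁ Om],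
    IsSolvablyClosed E₂ →
    ∀ α : (Om ≃ₐ[F₁] Om) →* (E₂ ≃ₐ[F₂] E₂), Continuous α → Function.Surjective α →
      ∀ l : ℕ, l.Prime → l ≠ 2 → Loc Om E₂ α l

theorem loc_of_locAll (h : LocAll.{u₁, u₂, v₂}) : LOC.{u₁, u₂, v₂} := by
  intro F₁ F₂ E₂ _ _ _ _ _ _ _ _ hsc α hα hs r hr hr2 P hP hhit
  obtain ⟨s, hsI, N, hN, hNo, hNr⟩ := hhit
  have hS1 : S1 α r P := by
    refine ⟨?_, s, ?_, N, hN, hNo, hNr⟩
    · intro hmem
      exact hP (P.rchar_eq_of_mem hr hmem)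
    · intro x
      exact hsI x
  obtain ⟨Q, -, hQ, -⟩ := h F₁ F₂ E₂ hsc α hα hs r hr hr2 P hS1
  exact ⟨Q, hQ⟩


end Crest.Agent.R018.Step2x924
end

-- ▼ part R018/LocInst_925
section

/-!
# Row 18: the local correspondence in the shapes used by the other files (helper925)

Instantiations of helper484's `LCEx484.main`.
-/

set_option autoImplicit false

open NumberField Pointwise
open Crest.NumberTheoryR
open Crest.Agent.R018.Placesx484 Crest.Agent.R018.LocDefx31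

namespace Crest.Agent.R018.LocInstx925

universe u₁ u₂ v₁ v₂

/-- the local correspondence for solvably closed `E₂` -/
theorem loc_of {F₁ E₁ F₂ E₂ : Type*} [Field F₁] [NumberField F₁] [Field E₁] [CharZero E₁]
    [Algebra.IsAlgebraic ℚ E₁] [Algebra F₁ E₁] [IsGalois F₁ E₁] [Field F₂] [Field E₂] [CharZero E₂]
    [Algebra.IsAlgebraic ℚ E₂] [Algebra F₂ E₂] [IsGalois F₂ E₂]
    (hr₁ : ∀ n : ℕ, n ≠ 0 → ∃ ζ : E₁, IsPrimitiveRoot ζ n) (hsc : IsSolvablyClosed E₂)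
    (α : (E₁ ≃ₐ[F₁] E₁) →* (E₂ ≃ₐ[F₂] E₂)) (hα : Continuous α) (l : ℕ) (hl : l.Prime)
    (hl2 : l ≠ 2) : Loc E₁ E₂ α l := by
  intro P hS1
  obtain ⟨hP, x, hx, N, -, hNo, hN⟩ := hS1
  have hPl : P.rchar ≠ l := by
    intro h
    apply hP
    rw [← h]
    exact P.rchar_mem
  obtain ⟨Q, hQl, h1, h2, h3⟩ := LCEx484.main (α := α) hα hl hl2
    (fun n => hr₁ _ (pow_ne_zero n hl.ne_zero))
    (fun n => Kumx568.exists_primitiveRoot hsc _ (pow_ne_zero n hl.ne_zero))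
    (fun y => Kumx568.exists_pow_eq hsc l hl.ne_zero y) P hPl hx hNo hN
  refine ⟨Q, ?_, h1, h2, ?_⟩
  · intro hmem
    exact hQl (Q.rchar_eq_of_mem hl hmem)
  · intro n d hd c hc z hz
    exact h3 d hd n c hc z hz

open Crest.Agent.R018.EndDefx924 (Om)
open Crest.Agent.R018.Corex74

theorem exists_prim_Om (n : ℕ) (hn : n ≠ 0) : ∃ ζ : Om, IsPrimitiveRoot ζ n := by
  haveI : NeZero n := ⟨hn⟩
  exact HasEnoughRootsOfUnity.exists_primitiveRoot Om n

/-- **LOC** for `(Om ≃ₐ[F₁] Om) →* SG` -/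
theorem locF : LocConvx31.LocF := by
  intro F₁ hfd α hα l hl hl2 P hPl hx
  haveI : NumberField F₁ := NumberField.of_module_finite ℚ F₁
  haveI : IsGalois F₁ Om := LCEndx925.isGalois_Om F₁
  haveI : Algebra.IsAlgebraic ℚ Om := inferInstance
  obtain ⟨x, hxI, N, -, hNo, hN⟩ := hx
  obtain ⟨Q, hQl, h1, h2, h3⟩ := LCEx484.main (α := α) hα hl hl2
    (fun n => exists_prim_Om _ (pow_ne_zero n hl.ne_zero))
    (fun n => Kumx568.exists_primitiveRoot CycFTx925.sv_isSolvablyClosed _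
      (pow_ne_zero n hl.ne_zero))
    (fun y => Kumx568.exists_pow_eq CycFTx925.sv_isSolvablyClosed l hl.ne_zero y) P hPl hxI hNo hN
  exact ⟨Q, h1, hQl, h2, fun n a d hd hc z hz => h3 d hd n a hc z hz⟩

/-- **LocT** of `Core_74`. -/
theorem locT : LocT := LocConvx31.locT_of_locF locF

/-- helper924's `LocAll` -/
theorem locAll : Step2x924.LocAll.{u₁, u₂, v₂} := by
  intro F₁ F₂ E₂ _ _ _ _ _ _ _ _ hsc α hα _ l hl hl2
  haveI : IsGalois F₁ Om := LCEndx925.isGalois_Om F₁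
  haveI : CharZero E₂ := charZero_of_injective_algebraMap (algebraMap F₂ E₂).injective
  haveI : Algebra.IsAlgebraic ℚ E₂ := Algebra.IsAlgebraic.trans ℚ F₂ E₂
  exact loc_of exists_prim_Om hsc α hα l hl hl2

/-- helper924's `LOC` -/
theorem loc : Step2x924.LOC.{u₁, u₂, v₂} := Step2x924.loc_of_locAll locAll

end Crest.Agent.R018.LocInstx925
end

-- ▼ part R018/Hit2_380
section

/-!
Row 18: the Kummer hitting theorem, form with an arbitrary relation `R` between places (helper380).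
In the local hypothesis only "`α τ` fixes the `l`-th roots of `Q`-units" is needed.
-/

set_option autoImplicit false

namespace Crest.Agent.R018.Hit2x380

open IsDedekindDomain NumberField Selmerx380 Ramx380 Placesx484 Hitx380

theorem fix_formula {K E : Type*} [Field K] [NumberField K] [Field E] [CharZero E]
    [Algebra.IsAlgebraic ℚ E] [Algebra K E] (l : ℕ) (hl : l ≠ 0) (g : Gal(E/K)) (Q : Place E)
    (hfix : ∀ y : E, y ^ l ∈ Set.range (algebraMap K E) → Q.v y = 1 → g y = y)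
    (w : HeightOneSpectrum (𝓞 K)) (hw : (Q.res K).ideal = w.asIdeal) (ζ : K)
    (π : E) (ϖ : Kˣ) (hπ : π ^ l = algebraMap K E (ϖ : K)) (hϖ : ord (𝓞 K) w ϖ = 1) (c : ℤ)
    (hc : g π = algebraMap K E ζ ^ c * π) (x : Kˣ) (y : E) (hy : y ^ l = algebraMap K E (x : K)) :
    g y = algebraMap K E ζ ^ (c * ord (𝓞 K) w x) * y := by
  have hπ0 : π ≠ 0 := by
    rintro rfl
    rw [zero_pow hl] at hπ
    exact ϖ.ne_zero ((map_eq_zero _).1 hπ.symm)
  set m := ord (𝓞 K) w x with hm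
  have hord : ∀ n : ℤ, ord (𝓞 K) w (ϖ ^ n) = n := by
    intro n
    obtain ⟨m, rfl | rfl⟩ := n.eq_nat_or_neg
    · rw [zpow_natCast, ord_pow, hϖ, mul_one]
    · rw [zpow_neg, zpow_natCast, ord_inv, ord_pow, hϖ, mul_one]
  have h0 : ord (𝓞 K) w (x / ϖ ^ m) = 0 := by
    rw [ord_div, hord, ← hm, sub_self]
  have hu : (y / π ^ m) ^ l = algebraMap K E ((x / ϖ ^ m : Kˣ) : K) := by
    rw [div_pow, hy, ← zpow_natCast, ← zpow_mul, mul_comm m, zpow_mul, zpow_natCast, hπ,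
      Units.val_div_eq_div_val, map_div₀, Units.val_zpow_eq_zpow_val, map_zpow₀]
  have h1 : Q.v ((y / π ^ m) ^ l) = 1 := by
    rw [hu]
    exact over_of_res Q w hw _ h0
  have h2 : Q.v (y / π ^ m) = 1 := by
    rw [map_pow] at h1
    exact (pow_eq_one_iff_of_nonneg zero_le hl).mp h1
  have h3 := hfix _ ⟨_, hu.symm⟩ h2
  rw [map_div₀, map_zpow₀] at h3
  have h4 : g π ≠ 0 := by simpa using hπ0
  have h5 : π ^ m ≠ 0 := zpow_ne_zero _ hπ0
  have h6 : g π ^ m ≠ 0 := zpow_ne_zero _ h4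
  rw [div_eq_div_iff h6 h5] at h3
  have h7 : g y = (g π / π) ^ m * y := by
    rw [div_zpow, div_mul_eq_mul_div, eq_div_iff h5, h3, mul_comm]
  rw [h7, hc, mul_div_cancel_right₀ _ hπ0, zpow_mul]

/-- The local hypothesis at `v`. -/
def LocAt2 {K₁ E₁ K₂ E₂ : Type*} [Field K₁] [NumberField K₁] [Field E₁] [CharZero E₁]
    [Algebra.IsAlgebraic ℚ E₁] [Algebra K₁ E₁]
    [Field K₂] [NumberField K₂] [Field E₂] [CharZero E₂] [Algebra.IsAlgebraic ℚ E₂] [Algebra K₂ E₂]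
    (α : Gal(E₁/K₁) →* Gal(E₂/K₂)) (l : ℕ) (R : Place E₁ → Place E₂ → Prop)
    (v : HeightOneSpectrum (𝓞 K₁)) : Prop :=
  ∃ (P : Place E₁) (τ : Gal(E₁/K₁)), (P.res K₁).ideal = v.asIdeal ∧ InInertia P.val τ ∧
    (∃ (π : E₁) (ϖ : K₁ˣ), π ^ l = algebraMap K₁ E₁ (ϖ : K₁) ∧ ord (𝓞 K₁) v ϖ = 1 ∧ τ π ≠ π) ∧
    ((∀ y : E₂, y ^ l ∈ Set.range (algebraMap K₂ E₂) → α τ y = y) ∨
      ∃ Q : Place E₂, R P Q ∧
        ∀ y : E₂, y ^ l ∈ Set.range (algebraMap K₂ E₂) → Q.v y = 1 → α τ y = y)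

/-- **The Kummer hitting theorem**, relation form. -/
theorem hit2 {K₁ E₁ K₂ E₂ : Type*} [Field K₁] [NumberField K₁] [Field E₁] [CharZero E₁]
    [Algebra.IsAlgebraic ℚ E₁] [Algebra K₁ E₁] [IsGalois K₁ E₁]
    [Field K₂] [NumberField K₂] [Field E₂] [CharZero E₂] [Algebra.IsAlgebraic ℚ E₂] [Algebra K₂ E₂]
    [IsGalois K₂ E₂]
    (α : Gal(E₁/K₁) →* Gal(E₂/K₂)) (hα : Continuous α) (hs : Function.Surjective α)
    (l : ℕ) [Fact l.Prime] (ζ₁ : K₁) (hζ₁ : IsPrimitiveRoot ζ₁ l) (ζ₂ : K₂)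
    (hζ₂ : IsPrimitiveRoot ζ₂ l)
    (hroot : ∀ x : K₂, ∃ y : E₂, y ^ l = algebraMap K₂ E₂ x)
    (R : Place E₁ → Place E₂ → Prop)
    (hloc : ∀ v : HeightOneSpectrum (𝓞 K₁), (l : 𝓞 K₁) ∉ v.asIdeal → LocAt2 α l R v) :
    {w : HeightOneSpectrum (𝓞 K₂) | ¬ ∃ (P : Place E₁) (Q : Place E₂),
      (Q.res K₂).ideal = w.asIdeal ∧ R P Q}.Finite := by
  classical
  have hlp : l.Prime := Fact.out
  have hNe : NeZero l := ⟨hlp.ne_zero⟩
  have hE₁ : IsPrimitiveRoot (algebraMap K₁ E₁ ζ₁) l :=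
    hζ₁.map_of_injective (algebraMap K₁ E₁).injective
  have hE₂ : IsPrimitiveRoot (algebraMap K₂ E₂ ζ₂) l :=
    hζ₂.map_of_injective (algebraMap K₂ E₂).injective
  -- the primes above `l`
  set S₁ : Set (HeightOneSpectrum (𝓞 K₁)) := {v | (l : 𝓞 K₁) ∈ v.asIdeal} with hS₁
  have hS₁fin : S₁.Finite := by
    have hl0 : (l : K₁) ≠ 0 := by exact_mod_cast hlp.ne_zero
    have h1 := ord_finite (R := 𝓞 K₁) (Units.mk0 (l : K₁) hl0)
    refine Set.Finite.subset h1 ?_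
    intro v hv h0
    have h2 := valuation_eq_exp v (Units.mk0 (l : K₁) hl0)
    rw [h0, neg_zero, WithZero.exp_zero, Units.val_mk0] at h2
    have h3 := (v.valuation_lt_one_iff_mem (K := K₁) (l : 𝓞 K₁)).2 hv
    have h4 : (algebraMap (𝓞 K₁) K₁ (l : 𝓞 K₁)) = (l : K₁) := map_natCast _ _
    have h5 : v.valuation K₁ (l : K₁) < 1 := by rw [← h4]; exact h3
    rw [h2] at h5
    exact lt_irrefl _ h5
  -- Kummer data
  have hdata : ∀ x : K₂ˣ, ∃ (y : E₂) (z : E₁) (a : K₁ˣ), y ^ l = algebraMap K₂ E₂ (x : K₂) ∧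
      z ≠ 0 ∧ y ≠ 0 ∧ z ^ l = algebraMap K₁ E₁ (a : K₁) ∧
      (∀ g : Gal(E₁/K₁), ∃ i : ℕ, i < l ∧ α g y = algebraMap K₂ E₂ ζ₂ ^ i * y ∧
        g z = algebraMap K₁ E₁ ζ₁ ^ i * z) := by
    intro x
    obtain ⟨y, hy⟩ := hroot x
    have hy0 : y ≠ 0 := by
      rintro rfl
      rw [zero_pow hlp.ne_zero] at hy
      exact x.ne_zero ((map_eq_zero _).1 hy.symm)
    obtain ⟨z, hz0, ⟨a, ha⟩, hz⟩ := Kummerx380.exists_pullback α hα l ζ₁ hζ₁ ζ₂ hζ₂ y hy0
      ⟨x, hy.symm⟩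
    have ha0 : a ≠ 0 := by
      rintro rfl
      rw [map_zero] at ha
      exact hz0 ((pow_eq_zero_iff hlp.ne_zero).1 ha.symm)
    exact ⟨y, z, Units.mk0 a ha0, hy, hz0, hy0, by rw [Units.val_mk0, ha], hz⟩
  choose y z Φ hy hz0 hy0 hz hg using hdata
  by_cases hne : Nonempty (HeightOneSpectrum (𝓞 K₂))
  swap
  · rw [not_nonempty_iff] at hne
    exact Set.toFinite _
  obtain ⟨w0⟩ := hne
  have key : ∀ v : HeightOneSpectrum (𝓞 K₁), ∃ (w : HeightOneSpectrum (𝓞 K₂)) (c : ZMod l),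
      v ∉ S₁ → ((∀ x : K₂ˣ, ((ord (𝓞 K₁) v (Φ x) : ℤ) : ZMod l) =
        c * ((ord (𝓞 K₂) w x : ℤ) : ZMod l)) ∧ (c ≠ 0 → ∃ (P : Place E₁) (Q : Place E₂),
          (Q.res K₂).ideal = w.asIdeal ∧ R P Q)) := by
    intro v
    by_cases hv : v ∈ S₁
    · exact ⟨w0, 0, fun h => absurd hv h⟩
    obtain ⟨P, τ, hPv, hτ, ⟨π₁, ϖ₁, hπ₁, hϖ₁, hmove⟩, hcase⟩ := hloc v hv
    have hlP : (l : 𝓞 E₁) ∉ P.ideal := by
      intro hmem
      apply hv
      change (l : 𝓞 K₁) ∈ v.asIdeal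
      rw [← hPv, Place.mem_res, map_natCast]
      exact hmem
    have hl₁ := valuation_natCast_eq_one P l hlP
    have hO₁ := over_of_res P v hPv
    have hπ0 : π₁ ≠ 0 := by
      rintro rfl
      rw [zero_pow hlp.ne_zero] at hπ₁
      exact ϖ₁.ne_zero ((map_eq_zero _).1 hπ₁.symm)
    rcases hcase with htriv | ⟨Q, hR, hfixQ⟩
    · refine ⟨w0, 0, fun _ => ⟨fun x => ?_, fun h => absurd rfl h⟩⟩
      have h1 : τ (z x) = z x := by
        obtain ⟨i, hi, hiy, hiz⟩ := hg x τ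
        rw [htriv (y x) ⟨x, (hy x).symm⟩] at hiy
        have h2 : algebraMap K₂ E₂ ζ₂ ^ i = 1 := by
          have h3 : algebraMap K₂ E₂ ζ₂ ^ i * y x = 1 * y x := by rw [← hiy, one_mul]
          exact mul_right_cancel₀ (hy0 x) h3
        have h4 := (hE₂.pow_eq_one_iff_dvd _).1 h2
        have h5 : i = 0 := Nat.eq_zero_of_dvd_of_lt h4 hi
        rw [hiz, h5, pow_zero, one_mul]
      have h2 := ord_pullback_zero l hlp ζ₁ hζ₁ P.val v hO₁ hl₁ τ hτ π₁ ϖ₁ hπ₁ hϖ₁ hmove (Φ x)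
        (z x) (hz x) h1
      rw [(ZMod.intCast_zmod_eq_zero_iff_dvd _ _).2 h2, zero_mul]
    · let w : HeightOneSpectrum (𝓞 K₂) :=
        ⟨(Q.res K₂).ideal, (Q.res K₂).isPrime, (Q.res K₂).ne_bot⟩
      have hQw : (Q.res K₂).ideal = w.asIdeal := rfl
      obtain ⟨ϖ₂, hϖ₂⟩ := exists_ord_eq_one (K := K₂) w
      obtain ⟨π₂, hπ₂⟩ := hroot ϖ₂
      have hπ20 : π₂ ≠ 0 := by
        rintro rfl
        rw [zero_pow hlp.ne_zero] at hπ₂
        exact ϖ₂.ne_zero ((map_eq_zero _).1 hπ₂.symm)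
      obtain ⟨j, -, hj⟩ := Kummerx380.exists_pow_of_root (E := E₁) l ζ₁ hζ₁ (τ π₁ / π₁) (by
        rw [div_pow, ← map_pow, hπ₁, AlgEquiv.commutes]
        exact div_self (by rw [← hπ₁]; exact pow_ne_zero _ hπ0))
      obtain ⟨c, -, hc⟩ := Kummerx380.exists_pow_of_root (E := E₂) l ζ₂ hζ₂ (α τ π₂ / π₂) (by
        rw [div_pow, ← map_pow, hπ₂, AlgEquiv.commutes]
        exact div_self (by rw [← hπ₂]; exact pow_ne_zero _ hπ20))
      have hj' : τ π₁ = algebraMap K₁ E₁ ζ₁ ^ (j : ℤ) * π₁ := by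
        rw [zpow_natCast, ← hj, div_mul_cancel₀ _ hπ0]
      have hc' : α τ π₂ = algebraMap K₂ E₂ ζ₂ ^ (c : ℤ) * π₂ := by
        rw [zpow_natCast, ← hc, div_mul_cancel₀ _ hπ20]
      have hj0 : ((j : ℤ) : ZMod l) ≠ 0 := by
        intro h0
        obtain ⟨k, hk⟩ := (ZMod.intCast_zmod_eq_zero_iff_dvd _ _).1 h0
        apply hmove
        rw [hj', hk, zpow_mul, zpow_natCast, hE₁.pow_eq_one, one_zpow, one_mul]
      refine ⟨w, ((c : ℤ) : ZMod l) / ((j : ℤ) : ZMod l), fun _ => ⟨fun x => ?_, fun _ =>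
        ⟨P, Q, hQw, hR⟩⟩⟩
      have h1 := inertia_root P.val v hO₁ l hlp hl₁ τ hτ ζ₁ hζ₁ π₁ (z x) ϖ₁ (Φ x) hπ₁ (hz x) hϖ₁
        j hj'
      have h2 := fix_formula l hlp.ne_zero (α τ) Q hfixQ w hQw ζ₂ π₂ ϖ₂ hπ₂ hϖ₂ c hc' x (y x) (hy x)
      obtain ⟨i, -, hi₂, hi₁⟩ := hg x τ
      rw [hi₁, ← zpow_natCast] at h1
      rw [hi₂, ← zpow_natCast] at h2
      have h3 := cast_eq_of_zpow_eq hE₁ (hE₁.ne_zero hlp.ne_zero) _ _
        (mul_right_cancel₀ (hz0 x) h1)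
      have h4 := cast_eq_of_zpow_eq hE₂ (hE₂.ne_zero hlp.ne_zero) _ _
        (mul_right_cancel₀ (hy0 x) h2)
      rw [h3] at h4
      rw [Int.cast_mul, Int.cast_mul] at h4
      rw [div_mul_eq_mul_div, eq_div_iff hj0, mul_comm, h4]
  choose φ c hkey using key
  have hmain := hitting K₁ K₂ l hlp.one_lt Φ (by
    rintro x x' ⟨w, hw⟩
    obtain ⟨b, hb⟩ := Kummerx380.pullback_inj α hs l ζ₁ hζ₁ ζ₂ (y x) (y x') (hy0 x') (z x) (z x')
      (hz0 x) (hz0 x') (hg x) (hg x') (w : K₁) (by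
        rw [hz, hz, hw, Units.val_mul, Units.val_pow_eq_pow_val, map_mul, map_pow])
    have hb0 : b ≠ 0 := by
      rintro rfl
      rw [map_zero, mul_zero] at hb
      exact hy0 x hb
    refine ⟨Units.mk0 b hb0, Units.ext ?_⟩
    apply (algebraMap K₂ E₂).injective
    rw [Units.val_mul, Units.val_pow_eq_pow_val, Units.val_mk0, map_mul, map_pow, ← hy x, ← hy x',
      hb, mul_pow]) S₁ hS₁fin φ c (fun v hv => (hkey v hv).1)
  refine hmain.subset ?_
  intro w hw v hv hφ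
  by_contra hc
  exact hw (hφ ▸ (hkey v hv).2 hc)

end Crest.Agent.R018.Hit2x380
end

-- ▼ part R018/S1Fin_380
section

/-!
Row 18: **(S1)** all but finitely many places of the target are hit (helper380).

`G` an open subgroup of `Gal(E₁/k₁)`, `α : G → Gal(E₂/k₂)` continuous with open range, `l` a prime
for which the local correspondence holds.  Then all places `Q` of `E₂` of large residue
characteristic are of the form `P → Q` with `P ∈ S1(l)`.
-/

set_option autoImplicit false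

namespace Crest.Agent.R018.S1Finx380

open IsDedekindDomain NumberField Selmerx380 Ramx380 Placesx484 Hit2x380 S2Locx380 LocDefx31
  Tamex31 LocConvx31
open scoped Pointwise

/-- if `g` fixes the `N`-th roots of unity, `g (y^N) = y^N` and some power of `g` prime to `N`
fixes `y`, then `g` fixes `y` -/
theorem fix_of_pow {F E : Type*} [Field F] [Field E] [Algebra F E] (g : E ≃ₐ[F] E) (N n : ℕ)
    (y : E) (h : g y ^ N = y ^ N) (hfix : ∀ ζ : E, ζ ^ N = 1 → g ζ = ζ)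
    (hn : Nat.Coprime n N) (hgn : (g ^ n) y = y) : g y = y := by
  by_cases hy0 : y = 0
  · rw [hy0, map_zero]
  have h5 : (g y / y) ^ N = 1 := by
    rw [div_pow, h, div_self (pow_ne_zero _ hy0)]
  have h6 : ∀ j : ℕ, (g ^ j) y = (g y / y) ^ j * y := by
    intro j
    induction j with
    | zero => simp
    | succ j ih =>
      rw [pow_succ', AlgEquiv.mul_apply, ih, map_mul, map_pow, hfix _ h5, pow_succ, mul_assoc,
        div_mul_cancel₀ _ hy0]
  rw [h6] at hgn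
  have h8 : (g y / y) ^ n = 1 := by
    have : (g y / y) ^ n * y = 1 * y := by rw [hgn, one_mul]
    exact mul_right_cancel₀ hy0 this
  have h12 := Nat.dvd_gcd (orderOf_dvd_of_pow_eq_one h8) (orderOf_dvd_of_pow_eq_one h5)
  rw [hn] at h12
  have h9 : g y / y = 1 := orderOf_eq_one_iff.1 (Nat.dvd_one.1 h12)
  rwa [div_eq_one_iff_eq hy0] at h9

section main

variable {k₁ E₁ k₂ E₂ : Type*} [Field k₁] [NumberField k₁] [Field E₁] [CharZero E₁]
  [Algebra.IsAlgebraic ℚ E₁] [Algebra k₁ E₁] [IsGalois k₁ E₁] [Field k₂] [NumberField k₂]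
  [Field E₂] [CharZero E₂] [Algebra.IsAlgebraic ℚ E₂] [Algebra k₂ E₂] [IsGalois k₂ E₂]

/-- the image of an open subgroup of `G` under `α : G → Gal(E₂/k₂)` with open range is open -/
theorem isOpen_map {k E : Type*} [Field k] [Field E] [Algebra k E] [IsGalois k E]
    {G : Subgroup (E₁ ≃ₐ[k₁] E₁)} (hG : IsOpen (G : Set (E₁ ≃ₐ[k₁] E₁)))
    (α : G →* (E ≃ₐ[k] E)) (hα : Continuous α) (hr : IsOpen (Set.range α))
    (S : Subgroup G) (hS : IsOpen (S : Set G)) : IsOpen ((S.map α : Subgroup (E ≃ₐ[k] E)) :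
      Set (E ≃ₐ[k] E)) := by
  have hGc : IsClosed (G : Set (E₁ ≃ₐ[k₁] E₁)) := Subgroup.isClosed_of_isOpen G hG
  have : CompactSpace G := isCompact_iff_compactSpace.1 hGc.isCompact
  have hSc : IsClosed (S : Set G) := Subgroup.isClosed_of_isOpen S hS
  have hcomp : IsCompact ((S.map α : Subgroup (E ≃ₐ[k] E)) : Set (E ≃ₐ[k] E)) := by
    rw [Subgroup.coe_map]
    exact hSc.isCompact.image hα
  have hfi : (S.map α).index ≠ 0 := by
    have h1 : S.index ≠ 0 := by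
      have hq : Finite (G ⧸ S) := Subgroup.quotient_finite_of_isOpen S hS
      have := S.finiteIndex_of_finite_quotient
      exact this.index_ne_zero
    have h2 : α.range.index ≠ 0 := by
      have hr' : IsOpen (α.range : Set (E ≃ₐ[k] E)) := by
        rw [MonoidHom.coe_range]; exact hr
      have hq : Finite ((E ≃ₐ[k] E) ⧸ α.range) := Subgroup.quotient_finite_of_isOpen _ hr'
      have := α.range.finiteIndex_of_finite_quotient
      exact this.index_ne_zero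
    rw [Subgroup.index_map]
    refine mul_ne_zero ?_ h2
    intro h0
    have h3 := Subgroup.index_dvd_of_le (le_sup_left : S ≤ S ⊔ α.ker)
    rw [h0, zero_dvd_iff] at h3
    exact h1 h3
  have : (S.map α).FiniteIndex := ⟨hfi⟩
  exact (S.map α).isOpen_of_isClosed_of_finiteIndex hcomp.isClosed

/-- **(S1)** -/
theorem bad_finite (G : Subgroup (E₁ ≃ₐ[k₁] E₁)) (hG : IsOpen (G : Set (E₁ ≃ₐ[k₁] E₁)))
    (α : G →* (E₂ ≃ₐ[k₂] E₂)) (hα : Continuous α) (hr : IsOpen (Set.range α))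
    (l : ℕ) (hl : l.Prime) (hroots₁ : ∀ k : ℕ, ∃ ζ : E₁, IsPrimitiveRoot ζ (l ^ k))
    (hroots₂ : ∀ k : ℕ, ∃ ζ : E₂, IsPrimitiveRoot ζ (l ^ k))
    (hpow₁ : ∀ x : E₁, ∃ y : E₁, y ^ l = x) (hpow₂ : ∀ x : E₂, ∃ y : E₂, y ^ l = x)
    (hloc : Loc E₁ E₂ α l) :
    ∃ B : ℕ, ∀ Q : Place E₂, B < Q.rchar → ∃ P : Place E₁, S1 α l P ∧ Goes α P Q := by
  classical
  obtain ⟨ζ₁, h₁⟩ := hroots₁ 1
  obtain ⟨ζ₂, h₂⟩ := hroots₂ 1
  rw [pow_one] at h₁ h₂
  let S : Subgroup G := MulAction.stabilizer G ζ₁ ⊓ (MulAction.stabilizer (E₂ ≃ₐ[k₂] E₂) ζ₂).comap α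
  have hSmem : ∀ s : G, s ∈ S ↔ (s : E₁ ≃ₐ[k₁] E₁) ζ₁ = ζ₁ ∧ α s ζ₂ = ζ₂ := fun s => Iff.rfl
  have hSo : IsOpen (S : Set G) := by
    have ho1 : IsOpen (MulAction.stabilizer (E₁ ≃ₐ[k₁] E₁) ζ₁ : Set (E₁ ≃ₐ[k₁] E₁)) :=
      stabilizer_isOpen_of_isIntegral ζ₁
    have ho2 : IsOpen (MulAction.stabilizer (E₂ ≃ₐ[k₂] E₂) ζ₂ : Set (E₂ ≃ₐ[k₂] E₂)) :=
      stabilizer_isOpen_of_isIntegral ζ₂
    exact (ho1.preimage continuous_subtype_val).inter (ho2.preimage hα)
  let U₁ : Subgroup (E₁ ≃ₐ[k₁] E₁) := S.map G.subtype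
  let U₂ : Subgroup (E₂ ≃ₐ[k₂] E₂) := S.map α
  have hU₁ : IsOpen (U₁ : Set (E₁ ≃ₐ[k₁] E₁)) := by
    have h := hG.isOpenMap_subtype_val _ hSo
    have h' : (U₁ : Set (E₁ ≃ₐ[k₁] E₁)) = Subtype.val '' (S : Set G) := by
      rw [Subgroup.coe_map]; rfl
    rw [h']
    exact h
  have hU₂ : IsOpen (U₂ : Set (E₂ ≃ₐ[k₂] E₂)) := isOpen_map hG α hα hr S hSo
  have hU₁G : ∀ g ∈ U₁, g ∈ G := by
    rintro g ⟨s, -, rfl⟩
    exact s.2
  have hU₁S : ∀ (g : E₁ ≃ₐ[k₁] E₁) (hg : g ∈ U₁), (⟨g, hU₁G g hg⟩ : G) ∈ S := by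
    rintro g ⟨s, hs, rfl⟩
    exact hs
  let K₁ : IntermediateField k₁ E₁ := IntermediateField.fixedField U₁
  let K₂ : IntermediateField k₂ E₂ := IntermediateField.fixedField U₂
  have hfi₁ : U₁.FiniteIndex := by
    have hq : Finite ((E₁ ≃ₐ[k₁] E₁) ⧸ U₁) := Subgroup.quotient_finite_of_isOpen _ hU₁
    exact U₁.finiteIndex_of_finite_quotient
  have hfi₂ : U₂.FiniteIndex := by
    have hq : Finite ((E₂ ≃ₐ[k₂] E₂) ⧸ U₂) := Subgroup.quotient_finite_of_isOpen _ hU₂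
    exact U₂.finiteIndex_of_finite_quotient
  have hfd₁ : FiniteDimensional k₁ K₁ := EndAx245.finiteDimensional_fixedField U₁ hfi₁
  have hfd₂ : FiniteDimensional k₂ K₂ := EndAx245.finiteDimensional_fixedField U₂ hfi₂
  have : NumberField K₁ := { to_finiteDimensional := FiniteDimensional.trans ℚ k₁ K₁ }
  have : NumberField K₂ := { to_finiteDimensional := FiniteDimensional.trans ℚ k₂ K₂ }
  have : IsGalois K₁ E₁ := IsGalois.tower_top_of_isGalois k₁ K₁ E₁
  have : IsGalois K₂ E₂ := IsGalois.tower_top_of_isGalois k₂ K₂ E₂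
  let e₁ := eG U₁ hU₁
  let e₂ := eG U₂ hU₂
  let inc : U₁ →* G := Subgroup.inclusion hU₁G
  let f : U₁ →* U₂ :=
    { toFun := fun u => ⟨α (inc u), ⟨inc u, hU₁S u u.2, rfl⟩⟩
      map_one' := Subtype.ext (by simp)
      map_mul' := fun a b => Subtype.ext (by simp) }
  let β : (E₁ ≃ₐ[K₁] E₁) →* (E₂ ≃ₐ[K₂] E₂) :=
    (e₂.symm.toMonoidHom.comp f).comp e₁.toMonoidHom
  have hβ : ∀ (σ : E₁ ≃ₐ[K₁] E₁) (y : E₂), β σ y = α (inc (e₁ σ)) y := by
    intro σ y
    change (e₂.symm (f (e₁ σ))) y = _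
    rw [eG_symm_apply]
    rfl
  have hβc : Continuous β := by
    apply Redx49.continuous_of_eval
    intro y
    have ho2 : IsOpen (MulAction.stabilizer (E₂ ≃ₐ[k₂] E₂) y : Set (E₂ ≃ₐ[k₂] E₂)) :=
      stabilizer_isOpen_of_isIntegral y
    have hc : Continuous (fun σ : E₁ ≃ₐ[K₁] E₁ => α (inc (e₁ σ))) := by
      have hinc : Continuous inc := by
        apply Continuous.subtype_mk
        exact continuous_subtype_val
      exact hα.comp (hinc.comp (eG_continuous U₁ hU₁))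
    have h3 := (ho2.preimage hc).mem_nhds (x := (1 : E₁ ≃ₐ[K₁] E₁)) (by
      change α (inc (e₁ 1)) ∈ MulAction.stabilizer (E₂ ≃ₐ[k₂] E₂) y
      rw [map_one, map_one, map_one]
      exact Subgroup.one_mem _)
    refine Filter.mem_of_superset h3 ?_
    intro σ hσ
    change β σ y = y
    rw [hβ]
    exact hσ
  have hβs : Function.Surjective β := by
    intro h
    obtain ⟨s, hs, hsh⟩ := (e₂ h).2
    have hsU : (s : E₁ ≃ₐ[k₁] E₁) ∈ U₁ := ⟨s, hs, rfl⟩
    refine ⟨e₁.symm ⟨s, hsU⟩, ?_⟩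
    ext y
    rw [hβ, MulEquiv.apply_symm_apply]
    have h4 : inc ⟨s, hsU⟩ = s := rfl
    rw [h4, hsh, eG_apply]
  -- roots of unity in the base fields
  have hζ₁mem : ζ₁ ∈ K₁ := by
    rintro ⟨u, s, hs, rfl⟩
    exact ((hSmem s).1 hs).1
  have hζ₂mem : ζ₂ ∈ K₂ := by
    rintro ⟨u, s, hs, rfl⟩
    exact ((hSmem s).1 hs).2
  have hζK₁ : IsPrimitiveRoot (⟨ζ₁, hζ₁mem⟩ : K₁) l :=
    IsPrimitiveRoot.of_map_of_injective (f := algebraMap K₁ E₁) h₁ (algebraMap K₁ E₁).injective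
  have hζK₂ : IsPrimitiveRoot (⟨ζ₂, hζ₂mem⟩ : K₂) l :=
    IsPrimitiveRoot.of_map_of_injective (f := algebraMap K₂ E₂) h₂ (algebraMap K₂ E₂).injective
  have : Fact l.Prime := ⟨hl⟩
  have : NeZero l := ⟨hl.ne_zero⟩
  -- the local condition
  have hlocAt : ∀ v : HeightOneSpectrum (𝓞 K₁), (l : 𝓞 K₁) ∉ v.asIdeal →
      LocAt2 β l (fun P Q => S1 α l P ∧ Goes α P Q) v := by
    intro v hv
    obtain ⟨P, hPv⟩ := Place.exists_res_eq (E := E₁) K₁ ⟨v.asIdeal, v.isPrime, v.ne_bot⟩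
    have hPv' : (P.res K₁).ideal = v.asIdeal := by rw [hPv]
    have hlP : (l : 𝓞 E₁) ∉ P.ideal := by
      intro hmem
      apply hv
      rw [← hPv', Place.mem_res, map_natCast]
      exact hmem
    have hP : P.rchar ≠ l := by
      intro h
      apply hlP
      rw [← h]
      exact P.rchar_mem
    obtain ⟨τ, hτ, π, ϖ, hπ, hϖ, hτπ, hmove⟩ := exists_moving (K := K₁) P l hl hP ζ₁ h₁
      (fun x => hpow₁ _)
    have hhos : hos (P.res K₁) = v := HeightOneSpectrum.ext hPv'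
    rw [hhos] at hϖ
    refine ⟨P, τ, hPv', ?_, ⟨π, ϖ, hπ, hϖ, hmove⟩, ?_⟩
    · intro a ha
      exact Place.v_smul_sub_lt_one P hτ a ha
    -- the element of `G`
    set g : G := inc (e₁ τ) with hg
    have hgτ : ∀ x : E₁, (g : E₁ ≃ₐ[k₁] E₁) x = τ x := fun x => eG_apply U₁ hU₁ τ x
    have hgin : g ∈ P.ideal.inertia G := by
      intro x
      exact hτ x
    have hgP : g • P = P := Place.smul_eq_of_mem_inertia P hgin
    by_cases hS1 : S1 α l P
    · right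
      obtain ⟨Q, hlQ, hgoes, -, hcyc⟩ := hloc P hS1
      refine ⟨Q, ⟨hS1, hgoes⟩, fun y hy hyv => ?_⟩
      have hQ : Q.rchar ≠ l := by
        intro h
        apply hlQ
        rw [← h]
        exact Q.rchar_mem
      rw [hβ]
      refine dec_fix Q (α g) (hgoes g hgP) l hl hQ hroots₂ ?_ 1 y hyv ?_
      · intro k ζ hζ
        have h5 := hcyc k g hgP 1 (fun ξ hξ => by
          rw [pow_one]
          change (g : E₁ ≃ₐ[k₁] E₁) ξ = ξ
          rw [hgτ]
          exact in_fix_root ((mem_inS_val P τ).2 hτ) (val_lpow P l hl hP k) hξ) ζ hζ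
        rw [pow_one] at h5
        exact h5
      · obtain ⟨a, ha⟩ := hy
        rw [pow_one, ← map_pow, ← ha]
        have h6 := hβ τ (algebraMap K₂ E₂ a)
        rw [AlgEquiv.commutes] at h6
        exact h6.symm
    · left
      intro y hy
      have hnot : ∀ N : Subgroup (E₂ ≃ₐ[k₂] E₂), N.Normal → IsOpen (N : Set (E₂ ≃ₐ[k₂] E₂)) →
          ∃ n : ℕ, (α g) ^ n ∈ N ∧ ¬ l ∣ n := by
        intro N hN hNo
        by_contra hcon
        push Not at hcon
        exact hS1 ⟨hlP, g, hgin, N, hN, hNo, fun n hn => hcon n hn⟩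
      obtain ⟨N, hN, hNo, hNy⟩ := exists_open_normal (F := k₂) y
      obtain ⟨n, hn, hnl⟩ := hnot N hN hNo
      rw [hβ]
      have hfixK : ∀ a : K₂, α g (algebraMap K₂ E₂ a) = algebraMap K₂ E₂ a := by
        intro a
        have h6 := hβ τ (algebraMap K₂ E₂ a)
        rw [AlgEquiv.commutes] at h6
        exact h6.symm
      refine fix_of_pow (α g) l n y ?_ ?_
        ((Nat.Prime.coprime_iff_not_dvd hl).2 hnl).symm (hNy _ hn)
      · obtain ⟨a, ha⟩ := hy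
        rw [← map_pow, ← ha]
        exact hfixK a
      · intro ζ hζ
        obtain ⟨i, -, rfl⟩ := h₂.eq_pow_of_pow_eq_one hζ
        rw [map_pow]
        have := hfixK ⟨ζ₂, hζ₂mem⟩
        change α g ζ₂ = ζ₂ at this
        rw [this]
  have hfin := hit2 β hβc hβs l ⟨ζ₁, hζ₁mem⟩ hζK₁ ⟨ζ₂, hζ₂mem⟩ hζK₂ (fun x => hpow₂ _)
    (fun P Q => S1 α l P ∧ Goes α P Q) hlocAt
  set bad := {w : HeightOneSpectrum (𝓞 K₂) | ¬ ∃ (P : Place E₁) (Q : Place E₂),
      (Q.res K₂).ideal = w.asIdeal ∧ (S1 α l P ∧ Goes α P Q)} with hbad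
  let ch : HeightOneSpectrum (𝓞 K₂) → ℕ := fun w =>
    (⟨w.asIdeal, w.isPrime, w.ne_bot⟩ : Place K₂).rchar
  refine ⟨hfin.toFinset.sup ch, fun Q' hQ' => ?_⟩
  have hw : hos (Q'.res K₂) ∉ bad := by
    intro hmem
    have h1 : ch (hos (Q'.res K₂)) ≤ hfin.toFinset.sup ch :=
      Finset.le_sup (f := ch) (hfin.mem_toFinset.2 hmem)
    have h2 : ch (hos (Q'.res K₂)) = Q'.rchar := Place.rchar_res K₂ Q'
    rw [h2] at h1
    exact absurd h1 (not_le.2 hQ')
  rw [hbad, Set.mem_ofPred_eq, not_not] at hw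
  obtain ⟨P, Q, hQw, hS1, hgoes⟩ := hw
  have hres : Q.res K₂ = Q'.res K₂ := Place.ext hQw
  obtain ⟨s, hs⟩ := Place.exists_smul_eq_of_res_eq (M := K₂) Q Q' hres
  obtain ⟨σ, rfl⟩ := hβs s
  set g : G := inc (e₁ σ) with hg
  have hgQ : α g • Q = Q' := by
    rw [← hs]
    have hact : ∀ x : 𝓞 E₂, (α g)⁻¹ • x = (β σ)⁻¹ • x := by
      intro x
      rw [inv_smul_eq_iff]
      apply NumberField.RingOfIntegers.ext
      change algebraMap (𝓞 E₂) E₂ x = algebraMap (𝓞 E₂) E₂ (α g • (β σ)⁻¹ • x)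
      have h7 : algebraMap (𝓞 E₂) E₂ (α g • (β σ)⁻¹ • x) = α g (algebraMap (𝓞 E₂) E₂ ((β σ)⁻¹ • x)) :=
        algebraMap.smul' _ _ E₂
      have h8 : algebraMap (𝓞 E₂) E₂ ((β σ)⁻¹ • x) = (β σ)⁻¹ (algebraMap (𝓞 E₂) E₂ x) :=
        algebraMap.smul' _ _ E₂
      rw [h7, h8, ← hβ, ← AlgEquiv.mul_apply, mul_inv_cancel, AlgEquiv.one_apply]
    ext x
    rw [Place.mem_smul_ideal, Place.mem_smul_ideal, hact]
  refine ⟨g • P, hS1.smul g, ?_⟩
  rw [← hgQ]
  exact hgoes.smul g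

end main

end Crest.Agent.R018.S1Finx380
end

-- ▼ part R018/THit_380
section

/-!
Row 18: `THit` of `HeartDef_74` from `TLoc` (helper380).
-/

set_option autoImplicit false

namespace Crest.Agent.R018.THitx380

open Crest.NumberTheoryR Crest.Agent.R018.EndDefx924 Crest.Agent.R018.Placesx484
  Crest.Agent.R018.GDefx791 Crest.Agent.R018.LocDefx31 Crest.Agent.R018.HeartDefx74

/-- (S1) for one prime `l`, from the local correspondence at `l` -/
theorem hit_of_loc (E : Type) [Field E] [CharZero E] [IsGalois ℚ E] (hE : IsSolvablyClosed E)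
    (G1 : Subgroup (Om ≃ₐ[ℚ] Om)) (hG : IsOpen (G1 : Set (Om ≃ₐ[ℚ] Om)))
    (α : G1 →* (E ≃ₐ[ℚ] E)) (hα : Continuous α) (hr : IsOpen (Set.range α))
    (l : ℕ) (hl : l.Prime) (hloc : Loc Om E α l) :
    ∃ B : ℕ, ∀ Q : Place E, B < Q.rchar → ∃ P : Place Om, S1 α l P ∧ Goes α P Q :=
  S1Finx380.bad_finite G1 hG α hα hr l hl
    (fun k => Kumx568.exists_primitiveRoot (E := Om) (fun p _ => IsAlgClosed.splits p) (l ^ k)
      (pow_ne_zero _ hl.ne_zero))
    (fun k => Kumx568.exists_primitiveRoot hE (l ^ k) (pow_ne_zero _ hl.ne_zero))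
    (fun x => IsAlgClosed.exists_pow_nat_eq x hl.pos)
    (fun x => Kumx568.exists_pow_eq hE l hl.ne_zero x) hloc


end Crest.Agent.R018.THitx380
end

-- ▼ part R018/BadFin_863

/-!
Row 18 (helper863): the literal `BadFinite` of `Core_74` from `LocT` (via helper380's (S1)).
-/

set_option autoImplicit false

open NumberField
open scoped Pointwise

namespace Crest.Agent.R018.BadFinx863

open Crest.Agent.R018.EndDefx924 (Om)
open Crest.Agent.R018.Placesx484 Crest.Agent.R018.LocDefx31 Crest.Agent.R018.Corex74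

/-- **BadFinite** of `Core_74` -/
theorem badFinite_of (h : LocT) : BadFinite := by
  intro D l hl hl2
  have hhit : ∀ S : Place Om, S1 D.α l S → Hit D l S := by
    rintro S ⟨hS, x, hx, N, hN, hNo, hn⟩
    refine ⟨?_, x, fun y => hx y, N, hN, hNo, hn⟩
    rintro rfl
    exact hS S.rchar_mem
  have hloc : Loc Om Sv D.α l := by
    intro P hP
    obtain ⟨Q, hQ, hQl, hu, hc⟩ := h D l hl hl2 P (hhit P hP)
    refine ⟨Q, fun hm => hQl (Q.rchar_eq_of_mem hl hm), hQ, hu, fun n d hd c hcd ζ hζ => ?_⟩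
    have h1 := hc d hd n ζ hζ
    have h2 := hcd (ζ : Om) (by rw [← IntermediateField.coe_pow, hζ]; rfl)
    have h3 : (d : BB) (ζ : Om) = (ζ : Om) ^ c := h2
    have h4 : D.α d ζ = ζ ^ c := by
      apply Subtype.ext
      rw [h1, h3]
      rfl
    exact h4
  obtain ⟨B, hB⟩ := THitx380.hit_of_loc Sv SvClosedx820.isSolvablyClosed_Sv D.G D.isOpen_G D.α
    D.cont D.open_range l hl hloc
  refine ⟨B, fun Q hQ => ?_⟩
  obtain ⟨P, hP, hG⟩ := hB Q hQ
  exact ⟨P, hhit P hP, hG⟩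

end Crest.Agent.R018.BadFinx863
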