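import Mathlib
import Crest.Agent.R018.Kum_568

-- ▼ part R018/Kum2_568
section

/-!
Row 18: transport of Kummer classes along `α : Gal(E₁/F₁) → Gal(E₂/F₂)` (helper568).

`Rel α U ζ₁ ζ₂ y z` : for all `g ∈ U`, `α g y = ζ₂^i y` and `g z = ζ₁^i z` for the same `i`.
No roots of unity in the base fields are needed, only that `g` acts on `ζ₁` and `α g` acts on
`ζ₂` by the same exponent (`Cyc α U ζ₁ ζ₂`).
-/

set_option autoImplicit false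

namespace Crest.Agent.R018.Kum2x568

open Crest.Agent.R018.Kumx568

variable {F₁ E₁ F₂ E₂ : Type*} [Field F₁] [Field E₁] [Algebra F₁ E₁] [Field F₂] [Field E₂]
  [Algebra F₂ E₂]

/-- `s ↦ α s y` is locally constant. -/
theorem exists_finite_of_continuous [Algebra.IsIntegral F₂ E₂]
    (α : (E₁ ≃ₐ[F₁] E₁) →* (E₂ ≃ₐ[F₂] E₂))
    (hα : Continuous α) (y : E₂) :
    ∃ L : IntermediateField F₁ E₁, FiniteDimensional F₁ L ∧
      ∀ s ∈ L.fixingSubgroup, α s y = y := by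
  have h1 : IsOpen (MulAction.stabilizer (E₂ ≃ₐ[F₂] E₂) y : Set (E₂ ≃ₐ[F₂] E₂)) :=
    stabilizer_isOpen_of_isIntegral y
  have h2 : (α ⁻¹' (MulAction.stabilizer (E₂ ≃ₐ[F₂] E₂) y : Set (E₂ ≃ₐ[F₂] E₂))) ∈
      nhds (1 : E₁ ≃ₐ[F₁] E₁) := by
    apply (h1.preimage hα).mem_nhds
    change α 1 ∈ MulAction.stabilizer (E₂ ≃ₐ[F₂] E₂) y
    rw [map_one]
    exact Subgroup.one_mem _
  rw [krullTopology_mem_nhds_one_iff] at h2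
  obtain ⟨L, hL, hL'⟩ := h2
  exact ⟨L, hL, fun s hs => MulAction.mem_stabilizer_iff.1 (hL' hs)⟩

/-- `g ∈ U` acts on `ζ₁` and `α g` acts on `ζ₂` by the same exponent. -/
def Cyc (α : (E₁ ≃ₐ[F₁] E₁) →* (E₂ ≃ₐ[F₂] E₂)) (U : Subgroup (E₁ ≃ₐ[F₁] E₁))
    (ζ₁ : E₁) (ζ₂ : E₂) : Prop :=
  ∀ g ∈ U, ∃ a : ℕ, α g ζ₂ = ζ₂ ^ a ∧ g ζ₁ = ζ₁ ^ a

/-- `y ∈ E₂` and `z ∈ E₁` have the same Kummer cocycle on `U`. -/
def Rel (α : (E₁ ≃ₐ[F₁] E₁) →* (E₂ ≃ₐ[F₂] E₂)) (U : Subgroup (E₁ ≃ₐ[F₁] E₁))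
    (ζ₁ : E₁) (ζ₂ : E₂) (y : E₂) (z : E₁) : Prop :=
  ∀ g ∈ U, ∃ i : ℕ, α g y = ζ₂ ^ i * y ∧ g z = ζ₁ ^ i * z

variable {α : (E₁ ≃ₐ[F₁] E₁) →* (E₂ ≃ₐ[F₂] E₂)} {U : Subgroup (E₁ ≃ₐ[F₁] E₁)}
    {ζ₁ : E₁} {ζ₂ : E₂}

theorem Cyc.mono {U' : Subgroup (E₁ ≃ₐ[F₁] E₁)} (h : Cyc α U ζ₁ ζ₂) (hU : U' ≤ U) :
    Cyc α U' ζ₁ ζ₂ := fun g hg => h g (hU hg)

theorem Cyc.pow (h : Cyc α U ζ₁ ζ₂) (k : ℕ) : Cyc α U (ζ₁ ^ k) (ζ₂ ^ k) := by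
  intro g hg
  obtain ⟨a, h1, h2⟩ := h g hg
  exact ⟨a, by rw [map_pow, h1, ← pow_mul, ← pow_mul, mul_comm],
    by rw [map_pow, h2, ← pow_mul, ← pow_mul, mul_comm]⟩

theorem Rel.mono {U' : Subgroup (E₁ ≃ₐ[F₁] E₁)} {y : E₂} {z : E₁} (h : Rel α U ζ₁ ζ₂ y z)
    (hU : U' ≤ U) : Rel α U' ζ₁ ζ₂ y z := fun g hg => h g (hU hg)

theorem Rel.mul {y y' : E₂} {z z' : E₁} (h : Rel α U ζ₁ ζ₂ y z) (h' : Rel α U ζ₁ ζ₂ y' z') :
    Rel α U ζ₁ ζ₂ (y * y') (z * z') := by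
  intro g hg
  obtain ⟨i, h1, h2⟩ := h g hg
  obtain ⟨j, h3, h4⟩ := h' g hg
  exact ⟨i + j, by rw [map_mul, h1, h3]; ring, by rw [map_mul, h2, h4]; ring⟩

theorem Rel.pow {y : E₂} {z : E₁} (h : Rel α U ζ₁ ζ₂ y z) (k : ℕ) :
    Rel α U ζ₁ ζ₂ (y ^ k) (z ^ k) := by
  intro g hg
  obtain ⟨i, h1, h2⟩ := h g hg
  exact ⟨i * k, by rw [map_pow, h1, mul_pow, ← pow_mul], by rw [map_pow, h2, mul_pow, ← pow_mul]⟩

/-- lowering the level: `n = m * k`, the `k`-th power of the roots of unity -/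
theorem Rel.pow' {y : E₂} {z : E₁} (h : Rel α U ζ₁ ζ₂ y z) (k : ℕ) :
    Rel α U (ζ₁ ^ k) (ζ₂ ^ k) (y ^ k) (z ^ k) := by
  intro g hg
  obtain ⟨i, h1, h2⟩ := h g hg
  exact ⟨i, by rw [map_pow, h1, mul_pow, ← pow_mul, ← pow_mul, mul_comm i k],
    by rw [map_pow, h2, mul_pow, ← pow_mul, ← pow_mul, mul_comm i k]⟩

theorem Rel.of_fixed {b : E₂} {c : E₁} (hb : ∀ g ∈ U, α g b = b) (hc : ∀ g ∈ U, g c = c) :
    Rel α U ζ₁ ζ₂ b c := by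
  intro g hg
  exact ⟨0, by rw [hb g hg]; simp, by rw [hc g hg]; simp⟩

theorem Rel.one : Rel α U ζ₁ ζ₂ 1 1 := Rel.of_fixed (fun _ _ => map_one _) (fun _ _ => map_one _)

theorem Rel.inv {n : ℕ} (hn : n ≠ 0) (h₁ : ζ₁ ^ n = 1) (h₂ : ζ₂ ^ n = 1)
    {y : E₂} {z : E₁} (h : Rel α U ζ₁ ζ₂ y z) : Rel α U ζ₁ ζ₂ y⁻¹ z⁻¹ := by
  intro g hg
  obtain ⟨i, h1, h2⟩ := h g hg
  have key : ∀ {E : Type _} [Field E] (ζ : E), ζ ^ n = 1 → ζ ^ ((n - 1) * i) = (ζ ^ i)⁻¹ := by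
    intro E _ ζ hζ
    have h3 : ζ ^ ((n - 1) * i) * ζ ^ i = 1 := by
      rw [← pow_add]
      have : (n - 1) * i + i = n * i := by
        obtain ⟨m, rfl⟩ := Nat.exists_eq_succ_of_ne_zero hn
        simp; ring
      rw [this, pow_mul, hζ, one_pow]
    exact eq_inv_of_mul_eq_one_left h3
  refine ⟨(n - 1) * i, ?_, ?_⟩
  · rw [map_inv₀, h1, mul_inv, key ζ₂ h₂]
  · rw [map_inv₀, h2, mul_inv]
    have h3 : ζ₁ ^ ((n - 1) * i) * ζ₁ ^ i = 1 := by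
      rw [← pow_add]
      have : (n - 1) * i + i = n * i := by
        obtain ⟨m, rfl⟩ := Nat.exists_eq_succ_of_ne_zero hn
        simp; ring
      rw [this, pow_mul, h₁, one_pow]
    rw [eq_inv_of_mul_eq_one_left h3]

/-- `Rel` only depends on the classes: uniqueness. -/
theorem Rel.unique {n : ℕ} (h₁ : IsPrimitiveRoot ζ₁ n) (h₂ : IsPrimitiveRoot ζ₂ n)
    {y : E₂} (hy : y ≠ 0) {z z' : E₁} (hz' : z' ≠ 0)
    (h : Rel α U ζ₁ ζ₂ y z) (h' : Rel α U ζ₁ ζ₂ y z') (g : E₁ ≃ₐ[F₁] E₁) (hg : g ∈ U) :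
    g (z / z') = z / z' := by
  obtain ⟨i, h3, h4⟩ := h g hg
  obtain ⟨j, h5, h6⟩ := h' g hg
  have h7 : ζ₂ ^ i = ζ₂ ^ j := mul_right_cancel₀ hy (h3.symm.trans h5)
  have h8 : ζ₁ ^ i = ζ₁ ^ j := by
    rcases Nat.eq_zero_or_pos n with rfl | hn
    · -- `n = 0`: both have infinite order
      have h9 : i = j := by
        by_contra hne
        rcases lt_or_gt_of_ne hne with hlt | hlt
        · have h10 : ζ₂ ^ (j - i) = 1 := by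
            have h0 : ζ₂ ^ i ≠ 0 := by
              intro h0
              rw [h0, zero_mul] at h3
              exact hy ((map_eq_zero _).1 h3)
            have : ζ₂ ^ i * ζ₂ ^ (j - i) = ζ₂ ^ i * 1 := by
              rw [← pow_add, Nat.add_sub_cancel' hlt.le, mul_one, h7]
            exact mul_left_cancel₀ h0 this
          have := (h₂.pow_eq_one_iff_dvd _).1 h10
          have := Nat.eq_zero_of_zero_dvd this
          omega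
        · have h10 : ζ₂ ^ (i - j) = 1 := by
            have h0 : ζ₂ ^ j ≠ 0 := by
              intro h0
              rw [h0, zero_mul] at h5
              exact hy ((map_eq_zero _).1 h5)
            have : ζ₂ ^ j * ζ₂ ^ (i - j) = ζ₂ ^ j * 1 := by
              rw [← pow_add, Nat.add_sub_cancel' hlt.le, mul_one, h7]
            exact mul_left_cancel₀ h0 this
          have := (h₂.pow_eq_one_iff_dvd _).1 h10
          have := Nat.eq_zero_of_zero_dvd this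
          omega
      rw [h9]
    · have h9 : i % n = j % n := by
        have hi : ζ₂ ^ (i % n) = ζ₂ ^ (j % n) := by
          rw [← pow_mod_orderOf ζ₂ i, ← pow_mod_orderOf ζ₂ j, ← h₂.eq_orderOf] at h7
          exact h7
        exact h₂.pow_inj (Nat.mod_lt _ hn) (Nat.mod_lt _ hn) hi
      rw [← pow_mod_orderOf ζ₁ i, ← pow_mod_orderOf ζ₁ j, ← h₁.eq_orderOf, h9]
  rw [map_div₀, h4, h6, h8]
  have h10 : ζ₁ ^ j ≠ 0 := by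
    intro h0
    rw [h0, zero_mul] at h6
    exact hz' ((map_eq_zero _).1 h6)
  exact mul_div_mul_left _ _ h10

/-- injectivity -/
theorem Rel.inj {n : ℕ} (hn : n ≠ 0) (h₁ : IsPrimitiveRoot ζ₁ n) (h₂ : IsPrimitiveRoot ζ₂ n)
    {y y' : E₂} (hy' : y' ≠ 0) {z : E₁} (hz : z ≠ 0)
    (h : Rel α U ζ₁ ζ₂ y z) (h' : Rel α U ζ₁ ζ₂ y' z) (g : E₁ ≃ₐ[F₁] E₁) (hg : g ∈ U) :
    α g (y / y') = y / y' := by
  obtain ⟨i, h3, h4⟩ := h g hg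
  obtain ⟨j, h5, h6⟩ := h' g hg
  have h7 : ζ₁ ^ i = ζ₁ ^ j := mul_right_cancel₀ hz (h4.symm.trans h6)
  have hn' : 0 < n := Nat.pos_of_ne_zero hn
  have h8 : ζ₂ ^ i = ζ₂ ^ j := by
    have h9 : i % n = j % n := by
      have hi : ζ₁ ^ (i % n) = ζ₁ ^ (j % n) := by
        rw [← pow_mod_orderOf ζ₁ i, ← pow_mod_orderOf ζ₁ j, ← h₁.eq_orderOf] at h7
        exact h7
      exact h₁.pow_inj (Nat.mod_lt _ hn') (Nat.mod_lt _ hn') hi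
    rw [← pow_mod_orderOf ζ₂ i, ← pow_mod_orderOf ζ₂ j, ← h₂.eq_orderOf, h9]
  rw [map_div₀, h3, h5, h8]
  have h10 : ζ₂ ^ j ≠ 0 := by
    intro h0
    rw [h0, zero_mul] at h5
    exact hy' ((map_eq_zero _).1 h5)
  exact mul_div_mul_left _ _ h10

/-- conjugation: `h` normalizes nothing, it moves `U` to `h U h⁻¹` -/
theorem Rel.conj {y : E₂} {z : E₁} (hr : Rel α U ζ₁ ζ₂ y z) (h : E₁ ≃ₐ[F₁] E₁) (a : ℕ)
    (ha₂ : α h ζ₂ = ζ₂ ^ a) (ha₁ : h ζ₁ = ζ₁ ^ a)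
    (g : E₁ ≃ₐ[F₁] E₁) (hg : h⁻¹ * g * h ∈ U) :
    ∃ i : ℕ, α g (α h y) = ζ₂ ^ i * α h y ∧ g (h z) = ζ₁ ^ i * h z := by
  obtain ⟨i, h1, h2⟩ := hr _ hg
  refine ⟨a * i, ?_, ?_⟩
  · have h3 : α g (α h y) = α h (α (h⁻¹ * g * h) y) := by
      rw [← AlgEquiv.mul_apply, ← AlgEquiv.mul_apply, ← map_mul, ← map_mul]
      congr 2
      group
    rw [h3, h1, map_mul, map_pow, ha₂, ← pow_mul]
  · have h3 : g (h z) = h ((h⁻¹ * g * h) z) := by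
      rw [← AlgEquiv.mul_apply, ← AlgEquiv.mul_apply]
      congr 1
      group
    rw [h3, h2, map_mul, map_pow, ha₁, ← pow_mul]

/-- **existence of the transport** -/
theorem exists_rel [Algebra.IsIntegral F₂ E₂] (hα : Continuous α) {n : ℕ} (hn : n ≠ 0)
    (h₁ : IsPrimitiveRoot ζ₁ n) (h₂ : IsPrimitiveRoot ζ₂ n) (hc : Cyc α U ζ₁ ζ₂)
    (y : E₂) (hy : y ≠ 0) (hyn : ∀ g ∈ U, α g (y ^ n) = y ^ n) :
    ∃ z : E₁, z ≠ 0 ∧ (∀ g ∈ U, g (z ^ n) = z ^ n) ∧ Rel α U ζ₁ ζ₂ y z := by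
  classical
  have hn' : 0 < n := Nat.pos_of_ne_zero hn
  obtain ⟨L, hL, hLy⟩ := exists_finite_of_continuous α hα y
  have hex : ∀ g : U, ∃ i : ℕ, i < n ∧ α g y = ζ₂ ^ i * y := by
    intro g
    have h3 : (α g y / y) ^ n = 1 := by
      rw [div_pow, ← map_pow, hyn g g.2, div_self (pow_ne_zero _ hy)]
    have : NeZero n := ⟨hn⟩
    obtain ⟨i, hi, h4⟩ := h₂.eq_pow_of_pow_eq_one h3
    exact ⟨i, hi, by rw [h4, div_mul_cancel₀ _ hy]⟩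
  choose k hk hky using hex
  have hζ0 : ζ₁ ≠ 0 := h₁.ne_zero hn
  have hζ20 : ζ₂ ≠ 0 := h₂.ne_zero hn
  -- comparison of powers
  have hcmp : ∀ i j : ℕ, ζ₂ ^ i = ζ₂ ^ j → ζ₁ ^ i = ζ₁ ^ j := by
    intro i j h7
    have h9 : i % n = j % n := by
      have hi : ζ₂ ^ (i % n) = ζ₂ ^ (j % n) := by
        rw [← pow_mod_orderOf ζ₂ i, ← pow_mod_orderOf ζ₂ j, ← h₂.eq_orderOf] at h7
        exact h7
      exact h₂.pow_inj (Nat.mod_lt _ hn') (Nat.mod_lt _ hn') hi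
    rw [← pow_mod_orderOf ζ₁ i, ← pow_mod_orderOf ζ₁ j, ← h₁.eq_orderOf, h9]
  let c : U → E₁ˣ := fun g => Units.mk0 (ζ₁ ^ k g) (pow_ne_zero _ hζ0)
  obtain ⟨z, hz⟩ := hilbert90 U c (by
    intro s t
    obtain ⟨a, ha2, ha1⟩ := hc s s.2
    change ζ₁ ^ k (s * t) = ζ₁ ^ k s * (s : E₁ ≃ₐ[F₁] E₁) (ζ₁ ^ k t)
    rw [map_pow, ha1, ← pow_mul, ← pow_add]
    apply hcmp
    have h3 : ζ₂ ^ k (s * t) * y = ζ₂ ^ (k s + a * k t) * y := by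
      rw [← hky, Subgroup.coe_mul, map_mul, AlgEquiv.mul_apply, hky t, map_mul, map_pow, ha2,
        hky s, pow_add, pow_mul]
      ring
    exact mul_right_cancel₀ hy h3) L (by
    intro s hs
    apply Units.ext
    change ζ₁ ^ k s = 1
    have h3 : ζ₂ ^ k s = ζ₂ ^ 0 := by
      have h4 := hky s
      rw [hLy s hs] at h4
      have h5 : ζ₂ ^ k s * y = ζ₂ ^ 0 * y := by rw [← h4]; simp
      exact mul_right_cancel₀ hy h5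
    rw [hcmp _ _ h3, pow_zero])
  refine ⟨z, z.ne_zero, ?_, ?_⟩
  · intro g hg
    have h3 := hz ⟨g, hg⟩
    change g z = ζ₁ ^ k ⟨g, hg⟩ * z at h3
    rw [map_pow, h3, mul_pow, ← pow_mul, mul_comm _ n, pow_mul, h₁.pow_eq_one, one_pow, one_mul]
  · intro g hg
    exact ⟨k ⟨g, hg⟩, hky ⟨g, hg⟩, hz ⟨g, hg⟩⟩

end Crest.Agent.R018.Kum2x568
end

-- ▼ part R018/Kum3_568
section

/-!
Row 18: transport of Kummer classes, class level and `MonoidHom` version (helper568).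

`Tr α U n ζ₁ ζ₂ b c` : `b ∈ E₂` and `c ∈ E₁` have `n`-th roots with the same Kummer cocycle on `U`.
`exists_transport` : for `K₁ ⊆ E₁`, `K₂ ⊆ E₂` with `α (Gal(E₁/K₁)) ≤ Gal(E₂/K₂)` there is a map
`Φ : K₂ˣ → K₁ˣ` (homomorphism modulo `n`-th powers, injective modulo `n`-th powers if
`α (Gal(E₁/K₁)) = Gal(E₂/K₂)`).
-/

set_option autoImplicit false

namespace Crest.Agent.R018.Kum3x568

open Crest.Agent.R018.Kumx568 Crest.Agent.R018.Kum2x568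
open Crest.NumberTheoryR

variable {F₁ E₁ F₂ E₂ : Type*} [Field F₁] [Field E₁] [Algebra F₁ E₁] [Field F₂] [Field E₂]
  [Algebra F₂ E₂]

/-- `b ∈ E₂` and `c ∈ E₁` have `n`-th roots with the same Kummer cocycle on `U`. -/
def Tr (α : (E₁ ≃ₐ[F₁] E₁) →* (E₂ ≃ₐ[F₂] E₂)) (U : Subgroup (E₁ ≃ₐ[F₁] E₁)) (n : ℕ)
    (ζ₁ : E₁) (ζ₂ : E₂) (b : E₂) (c : E₁) : Prop :=
  ∃ y : E₂, ∃ z : E₁, y ^ n = b ∧ z ^ n = c ∧ Rel α U ζ₁ ζ₂ y z

variable {α : (E₁ ≃ₐ[F₁] E₁) →* (E₂ ≃ₐ[F₂] E₂)} {U : Subgroup (E₁ ≃ₐ[F₁] E₁)} {n : ℕ}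
    {ζ₁ : E₁} {ζ₂ : E₂}

theorem Tr.mono {U' : Subgroup (E₁ ≃ₐ[F₁] E₁)} {b : E₂} {c : E₁} (h : Tr α U n ζ₁ ζ₂ b c)
    (hU : U' ≤ U) : Tr α U' n ζ₁ ζ₂ b c := by
  obtain ⟨y, z, hy, hz, hr⟩ := h
  exact ⟨y, z, hy, hz, hr.mono hU⟩

theorem Tr.mul {b b' : E₂} {c c' : E₁} (h : Tr α U n ζ₁ ζ₂ b c) (h' : Tr α U n ζ₁ ζ₂ b' c') :
    Tr α U n ζ₁ ζ₂ (b * b') (c * c') := by
  obtain ⟨y, z, hy, hz, hr⟩ := h
  obtain ⟨y', z', hy', hz', hr'⟩ := h'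
  exact ⟨y * y', z * z', by rw [mul_pow, hy, hy'], by rw [mul_pow, hz, hz'], hr.mul hr'⟩

theorem Tr.one : Tr α U n ζ₁ ζ₂ 1 1 := ⟨1, 1, one_pow _, one_pow _, Rel.one⟩

theorem Tr.of_pow {b : E₂} {c : E₁} (hb : ∀ g ∈ U, α g b = b) (hc : ∀ g ∈ U, g c = c) :
    Tr α U n ζ₁ ζ₂ (b ^ n) (c ^ n) := ⟨b, c, rfl, rfl, Rel.of_fixed hb hc⟩

theorem Tr.inv (hn : n ≠ 0) (h₁ : ζ₁ ^ n = 1) (h₂ : ζ₂ ^ n = 1) {b : E₂} {c : E₁}
    (h : Tr α U n ζ₁ ζ₂ b c) : Tr α U n ζ₁ ζ₂ b⁻¹ c⁻¹ := by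
  obtain ⟨y, z, hy, hz, hr⟩ := h
  exact ⟨y⁻¹, z⁻¹, by rw [inv_pow, hy], by rw [inv_pow, hz], hr.inv hn h₁ h₂⟩

/-- `ζ₂` and `ζ₁` are related. -/
theorem rel_root (hn : n ≠ 0) (h₁ : ζ₁ ^ n = 1) (h₂ : ζ₂ ^ n = 1) (hc : Cyc α U ζ₁ ζ₂) :
    Rel α U ζ₁ ζ₂ ζ₂ ζ₁ := by
  intro g hg
  obtain ⟨a, h3, h4⟩ := hc g hg
  refine ⟨a + (n - 1), ?_, ?_⟩
  · rw [h3, ← pow_succ, add_assoc, Nat.sub_add_cancel (Nat.pos_of_ne_zero hn), pow_add, h₂, mul_one]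
  · rw [h4, ← pow_succ, add_assoc, Nat.sub_add_cancel (Nat.pos_of_ne_zero hn), pow_add, h₁, mul_one]

/-- every `n`-th root of `b` has a partner -/
theorem Tr.exists_root (hn : n ≠ 0) (h₁ : ζ₁ ^ n = 1) (h₂ : IsPrimitiveRoot ζ₂ n)
    (hc : Cyc α U ζ₁ ζ₂) {b : E₂} {c : E₁} (hb : b ≠ 0)
    (h : Tr α U n ζ₁ ζ₂ b c) (y' : E₂) (hy' : y' ^ n = b) :
    ∃ z' : E₁, z' ^ n = c ∧ Rel α U ζ₁ ζ₂ y' z' := by
  obtain ⟨y, z, hy, hz, hr⟩ := h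
  have hy0 : y ≠ 0 := by
    rintro rfl
    rw [zero_pow hn] at hy
    exact hb hy.symm
  have : NeZero n := ⟨hn⟩
  obtain ⟨i, -, hi⟩ := h₂.eq_pow_of_pow_eq_one (ξ := y' / y) (by
    rw [div_pow, hy', hy, div_self hb])
  refine ⟨ζ₁ ^ i * z, ?_, ?_⟩
  · rw [mul_pow, ← pow_mul, mul_comm i, pow_mul, h₁, one_pow, one_mul, hz]
  · have h3 : y' = ζ₂ ^ i * y := by rw [hi, div_mul_cancel₀ _ hy0]
    rw [h3]
    exact ((rel_root hn h₁ h₂.pow_eq_one hc).pow i).mul hr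

/-- the image class is unique -/
theorem Tr.unique (hn : n ≠ 0) (h₁ : IsPrimitiveRoot ζ₁ n) (h₂ : IsPrimitiveRoot ζ₂ n)
    (hc : Cyc α U ζ₁ ζ₂) {b : E₂} {c c' : E₁} (hb : b ≠ 0) (hc0 : c' ≠ 0)
    (h : Tr α U n ζ₁ ζ₂ b c) (h' : Tr α U n ζ₁ ζ₂ b c') :
    ∃ d : E₁, (∀ g ∈ U, g d = d) ∧ c = c' * d ^ n := by
  obtain ⟨y, z, hy, hz, hr⟩ := h
  have hy0 : y ≠ 0 := by
    rintro rfl
    rw [zero_pow hn] at hy
    exact hb hy.symm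
  obtain ⟨z', hz', hr'⟩ := h'.exists_root hn h₁.pow_eq_one h₂ hc hb y hy
  have hz0' : z' ≠ 0 := by
    rintro rfl
    rw [zero_pow hn] at hz'
    exact hc0 hz'.symm
  refine ⟨z / z', hr.unique h₁ h₂ hy0 hz0' hr', ?_⟩
  rw [div_pow, hz, hz', mul_div_cancel₀ _ hc0]

/-- partner of an `n`-th root of `c` -/
theorem Tr.exists_root' (hn : n ≠ 0) (h₁ : IsPrimitiveRoot ζ₁ n) (h₂ : ζ₂ ^ n = 1)
    (hc : Cyc α U ζ₁ ζ₂) {b : E₂} {c : E₁} (hc0 : c ≠ 0)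
    (h : Tr α U n ζ₁ ζ₂ b c) (z' : E₁) (hz' : z' ^ n = c) :
    ∃ y' : E₂, y' ^ n = b ∧ Rel α U ζ₁ ζ₂ y' z' := by
  obtain ⟨y, z, hy, hz, hr⟩ := h
  have hz0 : z ≠ 0 := by
    rintro rfl
    rw [zero_pow hn] at hz
    exact hc0 hz.symm
  have : NeZero n := ⟨hn⟩
  obtain ⟨i, -, hi⟩ := h₁.eq_pow_of_pow_eq_one (ξ := z' / z) (by
    rw [div_pow, hz', hz, div_self hc0])
  refine ⟨ζ₂ ^ i * y, ?_, ?_⟩
  · rw [mul_pow, ← pow_mul, mul_comm i, pow_mul, h₂, one_pow, one_mul, hy]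
  · have h3 : z' = ζ₁ ^ i * z := by rw [hi, div_mul_cancel₀ _ hz0]
    rw [h3]
    exact ((rel_root hn h₁.pow_eq_one h₂ hc).pow i).mul hr

/-- injectivity modulo `n`-th powers of elements fixed by `α U` -/
theorem Tr.inj (hn : n ≠ 0) (h₁ : IsPrimitiveRoot ζ₁ n) (h₂ : IsPrimitiveRoot ζ₂ n)
    (hc : Cyc α U ζ₁ ζ₂) {b b' : E₂} {c : E₁} (hb' : b' ≠ 0) (hc0 : c ≠ 0)
    (h : Tr α U n ζ₁ ζ₂ b c) (h' : Tr α U n ζ₁ ζ₂ b' c) :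
    ∃ d : E₂, (∀ g ∈ U, α g d = d) ∧ b = b' * d ^ n := by
  obtain ⟨y, z, hy, hz, hr⟩ := h
  have hz0 : z ≠ 0 := by
    rintro rfl
    rw [zero_pow hn] at hz
    exact hc0 hz.symm
  obtain ⟨y', hy', hr'⟩ := h'.exists_root' hn h₁ h₂.pow_eq_one hc hc0 z hz
  have hy0' : y' ≠ 0 := by
    rintro rfl
    rw [zero_pow hn] at hy'
    exact hb' hy'.symm
  refine ⟨y / y', hr.inj hn h₁ h₂ hy0' hz0 hr', ?_⟩
  rw [div_pow, hy, hy', mul_div_cancel₀ _ hb']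

/-- existence -/
theorem exists_tr [CharZero E₂] (hsc : IsSolvablyClosed E₂) [Algebra.IsIntegral F₂ E₂]
    (hα : Continuous α)
    (hn : n ≠ 0) (h₁ : IsPrimitiveRoot ζ₁ n) (h₂ : IsPrimitiveRoot ζ₂ n) (hc : Cyc α U ζ₁ ζ₂)
    (b : E₂) (hb : b ≠ 0) (hbU : ∀ g ∈ U, α g b = b) :
    ∃ c : E₁, c ≠ 0 ∧ (∀ g ∈ U, g c = c) ∧ Tr α U n ζ₁ ζ₂ b c := by
  obtain ⟨y, hy⟩ := exists_pow_eq hsc n hn b
  have hy0 : y ≠ 0 := by
    rintro rfl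
    rw [zero_pow hn] at hy
    exact hb hy.symm
  obtain ⟨z, hz0, hz, hr⟩ := exists_rel hα hn h₁ h₂ hc y hy0 (by rw [hy]; exact hbU)
  exact ⟨z ^ n, pow_ne_zero _ hz0, hz, y, z, hy, rfl, hr⟩



/-- Galois equivariance: `h` moves `U` to `U' = h U h⁻¹`. -/
theorem Tr.conj {b : E₂} {c : E₁} (hr : Tr α U n ζ₁ ζ₂ b c) (h : E₁ ≃ₐ[F₁] E₁) (a : ℕ)
    (ha₂ : α h ζ₂ = ζ₂ ^ a) (ha₁ : h ζ₁ = ζ₁ ^ a) (U' : Subgroup (E₁ ≃ₐ[F₁] E₁))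
    (hU : ∀ g ∈ U', h⁻¹ * g * h ∈ U) :
    Tr α U' n ζ₁ ζ₂ (α h b) (h c) := by
  obtain ⟨y, z, hy, hz, hr⟩ := hr
  exact ⟨α h y, h z, by rw [← map_pow, hy], by rw [← map_pow, hz],
    fun g hg => hr.conj h a ha₂ ha₁ g (hU g hg)⟩

section fields

variable (K₁ : IntermediateField F₁ E₁) (K₂ : IntermediateField F₂ E₂)


variable {K₁ K₂}

omit [Algebra F₂ E₂] in
theorem coe_units_ne_zero (b : K₁ˣ) : ((b : K₁) : E₁) ≠ 0 := by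
  intro h0
  exact b.ne_zero (Subtype.ext h0)

/-- fixed elements are in the field -/
theorem mem_of_fixed [IsGalois F₁ E₁] (K₁ : IntermediateField F₁ E₁) (c : E₁)
    (hc : ∀ g ∈ K₁.fixingSubgroup, g c = c) : c ∈ K₁ := by
  have h3 : c ∈ IntermediateField.fixedField K₁.fixingSubgroup := by
    rw [IntermediateField.mem_fixedField_iff]
    exact hc
  rwa [InfiniteGalois.fixedField_fixingSubgroup] at h3

theorem Tr.unique_units [IsGalois F₁ E₁] (hn : n ≠ 0) (h₁ : IsPrimitiveRoot ζ₁ n)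
    (h₂ : IsPrimitiveRoot ζ₂ n)
    (hc : Cyc α K₁.fixingSubgroup ζ₁ ζ₂) {b : E₂} (hb : b ≠ 0) {c c' : K₁ˣ}
    (h : Tr α K₁.fixingSubgroup n ζ₁ ζ₂ b ((c : K₁) : E₁))
    (h' : Tr α K₁.fixingSubgroup n ζ₁ ζ₂ b ((c' : K₁) : E₁)) :
    ∃ d : K₁ˣ, c = c' * d ^ n := by
  obtain ⟨d, hd, hcd⟩ := h.unique hn h₁ h₂ hc hb (coe_units_ne_zero c') h'
  have hdK := mem_of_fixed K₁ d hd
  have hd0 : d ≠ 0 := by
    rintro rfl
    rw [zero_pow hn, mul_zero] at hcd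
    exact coe_units_ne_zero c hcd
  refine ⟨Units.mk0 ⟨d, hdK⟩ (fun h0 => hd0 (congrArg Subtype.val h0)), ?_⟩
  apply Units.ext
  apply Subtype.ext
  simpa using hcd



end fields

end Crest.Agent.R018.Kum3x568
end

-- ▼ part R018/S2Tr_568

/-!
Row 18, (S2), transport half (helper568).

`α : Gal(E₁/F₁) → Gal(E₂/F₂)` continuous and onto, `K/F₁` finite of degree prime to `n`,
`α` compatible with the action on `μ_n` over `K`.  Kummer classes `F₂ˣ/n → Kˣ/n`: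
* `transport_inj`  injective modulo `n`-th powers,
* `transport_eig`  `h (Φ x)^a = (Φ x)^a'` modulo `n`-th powers if `α h ζ₂ = ζ₂^a`, `h ζ₁ = ζ₁^a'`,
* `transport_ram`  if `α τ` fixes the `n`-th roots of `x` then `τ` fixes the `n`-th roots of `Φ x`.
-/

set_option autoImplicit false

namespace Crest.Agent.R018.S2Trx568

open Crest.Agent.R018.Kumx568 Crest.Agent.R018.Kum2x568 Crest.Agent.R018.Kum3x568
open Crest.NumberTheoryR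

section group

/-- in a commutative group: `z^e` an `n`-th power, `e` prime to `n` ⇒ `z` is an `n`-th power -/
theorem exists_pow_of_coprime {G : Type*} [CommGroup G] (z w : G) (e n : ℕ) (h : Nat.Coprime e n)
    (hz : z ^ e = w ^ n) : ∃ u : G, z = u ^ n := by
  have h1 : IsCoprime (e : ℤ) (n : ℤ) := Nat.isCoprime_iff_coprime.2 h
  obtain ⟨a, b, hab⟩ := h1
  refine ⟨w ^ a * z ^ b, ?_⟩
  calc z = z ^ (a * e + b * n) := by rw [hab, zpow_one]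
    _ = (z ^ e) ^ a * (z ^ b) ^ n := by
        rw [zpow_add, mul_comm a, zpow_mul, zpow_natCast, zpow_mul, zpow_natCast]
    _ = (w ^ a * z ^ b) ^ n := by
        rw [hz, mul_pow]
        congr 1
        rw [← zpow_natCast, ← zpow_mul, ← zpow_natCast, ← zpow_mul, mul_comm (n : ℤ)]

end group

variable {F₁ E₁ F₂ E₂ : Type*} [Field F₁] [Field E₁] [Algebra F₁ E₁] [Field F₂] [Field E₂]
  [Algebra F₂ E₂]

/-- The norm argument: `x ∈ F₂ˣ` is an `n`-th power of an element fixed by the subgroup `V` of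
finite index prime to `n`; then `x` is an `n`-th power in `F₂ˣ`. -/
theorem exists_root_of_coprime_index [IsGalois F₂ E₂] (V : Subgroup (E₂ ≃ₐ[F₂] E₂))
    (hV : V.index ≠ 0) (n : ℕ) (hn : n ≠ 0) (hcop : Nat.Coprime V.index n) (x : F₂ˣ) (b : E₂)
    (hb : ∀ g ∈ V, g b = b) (hx : algebraMap F₂ E₂ (x : F₂) = b ^ n) :
    ∃ u : F₂ˣ, x = u ^ n := by
  classical
  have : V.FiniteIndex := ⟨hV⟩
  have : Fintype ((E₂ ≃ₐ[F₂] E₂) ⧸ V) := V.fintypeQuotientOfFiniteIndex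
  set N : E₂ := ∏ q : (E₂ ≃ₐ[F₂] E₂) ⧸ V, (q.out : E₂ ≃ₐ[F₂] E₂) b with hN
  have hout : ∀ (g : E₂ ≃ₐ[F₂] E₂), ((g : (E₂ ≃ₐ[F₂] E₂) ⧸ V).out : E₂ ≃ₐ[F₂] E₂) b = g b := by
    intro g
    have h1 : (g : (E₂ ≃ₐ[F₂] E₂) ⧸ V).out⁻¹ * g ∈ V := by
      rw [← QuotientGroup.eq, QuotientGroup.out_eq']
    have h2 := hb _ h1
    conv_lhs => rw [← h2]
    rw [← AlgEquiv.mul_apply, mul_inv_cancel_left]
  have hfix : ∀ g : E₂ ≃ₐ[F₂] E₂, g N = N := by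
    intro g
    rw [hN, map_prod]
    rw [← Equiv.prod_comp (MulAction.toPerm g : Equiv.Perm ((E₂ ≃ₐ[F₂] E₂) ⧸ V))
      (fun q : (E₂ ≃ₐ[F₂] E₂) ⧸ V => (q.out : E₂ ≃ₐ[F₂] E₂) b)]
    apply Finset.prod_congr rfl
    intro q _
    have h1 : (MulAction.toPerm g : Equiv.Perm ((E₂ ≃ₐ[F₂] E₂) ⧸ V)) q =
        ((g * q.out : E₂ ≃ₐ[F₂] E₂) : (E₂ ≃ₐ[F₂] E₂) ⧸ V) := by
      rw [MulAction.toPerm_apply]
      conv_lhs => rw [← QuotientGroup.out_eq' q]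
      rfl
    rw [h1, hout, AlgEquiv.mul_apply]
  obtain ⟨w, hw⟩ := (InfiniteGalois.mem_range_algebraMap_iff_fixed N).2 hfix
  have hNn : N ^ n = algebraMap F₂ E₂ ((x : F₂) ^ V.index) := by
    rw [hN, ← Finset.prod_pow]
    have h1 : ∀ q : (E₂ ≃ₐ[F₂] E₂) ⧸ V, ((q.out : E₂ ≃ₐ[F₂] E₂) b) ^ n =
        algebraMap F₂ E₂ (x : F₂) := by
      intro q
      rw [← map_pow, ← hx, AlgEquiv.commutes]
    rw [Finset.prod_congr rfl (fun q _ => h1 q), Finset.prod_const, map_pow]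
    congr 1
    rw [Finset.card_univ, ← Nat.card_eq_fintype_card]
    rfl
  have hw2 : w ^ n = (x : F₂) ^ V.index := by
    apply (algebraMap F₂ E₂).injective
    rw [map_pow, hw, hNn]
  have hw0 : w ≠ 0 := by
    rintro rfl
    rw [zero_pow hn] at hw2
    exact pow_ne_zero _ x.ne_zero hw2.symm
  exact exists_pow_of_coprime x (Units.mk0 w hw0) V.index n hcop (by
    apply Units.ext
    simpa using hw2.symm)

variable {α : (E₁ ≃ₐ[F₁] E₁) →* (E₂ ≃ₐ[F₂] E₂)} {n : ℕ} {ζ₁ : E₁} {ζ₂ : E₂}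

variable (K : IntermediateField F₁ E₁)

/-- `Φ : F₂ˣ → Kˣ` is a Kummer transport at level `n`. -/
def IsTransport (α : (E₁ ≃ₐ[F₁] E₁) →* (E₂ ≃ₐ[F₂] E₂)) (n : ℕ) (ζ₁ : E₁) (ζ₂ : E₂)
    (Φ : F₂ˣ → Kˣ) : Prop :=
  ∀ x : F₂ˣ, Tr α K.fixingSubgroup n ζ₁ ζ₂ (algebraMap F₂ E₂ (x : F₂)) ((Φ x : K) : E₁)

variable {K}

omit [Algebra F₂ E₂] in
theorem algebraMap_units_ne_zero [Algebra F₂ E₂] (x : F₂ˣ) : algebraMap F₂ E₂ (x : F₂) ≠ 0 := by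
  rw [Ne, map_eq_zero]
  exact x.ne_zero

theorem exists_isTransport [CharZero E₂] (hsc : IsSolvablyClosed E₂) [IsGalois F₁ E₁]
    [IsGalois F₂ E₂] (hα : Continuous α) (hn : n ≠ 0)
    (h₁ : IsPrimitiveRoot ζ₁ n) (h₂ : IsPrimitiveRoot ζ₂ n)
    (hc : Cyc α K.fixingSubgroup ζ₁ ζ₂) : ∃ Φ : F₂ˣ → Kˣ, IsTransport K α n ζ₁ ζ₂ Φ := by
  have h : ∀ b : F₂ˣ, ∃ c : Kˣ,
      Tr α K.fixingSubgroup n ζ₁ ζ₂ (algebraMap F₂ E₂ (b : F₂)) ((c : K) : E₁) := by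
    intro b
    obtain ⟨c, hc0, hcU, htr⟩ := exists_tr hsc hα hn h₁ h₂ hc (algebraMap F₂ E₂ (b : F₂))
      (algebraMap_units_ne_zero b) (fun g _ => AlgEquiv.commutes _ _)
    exact ⟨Units.mk0 ⟨c, mem_of_fixed K c hcU⟩ (fun h0 => hc0 (congrArg Subtype.val h0)), htr⟩
  choose Φ hΦ using h
  exact ⟨Φ, hΦ⟩

variable {Φ : F₂ˣ → Kˣ}

/-- (1) multiplicativity -/
theorem IsTransport.map_mul [IsGalois F₁ E₁] (hn : n ≠ 0) (h₁ : IsPrimitiveRoot ζ₁ n)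
    (h₂ : IsPrimitiveRoot ζ₂ n) (hc : Cyc α K.fixingSubgroup ζ₁ ζ₂)
    (hΦ : IsTransport K α n ζ₁ ζ₂ Φ) (x y : F₂ˣ) : ∃ d : Kˣ, Φ (x * y) = Φ x * Φ y * d ^ n := by
  apply Tr.unique_units hn h₁ h₂ hc (algebraMap_units_ne_zero (E₂ := E₂) (x * y)) (hΦ _)
  simpa using (hΦ x).mul (hΦ y)

/-- (2) injectivity modulo `n`-th powers -/
theorem IsTransport.inj [IsGalois F₁ E₁] [IsGalois F₂ E₂] [FiniteDimensional F₁ K]
    (hsurj : Function.Surjective α)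
    (hn : n ≠ 0) (h₁ : IsPrimitiveRoot ζ₁ n)
    (h₂ : IsPrimitiveRoot ζ₂ n) (hc : Cyc α K.fixingSubgroup ζ₁ ζ₂)
    (hcop : Nat.Coprime (Module.finrank F₁ K) n)
    (hΦ : IsTransport K α n ζ₁ ζ₂ Φ) (x y : F₂ˣ) (d : Kˣ) (hd : Φ x = Φ y * d ^ n) :
    ∃ b : F₂ˣ, x = y * b ^ n := by
  have h3 : Tr α K.fixingSubgroup n ζ₁ ζ₂ (algebraMap F₂ E₂ (y : F₂) * 1 ^ n)
      (((Φ y : K) : E₁) * ((d : K) : E₁) ^ n) :=
    (hΦ y).mul (Tr.of_pow (fun _ _ => _root_.map_one _) (fun g hg =>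
      (IntermediateField.mem_fixingSubgroup_iff _ _).1 hg _ (d : K).2))
  rw [one_pow, mul_one] at h3
  have h4 : ((Φ y : K) : E₁) * ((d : K) : E₁) ^ n = ((Φ x : K) : E₁) := by
    rw [hd]; simp
  rw [h4] at h3
  obtain ⟨b, hb, hbd⟩ := (hΦ x).inj hn h₁ h₂ hc (algebraMap_units_ne_zero y)
    (coe_units_ne_zero (Φ x)) h3
  -- index of the image
  have hidx : (K.fixingSubgroup.map α).index ∣ K.fixingSubgroup.index :=
    Subgroup.index_map_dvd _ hsurj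
  have hK : K.fixingSubgroup.index = Module.finrank F₁ K :=
    (IntermediateField.finrank_eq_fixingSubgroup_index (L := K)).symm
  have hcop' : Nat.Coprime (K.fixingSubgroup.map α).index n := by
    rw [hK] at hidx
    exact Nat.Coprime.coprime_dvd_left hidx hcop
  have h0 : (K.fixingSubgroup.map α).index ≠ 0 := by
    intro h0
    rw [h0, hK, zero_dvd_iff] at hidx
    exact (Module.finrank_pos (R := F₁) (M := K)).ne' hidx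
  have hxy : algebraMap F₂ E₂ ((x / y : F₂ˣ) : F₂) = b ^ n := by
    rw [Units.val_div_eq_div_val, map_div₀, hbd, mul_div_cancel_left₀ _
      (algebraMap_units_ne_zero y)]
  obtain ⟨u, hu⟩ := exists_root_of_coprime_index (K.fixingSubgroup.map α) h0 n hn hcop' (x / y) b
    (by
      rintro g ⟨g', hg', rfl⟩
      exact hb g' hg') hxy
  exact ⟨u, by rw [← hu, mul_div_cancel]⟩

/-- (3) the eigenvalue property: `α h ζ₂ = ζ₂^a`, `h ζ₁ = ζ₁^a'` -/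
theorem IsTransport.eig [IsGalois F₁ E₁] (hK : K.fixingSubgroup.Normal)
    (hn : n ≠ 0) (h₁ : IsPrimitiveRoot ζ₁ n)
    (h₂ : IsPrimitiveRoot ζ₂ n) (hc : Cyc α K.fixingSubgroup ζ₁ ζ₂)
    (hΦ : IsTransport K α n ζ₁ ζ₂ Φ) (x : F₂ˣ) (h : E₁ ≃ₐ[F₁] E₁) (a a' : ℕ)
    (ha : α h ζ₂ = ζ₂ ^ a) (ha' : h ζ₁ = ζ₁ ^ a') :
    ∃ d : Kˣ, (h ((Φ x : K) : E₁)) ^ a = ((Φ x : K) : E₁) ^ a' * ((d : K) : E₁) ^ n := by
  obtain ⟨y, z, hy, hz, hr⟩ := hΦ x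
  have hmem : ∀ g ∈ K.fixingSubgroup, h⁻¹ * g * h ∈ K.fixingSubgroup := by
    intro g hg
    have := hK.conj_mem g hg h⁻¹
    simpa using this
  -- the related pair
  have hr' : Rel α K.fixingSubgroup ζ₁ ζ₂ ((α h y) ^ a') ((h z) ^ a) := by
    intro g hg
    obtain ⟨i, h3, h4⟩ := hr _ (hmem g hg)
    refine ⟨a * i * a', ?_, ?_⟩
    · have h5 : α g (α h y) = α h (α (h⁻¹ * g * h) y) := by
        rw [← AlgEquiv.mul_apply, ← AlgEquiv.mul_apply, ← _root_.map_mul, ← _root_.map_mul]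
        congr 2
        group
      rw [map_pow, h5, h3, _root_.map_mul, map_pow, ha, mul_pow, ← pow_mul, ← pow_mul, mul_assoc a]
    · have h5 : g (h z) = h ((h⁻¹ * g * h) z) := by
        rw [← AlgEquiv.mul_apply, ← AlgEquiv.mul_apply]
        congr 1
        group
      rw [map_pow, h5, h4, _root_.map_mul, map_pow, ha', mul_pow, ← pow_mul, ← pow_mul]
      congr 2
      ring
  have ht : Tr α K.fixingSubgroup n ζ₁ ζ₂ ((algebraMap F₂ E₂ (x : F₂)) ^ a')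
      ((h ((Φ x : K) : E₁)) ^ a) := by
    refine ⟨_, _, ?_, ?_, hr'⟩
    · rw [← pow_mul, mul_comm a', pow_mul, ← map_pow, hy, AlgEquiv.commutes]
    · rw [← pow_mul, mul_comm a, pow_mul, ← map_pow, hz]
  have ht' : Tr α K.fixingSubgroup n ζ₁ ζ₂ ((algebraMap F₂ E₂ (x : F₂)) ^ a')
      (((Φ x : K) : E₁) ^ a') := by
    refine ⟨y ^ a', z ^ a', ?_, ?_, hr.pow a'⟩
    · rw [← pow_mul, mul_comm a', pow_mul, hy]
    · rw [← pow_mul, mul_comm a', pow_mul, hz]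
  obtain ⟨d, hd, hcd⟩ := ht.unique hn h₁ h₂ hc (pow_ne_zero _ (algebraMap_units_ne_zero x))
    (pow_ne_zero _ (coe_units_ne_zero (Φ x))) ht'
  have hd0 : d ≠ 0 := by
    rintro rfl
    rw [zero_pow hn, mul_zero] at hcd
    refine pow_ne_zero a ?_ hcd
    rw [Ne, map_eq_zero]
    exact coe_units_ne_zero (Φ x)
  exact ⟨Units.mk0 ⟨d, mem_of_fixed K d hd⟩ (fun h0 => hd0 (congrArg Subtype.val h0)), hcd⟩

/-- (4) unramifiedness: if `α τ` fixes the `n`-th roots of `x` then `τ` fixes the `n`-th roots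
of `Φ x`. -/
theorem IsTransport.ram (hn : n ≠ 0) (h₁ : IsPrimitiveRoot ζ₁ n)
    (h₂ : IsPrimitiveRoot ζ₂ n) (hc : Cyc α K.fixingSubgroup ζ₁ ζ₂)
    (hΦ : IsTransport K α n ζ₁ ζ₂ Φ) (x : F₂ˣ) (τ : E₁ ≃ₐ[F₁] E₁) (hτ : τ ∈ K.fixingSubgroup)
    (hfix : ∀ y : E₂, y ^ n = algebraMap F₂ E₂ (x : F₂) → α τ y = y)
    (z : E₁) (hz : z ^ n = ((Φ x : K) : E₁)) : τ z = z := by
  obtain ⟨y, hy, hr⟩ := (hΦ x).exists_root' hn h₁ h₂.pow_eq_one hc (coe_units_ne_zero (Φ x)) z hz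
  obtain ⟨i, h3, h4⟩ := hr τ hτ
  rw [hfix y hy] at h3
  have hy0 : y ≠ 0 := by
    rintro rfl
    rw [zero_pow hn] at hy
    exact algebraMap_units_ne_zero x hy.symm
  have h5 : ζ₂ ^ i = 1 := by
    have : ζ₂ ^ i * y = 1 * y := by rw [← h3, one_mul]
    exact mul_right_cancel₀ hy0 this
  have h6 : n ∣ i := (h₂.pow_eq_one_iff_dvd i).1 h5
  have h7 : ζ₁ ^ i = 1 := (h₁.pow_eq_one_iff_dvd i).2 h6
  rw [h4, h7, one_mul]


end Crest.Agent.R018.S2Trx568
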