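import Mathlib
import Crest.Agent.R018.S2Psi_568
import Crest.Agent.R018.S2Fin_863
import Crest.Agent.R018.LocConv_31
import Crest.Agent.R018.SvClosed_820
import Crest.Agent.R018.HeartDef_74
import Crest.Agent.R018.Core_74
import Crest.Agent.R018.CycFT_925
import Crest.Agent.R018.RedA_49
import Crest.Agent.R018.EndA_245
import Crest.Agent.R018.TameB_31
import Crest.Agent.R018.Kum_568
import Crest.Agent.R018.MinkU_824
import Crest.Agent.R018.TameP_31
import Crest.Agent.R018.TameF_31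
import Crest.Agent.R018.Hit_380
import Crest.Agent.R018.CA_933

-- ▼ part R018/S2PsiB_568
section

/-!
Row 18, (S2): `ψ_l` of finite exponent has finite image (helper568).

`mem_psiKer_of_lev` : if `h` is compatible at level `l` and `h^k ∈ psiKer`, `k > 0`, `l` odd, then
`h ∈ psiKer`; `index_ne_zero_of_pow` : if `g^k ∈ psiKer` for all `g` (some `k > 0`, `l` odd) then
`psiKer` has finite index.
-/

set_option autoImplicit false

namespace Crest.Agent.R018.S2PsiBx568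

open Crest.Agent.R018.Kumx568 Crest.Agent.R018.Kum2x568 Crest.Agent.R018.Kum3x568
open Crest.Agent.R018.S2Trx568 Crest.Agent.R018.S2Psix568

/-- `a ≡ b mod l`, `a^k ≡ b^k mod l^n`, `l ∤ k`, `a` prime to `l` imply `a ≡ b mod l^n`. -/
theorem modEq_of_pow_modEq' {l : ℕ} (hl : l.Prime) (n k a b : ℕ) (hk : ¬ l ∣ k)
    (ha : Nat.Coprime a l) (h0 : a ≡ b [MOD l]) (h : a ^ k ≡ b ^ k [MOD l ^ n]) :
    a ≡ b [MOD l ^ n] := by
  have : Fact l.Prime := ⟨hl⟩
  have h3 : (l : ℤ) ∣ (b : ℤ) - a := Nat.modEq_iff_dvd.1 h0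
  have h4 : ¬ (l : ℤ) ∣ (b : ℤ) := by
    intro h5
    have h6 : (l : ℤ) ∣ (a : ℤ) := by
      have := Int.dvd_sub h5 h3
      simpa using this
    have h6' : l ∣ a := by exact_mod_cast h6
    have h7 : l ∣ Nat.gcd a l := Nat.dvd_gcd h6' dvd_rfl
    rw [ha] at h7
    exact hl.one_lt.ne' (Nat.dvd_one.1 h7)
  have h5 : emultiplicity (l : ℤ) ((b : ℤ) ^ k - (a : ℤ) ^ k) =
      emultiplicity (l : ℤ) ((b : ℤ) - a) :=
    emultiplicity_pow_sub_pow_of_prime (Nat.prime_iff_prime_int.1 hl) h3 h4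
      (by exact_mod_cast hk)
  have h6 : ((l ^ n : ℕ) : ℤ) ∣ (b : ℤ) ^ k - (a : ℤ) ^ k := by
    have := Nat.modEq_iff_dvd.1 h
    push_cast at this
    exact_mod_cast this
  have h7 : ((n : ℕ) : ℕ∞) ≤ emultiplicity (l : ℤ) ((b : ℤ) ^ k - (a : ℤ) ^ k) := by
    apply le_emultiplicity_of_pow_dvd
    exact_mod_cast h6
  rw [h5] at h7
  have h10 : (l : ℤ) ^ n ∣ (b : ℤ) - a := pow_dvd_of_le_emultiplicity h7
  apply Nat.modEq_iff_dvd.2
  exact_mod_cast h10

variable {F₁ E₁ F₂ E₂ : Type*} [Field F₁] [Field E₁] [Algebra F₁ E₁] [Field F₂] [Field E₂]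
  [Algebra F₂ E₂]

variable (α : (E₁ ≃ₐ[F₁] E₁) →* (E₂ ≃ₐ[F₂] E₂))

theorem pow_apply {F E : Type*} [Field F] [Field E] [Algebra F E] (g : E ≃ₐ[F] E) (ξ : E) (c : ℕ)
    (hc : g ξ = ξ ^ c) (k : ℕ) : (g ^ k) ξ = ξ ^ (c ^ k) := by
  induction k with
  | zero => simp
  | succ k ih => rw [pow_succ', AlgEquiv.mul_apply, ih, map_pow, hc, ← pow_mul, pow_succ']

/-- `h^k ∈ psiKer` implies `h^k' ∈ psiKer` for some `k'` prime to `l` -/
theorem exists_prime_to (l : ℕ) (hl : l.Prime) (hodd : l ≠ 2)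
    (hr₁ : ∀ n, ∃ ζ : E₁, IsPrimitiveRoot ζ (l ^ n))
    (hr₂ : ∀ n, ∃ ζ : E₂, IsPrimitiveRoot ζ (l ^ n)) (h : E₁ ≃ₐ[F₁] E₁) (k : ℕ) (hk : 0 < k)
    (hh : h ^ k ∈ psiKer α l hl.ne_zero) :
    ∃ k' : ℕ, ¬ l ∣ k' ∧ h ^ k' ∈ psiKer α l hl.ne_zero := by
  induction k using Nat.strong_induction_on with
  | _ k ih =>
    by_cases hd : l ∣ k
    · obtain ⟨m, rfl⟩ := hd
      have hm : 0 < m := Nat.pos_of_mul_pos_left hk
      refine ih m ?_ hm ?_
      · have := hl.one_lt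
        nlinarith
      · apply mem_psiKer_of_pow α l hl hodd hr₁ hr₂
        rwa [← pow_mul, mul_comm]
    · exact ⟨k, hd, hh⟩

/-- compatibility at level `l` and `h^k ∈ psiKer` imply `h ∈ psiKer` -/
theorem mem_psiKer_of_lev (l : ℕ) (hl : l.Prime) (hodd : l ≠ 2)
    (hr₁ : ∀ n, ∃ ζ : E₁, IsPrimitiveRoot ζ (l ^ n))
    (hr₂ : ∀ n, ∃ ζ : E₂, IsPrimitiveRoot ζ (l ^ n)) {η₁ : E₁} {η₂ : E₂}
    (e₁ : IsPrimitiveRoot η₁ l) (e₂ : IsPrimitiveRoot η₂ l)
    (h : E₁ ≃ₐ[F₁] E₁) (hlev : h ∈ lev α hl.ne_zero e₁ e₂) (k : ℕ) (hk : 0 < k)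
    (hh : h ^ k ∈ psiKer α l hl.ne_zero) : h ∈ psiKer α l hl.ne_zero := by
  obtain ⟨k', hk', hh'⟩ := exists_prime_to α l hl hodd hr₁ hr₂ h k hk hh
  rw [mem_psiKer] at hh' ⊢
  intro n ζ₁ ζ₂ h₁ h₂
  obtain ⟨ξ₁, x₁⟩ := hr₁ (n + 1)
  obtain ⟨ξ₂, x₂⟩ := hr₂ (n + 1)
  have hn0 : l ^ (n + 1) ≠ 0 := pow_ne_zero _ hl.ne_zero
  obtain ⟨a, ha, ha'⟩ := exists_exp hn0 x₁ h
  obtain ⟨b, hb, hb'⟩ := exists_exp hn0 x₂ (α h)
  obtain ⟨c, hc1, hc2⟩ := hh' (n + 1) ξ₁ ξ₂ x₁ x₂
  have h3 : a ^ k' ≡ c [MOD l ^ (n + 1)] := by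
    rw [← pow_eq_iff_modEq hn0 x₁, ← pow_apply h ξ₁ a ha' k', hc1]
  have h4 : b ^ k' ≡ c [MOD l ^ (n + 1)] := by
    rw [← pow_eq_iff_modEq hn0 x₂, ← pow_apply (α h) ξ₂ b hb' k', ← map_pow, hc2]
  have hal : Nat.Coprime a l := Nat.Coprime.coprime_dvd_right (dvd_pow_self _ n.succ_ne_zero) ha
  -- level `l`
  obtain ⟨d, hd1, hd2⟩ := (mem_lev α hl.ne_zero e₁ e₂ h).1 hlev
  have h5 : a ≡ d [MOD l] := by
    rw [← pow_eq_iff_modEq hl.ne_zero e₁, ← hd1]
    exact (apply_of_pow hn0 x₁ h ha' (by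
      rw [pow_succ', pow_mul, e₁.pow_eq_one, one_pow])).symm
  have h6 : b ≡ d [MOD l] := by
    rw [← pow_eq_iff_modEq hl.ne_zero e₂, ← hd2]
    exact (apply_of_pow hn0 x₂ (α h) hb' (by
      rw [pow_succ', pow_mul, e₂.pow_eq_one, one_pow])).symm
  have h7 : a ≡ b [MOD l ^ (n + 1)] :=
    modEq_of_pow_modEq' hl (n + 1) k' a b hk' hal (h5.trans h6.symm) (h3.trans h4.symm)
  refine ⟨a, ?_, ?_⟩
  · exact apply_of_pow hn0 x₁ h ha' (by rw [pow_succ, pow_mul, h₁.pow_eq_one, one_pow])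
  · have h8 := apply_of_pow hn0 x₂ (α h) hb' (ξ := ζ₂)
      (by rw [pow_succ, pow_mul, h₂.pow_eq_one, one_pow])
    rw [h8]
    exact (pow_eq_iff_modEq (pow_ne_zero _ hl.ne_zero) h₂ _ _).2
      (h7.symm.of_dvd (pow_dvd_pow l n.le_succ))

/-- finite exponent implies finite index -/
theorem index_ne_zero_of_pow [IsGalois F₁ E₁] [Algebra.IsIntegral F₂ E₂] (hα : Continuous α)
    (l : ℕ) (hl : l.Prime) (hodd : l ≠ 2)
    (hr₁ : ∀ n, ∃ ζ : E₁, IsPrimitiveRoot ζ (l ^ n))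
    (hr₂ : ∀ n, ∃ ζ : E₂, IsPrimitiveRoot ζ (l ^ n)) (k : ℕ) (hk : 0 < k)
    (h : ∀ g : E₁ ≃ₐ[F₁] E₁, g ^ k ∈ psiKer α l hl.ne_zero) :
    (psiKer α l hl.ne_zero).index ≠ 0 := by
  obtain ⟨η₁, e₁⟩ := hr₁ 1
  obtain ⟨η₂, e₂⟩ := hr₂ 1
  rw [pow_one] at e₁ e₂
  have h1 : lev α hl.ne_zero e₁ e₂ ≤ psiKer α l hl.ne_zero := fun g hg =>
    mem_psiKer_of_lev α l hl hodd hr₁ hr₂ e₁ e₂ g hg k hk (h g)
  have h2 : Finite ((E₁ ≃ₐ[F₁] E₁) ⧸ lev α hl.ne_zero e₁ e₂) :=
    Subgroup.quotient_finite_of_isOpen _ (isOpen_lev α hα _ e₁ e₂)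
  have h3 : (lev α hl.ne_zero e₁ e₂).index ≠ 0 := Subgroup.index_ne_zero_of_finite
  intro h0
  have h4 := Subgroup.index_dvd_of_le h1
  rw [h0, zero_dvd_iff] at h4
  exact h3 h4

end Crest.Agent.R018.S2PsiBx568
end

-- ▼ part R018/CoreBad_863
section

/-!
Row 18 (helper863): the literals `BadBound` of `Core_74` and `TBad` of `HeartDef_74`.
-/

set_option autoImplicit false

open NumberField Module IsDedekindDomain
open scoped Pointwise

namespace Crest.Agent.R018.CoreBadx863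

open Crest.Agent.R018.EndDefx924 (Om)
open Crest.Agent.R018.Placesx484 Crest.Agent.R018.Tamex31 Crest.Agent.R018.LocDefx31
open Crest.Agent.R018.LocConvx31 Crest.Agent.R018.S2Finx863 Crest.Agent.R018.S2Psix568
open Crest.NumberTheoryR

theorem exists_place {E : Type*} [Field E] [CharZero E] {q : ℕ} (hq : q.Prime) :
    ∃ Q : Place E, Q.rchar = q := by
  have h1 : Ideal.span {(q : 𝓞 E)} ≠ ⊤ := by
    intro h
    rw [Ideal.span_singleton_eq_top] at h
    obtain ⟨u, hu⟩ := h.exists_right_inv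
    have h2 : (q : E) * (u : E) = 1 := by
      have := congrArg (algebraMap (𝓞 E) E) hu
      simpa using this
    have h3 : (u : E) = algebraMap ℚ E ((q : ℚ)⁻¹) := by
      rw [map_inv₀, map_natCast]
      exact eq_inv_of_mul_eq_one_right h2
    have h4 : IsIntegral ℤ ((q : ℚ)⁻¹) := by
      have h5 : IsIntegral ℤ (u : E) := RingOfIntegers.isIntegral_coe u
      rw [h3] at h5
      exact (isIntegral_algebraMap_iff (algebraMap ℚ E).injective).1 h5
    obtain ⟨z, hz⟩ := IsIntegrallyClosed.isIntegral_iff.1 h4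
    have hq0 : (q : ℚ) ≠ 0 := by exact_mod_cast hq.ne_zero
    have h6 : (z : ℚ) * q = 1 := by
      have h7 : (z : ℚ) = (q : ℚ)⁻¹ := hz
      rw [h7, inv_mul_cancel₀ hq0]
    have h8 : z * (q : ℤ) = 1 := by exact_mod_cast h6
    have h9 : (q : ℤ) ∣ 1 := ⟨z, by rw [mul_comm]; exact h8.symm⟩
    have h10 : q ∣ 1 := by exact_mod_cast h9
    exact hq.one_lt.ne' (Nat.dvd_one.1 h10)
  obtain ⟨M, hM, hM'⟩ := Ideal.exists_le_maximal _ h1
  have hmem : (q : 𝓞 E) ∈ M := hM' (Ideal.mem_span_singleton_self _)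
  have hq0 : (q : 𝓞 E) ≠ 0 := by exact_mod_cast hq.ne_zero
  let Q : Place E := ⟨M, hM.isPrime, by
    rintro rfl
    exact hq0 (by simpa using hmem)⟩
  exact ⟨Q, Q.rchar_eq_of_mem hq hmem⟩

section abs

variable (E : Type) [Field E] [CharZero E] [IsGalois ℚ E] (hE : IsSolvablyClosed E)
  (G1 : Subgroup (Om ≃ₐ[ℚ] Om)) (hG : IsOpen (G1 : Set (Om ≃ₐ[ℚ] Om)))
  (α : G1 →* (E ≃ₐ[ℚ] E)) (hα : Continuous α)

include hE hG hα

theorem badBound_abs (hs : Function.Surjective α) (l : ℕ) (hl : l.Prime) (hl2 : l ≠ 2)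
    (hloc : ∀ S : Place Om, S1 α l S → ∃ Q : Place E, (l : 𝓞 E) ∉ Q.ideal ∧ Goes α S Q)
    (k : ℕ) (hk : 0 < k) (hfin : ∀ (g : G1) (n : ℕ), CycAt α Om E (l ^ n) (g ^ k))
    (s : Finset ℕ) (hsb : ∀ q ∈ s, q.Prime ∧
      ∀ (S : Place Om) (Q : Place E), S1 α l S → Goes α S Q → Q.rchar ≠ q) :
    s.card ≤ 2 * G1.index := by
  classical
  let F₁ := IntermediateField.fixedField G1
  have hfd : FiniteDimensional ℚ F₁ := by
    have hfq : Finite ((Om ≃ₐ[ℚ] Om) ⧸ G1) := Subgroup.quotient_finite_of_isOpen G1 hG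
    have hfi : G1.FiniteIndex := G1.finiteIndex_of_finite_quotient
    exact Crest.Agent.R018.EndAx245.finiteDimensional_fixedField G1 hfi
  have hnf : NumberField F₁ := by
    refine { to_finiteDimensional := ?_ }
    convert hfd
  let e := eG G1 hG
  let α' : (Om ≃ₐ[F₁] Om) →* (E ≃ₐ[ℚ] E) := α.comp e.toMonoidHom
  have hα' : Continuous α' := hα.comp (eG_continuous G1 hG)
  have hs' : Function.Surjective α' := hs.comp e.surjective
  have hidx : finrank ℚ F₁ = G1.index := by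
    have h1 := IntermediateField.finrank_eq_fixingSubgroup_index (L := F₁)
    rw [fixingSubgroup_eq G1 hG] at h1
    convert h1
  have hS1 : ∀ P : Place Om, S1 α' l P → S1 α l P := by
    rintro P ⟨hP, x, hx, N, hN, hNo, hn⟩
    exact ⟨hP, e x, hx, N, hN, hNo, hn⟩
  have hGo : ∀ (P : Place Om) (Q : Place E), Goes α P Q → Goes α' P Q := by
    intro P Q h d hd
    exact h (e d) hd
  have hGo' : ∀ (P : Place Om) (Q : Place E), Goes α' P Q → Goes α P Q := by
    intro P Q h d hd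
    obtain ⟨d', rfl⟩ := e.surjective d
    exact h d' hd
  have hroots₁ : ∀ n : ℕ, ∃ ζ : Om, IsPrimitiveRoot ζ (l ^ n) := by
    intro n
    have hne : NeZero (l ^ n) := ⟨pow_ne_zero _ hl.ne_zero⟩
    exact HasEnoughRootsOfUnity.exists_primitiveRoot Om (l ^ n)
  have hroots₂ : ∀ n : ℕ, ∃ ζ : E, IsPrimitiveRoot ζ (l ^ n) := fun n =>
    Kumx568.exists_primitiveRoot hE _ (pow_ne_zero n hl.ne_zero)
  have hfin' : (psiKer α' l hl.ne_zero).index ≠ 0 := by
    refine S2PsiBx568.index_ne_zero_of_pow α' hα' l hl hl2 hroots₁ hroots₂ k hk fun g => ?_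
    rw [mem_psiKer]
    intro n ζ₁ ζ₂ h₁ h₂
    obtain ⟨a, ha⟩ := exists_cyc (l ^ n) (pow_ne_zero n hl.ne_zero) (g ^ k) h₁
    refine ⟨a, ha _ h₁.pow_eq_one, ?_⟩
    have h3 := hfin (e g) n a (by
      intro ζ hζ
      rw [← map_pow]
      exact ha ζ hζ) ζ₂ h₂.pow_eq_one
    rw [← map_pow] at h3
    exact h3
  -- the primes of `ℚ`
  have hw : ∀ q : ℕ, ∃ Q : Place ℚ, q.Prime → Q.rchar = q := by
    intro q
    by_cases hq : q.Prime
    · obtain ⟨Q, hQ⟩ := exists_place (E := ℚ) hq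
      exact ⟨Q, fun _ => hQ⟩
    · obtain ⟨Q, hQ⟩ := exists_place (E := ℚ) Nat.prime_two
      exact ⟨Q, fun h => absurd h hq⟩
  choose w hw using hw
  have hrc : ∀ (Q : Place ℚ) (q : ℕ), q.Prime → hos Q = hos (w q) → Q.rchar = q := by
    intro Q q hq h
    apply Q.rchar_eq_of_mem hq
    have h1 : Q.ideal = (w q).ideal := congrArg HeightOneSpectrum.asIdeal h
    rw [h1]
    have h2 := (w q).rchar_mem
    rwa [hw q hq] at h2
  have hinj : Set.InjOn (fun q => hos (w q)) (s : Set ℕ) := by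
    intro q hq q' hq' h
    have h1 := hrc (w q) q' (hsb q' hq').1 h
    rw [hw q (hsb q hq).1] at h1
    exact h1
  rw [← hidx, ← Finset.card_image_of_injOn hinj]
  refine s2 hE α' hα' hs' l hl hl2 hroots₁ (fun n x =>
    IsAlgClosed.exists_pow_nat_eq x (Nat.pos_of_ne_zero (pow_ne_zero n hl.ne_zero))) hfin'
    (fun P hP => by
      obtain ⟨Q, hQl, hQ⟩ := hloc P (hS1 P hP)
      exact ⟨Q, hQl, hGo P Q hQ⟩) _ ?_
  intro v hv
  obtain ⟨q, hq, rfl⟩ := Finset.mem_image.1 hv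
  rintro ⟨P, Q, hP, hQl, hQ, h⟩
  apply (hsb q hq).2 P Q (hS1 P hP) (hGo' P Q hQ)
  rw [← Place.rchar_res ℚ Q]
  exact hrc _ q (hsb q hq).1 h

end abs


open Corex74 in
/-- **BadBound** of `Core_74` -/
theorem badBound_of (h : Corex74.LocT) : Corex74.BadBound := by
  intro D hs l hl hl5 hfin s hsb
  obtain ⟨k, hk, hfin⟩ := hfin
  have hl2 : l ≠ 2 := by omega
  have hhit : ∀ S : Place Om, S1 D.α l S → Hit D l S := by
    rintro S ⟨hS, x, hx, N, hN, hNo, hn⟩
    exact ⟨rchar_ne_of_notMem S hS, x, fun y => hx y, N, hN, hNo, hn⟩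
  refine badBound_abs Sv SvClosedx820.isSolvablyClosed_Sv D.G D.isOpen_G D.α D.cont hs l hl hl2
    (fun S hS => ?_) k hk (fun g n c hc ζ hζ => ?_) s (fun q hq => ⟨(hsb q hq).1, ?_⟩)
  · obtain ⟨Q, hQ, hQl, -⟩ := h D l hl hl2 S (hhit S hS)
    exact ⟨Q, notMem_of_rchar_ne Q hl hQl, hQ⟩
  · have h1 := hfin g n ζ hζ
    have h2 := hc (ζ : Om) (by rw [← IntermediateField.coe_pow, hζ]; rfl)
    have h3 : ((g : BB) ^ k) (ζ : Om) = (ζ : Om) ^ c := h2
    have h4 : D.α (g ^ k) ζ = ζ ^ c := by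
      rw [map_pow]
      apply Subtype.ext
      rw [h1, h3]
      rfl
    exact h4
  · intro S Q hS hQ hq'
    exact (hsb q hq).2.2 ⟨S, Q, hhit S hS, hQ, hq'⟩


end Crest.Agent.R018.CoreBadx863
end

-- ▼ part R018/ProbeK_658
section

/-!
# Row 18, block ProbeEx, compactness part (helper658)

A group `C` of characters `G → Eˣ` (with open kernels) such that `C[l]` is finite and
`C[l^n]` has at least `l^n` elements for every `n` contains a compatible system of characters of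
exact order `l^k`, i.e. a nonzero continuous homomorphism `G → ℤ_l`.
-/

set_option autoImplicit false

open Filter Topology

namespace Crest.Agent.R018.ProbeKx658

/-- gluing a compatible system of characters with values in `μ_{l^k}` into a hom to `ℤ_l`. -/
theorem exists_padic_hom {G E : Type*} [Group G] [Field E] (l : ℕ) [hl : Fact l.Prime]
    (ζ : ℕ → Eˣ) (hζ : ∀ k, IsPrimitiveRoot (ζ k) (l ^ k)) (hcomp : ∀ k, ζ (k + 1) ^ l = ζ k)
    (χ : ℕ → G →* Eˣ) (hχ : ∀ k, χ k ^ (l ^ k) = 1) (hχc : ∀ k, χ (k + 1) ^ l = χ k) :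
    ∃ φ : G →* Multiplicative ℤ_[l], ∀ (k : ℕ) (g : G),
      χ k g = ζ k ^ ((φ g).toAdd.toZModPow k).val := by
  classical
  have hpos : ∀ k, 0 < l ^ k := fun k => pow_pos hl.out.pos k
  have hne : ∀ k, NeZero (l ^ k) := fun k => ⟨(hpos k).ne'⟩
  have h1 : ∀ (k : ℕ) (g : G), ∃ i, i < l ^ k ∧ ζ k ^ i = χ k g := by
    intro k g
    have h : (χ k g) ^ (l ^ k) = 1 := by
      have := DFunLike.congr_fun (hχ k) g
      simpa using this
    exact (hζ k).eq_pow_of_mem_rootsOfUnity ((mem_rootsOfUnity _ _).2 h)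
  choose a ha1 ha2 using h1
  have key : ∀ (k i j : ℕ), ζ k ^ i = ζ k ^ j → ((i : ℕ) : ZMod (l ^ k)) = (j : ℕ) := by
    intro k i j h
    rw [pow_eq_pow_iff_modEq, ← (hζ k).eq_orderOf] at h
    exact (ZMod.natCast_eq_natCast_iff _ _ _).2 h
  have hmod : ∀ (g : G) (k : ℕ), (l : ℤ) ^ k ∣ ((a (k + 1) g : ℕ) : ℤ) - (a k g : ℕ) := by
    intro g k
    have h2 : ζ k ^ (a (k + 1) g) = ζ k ^ (a k g) := by
      rw [ha2 k g, ← hχc k, MonoidHom.pow_apply, ← ha2 (k + 1) g, ← hcomp k, ← pow_mul, ← pow_mul,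
        mul_comm]
    have h3 := key k _ _ h2
    have h4 : (((l ^ k : ℕ) : ℤ)) ∣ ((a (k + 1) g : ℕ) : ℤ) - (a k g : ℕ) := by
      rw [← ZMod.intCast_zmod_eq_zero_iff_dvd]
      push_cast
      rw [h3, sub_self]
    simpa using h4
  let x : G → ℤ_[l] := fun g =>
    PadicInt.ofIntSeq _ (PadicInt.isCauSeq_padicNorm_of_pow_dvd_sub (fun k => ((a k g : ℕ) : ℤ)) l
      (hmod g))
  have hx : ∀ (g : G) (k : ℕ), (x g).toZModPow k = ((a k g : ℕ) : ZMod (l ^ k)) := by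
    intro g k
    have := PadicInt.toZModPow_ofIntSeq_of_pow_dvd_sub (fun k => ((a k g : ℕ) : ℤ)) l (hmod g) k
    simpa using this
  refine ⟨{ toFun := fun g => Multiplicative.ofAdd (x g), map_one' := ?_, map_mul' := ?_ }, ?_⟩
  · have : x 1 = 0 := by
      refine PadicInt.ext_of_toZModPow.1 fun k => ?_
      rw [hx, map_zero]
      have h := key k (a k 1) 0 (by rw [ha2, map_one, pow_zero])
      simpa using h
    rw [this]; rfl
  · intro g h
    have : x (g * h) = x g + x h := by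
      refine PadicInt.ext_of_toZModPow.1 fun k => ?_
      rw [map_add, hx, hx, hx]
      have h := key k (a k (g * h)) (a k g + a k h)
        (by rw [ha2, map_mul, pow_add, ha2, ha2])
      simpa using h
    rw [this]; rfl
  · intro k g
    change χ k g = ζ k ^ ((x g).toZModPow k).val
    rw [hx, ZMod.val_natCast, ← ha2 k g]
    rw [pow_eq_pow_iff_modEq, ← (hζ k).eq_orderOf]
    exact (Nat.mod_modEq _ _).symm

/-- continuity of a hom to `ℤ_l` whose reductions have open kernels. -/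
theorem continuous_of_reductions {G E : Type*} [Group G] [TopologicalSpace G]
    [IsTopologicalGroup G] [Field E] (l : ℕ) [hl : Fact l.Prime]
    (ζ : ℕ → Eˣ) (hζ : ∀ k, IsPrimitiveRoot (ζ k) (l ^ k))
    (χ : ℕ → G →* Eˣ) (hopen : ∀ k, IsOpen ((χ k).ker : Set G))
    (φ : G →* Multiplicative ℤ_[l])
    (hφ : ∀ (k : ℕ) (g : G), χ k g = ζ k ^ ((φ g).toAdd.toZModPow k).val) :
    Continuous φ := by
  have hpos : ∀ k, 0 < l ^ k := fun k => pow_pos hl.out.pos k
  have hne : ∀ k, NeZero (l ^ k) := fun k => ⟨(hpos k).ne'⟩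
  apply continuous_of_continuousAt_one
  rw [ContinuousAt, map_one]
  have hb := Metric.nhds_basis_ball (α := ℤ_[l]) (x := 0)
  have : Tendsto (fun g => (φ g).toAdd) (𝓝 (1 : G)) (𝓝 (0 : ℤ_[l])) := by
    rw [hb.tendsto_right_iff]
    intro ε hε
    obtain ⟨k, hk⟩ := PadicInt.exists_pow_neg_lt l hε
    filter_upwards [(hopen k).mem_nhds (one_mem (χ k).ker)] with g hg
    have h1 : ζ k ^ ((φ g).toAdd.toZModPow k).val = 1 := by
      rw [← hφ]; exact hg
    have h2 : (φ g).toAdd.toZModPow k = 0 := by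
      have h3 := (hζ k).dvd_of_pow_eq_one _ h1
      have h4 := ZMod.val_lt ((φ g).toAdd.toZModPow k)
      have h5 : ((φ g).toAdd.toZModPow k).val = 0 := Nat.eq_zero_of_dvd_of_lt h3 h4
      exact (ZMod.val_eq_zero _).1 h5
    rw [Metric.mem_ball, dist_zero_right]
    refine lt_of_le_of_lt ?_ hk
    rw [PadicInt.norm_le_pow_iff_mem_span_pow, ← PadicInt.ker_toZModPow, RingHom.mem_ker]
    exact h2
  exact this

/-- finiteness of `C[l^k]` from finiteness of `C[l]`. -/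
theorem finite_torsion {A : Type*} [CommGroup A] (C : Subgroup A) (l : ℕ)
    (hfin : {χ : A | χ ∈ C ∧ χ ^ l = 1}.Finite) (k : ℕ) :
    {χ : A | χ ∈ C ∧ χ ^ (l ^ k) = 1}.Finite := by
  induction k with
  | zero =>
      refine (Set.finite_singleton (1 : A)).subset ?_
      rintro χ ⟨-, h⟩
      simpa using h
  | succ k ih =>
      have hpre : {χ : A | χ ∈ C ∧ χ ^ (l ^ (k + 1)) = 1} ⊆
          {χ : A | χ ∈ C ∧ χ ^ l ∈ {χ : A | χ ∈ C ∧ χ ^ (l ^ k) = 1}} := by
        rintro χ ⟨h1, h2⟩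
        refine ⟨h1, C.pow_mem h1 l, ?_⟩
        rw [← pow_mul, ← pow_succ']; exact h2
      refine Set.Finite.subset ?_ hpre
      have : {χ : A | χ ∈ C ∧ χ ^ l ∈ {χ : A | χ ∈ C ∧ χ ^ (l ^ k) = 1}} =
          ⋃ ψ ∈ {χ : A | χ ∈ C ∧ χ ^ (l ^ k) = 1}, {χ : A | χ ∈ C ∧ χ ^ l = ψ} := by
        ext χ
        simp only [Set.mem_ofPred_eq, Set.mem_iUnion, exists_prop]
        constructor
        · rintro ⟨h1, h2⟩
          exact ⟨χ ^ l, h2, h1, rfl⟩
        · rintro ⟨ψ, h2, h1, rfl⟩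
          exact ⟨h1, h2⟩
      rw [this]
      refine ih.biUnion fun ψ _ => ?_
      rcases Set.eq_empty_or_nonempty {χ : A | χ ∈ C ∧ χ ^ l = ψ} with h | ⟨χ₀, h₀, h₀'⟩
      · rw [h]; exact Set.finite_empty
      · refine (hfin.image (fun η => χ₀ * η)).subset ?_
        rintro χ ⟨h1, h2⟩
        refine ⟨χ₀⁻¹ * χ, ⟨C.mul_mem (C.inv_mem h₀) h1, ?_⟩, by simp⟩
        rw [mul_pow, inv_pow, h₀', h2, inv_mul_cancel]

/-- **compactness**: from many torsion elements to a compatible system of exact order. -/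
theorem exists_system {A : Type*} [CommGroup A] (C : Subgroup A) (l : ℕ) (hl : l.Prime)
    (hfin : {χ : A | χ ∈ C ∧ χ ^ l = 1}.Finite)
    (hmany : ∀ n : ℕ, ∃ T : Finset A, l ^ n ≤ T.card ∧ ∀ χ ∈ T, χ ∈ C ∧ χ ^ (l ^ n) = 1) :
    ∃ χ : ℕ → A, (∀ k, χ k ∈ C) ∧ (∀ k, χ k ^ (l ^ k) = 1) ∧ (∀ k, χ (k + 1) ^ l = χ k) ∧
      χ 1 ≠ 1 := by
  classical
  have hF := finite_torsion C l hfin
  -- the sets of elements of exact order `l ^ (k+1)`
  let S : ℕ → Set A := fun k => {χ | χ ∈ C ∧ χ ^ (l ^ (k + 1)) = 1 ∧ χ ^ (l ^ k) ≠ 1}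
  have hSfin : ∀ k, (S k).Finite := fun k => (hF (k + 1)).subset fun χ h => ⟨h.1, h.2.1⟩
  have hSne : ∀ k, (S k).Nonempty := by
    intro k
    -- choose n with l^n > |C[l^k]|
    obtain ⟨n, hn⟩ : ∃ n : ℕ, (hF k).toFinset.card < l ^ n :=
      ⟨_, Nat.lt_pow_self hl.one_lt⟩
    obtain ⟨T, hT1, hT2⟩ := hmany n
    have : ¬ T ⊆ (hF k).toFinset := by
      intro h
      have := Finset.card_le_card h
      omega
    obtain ⟨χ, hχT, hχ⟩ := Finset.not_subset.1 this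
    have hχ1 := (hT2 χ hχT).1
    have hχ2 := (hT2 χ hχT).2
    have hχ3 : χ ^ (l ^ k) ≠ 1 := by
      intro h
      exact hχ ((hF k).mem_toFinset.2 ⟨hχ1, h⟩)
    -- the least j with χ^(l^j) = 1
    have hex : ∃ j, χ ^ (l ^ j) = 1 := ⟨n, hχ2⟩
    obtain ⟨j, hj1, hj2⟩ : ∃ j, χ ^ (l ^ (j + 1)) = 1 ∧ χ ^ (l ^ j) ≠ 1 := by
      have h0 : Nat.find hex ≠ 0 := by
        intro h
        have := Nat.find_spec hex
        rw [h] at this
        apply hχ3
        rw [pow_zero, pow_one] at this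
        rw [this, one_pow]
      obtain ⟨j, hj⟩ := Nat.exists_eq_succ_of_ne_zero h0
      refine ⟨j, ?_, ?_⟩
      · have := Nat.find_spec hex
        rwa [hj] at this
      · exact Nat.find_min hex (by omega)
    have hkj : k ≤ j := by
      by_contra hlt
      push Not at hlt
      apply hχ3
      obtain ⟨d, rfl⟩ := Nat.exists_eq_add_of_lt hlt
      have : l ^ (j + d + 1) = l ^ (j + 1) * l ^ d := by ring
      rw [this, pow_mul, hj1, one_pow]
    obtain ⟨d, rfl⟩ := Nat.exists_eq_add_of_le hkj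
    refine ⟨χ ^ (l ^ d), C.pow_mem hχ1 _, ?_, ?_⟩
    · rw [← pow_mul, ← pow_add]
      have : d + (k + 1) = k + d + 1 := by omega
      rw [this]; exact hj1
    · rw [← pow_mul, ← pow_add, add_comm d k]
      exact hj2
  have : ∀ k, Nonempty (S k) := fun k => (hSne k).to_subtype
  have : Finite (S 0) := (hSfin 0).to_subtype
  obtain ⟨f, hf⟩ := exists_seq_forall_proj_of_forall_finite (α := fun k => S k)
    (π := fun {i j} hij χ => ⟨(χ : A) ^ (l ^ (j - i)), by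
      obtain ⟨h1, h2, h3⟩ := χ.2
      refine ⟨C.pow_mem h1 _, ?_, ?_⟩
      · rw [← pow_mul, ← pow_add]
        have : j - i + (i + 1) = j + 1 := by omega
        rw [this]; exact h2
      · rw [← pow_mul, ← pow_add]
        have : j - i + i = j := by omega
        rw [this]; exact h3⟩)
    (by intro i a; apply Subtype.ext; simp)
    (by
      intro i j k hij hjk a
      apply Subtype.ext
      change (((a : A) ^ (l ^ (k - j))) ^ (l ^ (j - i)) : A) = (a : A) ^ (l ^ (k - i))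
      rw [← pow_mul, ← pow_add]
      congr 2
      omega)
    (by
      intro i a
      have : Finite (S (i + 1)) := (hSfin (i + 1)).to_subtype
      exact Set.toFinite _)
  refine ⟨fun k => if k = 0 then 1 else (f (k - 1) : A), ?_, ?_, ?_, ?_⟩
  · intro k
    by_cases hk : k = 0
    · simp [hk]
    · simp only [hk, if_false]
      exact (f (k - 1)).2.1
  · intro k
    by_cases hk : k = 0
    · simp [hk]
    · simp only [hk, if_false]
      have := (f (k - 1)).2.2.1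
      rwa [Nat.sub_add_cancel (Nat.one_le_iff_ne_zero.2 hk)] at this
  · intro k
    by_cases hk : k = 0
    · subst hk
      simp only [zero_add, one_ne_zero, if_false, if_true, Nat.sub_self]
      have := (f 0).2.2.1
      simpa using this
    · simp only [Nat.succ_ne_zero, if_false, hk, Nat.add_sub_cancel]
      have h := hf (Nat.sub_le k 1)
      have h2 := congrArg (Subtype.val) h
      have h3 : k - (k - 1) = 1 := by omega
      simpa [h3] using h2
  · simp only [one_ne_zero, if_false, Nat.sub_self]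
    have := (f 0).2.2.2
    simpa using this

/-- **compactness, final form**. -/
theorem exists_hom_of_many {G E : Type*} [Group G] [TopologicalSpace G] [IsTopologicalGroup G]
    [Field E] (l : ℕ) [hl : Fact l.Prime]
    (ζ : ℕ → Eˣ) (hζ : ∀ k, IsPrimitiveRoot (ζ k) (l ^ k)) (hcomp : ∀ k, ζ (k + 1) ^ l = ζ k)
    (C : Subgroup (G →* Eˣ)) (hC : ∀ χ ∈ C, IsOpen ((χ : G →* Eˣ).ker : Set G))
    (hfin : {χ : G →* Eˣ | χ ∈ C ∧ χ ^ l = 1}.Finite)
    (hmany : ∀ n : ℕ, ∃ T : Finset (G →* Eˣ), l ^ n ≤ T.card ∧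
      ∀ χ ∈ T, χ ∈ C ∧ χ ^ (l ^ n) = 1) :
    ∃ φ : G →* Multiplicative ℤ_[l], Continuous φ ∧ φ ≠ 1 ∧
      ∀ k, ∃ χ ∈ C, ∀ g, χ g = ζ k ^ ((φ g).toAdd.toZModPow k).val := by
  obtain ⟨χ, h1, h2, h3, h4⟩ := exists_system C l hl.out hfin hmany
  obtain ⟨φ, hφ⟩ := exists_padic_hom l ζ hζ hcomp χ h2 h3
  refine ⟨φ, continuous_of_reductions l ζ hζ χ (fun k => hC _ (h1 k)) φ hφ, ?_,
    fun k => ⟨χ k, h1 k, hφ k⟩⟩
  rintro rfl
  apply h4
  ext g
  have := hφ 1 g
  rw [this]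
  simp

/-- if `χ_k(g') = χ_k(g)⁻¹` for all `k` then `φ(g') = φ(g)⁻¹`. -/
theorem eq_inv_of_reductions {G E : Type*} [Group G] [Field E] (l : ℕ) [hl : Fact l.Prime]
    (ζ : ℕ → Eˣ) (hζ : ∀ k, IsPrimitiveRoot (ζ k) (l ^ k)) (φ : G →* Multiplicative ℤ_[l])
    (g g' : G)
    (h : ∀ k, ζ k ^ ((φ g').toAdd.toZModPow k).val = (ζ k ^ ((φ g).toAdd.toZModPow k).val)⁻¹) :
    φ g' = (φ g)⁻¹ := by
  have hpos : ∀ k, 0 < l ^ k := fun k => pow_pos hl.out.pos k
  have hne : ∀ k, NeZero (l ^ k) := fun k => ⟨(hpos k).ne'⟩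
  have h0 : (φ g').toAdd + (φ g).toAdd = 0 := by
    refine PadicInt.ext_of_toZModPow.1 fun k => ?_
    rw [map_add, map_zero]
    have h1 : ζ k ^ (((φ g').toAdd.toZModPow k).val + ((φ g).toAdd.toZModPow k).val) = 1 := by
      rw [pow_add, h k, inv_mul_cancel]
    have h2 := (hζ k).dvd_of_pow_eq_one _ h1
    rw [← ZMod.natCast_eq_zero_iff] at h2
    push_cast at h2
    simpa using h2
  rw [eq_inv_iff_mul_eq_one]
  exact h0

end Crest.Agent.R018.ProbeKx658
end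

-- ▼ part R018/ProbeF_658
section

/-!
# Row 18, block ProbeEx, final descent (helper658)

`MinusEx` (abstract minus `ℤ_l`-extension over a totally complex number field) implies the literal
`ProbeEx` of `Core_74`.
-/

set_option autoImplicit false

open NumberField
open Crest.NumberTheoryR
open Crest.Agent.R018.EndDefx924 (Om)
open Crest.Agent.R018.Corex74

namespace Crest.Agent.R018.ProbeFx658

/-- **minus `ℤ_l`-extensions**: `F` totally complex number field, `E/F` Galois solvably closed,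
`y ∈ E` with `y² ∈ F`, `y ∉ F`, `U = Gal(E/F(y))`; for all large `l` there is a nonzero continuous
`φ : U → ℤ_l` which is inverted by the elements outside `U`. -/
def MinusEx : Prop :=
  ∀ (F E : Type) [Field F] [NumberField F] [IsTotallyComplex F] [Field E] [Algebra F E]
    [IsGalois F E], IsSolvablyClosed E → ∀ y : E, y ^ 2 ∈ Set.range (algebraMap F E) →
    y ∉ Set.range (algebraMap F E) → ∃ L0 : ℕ, ∀ (l : ℕ) [Fact l.Prime], L0 < l →
    ∃ φ : MulAction.stabilizer (E ≃ₐ[F] E) y →* Multiplicative ℤ_[l], Continuous φ ∧ φ ≠ 1 ∧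
      ∀ c : E ≃ₐ[F] E, c ∉ MulAction.stabilizer (E ≃ₐ[F] E) y →
      ∀ g g' : MulAction.stabilizer (E ≃ₐ[F] E) y,
        (g' : E ≃ₐ[F] E) = c * (g : E ≃ₐ[F] E) * c⁻¹ → φ g' = (φ g)⁻¹

/-! ### totally complex -/

/-- a Galois extension `E` of `ℚ` containing a square root of `-1`; if the Galois group of `E/F`
contains no involution then `F` is totally complex. -/
theorem isTotallyComplex_of {E : Type*} [Field E] [CharZero E] [Algebra ℚ E] [Normal ℚ E]
    (i : E) (hi : i ^ 2 = -1) (F : IntermediateField ℚ E) [NumberField F]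
    (h : ∀ s : E ≃ₐ[ℚ] E, s ∈ F.fixingSubgroup → s * s = 1 → s = 1) : IsTotallyComplex F := by
  constructor
  intro v
  by_contra hv
  rw [InfinitePlace.not_isComplex_iff_isReal, InfinitePlace.isReal_iff] at hv
  let f : F →+* ℂ := v.embedding
  have hf : ∀ x : F, (starRingEnd ℂ) (f x) = f x := fun x =>
    RingHom.congr_fun (ComplexEmbedding.isReal_iff.1 hv) x
  letI : Algebra F ℂ := f.toAlgebra
  have : Algebra.IsAlgebraic ℚ E := Normal.toIsAlgebraic
  have : Algebra.IsAlgebraic F E := Algebra.IsAlgebraic.tower_top (K := ℚ) F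
  let ψ : E →ₐ[F] ℂ := IsAlgClosed.lift
  have hψ : ∀ x : F, ψ (x : E) = f x := fun x => ψ.commutes x
  letI : Algebra E ℂ := (ψ : E →+* ℂ).toAlgebra
  have halg : ∀ x : E, algebraMap E ℂ x = ψ x := fun _ => rfl
  have : IsScalarTower ℚ E ℂ := IsScalarTower.of_algebraMap_eq fun q => by
    simp
  let ρ : E →ₐ[ℚ] ℂ :=
    { ((starRingEnd ℂ).comp (ψ : E →+* ℂ)) with
      commutes' := fun q => by simp }
  have hρ : ∀ x : E, ρ x = (starRingEnd ℂ) (ψ x) := fun _ => rfl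
  have hinj : ∀ a b : E, ψ a = ψ b → a = b := fun a b hab => (ψ : E →+* ℂ).injective hab
  let s : E ≃ₐ[ℚ] E := ρ.restrictNormal' E
  have hs : ∀ x : E, ψ (s x) = (starRingEnd ℂ) (ψ x) := by
    intro x
    have h1 := AlgHom.restrictNormal_commutes ρ E x
    rw [← hρ]
    exact h1
  have hsF : s ∈ F.fixingSubgroup := by
    rw [IntermediateField.mem_fixingSubgroup_iff]
    intro x hx
    apply hinj
    rw [hs, hψ ⟨x, hx⟩, hf]
  have hss : s * s = 1 := by
    ext x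
    apply hinj
    rw [AlgEquiv.mul_apply, hs, hs, Complex.conj_conj]
    rfl
  have hs1 := h s hsF hss
  have h1 : (starRingEnd ℂ) (ψ i) = ψ i := by
    rw [← hs, hs1]; rfl
  have h2 : (ψ i) ^ 2 = -1 := by
    rw [← map_pow, hi, map_neg, map_one]
  rw [Complex.conj_eq_iff_real] at h1
  obtain ⟨r, hr⟩ := h1
  rw [hr] at h2
  have h3 : (r : ℝ) ^ 2 = -1 := by exact_mod_cast h2
  nlinarith [sq_nonneg r]

/-! ### `V₂(x)` is open -/

theorem finite_conj (x : Sv) : {y : Sv | ∃ γ : SG, y = γ x}.Finite := by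
  have hint : IsIntegral ℚ x := Algebra.IsIntegral.isIntegral x
  refine ((minpoly ℚ x).rootSet Sv).toFinite.subset ?_
  rintro y ⟨γ, rfl⟩
  rw [Polynomial.mem_rootSet]
  refine ⟨minpoly.ne_zero hint, ?_⟩
  have : Polynomial.aeval (γ x) (minpoly ℚ x) = γ (Polynomial.aeval x (minpoly ℚ x)) := by
    rw [← AlgEquiv.coe_algHom, Polynomial.aeval_algHom_apply]
  rw [this, minpoly.aeval, map_zero]

theorem isOpen_V2 (V : Subgroup SG) (hV : IsOpen (V : Set SG)) (x : Sv) :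
    IsOpen (V2 V x : Set SG) := by
  classical
  apply Subgroup.isOpen_of_mem_nhds (g := 1)
  -- finitely many `z`
  have hfin : {z : Sv | ∃ γ : SG, z ^ 2 = γ x}.Finite := by
    have h1 : {z : Sv | ∃ γ : SG, z ^ 2 = γ x} ⊆
        ⋃ y ∈ {y : Sv | ∃ γ : SG, y = γ x}, {z : Sv | z ^ 2 = y} := by
      rintro z ⟨γ, hz⟩
      simp only [Set.mem_iUnion]
      exact ⟨γ x, ⟨γ, rfl⟩, hz⟩
    refine Set.Finite.subset ((finite_conj x).biUnion fun y _ => ?_) h1
    refine ((Polynomial.nthRoots 2 y).toFinset.finite_toSet).subset ?_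
    intro z hz
    simpa [Polynomial.mem_nthRoots] using hz
  have h2 : (⋂ z ∈ {z : Sv | ∃ γ : SG, z ^ 2 = γ x}, {g : SG | g z = z}) ∈ nhds (1 : SG) := by
    rw [Filter.biInter_mem hfin]
    intro z _
    exact Redx49.eval_mem_nhds z
  refine Filter.mem_of_superset (Filter.inter_mem (hV.mem_nhds V.one_mem) h2) ?_
  rintro g ⟨hg1, hg2⟩
  refine ⟨hg1, fun γ z hz => ?_⟩
  simp only [Set.mem_iInter] at hg2
  exact hg2 z ⟨γ, hz⟩

/-- the torsion freeness of `ℤ_l`, multiplicative form -/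
theorem eq_one_of_pow {l : ℕ} [Fact l.Prime] (a : Multiplicative ℤ_[l]) (m : ℕ) (hm : m ≠ 0)
    (h : a ^ m = 1) : a = 1 := by
  have h1 : m • a.toAdd = 0 := by
    rw [← toAdd_pow, h]; rfl
  have h2 : a.toAdd = 0 := by
    rw [nsmul_eq_mul] at h1
    rcases mul_eq_zero.1 h1 with h3 | h3
    · exact absurd (by exact_mod_cast h3) hm
    · exact h3
  exact h2

/-! ### the descent -/

/-- **ProbeEx from MinusEx**. -/
theorem probeEx_of (H : MinusEx) : ProbeEx := by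
  intro V hVn hVo hinv x hx
  have hclosed : IsClosed (V : Set SG) := Subgroup.isClosed_of_isOpen _ hVo
  let K : ClosedSubgroup SG := ⟨V, hclosed⟩
  let F : IntermediateField ℚ Sv := IntermediateField.fixedField K.1
  have hfix : F.fixingSubgroup = V := InfiniteGalois.fixingSubgroup_fixedField K
  have hfin : FiniteDimensional ℚ F := by
    rw [← InfiniteGalois.isOpen_iff_finite]
    change IsOpen (F.fixingSubgroup : Set SG)
    rw [hfix]; exact hVo
  have hnf : NumberField F := NumberField.of_module_finite ℚ F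
  have hSC := CycFTx925.sv_isSolvablyClosed
  obtain ⟨i, hi⟩ := EndAx245.exists_sq_of_solvablyClosed hSC (-1)
  have : IsTotallyComplex F := isTotallyComplex_of i hi F fun s hs hss =>
    hinv s (by rwa [hfix] at hs) hss
  obtain ⟨y, hy⟩ := EndAx245.exists_sq_of_solvablyClosed hSC x
  obtain ⟨hx0, hxV, hxstab, hxind⟩ := hx
  have hxF : x ∈ F := by
    rw [IntermediateField.mem_fixedField_iff]
    intro v hv
    exact hxV v hv
  have hy2 : y ^ 2 ∈ Set.range (algebraMap F Sv) := ⟨⟨x, hxF⟩, by rw [hy]; rfl⟩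
  have hyF : y ∉ Set.range (algebraMap F Sv) := by
    rintro ⟨z, hz⟩
    refine hxind {x} (Finset.singleton_nonempty x) ?_ ⟨y, ?_, ?_⟩
    · intro w hw
      rw [Finset.mem_singleton] at hw
      exact ⟨1, by rw [hw]; rfl⟩
    · intro v hv
      rw [← hz]
      have := z.2
      exact (IntermediateField.mem_fixedField_iff _ _).1 z.2 v hv
    · rw [Finset.prod_singleton, hy]
  obtain ⟨L0, hL0⟩ := H F Sv hSC y hy2 hyF
  refine ⟨L0, ?_⟩
  intro l hl hl0
  obtain ⟨φ, hφc, hφ1, hφ⟩ := hL0 l hl0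
  -- `V → Gal(Sv/F)`
  have hmem : ∀ v : SG, v ∈ V → v ∈ F.fixingSubgroup := fun v hv => by rw [hfix]; exact hv
  let ι : V →* (Sv ≃ₐ[F] Sv) :=
    (IntermediateField.fixingSubgroupEquiv F).toMonoidHom.comp (Subgroup.inclusion hfix.ge)
  have hι : ∀ (v : V) (z : Sv), ι v z = (v : SG) z := fun _ _ => rfl
  have hιs : Function.Surjective ι := by
    intro σ
    obtain ⟨τ, hτ⟩ := (IntermediateField.fixingSubgroupEquiv F).surjective σ
    refine ⟨⟨τ, by rw [← hfix]; exact τ.2⟩, ?_⟩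
    rw [← hτ]
    rfl
  let j₀ : V2 V x →* (Sv ≃ₐ[F] Sv) :=
    ι.comp (Subgroup.inclusion (show V2 V x ≤ V from fun g hg => hg.1))
  have hj₀ : ∀ (n : V2 V x) (z : Sv), j₀ n z = (n : SG) z := fun _ _ => rfl
  have hj₀m : ∀ n : V2 V x, j₀ n ∈ MulAction.stabilizer (Sv ≃ₐ[F] Sv) y := by
    intro n
    rw [MulAction.mem_stabilizer_iff]
    change (n : SG) y = y
    exact n.2.2 1 y (by rw [hy]; rfl)
  let j : V2 V x →* MulAction.stabilizer (Sv ≃ₐ[F] Sv) y := j₀.codRestrict _ hj₀m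
  have hjc : Continuous j := by
    rw [Topology.IsEmbedding.subtypeVal.continuous_iff]
    change Continuous j₀
    apply Redx49.continuous_of_eval
    intro z
    have h1 := Redx49.eval_mem_nhds (K := ℚ) z
    have h2 : Filter.Tendsto (Subtype.val : V2 V x → SG) (nhds 1) (nhds 1) :=
      continuous_subtype_val.tendsto (1 : V2 V x)
    exact Filter.mem_of_superset (h2 h1) fun g hg => hg
  have hV2n : (V2 V x).Normal := V2_normal V x
  have hV2o : IsOpen (V2 V x : Set SG) := isOpen_V2 V hVo x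
  have hidx : (V2 V x).index ≠ 0 := by
    have : Finite (SG ⧸ V2 V x) := Subgroup.quotient_finite_of_isOpen _ hV2o
    exact Subgroup.index_ne_zero_of_finite
  refine ⟨{ ψ := φ.comp j, cont := hφc.comp hjc, ne_one := ?_, eig_pos := ?_, eig_neg := ?_ }⟩
  · intro h1
    apply hφ1
    ext1 g
    obtain ⟨v, hv⟩ := hιs (g : Sv ≃ₐ[F] Sv)
    have hm : ((v : SG)) ^ (V2 V x).index ∈ V2 V x := (V2 V x).pow_index_mem v
    have h2 : j ⟨_, hm⟩ = g ^ (V2 V x).index := by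
      apply Subtype.ext
      rw [Subgroup.coe_pow, ← hv, ← map_pow]
      rfl
    have h3 : φ (j ⟨_, hm⟩) = 1 := by
      have := DFunLike.congr_fun h1 (⟨_, hm⟩ : V2 V x)
      simpa using this
    rw [h2, map_pow] at h3
    exact eq_one_of_pow _ _ hidx h3
  · intro a ha hz n
    have haU : ι ⟨a, ha⟩ ∈ MulAction.stabilizer (Sv ≃ₐ[F] Sv) y := by
      rw [MulAction.mem_stabilizer_iff]
      exact hz y hy
    have h1 : ∀ hm, j ⟨a⁻¹ * n * a, hm⟩ = (⟨ι ⟨a, ha⟩, haU⟩)⁻¹ * j n * ⟨ι ⟨a, ha⟩, haU⟩ := by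
      intro hm
      apply Subtype.ext
      ext z
      rfl
    change φ (j _) = φ (j n)
    rw [h1, map_mul, map_mul, map_inv, mul_comm (φ _)⁻¹, inv_mul_cancel_right]
  · intro a ha hz n
    have hyne : y ≠ 0 := by
      rintro rfl
      apply hx0
      rw [← hy]; simp
    have haU : (ι ⟨a, ha⟩)⁻¹ ∉ MulAction.stabilizer (Sv ≃ₐ[F] Sv) y := by
      rw [inv_mem_iff, MulAction.mem_stabilizer_iff]
      change a y ≠ y
      rw [hz y hy]
      intro h
      have : (2 : Sv) * y = 0 := by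
        linear_combination -h
      rcases mul_eq_zero.1 this with h' | h'
      · exact two_ne_zero h'
      · exact hyne h'
    change φ (j _) = (φ (j n))⁻¹
    refine hφ _ haU (j n) _ ?_
    ext z
    rfl

end Crest.Agent.R018.ProbeFx658
end

-- ▼ part R018/ProbeG_658
section

/-!
# Row 18, block ProbeEx, glue (helper658)

From FIN (476) + many (975) + compactness (ProbeK_658) to the minus `ℤ_l`-extension.
-/

set_option autoImplicit false

open NumberField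
open Crest.NumberTheoryR
open Crest.Agent.R018.Placesx484
open Crest.Agent.R018.Tamex31

namespace Crest.Agent.R018.ProbeGx658

variable {F E : Type*} [Field F] [Field E] [Algebra F E]

/-- characters of `U` with open kernel, killed by a family `I` of elements and inverted by the
elements outside `U`. -/
def minusChars (U : Subgroup (E ≃ₐ[F] E)) (I : Set U) : Subgroup (U →* Eˣ) where
  carrier := {χ | OpenKer χ ∧ (∀ s ∈ I, χ s = 1) ∧
    ∀ c : E ≃ₐ[F] E, c ∉ U → ∀ g g' : U, (g' : E ≃ₐ[F] E) = c * (g : E ≃ₐ[F] E) * c⁻¹ →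
      χ g' = (χ g)⁻¹}
  one_mem' := by
    refine ⟨⟨⊥, inferInstance, fun _ _ => rfl⟩, fun _ _ => rfl, fun _ _ _ _ _ => by simp⟩
  mul_mem' := by
    rintro χ ψ ⟨⟨L, hL, hL'⟩, h2, h3⟩ ⟨⟨M, hM, hM'⟩, h5, h6⟩
    refine ⟨⟨L ⊔ M, ?_, ?_⟩, ?_, ?_⟩
    · exact IntermediateField.finiteDimensional_sup L M
    · intro u hu
      rw [MonoidHom.mul_apply, hL' u fun x hx => hu x (le_sup_left (α := IntermediateField F E) hx),
        hM' u fun x hx => hu x (le_sup_right (α := IntermediateField F E) hx), one_mul]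
    · intro s hs
      rw [MonoidHom.mul_apply, h2 s hs, h5 s hs, one_mul]
    · intro c hc g g' hg
      rw [MonoidHom.mul_apply, MonoidHom.mul_apply, h3 c hc g g' hg, h6 c hc g g' hg, mul_inv]
  inv_mem' := by
    rintro χ ⟨⟨L, hL, hL'⟩, h2, h3⟩
    refine ⟨⟨L, hL, ?_⟩, ?_, ?_⟩
    · intro u hu
      rw [MonoidHom.inv_apply, hL' u hu, inv_one]
    · intro s hs
      rw [MonoidHom.inv_apply, h2 s hs, inv_one]
    · intro c hc g g' hg
      rw [MonoidHom.inv_apply, MonoidHom.inv_apply, h3 c hc g g' hg]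

theorem isOpen_ker_of_openKer {U : Subgroup (E ≃ₐ[F] E)} (χ : U →* Eˣ) (h : OpenKer χ) :
    IsOpen (χ.ker : Set U) := by
  obtain ⟨L, hL, hL'⟩ := h
  apply Subgroup.isOpen_of_mem_nhds (g := 1)
  have h1 : (L.fixingSubgroup : Set (E ≃ₐ[F] E)) ∈ nhds (1 : E ≃ₐ[F] E) := by
    rw [krullTopology_mem_nhds_one_iff]
    exact ⟨L, hL, subset_rfl⟩
  have h2 : Filter.Tendsto (Subtype.val : U → (E ≃ₐ[F] E)) (nhds 1) (nhds 1) :=
    continuous_subtype_val.tendsto (1 : U)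
  refine Filter.mem_of_superset (h2 h1) ?_
  intro u hu
  exact hL' u fun x hx => (IntermediateField.mem_fixingSubgroup_iff _ _).1 hu x hx

/-- compatible primitive roots of unity -/
theorem exists_zeta [CharZero E] (hE : IsSolvablyClosed E) (l : ℕ) [hl : Fact l.Prime] :
    ∃ ζ : ℕ → Eˣ, (∀ k, IsPrimitiveRoot (ζ k) (l ^ k)) ∧ ∀ k, ζ (k + 1) ^ l = ζ k := by
  have hpos : ∀ k, l ^ k ≠ 0 := fun k => pow_ne_zero _ hl.out.ne_zero
  have step : ∀ (k : ℕ) (z : Eˣ), IsPrimitiveRoot z (l ^ k) →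
      ∃ w : Eˣ, IsPrimitiveRoot w (l ^ (k + 1)) ∧ w ^ l = z := by
    intro k z hz
    rcases Nat.eq_zero_or_pos k with rfl | hk
    · obtain ⟨w, hw⟩ := Kumx568.exists_primitiveRoot hE l hl.out.ne_zero
      have hw' : IsUnit w := hw.isUnit hl.out.ne_zero
      obtain ⟨w', rfl⟩ := hw'
      refine ⟨w', ?_, ?_⟩
      · rw [zero_add, pow_one]
        exact IsPrimitiveRoot.coe_units_iff.1 hw
      · have h1 : z = 1 := by
          have := hz.pow_eq_one
          simpa using this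
        rw [h1]
        exact (IsPrimitiveRoot.coe_units_iff.1 hw).pow_eq_one
    · obtain ⟨w, hw⟩ := Kumx568.exists_pow_eq_unit hE l hl.out.ne_zero z
      refine ⟨w, ?_, hw⟩
      rw [IsPrimitiveRoot.iff_orderOf]
      have h1 : orderOf z = l ^ k := hz.eq_orderOf.symm
      have h2 : w ^ (l ^ (k + 1)) = 1 := by
        rw [pow_succ', pow_mul, hw, ← h1, pow_orderOf_eq_one]
      have h3 : ¬ w ^ (l ^ k) = 1 := by
        intro h
        obtain ⟨d, rfl⟩ := Nat.exists_eq_succ_of_ne_zero hk.ne'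
        rw [Nat.succ_eq_add_one, pow_succ', pow_mul, hw] at h
        have h4 := hz.dvd_of_pow_eq_one _ h
        have h5 := Nat.le_of_dvd (pow_pos hl.out.pos _) h4
        have h6 : l ^ d < l ^ (d + 1) := Nat.pow_lt_pow_right hl.out.one_lt (Nat.lt_succ_self d)
        rw [Nat.succ_eq_add_one] at h5
        omega
      exact orderOf_eq_prime_pow h3 h2
  choose! f hf1 hf2 using step
  let ζ : ℕ → Eˣ := fun k => Nat.rec (motive := fun _ => Eˣ) 1 (fun k z => f k z) k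
  have hζ : ∀ k, IsPrimitiveRoot (ζ k) (l ^ k) := by
    intro k
    induction k with
    | zero => change IsPrimitiveRoot (1 : Eˣ) (l ^ 0); simp
    | succ k ih => exact hf1 k (ζ k) ih
  exact ⟨ζ, hζ, fun k => hf2 k (ζ k) (hζ k)⟩

/-- the minus `ℤ_l`-hom from finiteness and abundance of minus characters. -/
theorem exists_minus [CharZero E] (hE : IsSolvablyClosed E) (l : ℕ) [hl : Fact l.Prime]
    (U : Subgroup (E ≃ₐ[F] E)) (I : Set U)
    (hfin : {χ : U →* Eˣ | χ ^ l = 1 ∧ OpenKer χ ∧ ∀ s ∈ I, χ s = 1}.Finite)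
    (hmany : ∀ n : ℕ, ∃ T : Finset (U →* Eˣ), l ^ n ≤ T.card ∧ ∀ χ ∈ T, χ ^ (l ^ n) = 1 ∧
      OpenKer χ ∧ (∀ s ∈ I, χ s = 1) ∧
      ∀ c : E ≃ₐ[F] E, c ∉ U → ∀ g g' : U, (g' : E ≃ₐ[F] E) = c * (g : E ≃ₐ[F] E) * c⁻¹ →
        χ g' = (χ g)⁻¹) :
    ∃ φ : U →* Multiplicative ℤ_[l], Continuous φ ∧ φ ≠ 1 ∧
      ∀ c : E ≃ₐ[F] E, c ∉ U → ∀ g g' : U, (g' : E ≃ₐ[F] E) = c * (g : E ≃ₐ[F] E) * c⁻¹ →
        φ g' = (φ g)⁻¹ := by
  obtain ⟨ζ, hζ1, hζ2⟩ := exists_zeta hE l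
  obtain ⟨φ, hφ1, hφ2, hφ3⟩ := ProbeKx658.exists_hom_of_many l ζ hζ1 hζ2 (minusChars U I)
    (fun χ hχ => isOpen_ker_of_openKer χ hχ.1)
    (hfin.subset fun χ hχ => ⟨hχ.2, hχ.1.1, hχ.1.2.1⟩)
    (fun n => by
      obtain ⟨T, hT1, hT2⟩ := hmany n
      exact ⟨T, hT1, fun χ hχ => ⟨(hT2 χ hχ).2, (hT2 χ hχ).1⟩⟩)
  refine ⟨φ, hφ1, hφ2, ?_⟩
  intro c hc g g' hg
  refine ProbeKx658.eq_inv_of_reductions l ζ hζ1 φ g g' fun k => ?_
  obtain ⟨χ, hχ, hχ'⟩ := hφ3 k
  rw [← hχ', ← hχ']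
  exact hχ.2.2 c hc g g' hg

end Crest.Agent.R018.ProbeGx658
end

-- ▼ part R018/MinusA_476
section

/-!
Row 18, CORE section 9 (helper476), abstract part: counting eigenclasses modulo `l^n`-th powers.
-/

set_option autoImplicit false
set_option linter.unusedSectionVars false

namespace Crest.Agent.R018.MinusAx476

/-- a finite abelian group killed by `m`, `l ∤ m`, has order prime to `l` -/
theorem not_dvd_card {Q : Type*} [CommGroup Q] [Finite Q] {l m : ℕ} (hl : l.Prime)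
    (hm : ¬ l ∣ m) (h : ∀ x : Q, x ^ m = 1) : ¬ l ∣ Nat.card Q := by
  intro hd
  have : Fact l.Prime := ⟨hl⟩
  obtain ⟨x, hx⟩ := exists_prime_orderOf_dvd_card' l hd
  have := orderOf_dvd_of_pow_eq_one (h x)
  rw [hx] at this
  exact hm this

variable {U : Type*} [CommGroup U]

theorem not_dvd_relIndex {A B : Subgroup U} {l m : ℕ} (hl : l.Prime) (hm : ¬ l ∣ m)
    (hfin : A.relIndex B ≠ 0) (h : ∀ x ∈ B, x ^ m ∈ A) : ¬ l ∣ A.relIndex B := by
  have hf : Finite (B ⧸ A.subgroupOf B) := Subgroup.index_ne_zero_iff_finite.1 hfin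
  have := not_dvd_card (Q := B ⧸ A.subgroupOf B) hl hm (by
    intro q
    obtain ⟨x, rfl⟩ := QuotientGroup.mk_surjective q
    rw [← QuotientGroup.mk_pow, QuotientGroup.eq_one_iff, Subgroup.mem_subgroupOf]
    exact h x x.2)
  exact this

/-- if `P` is finitely generated and every element of `P` has a power in `A`, then `A` has
finite index in `P` -/
theorem relIndex_ne_zero_of_pow {A P : Subgroup U} (hP : P.FG)
    (h : ∀ x ∈ P, ∃ k : ℕ, 0 < k ∧ x ^ k ∈ A) : A.relIndex P ≠ 0 := by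
  have h1 : Group.FG P := (Group.fg_iff_subgroup_fg P).2 hP
  have h2 : Group.FG (P ⧸ A.subgroupOf P) :=
    Group.fg_of_surjective (QuotientGroup.mk'_surjective (A.subgroupOf P))
  have h3 : Finite (P ⧸ A.subgroupOf P) := by
    apply CommGroup.finite_of_fg_isMulTorsion
    intro x
    obtain ⟨u, rfl⟩ := QuotientGroup.mk'_surjective (A.subgroupOf P) x
    obtain ⟨k, hk, hmem⟩ := h u u.2
    rw [isOfFinOrder_iff_pow_eq_one]
    refine ⟨k, hk, ?_⟩
    rw [← map_pow]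
    refine (QuotientGroup.eq_one_iff _).mpr ?_
    rw [Subgroup.mem_subgroupOf]
    exact hmem
  exact Subgroup.index_ne_zero_of_finite

/-- counting, part 1 -/
theorem count {P : Subgroup U} (hP : P.FG) {T : U →* U} (hT : P.map T ≤ P) {l n m : ℕ}
    (hl : l.Prime) (hm : ¬ l ∣ m) (hkill : ∀ x ∈ P, x ^ (l ^ n * m) ∈ P.map T)
    (hdvd : l ^ n ∣ (P.map T).relIndex P) :
    l ^ n ∣ (P.map (powMonoidHom (l ^ n))).relIndex
        (P ⊓ (P.map (powMonoidHom (l ^ n))).comap T) ∧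
      (P.map (powMonoidHom (l ^ n))).relIndex
        (P ⊓ (P.map (powMonoidHom (l ^ n))).comap T) ≠ 0 := by
  set V : Subgroup U := P.map (powMonoidHom (l ^ n)) with hV
  have hm0 : 0 < m := Nat.pos_of_ne_zero (by rintro rfl; exact hm (dvd_zero l))
  have hln : 0 < l ^ n := pow_pos hl.pos n
  have hVP : V ≤ P := by
    rintro _ ⟨x, hx, rfl⟩
    exact pow_mem hx _
  have hVT : V.map T ≤ V := by
    rintro _ ⟨_, ⟨x, hx, rfl⟩, rfl⟩
    refine ⟨T x, hT ⟨x, hx, rfl⟩, ?_⟩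
    simp [powMonoidHom]
  have hfV : V.relIndex P ≠ 0 := relIndex_ne_zero_of_pow hP
    (fun x hx => ⟨l ^ n, hln, ⟨x, hx, rfl⟩⟩)
  have hfT : (P.map T).relIndex P ≠ 0 := relIndex_ne_zero_of_pow hP
    (fun x hx => ⟨l ^ n * m, Nat.mul_pos hln hm0, hkill x hx⟩)
  have e1 : V.relIndex (P ⊓ V.comap T) * V.relIndex (P.map T ⊔ V) = V.relIndex P := by
    rw [Subgroup.relIndex_sup_right, ← Subgroup.relIndex_comap,
      ← Subgroup.inf_relIndex_left P (V.comap T)]
    exact Subgroup.relIndex_mul_relIndex _ _ _ (le_inf hVP (Subgroup.map_le_iff_le_comap.1 hVT))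
      inf_le_left
  have e2 : V.relIndex (P.map T ⊔ V) * (P.map T ⊔ V).relIndex P = V.relIndex P :=
    Subgroup.relIndex_mul_relIndex _ _ _ le_sup_right (sup_le hT hVP)
  have hne : V.relIndex (P.map T ⊔ V) ≠ 0 := by
    intro h; rw [h, zero_mul] at e2; exact hfV e2.symm
  have e3 : V.relIndex (P ⊓ V.comap T) = (P.map T ⊔ V).relIndex P := by
    have : V.relIndex (P.map T ⊔ V) * V.relIndex (P ⊓ V.comap T)
        = V.relIndex (P.map T ⊔ V) * (P.map T ⊔ V).relIndex P := by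
      rw [e2, ← e1, mul_comm]
    exact Nat.eq_of_mul_eq_mul_left (Nat.pos_of_ne_zero hne) this
  have e4 : (P.map T).relIndex (P.map T ⊔ V) * (P.map T ⊔ V).relIndex P
      = (P.map T).relIndex P := Subgroup.relIndex_mul_relIndex _ _ _ le_sup_left (sup_le hT hVP)
  have h5 : (P.map T).relIndex (P.map T ⊔ V) ≠ 0 := by
    intro h; rw [h, zero_mul] at e4; exact hfT e4.symm
  have h6 : (P.map T ⊔ V).relIndex P ≠ 0 := by
    intro h; rw [h, mul_zero] at e4; exact hfT e4.symm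
  have h7 : ¬ l ∣ (P.map T).relIndex (P.map T ⊔ V) := by
    refine not_dvd_relIndex hl hm h5 ?_
    intro x hx
    obtain ⟨t, ht, _, ⟨v, hv, rfl⟩, rfl⟩ := Subgroup.mem_sup.1 hx
    rw [mul_pow]
    refine mul_mem (pow_mem ht m) ?_
    have : (powMonoidHom (l ^ n) v) ^ m = v ^ (l ^ n * m) := by
      rw [powMonoidHom_apply, pow_mul]
    rw [this]
    exact hkill v hv
  rw [e3]
  refine ⟨?_, h6⟩
  rw [← e4] at hdvd
  exact (Nat.Coprime.pow_left n ((Nat.Prime.coprime_iff_not_dvd hl).2 h7)).dvd_of_dvd_mul_left hdvd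

/-- counting, part 2: the index of the image of `T` from a stable subgroup of finite index. -/
theorem dvd_of_sub {P A : Subgroup U} {T : U →* U} (hAP : A ≤ P) (hTP : P.map T ≤ P)
    (hTA : A.map T ≤ A) (hfin : A.relIndex P ≠ 0) {d : ℕ}
    (hd : d ∣ (A.map T).relIndex A) : d ∣ (P.map T).relIndex P := by
  have e1 : (A.map T).relIndex A * A.relIndex P = (A.map T).relIndex P :=
    Subgroup.relIndex_mul_relIndex _ _ _ hTA hAP
  have e2 : (A.map T).relIndex (P.map T) * (P.map T).relIndex P = (A.map T).relIndex P :=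
    Subgroup.relIndex_mul_relIndex _ _ _ (Subgroup.map_mono hAP) hTP
  have e3 : (A.map T).relIndex (P.map T) ∣ A.relIndex P := by
    rw [← Subgroup.relIndex_comap]
    exact Subgroup.relIndex_dvd_of_le_left P (Subgroup.le_comap_map T A)
  obtain ⟨q, hq⟩ := e3
  set x := (A.map T).relIndex (P.map T) with hx
  have hx0 : x ≠ 0 := by
    intro h; rw [h, zero_mul] at hq; exact hfin hq
  have e4 : x * ((A.map T).relIndex A * q) = x * (P.map T).relIndex P := by
    rw [e2, ← e1, hq]; ring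
  have e5 := Nat.eq_of_mul_eq_mul_left (Nat.pos_of_ne_zero hx0) e4
  rw [← e5]
  exact Dvd.dvd.mul_right hd q

/-- powers of the twisted operator -/
theorem exists_T {P : Subgroup U} {h T : U →* U} {c : ℕ} (hh : P.map h ≤ P)
    (hT : ∀ x, T x = h x * (x ^ c)⁻¹) (k : ℕ) (x : U) (hx : x ∈ P) :
    ∃ y ∈ P, T y = (h^[k]) x * (x ^ (c ^ k))⁻¹ := by
  induction k with
  | zero => exact ⟨1, one_mem _, by simp⟩
  | succ k ih =>
    obtain ⟨y, hy, h1⟩ := ih
    have hk : ∀ k, (h^[k]) x ∈ P := by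
      intro k
      induction k with
      | zero => simpa using hx
      | succ k ih => rw [Function.iterate_succ_apply']; exact hh ⟨_, ih, rfl⟩
    refine ⟨y ^ c * (h^[k]) x, mul_mem (pow_mem hy c) (hk k), ?_⟩
    rw [map_mul, map_pow, h1, hT, Function.iterate_succ_apply', mul_pow, inv_pow, ← pow_mul,
      pow_succ]
    have : (h^[k]) x ^ c * (x ^ (c ^ k * c))⁻¹ * (h ((h^[k]) x) * ((h^[k]) x ^ c)⁻¹)
      = h ((h^[k]) x) * (x ^ (c ^ k * c))⁻¹ := by
      rw [mul_comm (h ((h^[k]) x)), ← mul_assoc, mul_right_comm ((h^[k]) x ^ c), mul_inv_cancel,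
        one_mul, mul_comm]
    exact this

end Crest.Agent.R018.MinusAx476

namespace Crest.Agent.R018.MinusAx476

variable {U : Type*} [CommGroup U]

theorem fg_of_le {A B : Subgroup U} (hB : B.FG) (h : A ≤ B) : A.FG := by
  rw [Subgroup.fg_iff_add_fg] at hB ⊢
  have h1 : (AddSubgroup.toIntSubmodule B.toAddSubgroup).FG := by
    rw [Submodule.fg_iff_addSubgroup_fg]
    exact hB
  have h2 : IsNoetherian ℤ (AddSubgroup.toIntSubmodule B.toAddSubgroup) :=
    isNoetherian_of_fg_of_noetherian _ h1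
  have h3 := (isNoetherian_submodule.1 h2) (AddSubgroup.toIntSubmodule A.toAddSubgroup)
    (fun x hx => h hx)
  rw [Submodule.fg_iff_addSubgroup_fg] at h3
  exact h3

end Crest.Agent.R018.MinusAx476
end

-- ▼ part R018/MinusU_476
section

/-!
Row 18, CORE section 9 (helper476): the group of minus units of a number field `N` contains at
least `l^n` classes modulo `l^n`-th powers on which a given automorphism acts by the cyclotomic
character.
-/

set_option autoImplicit false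
set_option linter.unusedSectionVars false

open NumberField NumberField.InfinitePlace
open scoped Pointwise

namespace Crest.Agent.R018.MinusUx476

open Crest.Agent.R018.MinkUx824 Crest.Agent.R018.MinusAx476

section free
variable {F N : Type*} [Field F] [NumberField F] [Field N] [NumberField N] [Algebra F N]

theorem free_of_complex [IsGalois F N] [IsTotallyComplex F] (σ : N ≃ₐ[F] N)
    (w : InfinitePlace N) (h : σ • w = w) : σ = 1 := by
  have h1 : IsUnramified F w := isUnramified_iff.2 (Or.inr (IsTotallyComplex.isComplex _))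
  have h2 := isUnramified_iff_stabilizer_eq_bot.1 h1
  have h3 : σ ∈ MulAction.stabilizer (N ≃ₐ[F] N) w := h
  rw [h2] at h3
  exact Subgroup.mem_bot.1 h3

end free

section prods
variable {X H U : Type*} [Fintype X] [Fintype H] [DecidableEq X] [CommGroup U]

theorem zpow_sum' (x : U) (s : Finset H) (f : H → ℤ) : x ^ (∑ g ∈ s, f g) = ∏ g ∈ s, x ^ f g := by
  classical
  induction s using Finset.induction_on with
  | empty => simp
  | insert a s ha ih => rw [Finset.sum_insert ha, Finset.prod_insert ha, zpow_add, ih]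

theorem prod_ite (ε : X → U) (s : H → X) (a : H → ℤ) :
    ∏ t, ε t ^ (∑ g, if t = s g then a g else 0) = ∏ g, ε (s g) ^ a g := by
  simp_rw [zpow_sum']
  rw [Finset.prod_comm]
  refine Finset.prod_congr rfl fun g _ => ?_
  rw [Finset.prod_eq_single (s g)]
  · simp
  · intro t _ ht
    simp [ht]
  · intro h
    exact absurd (Finset.mem_univ _) h

/-- independence of the elements `ε (s g) / ε (s' g)` when `s`, `s'` are injective with disjoint
images and the only relation between the `ε t` is the product. -/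
theorem indep (ε : X → U) (hε : ∀ c : X → ℤ, ∏ w, ε w ^ c w = 1 → ∀ w w', c w = c w')
    (s s' : H → X) (hs : ∀ g g', s g = s g' → g = g') (hs' : ∀ g g', s' g = s' g' → g = g')
    (hss' : ∀ g g', s g ≠ s' g') (a : H → ℤ)
    (h : ∏ g, (ε (s g) / ε (s' g)) ^ a g = 1) : a = 0 := by
  have h1 : ∏ t, ε t ^ ((∑ g, if t = s g then a g else 0) - ∑ g, if t = s' g then a g else 0)
      = 1 := by
    simp_rw [zpow_sub]
    rw [Finset.prod_mul_distrib, Finset.prod_inv_distrib, prod_ite, prod_ite]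
    rw [← h, ← Finset.prod_inv_distrib, ← Finset.prod_mul_distrib]
    refine Finset.prod_congr rfl fun g _ => ?_
    rw [div_zpow, div_eq_mul_inv]
  have h2 := hε _ h1
  funext g
  have h3 := h2 (s g) (s' g)
  have e1 : (∑ g', if s g = s g' then a g' else 0) = a g := by
    rw [Finset.sum_eq_single g]
    · simp
    · intro g' _ hg'
      rw [if_neg]
      exact fun h => hg' (hs _ _ h).symm
    · intro h; exact absurd (Finset.mem_univ _) h
  have e2 : (∑ g', if s g = s' g' then a g' else 0) = 0 :=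
    Finset.sum_eq_zero fun g' _ => if_neg (hss' g g')
  have e3 : (∑ g', if s' g = s g' then a g' else 0) = 0 :=
    Finset.sum_eq_zero fun g' _ => if_neg (fun h => hss' g' g h.symm)
  have e4 : (∑ g', if s' g = s' g' then a g' else 0) = a g := by
    rw [Finset.sum_eq_single g]
    · simp
    · intro g' _ hg'
      rw [if_neg]
      exact fun h => hg' (hs' _ _ h).symm
    · intro h; exact absurd (Finset.mem_univ _) h
  rw [e1, e2, e3, e4] at h3
  simp only [Pi.zero_apply]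
  omega

end prods

section grp
/-- the map `a ↦ ∏ (g • η)^(a g)` -/
def Θ {H U : Type*} [Fintype H] [CommGroup U] (η : H → U) : Multiplicative (H → ℤ) →* U where
  toFun a := ∏ g, η g ^ (Multiplicative.toAdd a g)
  map_one' := by simp
  map_mul' a b := by
    rw [← Finset.prod_mul_distrib]
    refine Finset.prod_congr rfl fun g _ => ?_
    rw [toAdd_mul, Pi.add_apply, zpow_add]

/-- the functional `a ↦ ∑ a g χ g` -/
def Λ {H : Type*} [Fintype H] {R : Type*} [CommRing R] (χ : H → R) :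
    Multiplicative (H → ℤ) →* Multiplicative R where
  toFun a := Multiplicative.ofAdd (∑ g, (Multiplicative.toAdd a g : R) * χ g)
  map_one' := by simp
  map_mul' a b := by
    rw [← ofAdd_add, ← Finset.sum_add_distrib]
    congr 1
    refine Finset.sum_congr rfl fun g _ => ?_
    rw [toAdd_mul, Pi.add_apply]
    push_cast
    ring

/-- index divisibility for the group ring -/
theorem dvd_index {H U : Type*} [Fintype H] [Group H] [CommGroup U] (η : H → U)
    (hinj : Function.Injective (Θ η)) (T : U →* U) {q c : ℕ} [NeZero q] (h0 : H)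
    (χ : H → ZMod q) (hχ : ∀ g, χ (h0 * g) = (c : ZMod q) * χ g) (hχ1 : χ 1 = 1)
    (hT : ∀ g, T (η g) = η (h0 * g) * (η g ^ c)⁻¹) :
    (Θ η).range.map T ≤ (Θ η).range ∧ q ∣ ((Θ η).range.map T).relIndex (Θ η).range := by
  classical
  -- the shifted exponent
  have hTΘ : ∀ a : Multiplicative (H → ℤ), T (Θ η a)
      = Θ η (Multiplicative.ofAdd (fun g => Multiplicative.toAdd a (h0⁻¹ * g)
          - (c : ℤ) * Multiplicative.toAdd a g)) := by
    intro a
    have e1 : T (Θ η a) = (∏ g, η (h0 * g) ^ (Multiplicative.toAdd a g))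
        * (∏ g, η g ^ ((c : ℤ) * Multiplicative.toAdd a g))⁻¹ := by
      change T (∏ g, η g ^ (Multiplicative.toAdd a g)) = _
      rw [map_prod, ← Finset.prod_inv_distrib, ← Finset.prod_mul_distrib]
      refine Finset.prod_congr rfl fun g _ => ?_
      rw [map_zpow, hT, mul_zpow, inv_zpow, zpow_mul, zpow_natCast]
    have e2 : (∏ g, η (h0 * g) ^ (Multiplicative.toAdd a g))
        = ∏ g, η g ^ (Multiplicative.toAdd a (h0⁻¹ * g)) := by
      have := Equiv.prod_comp (Equiv.mulLeft h0)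
        (fun g => η g ^ (Multiplicative.toAdd a (h0⁻¹ * g)))
      rw [← this]
      refine Finset.prod_congr rfl fun g _ => ?_
      simp
    rw [e1, e2]
    change _ = ∏ g, η g ^ (Multiplicative.toAdd a (h0⁻¹ * g) - (c : ℤ) * Multiplicative.toAdd a g)
    rw [← Finset.prod_inv_distrib, ← Finset.prod_mul_distrib]
    refine Finset.prod_congr rfl fun g _ => ?_
    rw [zpow_sub]
  have hΛ : ∀ a : Multiplicative (H → ℤ), Λ χ (Multiplicative.ofAdd
      (fun g => Multiplicative.toAdd a (h0⁻¹ * g) - (c : ℤ) * Multiplicative.toAdd a g)) = 1 := by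
    intro a
    change Multiplicative.ofAdd (∑ g, (((Multiplicative.toAdd a (h0⁻¹ * g)
      - (c : ℤ) * Multiplicative.toAdd a g : ℤ)) : ZMod q) * χ g) = 1
    rw [ofAdd_eq_one]
    push_cast
    simp_rw [sub_mul]
    rw [Finset.sum_sub_distrib, sub_eq_zero]
    have := Equiv.sum_comp (Equiv.mulLeft h0)
      (fun g => ((Multiplicative.toAdd a (h0⁻¹ * g) : ℤ) : ZMod q) * χ g)
    rw [← this]
    refine Finset.sum_congr rfl fun g _ => ?_
    simp only [Equiv.coe_mulLeft, inv_mul_cancel_left]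
    rw [hχ]
    ring
  have h1 : (Θ η).range.map T ≤ ((Λ χ).ker).map (Θ η) := by
    rintro _ ⟨_, ⟨a, rfl⟩, rfl⟩
    exact ⟨_, hΛ a, (hTΘ a).symm⟩
  refine ⟨h1.trans (by rw [MonoidHom.range_eq_map]; exact Subgroup.map_mono le_top), ?_⟩
  refine dvd_trans ?_ (Subgroup.relIndex_dvd_of_le_left _ h1)
  rw [MonoidHom.range_eq_map, Subgroup.relIndex_map_map_of_injective _ _ hinj,
    Subgroup.relIndex_top_right, Subgroup.index_ker]
  have hsurj : Function.Surjective (Λ χ) := by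
    intro y
    refine ⟨Multiplicative.ofAdd (fun g => if g = 1 then ((Multiplicative.toAdd y).val : ℤ) else 0),
      ?_⟩
    change Multiplicative.ofAdd (∑ g, ((if g = 1 then ((Multiplicative.toAdd y).val : ℤ) else 0 : ℤ)
      : ZMod q) * χ g) = y
    rw [Finset.sum_eq_single (1 : H)]
    · simp [hχ1]
    · intro g _ hg
      simp [hg]
    · intro h; exact absurd (Finset.mem_univ _) h
  rw [MonoidHom.range_eq_top.2 hsurj]
  have : Nat.card (⊤ : Subgroup (Multiplicative (ZMod q))) = q := by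
    rw [Subgroup.card_top]
    exact (Nat.card_congr Multiplicative.toAdd).trans (Nat.card_zmod q)
  rw [this]

end grp

end Crest.Agent.R018.MinusUx476
end

-- ▼ part R018/MinusV_476
section

/-!
Row 18, CORE section 9 (helper476): the UNIT COUNT.
-/

set_option autoImplicit false
set_option linter.unusedSectionVars false

open NumberField NumberField.InfinitePlace
open scoped Pointwise

namespace Crest.Agent.R018.MinusVx476

open Crest.Agent.R018.MinkUx824 Crest.Agent.R018.MinusAx476 Crest.Agent.R018.MinusUx476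

variable {F N : Type*} [Field F] [NumberField F] [Field N] [NumberField N] [Algebra F N]

/-- the group of units (of the ring of integers), inside `Nˣ`, is finitely generated -/
theorem fg_range : ((iu N).range).FG := by
  have h1 : Group.FG (𝓞 N)ˣ := Group.fg_iff_monoid_fg.mpr inferInstance
  exact (Group.fg_iff_subgroup_fg _).1 (Group.fg_range (iu N))

/-- UNIT COUNT. `N/F` Galois, `F` totally complex, `h₀, c` commuting automorphisms, `c` an
involution outside `⟨h₀⟩` fixing a primitive `l^n`-th root of unity `ζ`, `h₀ ζ = ζ^c₀`,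
`c₀^o = 1 + l^n m` with `l ∤ m`, `h₀^o = 1`.  Then the group `K` of minus units on which `h₀` acts
by `c₀` modulo `l^n`-th powers has at least `l^n` classes modulo `l^n`-th powers of `Nˣ`. -/
theorem unit_count [IsGalois F N] [IsTotallyComplex F] {l n : ℕ} (hl : l.Prime) (hodd : l ≠ 2)
    {ζ : N} (hζ : IsPrimitiveRoot ζ (l ^ n)) (h₀ c : N ≃ₐ[F] N) (hcomm : h₀ * c = c * h₀)
    (hc2 : c * c = 1) (hcζ : c ζ = ζ) (hcH : c ∉ Subgroup.zpowers h₀) {c₀ o m : ℕ}
    (hh : h₀ ζ = ζ ^ c₀) (ho : h₀ ^ o = 1) (hm : c₀ ^ o = 1 + l ^ n * m) (hlm : ¬ l ∣ m) :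
    ∃ K : Subgroup Nˣ, (∀ x ∈ K, ∃ u : (𝓞 N)ˣ, iu N u = x) ∧ (∀ x ∈ K, c • x = x⁻¹) ∧
      (∀ x ∈ K, ∃ y : Nˣ, h₀ • x = x ^ c₀ * y ^ (l ^ n)) ∧
      l ^ n ∣ ((powMonoidHom (l ^ n) : Nˣ →* Nˣ).range).relIndex K ∧
      ((powMonoidHom (l ^ n) : Nˣ →* Nˣ).range).relIndex K ≠ 0 := by
  classical
  have hq : 0 < l ^ n := pow_pos hl.pos n
  have : NeZero (l ^ n) := ⟨hq.ne'⟩
  have hfree : ∀ (σ : N ≃ₐ[F] N) (w : InfinitePlace N), σ • w = w → σ = 1 :=
    fun σ w h => free_of_complex σ w h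
  obtain ⟨ε, hεσ, hεu, -, hεrel, -⟩ := exists_minkowski (K := F) (L := N) hfree
  obtain ⟨w⟩ : Nonempty (InfinitePlace N) := inferInstance
  -- commutation of `c` with the powers of `h₀`
  have hcg : ∀ g ∈ Subgroup.zpowers h₀, g * c = c * g := by
    intro g hg
    obtain ⟨i, rfl⟩ := Subgroup.mem_zpowers_iff.1 hg
    exact (Commute.zpow_left (show Commute h₀ c from hcomm) i).eq
  let η : Subgroup.zpowers h₀ → Nˣ := fun g => ε ((g : N ≃ₐ[F] N) • w) /
    ε ((g : N ≃ₐ[F] N) • c • w)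
  have hηu : ∀ g, η g ∈ (iu N).range := fun g => div_mem (hεu _) (hεu _)
  have hηc : ∀ g, c • η g = (η g)⁻¹ := by
    intro g
    change c • (ε _ / ε _) = (ε _ / ε _)⁻¹
    rw [smul_div', ← hεσ, ← hεσ, inv_div]
    congr 2
    · rw [smul_smul, smul_smul, hcg g g.2]
    · rw [smul_smul, smul_smul, ← hcg g g.2, mul_assoc, hc2, mul_one]
  have hηg : ∀ (h g : Subgroup.zpowers h₀), (h : N ≃ₐ[F] N) • η g = η (h * g) := by
    intro h g
    change (h : N ≃ₐ[F] N) • (ε _ / ε _) = ε _ / ε _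
    rw [smul_div', ← hεσ, ← hεσ, smul_smul, smul_smul]
    rfl
  -- independence
  have hinj : Function.Injective (Θ η) := by
    rw [injective_iff_map_eq_one]
    intro a ha
    have := indep (X := InfinitePlace N) (H := Subgroup.zpowers h₀) ε hεrel
      (fun g => (g : N ≃ₐ[F] N) • w) (fun g => (g : N ≃ₐ[F] N) • c • w)
      (fun g g' h => by
        have h1 : ((g : N ≃ₐ[F] N)⁻¹ * g') • w = w := by
          rw [mul_smul, ← (show (g : N ≃ₐ[F] N) • w = (g' : N ≃ₐ[F] N) • w from h), inv_smul_smul]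
        have := hfree _ _ h1
        rw [inv_mul_eq_one] at this
        exact Subtype.ext this)
      (fun g g' h => by
        have h1 : ((g : N ≃ₐ[F] N)⁻¹ * g') • (c • w) = c • w := by
          rw [mul_smul, ← (show (g : N ≃ₐ[F] N) • c • w = (g' : N ≃ₐ[F] N) • c • w from h),
            inv_smul_smul]
        have := hfree _ _ h1
        rw [inv_mul_eq_one] at this
        exact Subtype.ext this)
      (fun g g' h => by
        have h1 : ((g : N ≃ₐ[F] N)⁻¹ * g' * c) • w = w := by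
          rw [mul_smul, mul_smul,
            ← (show (g : N ≃ₐ[F] N) • w = (g' : N ≃ₐ[F] N) • c • w from h), inv_smul_smul]
        have h2 := hfree _ _ h1
        apply hcH
        have h3 : c = ((g : N ≃ₐ[F] N)⁻¹ * g')⁻¹ := eq_inv_of_mul_eq_one_right h2
        rw [h3]
        exact inv_mem (mul_mem (inv_mem g.2) g'.2))
      (Multiplicative.toAdd a) ha
    exact congrArg Multiplicative.ofAdd this
  -- the operator
  let hm₀ : Nˣ →* Nˣ := MulDistribMulAction.toMonoidHom Nˣ h₀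
  let T : Nˣ →* Nˣ := hm₀ * (powMonoidHom c₀)⁻¹
  have hT : ∀ x, T x = h₀ • x * (x ^ c₀)⁻¹ := fun x => rfl
  let h₀' : Subgroup.zpowers h₀ := ⟨h₀, Subgroup.mem_zpowers h₀⟩
  let χ : Subgroup.zpowers h₀ → ZMod (l ^ n) := fun g =>
    ((hζ.autToPow F (g : N ≃ₐ[F] N) : (ZMod (l ^ n))ˣ) : ZMod (l ^ n))
  have hχ0 : ((hζ.autToPow F h₀ : (ZMod (l ^ n))ˣ) : ZMod (l ^ n)) = (c₀ : ZMod (l ^ n)) := by
    have h1 := hζ.autToPow_spec F h₀
    have h2 : ζ ^ c₀ = ζ ^ (c₀ % l ^ n) := by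
      conv_rhs => rw [hζ.eq_orderOf]
      exact (pow_mod_orderOf ζ c₀).symm
    rw [hh, h2] at h1
    have h3 := hζ.pow_inj (ZMod.val_lt _) (Nat.mod_lt _ hq) h1
    rw [← ZMod.natCast_zmod_val ((hζ.autToPow F h₀ : (ZMod (l ^ n))ˣ) : ZMod (l ^ n)), h3]
    simp
  obtain ⟨hA1, hA2⟩ := dvd_index η hinj T h₀' χ
    (fun g => by
      change (((hζ.autToPow F (h₀ * (g : N ≃ₐ[F] N)) : (ZMod (l ^ n))ˣ)) : ZMod (l ^ n)) = _
      rw [map_mul, Units.val_mul, hχ0])
    (by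
      change (((hζ.autToPow F (1 : N ≃ₐ[F] N) : (ZMod (l ^ n))ˣ)) : ZMod (l ^ n)) = _
      rw [map_one, Units.val_one])
    (fun g => by rw [hT, ← hηg h₀' g])
  set A : Subgroup Nˣ := (Θ η).range with hA
  have hAu : A ≤ (iu N).range := by
    rintro _ ⟨a, rfl⟩
    exact prod_mem fun g _ => zpow_mem (hηu g) _
  have hAc : ∀ x ∈ A, c • x = x⁻¹ := by
    rintro _ ⟨a, rfl⟩
    change c • (∏ g, η g ^ (Multiplicative.toAdd a g)) = (∏ g, η g ^ (Multiplicative.toAdd a g))⁻¹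
    rw [Finset.smul_prod', ← Finset.prod_inv_distrib]
    refine Finset.prod_congr rfl fun g _ => ?_
    rw [smul_zpow', hηc, inv_zpow]
  -- the saturation
  let P : Subgroup Nˣ :=
    { carrier := {x | x ∈ (iu N).range ∧ c • x = x⁻¹ ∧ ∃ k : ℕ, 0 < k ∧ x ^ k ∈ A}
      one_mem' := ⟨one_mem _, by simp, 1, one_pos, by simp⟩
      mul_mem' := by
        rintro x y ⟨h1, h2, k, hk, h3⟩ ⟨h1', h2', k', hk', h3'⟩
        refine ⟨mul_mem h1 h1', ?_, k * k', Nat.mul_pos hk hk', ?_⟩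
        · rw [smul_mul', h2, h2', mul_inv]
        · rw [mul_pow, pow_mul, mul_comm k k', pow_mul y]
          exact mul_mem (pow_mem h3 _) (pow_mem h3' _)
      inv_mem' := by
        rintro x ⟨h1, h2, k, hk, h3⟩
        refine ⟨inv_mem h1, ?_, k, hk, ?_⟩
        · rw [smul_inv', h2]
        · rw [inv_pow]; exact inv_mem h3 }
  have hPFG : P.FG := fg_of_le fg_range (fun x hx => hx.1)
  have hAP : A ≤ P := fun x hx => ⟨hAu hx, hAc x hx, 1, one_pos, by simpa using hx⟩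
  have hh₀A : ∀ x ∈ A, h₀ • x ∈ A := by
    intro x hx
    have h1 : T x ∈ A := hA1 ⟨x, hx, rfl⟩
    have h2 : h₀ • x = T x * x ^ c₀ := by rw [hT, inv_mul_cancel_right]
    rw [h2]
    exact mul_mem h1 (pow_mem hx _)
  have hh₀P : ∀ x ∈ P, h₀ • x ∈ P := by
    rintro x ⟨⟨u, hu⟩, h2, k, hk, h3⟩
    refine ⟨⟨_, (hu ▸ (smul_iu h₀ u).symm)⟩, ?_, k, hk, ?_⟩
    · rw [smul_smul, ← hcomm, ← smul_smul, h2, smul_inv']
    · rw [← smul_pow']
      exact hh₀A _ h3
  have hTP : P.map T ≤ P := by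
    rintro _ ⟨x, hx, rfl⟩
    rw [hT]
    exact mul_mem (hh₀P x hx) (inv_mem (pow_mem hx _))
  have hfin : A.relIndex P ≠ 0 := relIndex_ne_zero_of_pow hPFG (fun x hx => hx.2.2)
  have hdvd : l ^ n ∣ (P.map T).relIndex P := dvd_of_sub hAP hTP hA1 hfin hA2
  have hkill : ∀ x ∈ P, x ^ (l ^ n * m) ∈ P.map T := by
    intro x hx
    obtain ⟨y, hy, h1⟩ := exists_T (P := P) (h := hm₀) (T := T) (c := c₀)
      (by rintro _ ⟨x, hx, rfl⟩; exact hh₀P x hx) hT o x hx
    have h2 : (hm₀^[o]) x = x := by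
      have : ∀ k, (hm₀^[k]) x = (h₀ ^ k) • x := by
        intro k
        induction k with
        | zero => simp
        | succ k ih =>
          rw [Function.iterate_succ_apply', ih, pow_succ', mul_smul]
          rfl
      rw [this, ho, one_smul]
    rw [h2, hm, pow_add, pow_one, mul_inv, mul_inv_cancel_left] at h1
    exact ⟨y⁻¹, inv_mem hy, by rw [map_inv, h1, inv_inv]⟩
  obtain ⟨hc1, hc2'⟩ := count hPFG hTP hl hlm hkill hdvd
  set V : Subgroup Nˣ := P.map (powMonoidHom (l ^ n)) with hV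
  -- `l^n`-th powers of `Nˣ` in `P` are `l^n`-th powers of elements of `P`
  have hsat : (powMonoidHom (l ^ n) : Nˣ →* Nˣ).range ⊓ P ≤ V := by
    rintro _ ⟨⟨y, rfl⟩, ⟨u, hu⟩, h2, k, hk, h3⟩
    rw [powMonoidHom_apply] at hu h2 h3
    -- the root of unity
    set ξ : Nˣ := c • y * y with hξ
    have hξq : ξ ^ (l ^ n) = 1 := by
      rw [hξ, mul_pow, ← smul_pow', h2, inv_mul_cancel]
    have hcξ : c • ξ = ξ := by
      have h4 : (ξ : N) ^ (l ^ n) = 1 := by
        rw [← Units.val_pow_eq_pow_val, hξq, Units.val_one]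
      obtain ⟨i, -, hi⟩ := hζ.eq_pow_of_pow_eq_one h4
      ext
      have h5 : ((c • ξ : Nˣ) : N) = c (ξ : N) := rfl
      rw [h5, ← hi, map_pow, hcζ]
    obtain ⟨j, hj⟩ : ∃ j : ℕ, 2 * j = l ^ n + 1 := by
      have h6 : Odd (l ^ n) := (hl.odd_of_ne_two hodd).pow
      obtain ⟨i, hi⟩ := h6
      exact ⟨i + 1, by omega⟩
    have hξj : (ξ ^ j) ^ 2 = ξ := by
      rw [← pow_mul, mul_comm, hj, pow_succ, hξq, one_mul]
    refine ⟨y * (ξ ^ j)⁻¹, ⟨?_, ?_, k * l ^ n, Nat.mul_pos hk hq, ?_⟩, ?_⟩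
    · -- integrality
      have h7 : (y * (ξ ^ j)⁻¹) ^ (l ^ n) = iu N u := by
        rw [mul_pow, inv_pow, ← pow_mul, mul_comm j, pow_mul, hξq, one_pow, inv_one, mul_one, hu]
      set z : Nˣ := y * (ξ ^ j)⁻¹ with hz
      have hint : ∀ (t : Nˣ) (v : (𝓞 N)ˣ), t ^ (l ^ n) = iu N v → IsIntegral ℤ (t : N) := by
        intro t v htv
        refine IsIntegral.of_pow hq ?_
        rw [← Units.val_pow_eq_pow_val, htv, coe_iu]
        exact (v : 𝓞 N).2
      have hz1 := hint z u h7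
      have hz2 := hint z⁻¹ u⁻¹ (by rw [inv_pow, h7, map_inv])
      refine ⟨⟨⟨(z : N), hz1⟩, ⟨((z⁻¹ : Nˣ) : N), hz2⟩, ?_, ?_⟩, ?_⟩
      · apply RingOfIntegers.ext
        change (z : N) * ((z⁻¹ : Nˣ) : N) = 1
        exact Units.mul_inv z
      · apply RingOfIntegers.ext
        change ((z⁻¹ : Nˣ) : N) * (z : N) = 1
        exact Units.inv_mul z
      · ext
        rfl
    · -- minus
      rw [smul_mul', smul_inv', smul_pow', hcξ, mul_inv, inv_inv]
      have h8 : c • y = ξ * y⁻¹ := by rw [hξ, mul_inv_cancel_right]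
      rw [h8]
      have h9 : ξ = ξ ^ j * ξ ^ j := by rw [← sq]; exact hξj.symm
      calc ξ * y⁻¹ * (ξ ^ j)⁻¹ = (ξ ^ j * ξ ^ j) * y⁻¹ * (ξ ^ j)⁻¹ := by rw [← h9]
        _ = y⁻¹ * ξ ^ j := by
          rw [mul_assoc, mul_comm y⁻¹, ← mul_assoc, mul_inv_cancel_right, mul_comm]
    · -- saturated
      rw [mul_comm k, pow_mul]
      have h7 : (y * (ξ ^ j)⁻¹) ^ (l ^ n) = y ^ (l ^ n) := by
        rw [mul_pow, inv_pow, ← pow_mul, mul_comm j, pow_mul, hξq, one_pow, inv_one, mul_one]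
      rw [h7]
      exact h3
    · rw [powMonoidHom_apply, powMonoidHom_apply]
      rw [mul_pow, inv_pow, ← pow_mul, mul_comm j, pow_mul, hξq, one_pow, inv_one, mul_one]
  -- the index
  have hidx : ((powMonoidHom (l ^ n) : Nˣ →* Nˣ).range).relIndex (P ⊓ V.comap T)
      = V.relIndex (P ⊓ V.comap T) := by
    have e : (powMonoidHom (l ^ n) : Nˣ →* Nˣ).range ⊓ (P ⊓ V.comap T)
        = V ⊓ (P ⊓ V.comap T) := by
      apply le_antisymm
      · rintro x ⟨h1, h2⟩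
        exact ⟨hsat ⟨h1, h2.1⟩, h2⟩
      · rintro x ⟨h1, h2⟩
        refine ⟨?_, h2⟩
        obtain ⟨y, -, rfl⟩ := h1
        exact ⟨y, rfl⟩
    rw [← Subgroup.inf_relIndex_right, e, Subgroup.inf_relIndex_right]
  refine ⟨P ⊓ V.comap T, fun x hx => hx.1.1, fun x hx => hx.1.2.1, ?_, ?_, ?_⟩
  · rintro x ⟨-, ⟨y, -, hy⟩⟩
    refine ⟨y, ?_⟩
    rw [powMonoidHom_apply, hT] at hy
    rw [hy, mul_comm, inv_mul_cancel_right]
  · rw [hidx]; exact hc1
  · rw [hidx]; exact hc2'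

end Crest.Agent.R018.MinusVx476
end

-- ▼ part R018/MinusC_975
section

/-!
# Row 18, CORE paragraph 9 (minus `ℤ_l`-extensions): the Kummer part (helper975)

`U ≤ Gal(E/F)` of index two, characters `χ : U → Eˣ` with values in the roots of unity of order
`l ^ k` (trivial action on the values), unramified outside `l` (`Nice`), anti-invariant under the
automorphisms outside `U` (`Minus`).
-/

set_option autoImplicit false

open NumberField

namespace Crest.Agent.R018.MinusCx975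

open Crest.Agent.R018.Placesx484 Crest.Agent.R018.Tamex31

variable {F E : Type*} [Field F] [Field E] [Algebra F E]

/-- anti-invariant characters -/
def Minus {U : Subgroup (E ≃ₐ[F] E)} (χ : U →* Eˣ) : Prop :=
  ∀ c : E ≃ₐ[F] E, c ∉ U → ∀ g g' : U, (g' : E ≃ₐ[F] E) = c * g * c⁻¹ → χ g' = (χ g)⁻¹

section NiceDef

variable [CharZero E] [Algebra.IsAlgebraic ℚ E]

/-- unramified outside `l` -/
def Nice (l : ℕ) {U : Subgroup (E ≃ₐ[F] E)} (χ : U →* Eˣ) : Prop :=
  ∀ P : Place E, P.rchar ≠ l → ∀ s : U, (s : E ≃ₐ[F] E) ∈ inS F P.val → χ s = 1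

/-- the characters of level `l ^ k` we are interested in -/
structure Good (l k : ℕ) {U : Subgroup (E ≃ₐ[F] E)} (χ : U →* Eˣ) : Prop where
  pow : χ ^ (l ^ k) = 1
  ker : OpenKer χ
  nice : Nice l χ
  minus : Minus χ

end NiceDef

/-- Kummer data for `u = z ^ q` over the field `K` -/
structure KData (U : Subgroup (E ≃ₐ[F] E)) (K : IntermediateField F E) (c : E ≃ₐ[F] E) (q : ℕ)
    (ζ : E) (z : E) : Prop where
  /-- `z ≠ 0` -/
  z0 : z ≠ 0
  /-- `z ^ q ∈ K` -/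
  zq : z ^ q ∈ K
  /-- the class of `u` is anti-invariant -/
  cz : c (z ^ q) = (z ^ q)⁻¹
  /-- `U` acts on the class of `u` through the cyclotomic character -/
  gz : ∀ g ∈ U, ∃ a : ℕ, g ζ = ζ ^ a ∧ ∃ v ∈ K, v ≠ 0 ∧ g (z ^ q) = (z ^ q) ^ a * v ^ q

/-- the geometric set-up -/
structure Setup (U : Subgroup (E ≃ₐ[F] E)) (K : IntermediateField F E) (c : E ≃ₐ[F] E) (q : ℕ)
    (ζ : E) : Prop where
  prim : IsPrimitiveRoot ζ q
  odd : Odd q
  ζK : ζ ∈ K
  cU : c ∉ U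
  two : ∀ a b : E ≃ₐ[F] E, a ∉ U → b ∉ U → a * b ∈ U
  cζ : c ζ = ζ
  comm : ∀ g ∈ U, ∀ x ∈ K, (g * c * g⁻¹ * c⁻¹) x = x
  fixU : ∀ g : E ≃ₐ[F] E, (∀ x ∈ K, g x = x) → g ∈ U
  fixK : ∀ g ∈ U, g ζ = ζ → ∀ x ∈ K, g x = x

section Kummer

variable {U : Subgroup (E ≃ₐ[F] E)} {K : IntermediateField F E} {c : E ≃ₐ[F] E} {q : ℕ} {ζ : E}
  (S : Setup U K c q ζ) {z : E} (D : KData U K c q ζ z)

include S in
theorem q0 : 0 < q := S.odd.pos

include S in
theorem root_mem {x : E} (hx : x ^ q = 1) : ∃ j : ℕ, x = ζ ^ j := by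
  have : NeZero q := ⟨(q0 S).ne'⟩
  obtain ⟨j, -, hj⟩ := S.prim.eq_pow_of_pow_eq_one hx
  exact ⟨j, hj.symm⟩

include S in
theorem root_memK {x : E} (hx : x ^ q = 1) : x ∈ K := by
  obtain ⟨j, rfl⟩ := root_mem S hx
  exact pow_mem S.ζK j

/-- the Kummer symbol -/
theorem kap_pow (σ : E ≃ₐ[F] E) (hσ : ∀ x ∈ K, σ x = x) (hz0 : z ≠ 0) (hzq : z ^ q ∈ K) :
    (σ z / z) ^ q = 1 := by
  rw [div_pow, ← map_pow, hσ _ hzq, div_self (pow_ne_zero _ hz0)]

include S D in
/-- invariance of the Kummer symbol under `U` -/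
theorem kap_conj (g : E ≃ₐ[F] E) (hg : g ∈ U) (σ : E ≃ₐ[F] E) (hσ : ∀ x ∈ K, σ x = x) :
    (g * σ * g⁻¹) z / z = σ z / z := by
  obtain ⟨a, ha, v, hv, hv0, hgz⟩ := D.gz g⁻¹ (inv_mem hg)
  have hz0 := D.z0
  have hκ : (σ z / z) ^ q = 1 := kap_pow σ hσ hz0 D.zq
  obtain ⟨j, hj⟩ := root_mem S hκ
  have hσz : σ z = ζ ^ j * z := by rw [← hj, div_mul_cancel₀ _ hz0]
  -- `g⁻¹ z = ξ z ^ a v`
  have h1 : (g⁻¹ z / (z ^ a * v)) ^ q = 1 := by
    rw [div_pow, ← map_pow, hgz, mul_pow, ← pow_mul, ← pow_mul, mul_comm a q]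
    exact div_self (mul_ne_zero (pow_ne_zero _ hz0) (pow_ne_zero _ hv0))
  have hξK := root_memK S h1
  set ξ := g⁻¹ z / (z ^ a * v) with hξ
  have h2 : g⁻¹ z = ξ * (z ^ a * v) := by
    rw [hξ, div_mul_cancel₀]
    exact mul_ne_zero (pow_ne_zero _ hz0) hv0
  have h3 : σ (g⁻¹ z) = (ζ ^ j) ^ a * g⁻¹ z := by
    rw [h2, map_mul, map_mul, hσ ξ hξK, hσ v hv, map_pow, hσz, mul_pow]
    ring
  have h4 : g⁻¹ (ζ ^ j) = (ζ ^ j) ^ a := by
    rw [map_pow, ha, ← pow_mul, ← pow_mul, mul_comm]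
  have h5 : (g * σ * g⁻¹) z = ζ ^ j * z := by
    rw [AlgEquiv.mul_apply, AlgEquiv.mul_apply, h3, map_mul, ← h4, ← AlgEquiv.mul_apply,
      ← AlgEquiv.mul_apply, mul_inv_cancel, AlgEquiv.one_apply, AlgEquiv.one_apply]
  rw [h5, hσz]

include D in
theorem cinv_z : ∃ ξ : E, ξ ^ q = 1 ∧ c⁻¹ z = ξ * z⁻¹ := by
  have hz0 := D.z0
  refine ⟨c⁻¹ z * z, ?_, ?_⟩
  · rw [mul_pow, ← map_pow]
    have h1 : c⁻¹ (z ^ q) = (z ^ q)⁻¹ := by
      have h2 := D.cz
      have h3 : z ^ q = c⁻¹ ((z ^ q)⁻¹) := by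
        rw [← h2, ← AlgEquiv.mul_apply, inv_mul_cancel, AlgEquiv.one_apply]
      rw [map_inv₀] at h3
      rw [← inv_inv (c⁻¹ (z ^ q)), ← h3]
    rw [h1, inv_mul_cancel₀ (pow_ne_zero _ hz0)]
  · rw [mul_assoc, mul_inv_cancel₀ hz0, mul_one]

include S D in
/-- anti-invariance of the Kummer symbol under `c` -/
theorem kap_conj_c (σ : E ≃ₐ[F] E) (hσ : ∀ x ∈ K, σ x = x) :
    (c * σ * c⁻¹) z / z = (σ z / z)⁻¹ := by
  have hz0 := D.z0
  obtain ⟨ξ, hξ, hcz⟩ := cinv_z D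
  have hκ : (σ z / z) ^ q = 1 := kap_pow σ hσ hz0 D.zq
  obtain ⟨j, hj⟩ := root_mem S hκ
  have hσz : σ z = ζ ^ j * z := by rw [← hj, div_mul_cancel₀ _ hz0]
  have h3 : σ (c⁻¹ z) = (ζ ^ j)⁻¹ * c⁻¹ z := by
    rw [hcz, map_mul, hσ ξ (root_memK S hξ), map_inv₀, hσz, mul_inv]
    ring
  have h5 : (c * σ * c⁻¹) z = (ζ ^ j)⁻¹ * z := by
    rw [AlgEquiv.mul_apply, AlgEquiv.mul_apply, h3, map_mul, map_inv₀, map_pow, S.cζ,
      ← AlgEquiv.mul_apply, mul_inv_cancel, AlgEquiv.one_apply]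
  rw [h5, hj, mul_div_cancel_right₀ _ hz0]

include S in
theorem comm_fix (g : E ≃ₐ[F] E) (hg : g ∈ U) : ∀ x ∈ K, (g * c * g⁻¹ * c⁻¹) x = x := S.comm g hg

/-- the character `g ↦ κ([g, c])` -/
noncomputable def phi : U →* Eˣ where
  toFun g := Units.mk0 (((g : E ≃ₐ[F] E) * c * (g : E ≃ₐ[F] E)⁻¹ * c⁻¹) z / z)
    (div_ne_zero (by simpa using D.z0) D.z0)
  map_one' := by
    ext
    simp [D.z0]
  map_mul' := by
    intro g g'
    ext
    simp only [Units.val_mk0, Units.val_mul]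
    have hz0 := D.z0
    set ρ : E ≃ₐ[F] E := (g : E ≃ₐ[F] E) * c * (g : E ≃ₐ[F] E)⁻¹ * c⁻¹ with hρ
    set σ : E ≃ₐ[F] E := (g' : E ≃ₐ[F] E) * c * (g' : E ≃ₐ[F] E)⁻¹ * c⁻¹ with hσ
    have e1 : (((g * g' : U)) : E ≃ₐ[F] E) * c * (((g * g' : U)) : E ≃ₐ[F] E)⁻¹ * c⁻¹ =
        ((g : E ≃ₐ[F] E) * σ * (g : E ≃ₐ[F] E)⁻¹) * ρ := by
      rw [hρ, hσ]; simp only [Subgroup.coe_mul]; group
    have fρ := comm_fix S (g : E ≃ₐ[F] E) g.2
    have fσ := comm_fix S (g' : E ≃ₐ[F] E) g'.2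
    have fgg := comm_fix S ((g * g' : U) : E ≃ₐ[F] E) (g * g').2
    rw [e1] at fgg
    have hρz : ρ z = (ρ z / z) * z := by rw [div_mul_cancel₀ _ hz0]
    have hρroot : (ρ z / z) ^ q = 1 := kap_pow ρ fρ hz0 D.zq
    have hρK := root_memK S hρroot
    have fg : ((g : E ≃ₐ[F] E) * σ * (g : E ≃ₐ[F] E)⁻¹) (ρ z / z) = ρ z / z := by
      have := fgg _ hρK
      rw [AlgEquiv.mul_apply, fρ _ hρK] at this
      exact this
    have h1 := kap_conj S D (g : E ≃ₐ[F] E) g.2 σ fσ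
    rw [e1, AlgEquiv.mul_apply]
    conv_lhs => rw [hρz, map_mul, fg, mul_div_assoc, h1]

theorem phi_apply (g : U) : ((phi S D g : Eˣ) : E) =
    ((g : E ≃ₐ[F] E) * c * (g : E ≃ₐ[F] E)⁻¹ * c⁻¹) z / z := rfl

theorem phi_pow : phi S D ^ q = 1 := by
  ext g
  simp only [MonoidHom.pow_apply, Units.val_pow_eq_pow_val, MonoidHom.one_apply, Units.val_one]
  rw [phi_apply]
  exact kap_pow _ (comm_fix S _ g.2) D.z0 D.zq

theorem phi_minus : Minus (phi S D) := by
  have hc : ∀ g g' : U, (g' : E ≃ₐ[F] E) = c * g * c⁻¹ → phi S D g' = (phi S D g)⁻¹ := by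
    intro g g' h
    ext
    rw [phi_apply, h]
    have e1 : c * (g : E ≃ₐ[F] E) * c⁻¹ * c * (c * (g : E ≃ₐ[F] E) * c⁻¹)⁻¹ * c⁻¹ =
        c * ((g : E ≃ₐ[F] E) * c * (g : E ≃ₐ[F] E)⁻¹ * c⁻¹) * c⁻¹ := by group
    rw [e1, kap_conj_c S D _ (comm_fix S _ g.2), Units.val_inv_eq_inv_val, phi_apply]
  intro c' hc' g g' h
  -- `c' = c h`
  have hinv : c⁻¹ ∉ U := fun h => S.cU (by simpa using inv_mem h)
  have hh : c⁻¹ * c' ∈ U := S.two _ _ hinv hc'
  let k : U := ⟨c⁻¹ * c', hh⟩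
  have h1 := hc (k * g * k⁻¹) g' (by
    rw [h]
    simp only [Subgroup.coe_mul, Subgroup.coe_inv, k]
    group)
  rw [h1, map_mul, map_mul, map_inv, mul_comm (phi S D k), mul_assoc, mul_inv_cancel, mul_one]

theorem phi_openKer [Algebra.IsIntegral F E] : OpenKer (phi S D) := by
  refine ⟨IntermediateField.adjoin F {z, c⁻¹ z}, ?_, ?_⟩
  · apply IntermediateField.finiteDimensional_adjoin
    intro x _
    exact Algebra.IsIntegral.isIntegral x
  · intro u hu
    have h1 : (u : E ≃ₐ[F] E) z = z := hu z (IntermediateField.subset_adjoin F _ (by simp))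
    have h2 : (u : E ≃ₐ[F] E) (c⁻¹ z) = c⁻¹ z :=
      hu _ (IntermediateField.subset_adjoin F _ (by simp))
    have h3 : (u : E ≃ₐ[F] E)⁻¹ (c⁻¹ z) = c⁻¹ z := by
      conv_lhs => rw [← h2]
      rw [← AlgEquiv.mul_apply, inv_mul_cancel, AlgEquiv.one_apply]
    ext
    rw [phi_apply, AlgEquiv.mul_apply, AlgEquiv.mul_apply, AlgEquiv.mul_apply, h3,
      ← AlgEquiv.mul_apply c, mul_inv_cancel, AlgEquiv.one_apply, h1, div_self D.z0]
    rfl

/-- on the elements fixing `K` the character is the square of the Kummer symbol -/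
theorem phi_fix (σ : U) (hσ : ∀ x ∈ K, (σ : E ≃ₐ[F] E) x = x) :
    ((phi S D σ : Eˣ) : E) = ((σ : E ≃ₐ[F] E) z / z) ^ 2 := by
  have hz0 := D.z0
  obtain ⟨ξ, hξ, hcz⟩ := cinv_z D
  have hκ : ((σ : E ≃ₐ[F] E) z / z) ^ q = 1 := kap_pow _ hσ hz0 D.zq
  obtain ⟨j, hj⟩ := root_mem S hκ
  have hσz : (σ : E ≃ₐ[F] E) z = ζ ^ j * z := by rw [← hj, div_mul_cancel₀ _ hz0]
  have hσinv : ∀ x ∈ K, (σ : E ≃ₐ[F] E)⁻¹ x = x := by
    intro x hx
    conv_lhs => rw [← hσ x hx]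
    rw [← AlgEquiv.mul_apply, inv_mul_cancel, AlgEquiv.one_apply]
  have hζ0 : ζ ^ j ≠ 0 := pow_ne_zero _ (S.prim.ne_zero (q0 S).ne')
  have hσz' : (σ : E ≃ₐ[F] E)⁻¹ z = (ζ ^ j)⁻¹ * z := by
    have h1 : (σ : E ≃ₐ[F] E)⁻¹ ((σ : E ≃ₐ[F] E) z) = z := by
      rw [← AlgEquiv.mul_apply, inv_mul_cancel, AlgEquiv.one_apply]
    rw [hσz, map_mul, hσinv _ (pow_mem S.ζK j)] at h1
    rw [← h1, inv_mul_cancel_left₀ hζ0, h1]
  have h2 : (σ : E ≃ₐ[F] E)⁻¹ (c⁻¹ z) = ζ ^ j * c⁻¹ z := by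
    rw [hcz, map_mul, hσinv ξ (root_memK S hξ), map_inv₀, hσz', mul_inv, inv_inv]
    ring
  rw [phi_apply, AlgEquiv.mul_apply, AlgEquiv.mul_apply, AlgEquiv.mul_apply, h2, map_mul, map_pow,
    S.cζ, ← AlgEquiv.mul_apply c, mul_inv_cancel, AlgEquiv.one_apply, map_mul,
    hσ _ (pow_mem S.ζK j), hσz]
  field_simp

end Kummer

section Nice

variable [CharZero E] [Algebra.IsAlgebraic ℚ E] {U : Subgroup (E ≃ₐ[F] E)}
  {K : IntermediateField F E} {c : E ≃ₐ[F] E} {l n : ℕ} {ζ : E}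
  (S : Setup U K c (l ^ n) ζ) {z : E} (D : KData U K c (l ^ n) ζ z)

theorem phi_nice (hl : l.Prime)
    (hunit : ∀ P : Place E, P.val.valuation (z ^ (l ^ n)) = 1) : Nice l (phi S D) := by
  intro P hP s hs
  have hz0 := D.z0
  have hl1 : P.val.valuation (l : E) = 1 := val_prime_eq_one P hl hP
  have hq1 : P.val.valuation ((l ^ n : ℕ) : E) = 1 := by
    rw [Nat.cast_pow, map_pow, hl1, one_pow]
  have hq0 : l ^ n ≠ 0 := (q0 S).ne'
  have hsζ : (s : E ≃ₐ[F] E) ζ = ζ := in_fix_root hs hq1 S.prim.pow_eq_one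
  have hfix := S.fixK _ s.2 hsζ
  have hvz : P.val.valuation z = 1 := val_pow_eq_one hq0 (hunit P)
  have h1 : ((s : E ≃ₐ[F] E) z / z) = 1 :=
    root_eq_one hq1 (kap_pow _ hfix hz0 D.zq) (in_unit hs hvz)
  ext
  rw [phi_fix S D s hfix, h1, one_pow]
  rfl

end Nice

/-- injectivity -/
theorem phi_inj [IsGalois F E] {U : Subgroup (E ≃ₐ[F] E)} {K : IntermediateField F E}
    {c : E ≃ₐ[F] E} {q : ℕ} {ζ : E}
    (S : Setup U K c q ζ) {z z' : E} (D : KData U K c q ζ z) (D' : KData U K c q ζ z')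
    (h : phi S D = phi S D') : ∃ w ∈ K, w ≠ 0 ∧ z ^ q = z' ^ q * w ^ q := by
  refine ⟨z / z', ?_, div_ne_zero D.z0 D'.z0, ?_⟩
  · rw [← InfiniteGalois.fixedField_fixingSubgroup K]
    rintro ⟨σ, hσ⟩
    have hσ' : ∀ x ∈ K, σ x = x := fun x hx => hσ ⟨x, hx⟩
    have hσU : σ ∈ U := S.fixU σ hσ'
    have h1 := congrArg (fun χ : U →* Eˣ => ((χ ⟨σ, hσU⟩ : Eˣ) : E)) h
    have h1 : ((phi S D ⟨σ, hσU⟩ : Eˣ) : E) = ((phi S D' ⟨σ, hσU⟩ : Eˣ) : E) := h1
    rw [phi_fix S D ⟨σ, hσU⟩ hσ', phi_fix S D' ⟨σ, hσU⟩ hσ'] at h1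
    have h2 := kap_pow σ hσ' D.z0 D.zq
    have h3 := kap_pow σ hσ' D'.z0 D'.zq
    set a := σ z / z with ha
    set b := σ z' / z' with hb
    have hb0 : b ≠ 0 := by
      intro hb0; rw [hb0, zero_pow (q0 S).ne'] at h3; exact zero_ne_one h3
    -- `(a / b) ^ 2 = 1 = (a / b) ^ q`
    have h4 : (a / b) ^ 2 = 1 := by
      rw [div_pow, h1, div_self (pow_ne_zero _ hb0)]
    have h5 : (a / b) ^ q = 1 := by rw [div_pow, h2, h3, div_one]
    have h6 : a / b = 1 := by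
      obtain ⟨k, hk⟩ := S.odd
      rw [hk, pow_succ, pow_mul, h4, one_pow, one_mul] at h5
      exact h5
    have h7 : a = b := by rw [div_eq_one_iff_eq hb0] at h6; exact h6
    change σ (z / z') = z / z'
    rw [map_div₀]
    have e1 : σ z = a * z := by rw [ha, div_mul_cancel₀ _ D.z0]
    have e2 : σ z' = b * z' := by rw [hb, div_mul_cancel₀ _ D'.z0]
    rw [e1, e2, h7, mul_div_mul_left _ _ hb0]
  · rw [div_pow, mul_div_cancel₀ _ (pow_ne_zero _ D'.z0)]

end Crest.Agent.R018.MinusCx975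
end

-- ▼ part R018/MinusD_975
section

/-!
# Row 18, CORE paragraph 9 (minus `ℤ_l`-extensions): many characters (helper975)
-/

set_option autoImplicit false

open NumberField

namespace Crest.Agent.R018.MinusDx975

open Crest.Agent.R018.Placesx484 Crest.Agent.R018.Tamex31 Crest.Agent.R018.MinusCx975
open Crest.Agent.R018.MinkUx824

/-- primitive roots -/
theorem exists_c0 (l n : ℕ) (hl : l.Prime) (h2 : l ≠ 2) (hn : 1 ≤ n) :
    ∃ c₀ m : ℕ, Nat.Coprime c₀ l ∧ c₀ ^ Nat.totient (l ^ n) = 1 + l ^ n * m ∧ ¬ l ∣ m ∧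
      ∀ a : ℕ, Nat.Coprime a l → ∃ i : ℕ, a ≡ c₀ ^ i [MOD l ^ n] := by
  have : Fact l.Prime := ⟨hl⟩
  have hNe : NeZero (l ^ (n + 1)) := ⟨pow_ne_zero _ hl.ne_zero⟩
  have hcyc := ZMod.isCyclic_units_of_prime_pow l hl h2 (n + 1)
  obtain ⟨g, hg⟩ := hcyc.exists_generator
  have hgval : ((g : ZMod (l ^ (n + 1))).val : ZMod (l ^ (n + 1))) = g := by
    rw [ZMod.natCast_val, ZMod.cast_id', id_eq]
  set c₀ := (g : ZMod (l ^ (n + 1))).val with hc₀
  have hcop' : Nat.Coprime c₀ (l ^ (n + 1)) := ZMod.val_coe_unit_coprime g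
  have hcop : Nat.Coprime c₀ l := Nat.Coprime.coprime_dvd_right (dvd_pow_self l (by omega)) hcop'
  have hcopn : Nat.Coprime c₀ (l ^ n) := hcop.pow_right n
  have h1 : c₀ ^ Nat.totient (l ^ n) ≡ 1 [MOD l ^ n] := Nat.ModEq.pow_totient hcopn
  have hc₀pos : 0 < c₀ := by
    rcases Nat.eq_zero_or_pos c₀ with h0 | h0
    · rw [h0, Nat.coprime_zero_left] at hcop
      exact absurd hcop hl.one_lt.ne'
    · exact h0
  have hpos : 1 ≤ c₀ ^ Nat.totient (l ^ n) := Nat.one_le_pow _ _ hc₀pos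
  obtain ⟨m, hm⟩ : l ^ n ∣ c₀ ^ Nat.totient (l ^ n) - 1 := (Nat.modEq_iff_dvd' hpos).1 h1.symm
  have hm' : c₀ ^ Nat.totient (l ^ n) = 1 + l ^ n * m := by omega
  refine ⟨c₀, m, hcop, hm', ?_, ?_⟩
  · rintro ⟨k, rfl⟩
    have h3 : (g : ZMod (l ^ (n + 1))) ^ Nat.totient (l ^ n) = 1 := by
      rw [← hgval, ← Nat.cast_pow, hm', ← mul_assoc, ← pow_succ]
      push_cast
      have : ((l : ZMod (l ^ (n + 1))) ^ (n + 1)) = 0 := by
        rw [← Nat.cast_pow, ZMod.natCast_self]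
      rw [this, zero_mul, add_zero]
    have h4 : g ^ Nat.totient (l ^ n) = 1 := by
      ext; rw [Units.val_pow_eq_pow_val, h3, Units.val_one]
    have h5 := orderOf_dvd_of_pow_eq_one h4
    rw [orderOf_eq_card_of_forall_mem_zpowers hg, Nat.card_eq_fintype_card,
      ZMod.card_units_eq_totient, Nat.totient_prime_pow hl (by omega : 0 < n + 1),
      Nat.totient_prime_pow hl (by omega : 0 < n)] at h5
    have h6 : 0 < l - 1 := by have := hl.one_lt; omega
    have h7 : 0 < l ^ (n - 1) * (l - 1) := Nat.mul_pos (pow_pos hl.pos _) h6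
    have h8 := Nat.le_of_dvd h7 h5
    have h9 : l ^ (n - 1) * (l - 1) < l ^ (n + 1 - 1) * (l - 1) := by
      apply Nat.mul_lt_mul_of_pos_right _ h6
      exact Nat.pow_lt_pow_right hl.one_lt (by omega)
    omega
  · intro a ha
    have ha' : Nat.Coprime a (l ^ (n + 1)) := ha.pow_right _
    obtain ⟨i, hi⟩ := (mem_powers_iff_mem_zpowers).2 (hg (ZMod.unitOfCoprime a ha'))
    refine ⟨i, ?_⟩
    have h3 : ((c₀ ^ i : ℕ) : ZMod (l ^ (n + 1))) = (a : ZMod (l ^ (n + 1))) := by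
      have := congrArg (fun u : (ZMod (l ^ (n + 1)))ˣ => (u : ZMod (l ^ (n + 1)))) hi
      simp only [Units.val_pow_eq_pow_val, ZMod.coe_unitOfCoprime] at this
      rw [Nat.cast_pow, hgval, this]
    have h4 := (ZMod.natCast_eq_natCast_iff _ _ _).1 h3
    exact (h4.symm).of_dvd (pow_dvd_pow l (by omega))

theorem iter {G M : Type*} [Group G] [CommGroup M] [MulDistribMulAction G M] (h : G) (c q : ℕ)
    (x w : M) (hx : h • x = x ^ c * w ^ q) (i : ℕ) : ∃ v : M, h ^ i • x = x ^ (c ^ i) * v ^ q := by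
  induction i with
  | zero => exact ⟨1, by simp⟩
  | succ i ih =>
    obtain ⟨v, hv⟩ := ih
    refine ⟨w ^ (c ^ i) * (h • v), ?_⟩
    rw [pow_succ', mul_smul, hv, smul_mul', smul_pow', smul_pow', hx, mul_pow, mul_pow,
      ← pow_mul, ← pow_mul, ← pow_mul, pow_succ', mul_assoc, mul_comm q]

section Main

variable {F E : Type*} [Field F] [Field E] [Algebra F E]

theorem apply_eq_or_neg {y : E} (hy2 : y ^ 2 ∈ Set.range (algebraMap F E)) (g : E ≃ₐ[F] E) :
    g y = y ∨ g y = - y := by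
  obtain ⟨b, hb⟩ := hy2
  have : (g y) ^ 2 = y ^ 2 := by rw [← map_pow, ← hb, AlgEquiv.commutes]
  exact sq_eq_sq_iff_eq_or_eq_neg.1 this

theorem fix_adjoin {S : Set E} (σ : E ≃ₐ[F] E) (h : ∀ x ∈ S, σ x = x) :
    ∀ x ∈ IntermediateField.adjoin F S, σ x = x := by
  have h1 : S ⊆ IntermediateField.fixedField (Subgroup.zpowers σ) := by
    intro x hx
    rw [SetLike.mem_coe, IntermediateField.mem_fixedField_iff]
    intro f hf
    obtain ⟨k, rfl⟩ := hf
    have : σ ∈ MulAction.stabilizer (E ≃ₐ[F] E) x := h x hx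
    exact zpow_mem this k
  have h2 := IntermediateField.adjoin_le_iff.2 h1
  intro x hx
  have h3 := h2 hx
  rw [IntermediateField.mem_fixedField_iff] at h3
  exact h3 σ (Subgroup.mem_zpowers σ)

theorem mem_stb {y : E} {g : E ≃ₐ[F] E} : g ∈ MulAction.stabilizer (E ≃ₐ[F] E) y ↔ g y = y :=
  MulAction.mem_stabilizer_iff

variable [NumberField F] [IsTotallyComplex F] [CharZero E] [Algebra.IsAlgebraic ℚ E] [IsGalois F E]

theorem many (y : E) (hy2 : y ^ 2 ∈ Set.range (algebraMap F E))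
    (hy : y ∉ Set.range (algebraMap F E)) (l : ℕ) (hl : l.Prime) (h2 : l ≠ 2)
    (hprim : ∀ n : ℕ, ∃ ζ : E, IsPrimitiveRoot ζ (l ^ n))
    (hroot : ∀ (n : ℕ) (x : E), ∃ z : E, z ^ (l ^ n) = x)
    (hcyc : ∀ n a : ℕ, Nat.Coprime a l → ∃ g : E ≃ₐ[F] E, g y = y ∧
      ∀ ζ : E, ζ ^ (l ^ n) = 1 → g ζ = ζ ^ a) (n : ℕ) :
    ∃ T : Finset (MulAction.stabilizer (E ≃ₐ[F] E) y →* Eˣ), l ^ n ≤ T.card ∧
      ∀ χ ∈ T, Good l n χ := by
  classical
  set U := MulAction.stabilizer (E ≃ₐ[F] E) y with hU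
  have hy0 : y ≠ 0 := by
    rintro rfl; exact hy ⟨0, map_zero _⟩
  rcases Nat.eq_zero_or_pos n with rfl | hn
  · refine ⟨{1}, by simp, ?_⟩
    intro χ hχ
    rw [Finset.mem_singleton] at hχ
    subst hχ
    refine ⟨by ext g; simp, ⟨⊥, inferInstance, fun u _ => rfl⟩, fun _ _ _ _ => rfl, ?_⟩
    intro _ _ _ _ _
    rw [MonoidHom.one_apply, MonoidHom.one_apply, inv_one]
  obtain ⟨ζ, hζ⟩ := hprim n
  obtain ⟨c₀, m, hc₀, hc₀m, hlm, hgen⟩ := exists_c0 l n hl h2 hn
  set q := l ^ n with hq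
  have hqpos : 0 < q := pow_pos hl.pos n
  have hNe : NeZero q := ⟨hqpos.ne'⟩
  have hqodd : Odd q := (hl.odd_of_ne_two h2).pow
  have hq1 : 1 < q := Nat.one_lt_pow hn.ne' hl.one_lt
  -- action on the roots of unity
  have hact : ∀ g : E ≃ₐ[F] E, ∃ a : ℕ, Nat.Coprime a l ∧ g ζ = ζ ^ a := by
    intro g
    have h1 : IsPrimitiveRoot (g ζ) q := hζ.map_of_injective g.injective
    obtain ⟨a, -, ha⟩ := hζ.eq_pow_of_pow_eq_one h1.pow_eq_one
    refine ⟨a, ?_, ha.symm⟩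
    rw [← ha] at h1
    have h3 := (hζ.pow_iff_coprime hqpos a).1 h1
    exact Nat.Coprime.coprime_dvd_right (dvd_pow_self l hn.ne') h3
  have hpowmod : ∀ a b : ℕ, a ≡ b [MOD q] → ζ ^ a = ζ ^ b := by
    intro a b hab
    rw [pow_eq_pow_mod a hζ.pow_eq_one, pow_eq_pow_mod b hζ.pow_eq_one, hab]
  -- the element `c`
  obtain ⟨c, hcy, hcζ⟩ : ∃ c : E ≃ₐ[F] E, c y = - y ∧ c ζ = ζ := by
    have h1 : ∃ c : E ≃ₐ[F] E, c y ≠ y := by
      by_contra hcon
      push Not at hcon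
      exact hy ((InfiniteGalois.mem_range_algebraMap_iff_fixed y).2 hcon)
    obtain ⟨c', hc'⟩ := h1
    have hc'y : c' y = - y := (apply_eq_or_neg hy2 c').resolve_left hc'
    obtain ⟨a, ha, haζ⟩ := hact c'
    obtain ⟨b, hb⟩ : ∃ b : ℕ, b * a ≡ 1 [MOD q] ∧ Nat.Coprime b l := by
      have h3 : Nat.Coprime a q := ha.pow_right n
      obtain ⟨b, -, hb⟩ := Nat.exists_mul_mod_eq_one_of_coprime h3 hq1
      refine ⟨b, ?_, ?_⟩
      · rw [Nat.ModEq, mul_comm, hb, Nat.mod_eq_of_lt hq1]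
      · have h4 : Nat.Coprime (a * b) l := by
          have h5 : a * b ≡ 1 [MOD l] := by
            have h6 : a * b ≡ 1 [MOD q] := by rw [Nat.ModEq, hb, Nat.mod_eq_of_lt hq1]
            exact h6.of_dvd (dvd_pow_self l hn.ne')
          rw [Nat.coprime_iff_gcd_eq_one, h5.gcd_eq]
          simp
        exact Nat.Coprime.coprime_mul_left h4
    obtain ⟨g, hgy, hg⟩ := hcyc n b hb.2
    refine ⟨g * c', ?_, ?_⟩
    · rw [AlgEquiv.mul_apply, hc'y, map_neg, hgy]
    · rw [AlgEquiv.mul_apply, haζ, map_pow, hg ζ hζ.pow_eq_one, ← pow_mul]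
      have := hpowmod _ _ hb.1
      rw [pow_one] at this
      exact this
  obtain ⟨g₀, hg₀y, hg₀⟩ := hcyc n c₀ hc₀
  have hg₀ζ : g₀ ζ = ζ ^ c₀ := hg₀ ζ hζ.pow_eq_one
  -- the field `K = F(y, ζ)`
  let K : IntermediateField F E := IntermediateField.adjoin F {y, ζ}
  have hyK : y ∈ K := IntermediateField.subset_adjoin F _ (by simp)
  have hζK : ζ ∈ K := IntermediateField.subset_adjoin F _ (by simp)
  have hfixgen : ∀ σ : E ≃ₐ[F] E, σ y = y → σ ζ = ζ → ∀ x ∈ K, σ x = x := by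
    intro σ h3 h4
    apply fix_adjoin
    rintro x (rfl | rfl)
    · exact h3
    · exact h4
  have : FiniteDimensional F K := by
    apply IntermediateField.finiteDimensional_adjoin
    intro x _
    exact Algebra.IsIntegral.isIntegral x
  have : Normal F K := by
    rw [IntermediateField.normal_iff_forall_map_le']
    intro σ
    rw [IntermediateField.map_le_iff_le_comap, IntermediateField.adjoin_le_iff]
    rintro x (rfl | rfl)
    · change σ x ∈ K
      rcases apply_eq_or_neg hy2 σ with h3 | h3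
      · rw [h3]; exact hyK
      · rw [h3]; exact neg_mem hyK
    · change σ x ∈ K
      obtain ⟨a, -, ha⟩ := hact σ
      rw [ha]; exact pow_mem hζK a
  have : IsGalois F K := { }
  have : NumberField K := NumberField.of_module_finite F K
  -- restriction
  let r : (E ≃ₐ[F] E) →* (K ≃ₐ[F] K) := AlgEquiv.restrictNormalHom K
  have hr : ∀ (σ : E ≃ₐ[F] E) (x : K), ((r σ x : K) : E) = σ x := fun σ x =>
    AlgEquiv.restrictNormal_commutes σ K x
  have hrext : ∀ σ ρ : E ≃ₐ[F] E, σ y = ρ y → σ ζ = ρ ζ → r σ = r ρ := by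
    intro σ ρ h3 h4
    have h5 : ∀ x ∈ K, (ρ⁻¹ * σ) x = x := by
      apply hfixgen
      · rw [AlgEquiv.mul_apply, h3, ← AlgEquiv.mul_apply, inv_mul_cancel, AlgEquiv.one_apply]
      · rw [AlgEquiv.mul_apply, h4, ← AlgEquiv.mul_apply, inv_mul_cancel, AlgEquiv.one_apply]
    ext x
    rw [hr, hr]
    have h6 := h5 x x.2
    have h7 : ρ ((ρ⁻¹ * σ) x) = ρ x := by rw [h6]
    rw [← AlgEquiv.mul_apply, ← mul_assoc, mul_inv_cancel, one_mul] at h7
    exact h7
  have hζ' : IsPrimitiveRoot (⟨ζ, hζK⟩ : K) q := by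
    apply IsPrimitiveRoot.of_map_of_injective (f := algebraMap K E) _ (algebraMap K E).injective
    exact hζ
  have hcomm : r g₀ * r c = r c * r g₀ := by
    rw [← map_mul, ← map_mul]
    apply hrext
    · rw [AlgEquiv.mul_apply, AlgEquiv.mul_apply, hcy, hg₀y, map_neg, hg₀y, hcy]
    · rw [AlgEquiv.mul_apply, AlgEquiv.mul_apply, hcζ, hg₀ζ, map_pow, hcζ]
  have hcc : r c * r c = 1 := by
    rw [← map_mul, ← map_one r]
    apply hrext
    · rw [AlgEquiv.mul_apply, hcy, map_neg, hcy, neg_neg]; rfl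
    · rw [AlgEquiv.mul_apply, hcζ, hcζ]; rfl
  have hrcζ : r c ⟨ζ, hζK⟩ = ⟨ζ, hζK⟩ := by
    apply Subtype.ext; rw [hr]; exact hcζ
  have hyneg : - y ≠ y := by
    intro h3
    have h4 : (2 : E) * y = 0 := by
      have : y + y = 0 := by nth_rewrite 1 [← h3]; exact neg_add_cancel y
      rw [two_mul]; exact this
    rcases mul_eq_zero.1 h4 with h5 | h5
    · exact two_ne_zero h5
    · exact hy0 h5
  have hg₀pow : ∀ i : ℕ, (g₀ ^ i) y = y := by
    intro i
    have h3 : g₀ ∈ MulAction.stabilizer (E ≃ₐ[F] E) y := hg₀y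
    exact pow_mem h3 i
  have hg₀powζ : ∀ i : ℕ, (g₀ ^ i) ζ = ζ ^ (c₀ ^ i) := by
    intro i
    induction i with
    | zero => simp
    | succ i ih => rw [pow_succ', AlgEquiv.mul_apply, ih, map_pow, hg₀ζ, ← pow_mul, ← pow_succ']
  have hcH : r c ∉ Subgroup.zpowers (r g₀) := by
    rintro ⟨k, hk⟩
    have h3 : r g₀ ∈ MulAction.stabilizer (K ≃ₐ[F] K) (⟨y, hyK⟩ : K) := by
      change r g₀ ⟨y, hyK⟩ = ⟨y, hyK⟩
      apply Subtype.ext; rw [hr]; exact hg₀y
    have h4 : r c ∈ MulAction.stabilizer (K ≃ₐ[F] K) (⟨y, hyK⟩ : K) := by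
      rw [← hk]; exact zpow_mem h3 k
    have h5 : r c ⟨y, hyK⟩ = ⟨y, hyK⟩ := h4
    have h6 := congrArg (fun x : K => (x : E)) h5
    simp only [hr] at h6
    rw [hcy] at h6
    exact hyneg h6
  have hrg₀ : r g₀ ⟨ζ, hζK⟩ = ⟨ζ, hζK⟩ ^ c₀ := by
    apply Subtype.ext; rw [hr]; exact hg₀ζ
  have hrg₀o : (r g₀) ^ Nat.totient q = 1 := by
    rw [← map_pow, ← map_one r]
    apply hrext
    · rw [hg₀pow]; rfl
    · rw [hg₀powζ, hc₀m, pow_add, pow_one, pow_mul, hζ.pow_eq_one, one_pow, mul_one]; rfl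
  obtain ⟨X, hXu, hXc, hXh, hXdvd, hXne⟩ := MinusVx476.unit_count (F := F) (N := K) hl h2 hζ'
    (r g₀) (r c) hcomm hcc hrcζ hcH hrg₀ hrg₀o hc₀m hlm
  have hcU : c ∉ U := by
    rw [hU, mem_stb, hcy]; exact hyneg
  have hUneg : ∀ a : E ≃ₐ[F] E, a ∉ U → a y = - y := fun a ha =>
    (apply_eq_or_neg hy2 a).resolve_left ha
  have S : Setup U K c q ζ :=
    { prim := hζ
      odd := hqodd
      ζK := hζK
      cU := hcU
      two := by
        intro a b ha hb
        rw [hU, mem_stb, AlgEquiv.mul_apply, hUneg b hb, map_neg, hUneg a ha, neg_neg]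
      cζ := hcζ
      comm := by
        intro g hg
        have hgy : g y = y := hg
        have hgy' : g⁻¹ y = y := inv_mem hg
        have hc'y : c⁻¹ y = - y := by
          have h3 : c⁻¹ (c y) = y := by
            rw [← AlgEquiv.mul_apply, inv_mul_cancel, AlgEquiv.one_apply]
          rw [hcy, map_neg] at h3
          exact neg_eq_iff_eq_neg.1 h3
        have hc'ζ : c⁻¹ ζ = ζ := by
          conv_lhs => rw [← hcζ]
          rw [← AlgEquiv.mul_apply, inv_mul_cancel, AlgEquiv.one_apply]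
        apply hfixgen
        · rw [AlgEquiv.mul_apply, AlgEquiv.mul_apply, AlgEquiv.mul_apply, hc'y, map_neg, hgy',
            map_neg, hcy, neg_neg, hgy]
        · obtain ⟨a, -, ha⟩ := hact g⁻¹
          rw [AlgEquiv.mul_apply, AlgEquiv.mul_apply, AlgEquiv.mul_apply, hc'ζ, ha, map_pow, hcζ,
            ← ha, ← AlgEquiv.mul_apply, mul_inv_cancel, AlgEquiv.one_apply]
      fixU := by
        intro g hg
        exact hg y hyK
      fixK := by
        intro g hg h3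
        exact hfixgen g hg h3 }
  -- Kummer data for the elements of `X`
  have hz : ∀ x : Kˣ, ∃ z : E, z ^ q = ((x : K) : E) := fun x => hroot n _
  choose z hz using hz
  have hx0 : ∀ x : Kˣ, ((x : K) : E) ≠ 0 := by
    intro x h3
    exact x.ne_zero (by exact_mod_cast h3)
  have D : ∀ x ∈ X, KData U K c q ζ (z x) := by
    intro x hx
    have hz0 : z x ≠ 0 := by
      intro h3
      have := hz x
      rw [h3, zero_pow hqpos.ne'] at this
      exact hx0 x this.symm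
    refine ⟨hz0, by rw [hz]; exact (x : K).2, ?_, ?_⟩
    · rw [hz, ← hr]
      have h3 := congrArg (fun u : Kˣ => ((u : K) : E)) (hXc x hx)
      simpa using h3
    · intro g hg
      obtain ⟨a, ha, haζ⟩ := hact g
      obtain ⟨i, hi⟩ := hgen a ha
      have h3 : r g = r g₀ ^ i := by
        rw [← map_pow]
        apply hrext
        · rw [hg₀pow]; exact hg
        · rw [hg₀powζ, haζ]; exact hpowmod _ _ hi
      refine ⟨c₀ ^ i, by rw [haζ]; exact hpowmod _ _ hi, ?_⟩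
      obtain ⟨w, hw⟩ := hXh x hx
      obtain ⟨v, hv⟩ := iter (r g₀) c₀ q x w hw i
      refine ⟨((v : K) : E), (v : K).2, hx0 v, ?_⟩
      rw [hz, ← hr, h3]
      have h5 := congrArg (fun u : Kˣ => ((u : K) : E)) hv
      simpa using h5
  -- the index set
  set Y : Subgroup X := ((powMonoidHom q : Kˣ →* Kˣ).range).subgroupOf X with hY
  have hcard : Nat.card (X ⧸ Y) = ((powMonoidHom q : Kˣ →* Kˣ).range).relIndex X := rfl
  have : Finite (X ⧸ Y) := by
    apply Nat.finite_of_card_ne_zero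
    rw [hcard]; exact hXne
  have : Fintype (X ⧸ Y) := Fintype.ofFinite _
  let f : X ⧸ Y → (U →* Eˣ) := fun a => phi S (D (a.out : X) (a.out : X).2)
  have hf : Function.Injective f := by
    intro a b hab
    obtain ⟨w, hwK, hw0, hw⟩ := phi_inj S _ _ hab
    rw [hz, hz] at hw
    suffices hmem : (a.out : X)⁻¹ * b.out ∈ Y by
      have h3 := QuotientGroup.eq.2 hmem
      rwa [QuotientGroup.out_eq', QuotientGroup.out_eq'] at h3
    refine Subgroup.mem_subgroupOf.2 ?_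
    have hw0' : (⟨w, hwK⟩ : K) ≠ 0 := by
      intro h3; exact hw0 (congrArg (fun x : K => (x : E)) h3)
    refine ⟨(Units.mk0 (⟨w, hwK⟩ : K) hw0')⁻¹, ?_⟩
    ext
    simp only [powMonoidHom_apply, Subgroup.coe_mul, Subgroup.coe_inv, Units.val_mul,
      Units.val_pow_eq_pow_val, Units.val_inv_eq_inv_val, Units.val_mk0,
      IntermediateField.coe_mul, IntermediateField.coe_inv]
    push_cast
    rw [hw]
    have := hx0 ((b.out : X) : Kˣ)
    field_simp
    rw [one_div, inv_pow, inv_mul_cancel₀ (pow_ne_zero _ hw0)]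
  refine ⟨Finset.univ.image f, ?_, ?_⟩
  · rw [Finset.card_image_of_injective _ hf, Finset.card_univ, ← Nat.card_eq_fintype_card, hcard]
    exact Nat.le_of_dvd (Nat.pos_of_ne_zero hXne) hXdvd
  · intro χ hχ
    rw [Finset.mem_image] at hχ
    obtain ⟨a, -, rfl⟩ := hχ
    refine ⟨phi_pow _ _, phi_openKer _ _, ?_, phi_minus _ _⟩
    apply phi_nice (n := n) S (D (a.out : X) (a.out : X).2) hl
    intro P
    rw [hz]
    obtain ⟨u, hu⟩ := hXu ((a.out : X) : Kˣ) (a.out : X).2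
    have hint : ∀ v : (𝓞 K)ˣ, P.val.valuation (((iu K v : Kˣ) : K) : E) ≤ 1 := by
      intro v
      have h3 : IsIntegral ℤ ((((iu K v : Kˣ) : K)) : E) := by
        have h4 : IsIntegral ℤ (((v : 𝓞 K) : K)) := (v : 𝓞 K).isIntegral_coe
        exact h4.map (algebraMap K E).toIntAlgHom
      have h5 := P.coe_mem_val (⟨_, h3⟩ : 𝓞 E)
      exact (ValuationSubring.valuation_le_one_iff _ _).2 h5
    rw [← hu]
    apply le_antisymm (hint u)
    have h6 := hint u⁻¹
    rw [map_inv, Units.val_inv_eq_inv_val] at h6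
    push_cast at h6
    rw [map_inv₀] at h6
    by_contra hcon
    rw [not_le] at hcon
    have h7 : P.val.valuation (((iu K u : Kˣ) : K) : E) ≠ 0 := by
      rw [(Valuation.ne_zero_iff _)]
      exact hx0 _
    exact absurd h6 (not_le.2 ((one_lt_inv₀ (zero_lt_iff.2 h7)).2 hcon))

end Main

end Crest.Agent.R018.MinusDx975
end

-- ▼ part R018/MinusF_476
section

/-!
Row 18, CORE section 9 (helper476): FINITENESS.  The set of characters of exponent `l` of the
stabilizer of an element, with open kernel and unramified outside `l`, is finite.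
-/

set_option autoImplicit false
set_option linter.unusedSectionVars false

open NumberField IsDedekindDomain
open scoped Pointwise

namespace Crest.Agent.R018.MinusFx476

open Crest.Agent.R018.Tamex31 Crest.Agent.R018.Placesx484 Crest.Agent.R018.Placesx484.Place
open Crest.Agent.R018.Selmerx380 Crest.Agent.R018.Ramx380 Crest.Agent.R018.Hitx380

variable {F E : Type*} [Field F] [NumberField F] [Field E] [CharZero E]
  [Algebra.IsAlgebraic ℚ E] [Algebra F E] [IsGalois F E]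

/-- an automorphism in the inertia group is in the inertia group in the sense of valuations -/
theorem inInertia_of_mem {K : Type*} [Field K] [Algebra K E] (P : Place E) (τ : E ≃ₐ[K] E)
    (h : τ ∈ P.ideal.inertia (E ≃ₐ[K] E)) : InInertia P.val τ := by
  have h1 := (mem_inS_val P τ).2 h
  intro a ha
  exact h1.2 a ((ValuationSubring.valuation_le_one_iff _ _).1 ha)

theorem mem_inS_restrict {K : Type*} [Field K] [Algebra F K] [Algebra K E] [IsScalarTower F K E]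
    (P : Place E) (τ : E ≃ₐ[K] E)
    (h : τ ∈ P.ideal.inertia (E ≃ₐ[K] E)) : τ.restrictScalars F ∈ inS F P.val := by
  have h1 := (mem_inS_val P τ).2 h
  exact ⟨fun x => h1.1 x, fun x hx => h1.2 x hx⟩

/-- FINITENESS. -/
theorem fin_chars (y : E) {l : ℕ} (hl : l.Prime) {ζ : E} (hζ : IsPrimitiveRoot ζ l)
    (hroot : ∀ x : E, ∃ z : E, z ^ l = x) :
    {χ : (MulAction.stabilizer (E ≃ₐ[F] E) y) →* Eˣ | χ ^ l = 1 ∧ OpenKer χ ∧
      ∀ P : Place E, P.rchar ≠ l → ∀ s : MulAction.stabilizer (E ≃ₐ[F] E) y,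
        (s : E ≃ₐ[F] E) ∈ inS F P.val → χ s = 1}.Finite := by
  classical
  have hl0 : l ≠ 0 := hl.ne_zero
  have hNe : NeZero l := ⟨hl0⟩
  let K : IntermediateField F E := IntermediateField.adjoin F {y, ζ}
  have hyK : y ∈ K := IntermediateField.subset_adjoin _ _ (by simp)
  have hζK : ζ ∈ K := IntermediateField.subset_adjoin _ _ (by simp)
  have hint : ∀ x : E, IsIntegral F x := fun x => Algebra.IsIntegral.isIntegral x
  have hfd : FiniteDimensional F K :=
    IntermediateField.finiteDimensional_adjoin fun x _ => hint x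
  have hnf : NumberField K := NumberField.of_module_finite F K
  have hKE : IsGalois K E := IsGalois.tower_top_of_isGalois F K E
  let ζK : K := ⟨ζ, hζK⟩
  have hζK' : IsPrimitiveRoot ζK l :=
    IsPrimitiveRoot.of_map_of_injective (f := K.val) hζ K.val.injective
  have hVU : K.fixingSubgroup ≤ MulAction.stabilizer (E ≃ₐ[F] E) y := by
    intro g hg
    exact (IntermediateField.mem_fixingSubgroup_iff K g).1 hg y hyK
  -- elements fixed by `V` are in `K`
  have hfixK : ∀ z : E, (∀ g ∈ K.fixingSubgroup, g z = z) → z ∈ K := by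
    intro z hz
    have h1 : z ∈ IntermediateField.fixedField K.fixingSubgroup := fun g => hz g g.2
    rwa [InfiniteGalois.fixedField_fixingSubgroup] at h1
  -- the primes above `l`
  have hS : {v : HeightOneSpectrum (𝓞 K) | (l : 𝓞 K) ∈ v.asIdeal}.Finite :=
    KerClx793.PA_finite (K := K) l hl0
  obtain ⟨T, hT, hT'⟩ := numberField_selmer_finite K l hl.pos _ hS
  -- the Kummer class of a character
  have key : ∀ χ : (MulAction.stabilizer (E ≃ₐ[F] E) y) →* Eˣ, χ ^ l = 1 → OpenKer χ →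
      (∀ P : Place E, P.rchar ≠ l → ∀ s : MulAction.stabilizer (E ≃ₐ[F] E) y,
        (s : E ≃ₐ[F] E) ∈ inS F P.val → χ s = 1) →
      ∃ t ∈ T, ∃ z : E, z ≠ 0 ∧ (∃ w : Kˣ, z ^ l = algebraMap K E (t * w ^ l : Kˣ)) ∧
        ∀ g (hg : g ∈ K.fixingSubgroup), g z = (χ ⟨g, hVU hg⟩ : Eˣ) * z := by
    intro χ hχl hχo hχn
    have hval : ∀ g, (χ g : E) ^ l = 1 := by
      intro g
      have h1 : (χ ^ l) g = 1 := by rw [hχl]; rfl
      rw [MonoidHom.pow_apply] at h1
      rw [← Units.val_pow_eq_pow_val, h1, Units.val_one]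
    obtain ⟨z, hz0, hz⟩ := exists_resolvent (χ.comp (Subgroup.inclusion hVU))
      (hχo.restrict hVU) (by
        intro a b
        obtain ⟨i, -, hi⟩ := hζ.eq_pow_of_pow_eq_one (hval (Subgroup.inclusion hVU b))
        change (a : E ≃ₐ[F] E) (χ (Subgroup.inclusion hVU b) : E) = χ (Subgroup.inclusion hVU b)
        rw [← hi, map_pow, (IntermediateField.mem_fixingSubgroup_iff K (a : E ≃ₐ[F] E)).1 a.2 ζ hζK])
    have hz' : ∀ g (hg : g ∈ K.fixingSubgroup), g z = (χ ⟨g, hVU hg⟩ : Eˣ) * z :=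
      fun g hg => hz ⟨g, hg⟩
    have hzK : z ^ l ∈ K := by
      apply hfixK
      intro g hg
      rw [map_pow, hz' g hg, mul_pow, hval, one_mul]
    let a : Kˣ := Units.mk0 (⟨z ^ l, hzK⟩ : K) (by
      intro h
      exact pow_ne_zero l hz0 (congrArg Subtype.val h))
    have ha : z ^ l = algebraMap K E (a : K) := rfl
    obtain ⟨t, ht, w, hw⟩ := hT' a (by
      intro v hv
      -- a place above `v`
      obtain ⟨P, hP⟩ := exists_res_eq K (⟨v.asIdeal, v.isPrime, v.ne_bot⟩ : Place K) (E := E)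
      have hPv : (P.res K).ideal = v.asIdeal := by rw [hP]
      have hlP : (l : 𝓞 E) ∉ P.ideal := by
        intro hmem
        apply hv
        change (l : 𝓞 K) ∈ v.asIdeal
        rw [← hPv, Place.mem_res, map_natCast]
        exact hmem
      have hPl : P.rchar ≠ l := by
        rintro rfl
        exact hlP P.rchar_mem
      obtain ⟨τ, hτ, π, ϖ, hπ, hϖ, -, hmove⟩ := exists_moving (K := K) P l hl hPl ζ hζ
        (fun x => hroot _)
      have hhos : hos (P.res K) = v := HeightOneSpectrum.ext hPv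
      rw [hhos] at hϖ
      have hτV : τ.restrictScalars F ∈ K.fixingSubgroup := by
        rw [IntermediateField.mem_fixingSubgroup_iff]
        intro x hx
        exact τ.commutes ⟨x, hx⟩
      have hfix : τ z = z := by
        have h1 := hz' (τ.restrictScalars F) hτV
        have h2 := hχn P hPl ⟨τ.restrictScalars F, hVU hτV⟩ (mem_inS_restrict P τ hτ)
        rw [h2, Units.val_one, one_mul] at h1
        exact h1
      exact ord_pullback_zero l hl ζK hζK' P.val v (over_of_res P v hPv)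
        (valuation_natCast_eq_one P l hlP) τ (inInertia_of_mem P τ hτ) π ϖ hπ hϖ hmove a z ha hfix)
    exact ⟨t, ht, z, hz0, ⟨w, by rw [ha, hw]⟩, hz'⟩
  choose! cl hcl z hz0 hzw hz using key
  refine Set.Finite.of_injOn (f := cl) (t := T) (fun χ hχ => hcl χ hχ.1 hχ.2.1 hχ.2.2) ?_ hT
  rintro χ₁ ⟨h1, h2, h3⟩ χ₂ ⟨h1', h2', h3'⟩ heq
  -- the quotient of the two resolvents is in `K`
  obtain ⟨w₁, hw₁⟩ := hzw χ₁ h1 h2 h3
  obtain ⟨w₂, hw₂⟩ := hzw χ₂ h1' h2' h3'
  have hz1 := hz0 χ₁ h1 h2 h3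
  have hz2 := hz0 χ₂ h1' h2' h3'
  have hdiv : (z χ₁ / z χ₂) ∈ K := by
    have e1 : (z χ₁ / z χ₂ / (algebraMap K E (w₁ : K) / algebraMap K E (w₂ : K))) ^ l = 1 := by
      rw [div_pow, div_pow, div_pow, hw₁, hw₂, heq, Units.val_mul, Units.val_mul,
        Units.val_pow_eq_pow_val, Units.val_pow_eq_pow_val, map_mul, map_mul, map_pow, map_pow]
      have ht0 : algebraMap K E ((cl χ₂ : Kˣ) : K) ≠ 0 := (map_ne_zero _).2 (Units.ne_zero _)
      have hw10 : algebraMap K E (w₁ : K) ≠ 0 := (map_ne_zero _).2 (Units.ne_zero _)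
      have hw20 : algebraMap K E (w₂ : K) ≠ 0 := (map_ne_zero _).2 (Units.ne_zero _)
      rw [mul_div_mul_left _ _ ht0, div_self]
      exact div_ne_zero (pow_ne_zero _ hw10) (pow_ne_zero _ hw20)
    obtain ⟨i, -, hi⟩ := hζ.eq_pow_of_pow_eq_one e1
    have hw10 : algebraMap K E (w₁ : K) ≠ 0 := (map_ne_zero _).2 (Units.ne_zero _)
    have hw20 : algebraMap K E (w₂ : K) ≠ 0 := (map_ne_zero _).2 (Units.ne_zero _)
    have e2 : z χ₁ / z χ₂ = ζ ^ i * (algebraMap K E (w₁ : K) / algebraMap K E (w₂ : K)) := by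
      rw [hi, div_mul_cancel₀]
      exact div_ne_zero hw10 hw20
    rw [e2]
    exact mul_mem (pow_mem hζK i) (div_mem (w₁ : K).2 (w₂ : K).2)
  have hV : ∀ g (hg : g ∈ K.fixingSubgroup), χ₁ ⟨g, hVU hg⟩ = χ₂ ⟨g, hVU hg⟩ := by
    intro g hg
    have e1 := (IntermediateField.mem_fixingSubgroup_iff K g).1 hg _ hdiv
    rw [map_div₀, hz χ₁ h1 h2 h3 g hg, hz χ₂ h1' h2' h3' g hg] at e1
    have hu1 : ((χ₁ ⟨g, hVU hg⟩ : Eˣ) : E) ≠ 0 := Units.ne_zero _
    have hu2 : ((χ₂ ⟨g, hVU hg⟩ : Eˣ) : E) ≠ 0 := Units.ne_zero _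
    ext
    field_simp at e1
    exact e1
  -- extension to the whole stabilizer
  ext g : 1
  have hg' : ((g : E ≃ₐ[F] E) ^ (l - 1)) ∈ K.fixingSubgroup := by
    have hζg : ((g : E ≃ₐ[F] E) ^ (l - 1)) ζ = ζ := by
      have e1 : ((g : E ≃ₐ[F] E) ζ) ^ l = 1 := by rw [← map_pow, hζ.pow_eq_one, map_one]
      obtain ⟨a, ha, ha'⟩ := hζ.eq_pow_of_pow_eq_one e1
      have e2 : ∀ k : ℕ, ((g : E ≃ₐ[F] E) ^ k) ζ = ζ ^ (a ^ k) := by
        intro k
        induction k with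
        | zero => simp
        | succ k ih =>
          rw [pow_succ', AlgEquiv.mul_apply, ih, map_pow, ← ha', ← pow_mul, ← pow_succ']
      have hal : ¬ l ∣ a := by
        intro hd
        have h4 : (g : E ≃ₐ[F] E) ζ = 1 := by
          rw [← ha']
          exact (hζ.pow_eq_one_iff_dvd a).2 hd
        have h5 : ζ = 1 := by
          apply (g : E ≃ₐ[F] E).injective
          rw [h4, map_one]
        exact hl.one_lt.ne' (hζ.unique (h5 ▸ IsPrimitiveRoot.one))
      have hmod : a ^ (l - 1) ≡ 1 [MOD l] :=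
        Nat.ModEq.pow_card_sub_one_eq_one hl ((Nat.Prime.coprime_iff_not_dvd hl).2 hal).symm
      rw [e2]
      have h6 : ζ ^ (a ^ (l - 1)) = ζ ^ 1 := by
        rw [← Nat.mod_add_div (a ^ (l - 1)) l, pow_add, pow_mul, hζ.pow_eq_one, one_pow, mul_one,
          hmod, Nat.mod_eq_of_lt hl.one_lt]
      rw [h6, pow_one]
    have hyg : ((g : E ≃ₐ[F] E) ^ (l - 1)) y = y := by
      have := pow_mem g.2 (l - 1)
      exact this
    have hle : K ≤ IntermediateField.fixedField (Subgroup.zpowers ((g : E ≃ₐ[F] E) ^ (l - 1))) := by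
      rw [IntermediateField.adjoin_le_iff]
      rintro x hx ⟨h, hh⟩
      obtain ⟨i, rfl⟩ := Subgroup.mem_zpowers_iff.1 hh
      have hx' : ((g : E ≃ₐ[F] E) ^ (l - 1)) ∈ MulAction.stabilizer (E ≃ₐ[F] E) x := by
        rcases hx with rfl | rfl
        · exact hyg
        · exact hζg
      exact zpow_mem hx' i
    rw [IntermediateField.mem_fixingSubgroup_iff]
    intro x hx
    exact hle hx ⟨_, Subgroup.mem_zpowers _⟩
  have e3 := hV _ hg'
  have e4 : (⟨(g : E ≃ₐ[F] E) ^ (l - 1), hVU hg'⟩ : MulAction.stabilizer (E ≃ₐ[F] E) y)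
      = g ^ (l - 1) := by
    apply Subtype.ext
    rfl
  rw [e4, map_pow, map_pow] at e3
  have e5 : (χ₁ g) ^ l = 1 := by
    have : (χ₁ ^ l) g = 1 := by rw [h1]; rfl
    rwa [MonoidHom.pow_apply] at this
  have e6 : (χ₂ g) ^ l = 1 := by
    have : (χ₂ ^ l) g = 1 := by rw [h1']; rfl
    rwa [MonoidHom.pow_apply] at this
  have e7 : l = (l - 1) + 1 := (Nat.sub_add_cancel hl.one_lt.le).symm
  rw [e7, pow_succ] at e5 e6
  have e8 : (χ₂ g) ^ (l - 1) * χ₁ g = (χ₂ g) ^ (l - 1) * χ₂ g := by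
    rw [e6, ← e3, e5]
  exact mul_left_cancel e8

end Crest.Agent.R018.MinusFx476
end

-- ▼ part R018/ProbeH_658
section

/-!
# Row 18, block ProbeEx, final glue (helper658)

`HCyc → ProbeEx`, where `HCyc` = cyclotomic surjectivity for all large `l`.
-/

set_option autoImplicit false

open NumberField
open Crest.NumberTheoryR
open Crest.Agent.R018.Placesx484
open Crest.Agent.R018.Tamex31
open Crest.Agent.R018.Corex74

namespace Crest.Agent.R018.ProbeHx658

/-- for all large `l` every `a` prime to `l` is realised on `μ_{l^n}` by an element fixing `y`. -/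
def HCyc : Prop :=
  ∀ (F E : Type) [Field F] [NumberField F] [Field E] [CharZero E] [Algebra F E] [IsGalois F E],
    (∀ n : ℕ, n ≠ 0 → ∃ ζ : E, IsPrimitiveRoot ζ n) → ∀ y : E,
    ∃ L0 : ℕ, ∀ l : ℕ, l.Prime → L0 < l → ∀ n a : ℕ, Nat.Coprime a l →
      ∃ g : E ≃ₐ[F] E, g y = y ∧ ∀ ζ : E, ζ ^ (l ^ n) = 1 → g ζ = ζ ^ a

theorem minusEx_of (H : HCyc) : ProbeFx658.MinusEx := by
  intro F E _ _ _ _ _ _ hE y hy2 hy
  have : CharZero E := charZero_of_injective_algebraMap (algebraMap F E).injective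
  have : Algebra.IsAlgebraic ℚ E := Algebra.IsAlgebraic.trans ℚ F E
  obtain ⟨L0, hL0⟩ := H F E (fun n hn => Kumx568.exists_primitiveRoot hE n hn) y
  refine ⟨max L0 2, ?_⟩
  intro l hl hl0
  have h1 : L0 < l := lt_of_le_of_lt (le_max_left _ _) hl0
  have h2 : l ≠ 2 := (lt_of_le_of_lt (le_max_right _ _) hl0).ne'
  have hpos : ∀ n, l ^ n ≠ 0 := fun n => pow_ne_zero n hl.out.ne_zero
  have hmany := MinusDx975.many (F := F) y hy2 hy l hl.out h2
    (fun n => Kumx568.exists_primitiveRoot hE _ (hpos n))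
    (fun n x => Kumx568.exists_pow_eq hE _ (hpos n) x)
    (fun n a ha => hL0 l hl.out h1 n a ha)
  obtain ⟨ζ, hζ⟩ := Kumx568.exists_primitiveRoot hE l hl.out.ne_zero
  have hfin := MinusFx476.fin_chars (F := F) y hl.out hζ
    (fun x => Kumx568.exists_pow_eq hE _ hl.out.ne_zero x)
  exact ProbeGx658.exists_minus hE l (MulAction.stabilizer (E ≃ₐ[F] E) y)
    {s | ∃ P : Place E, P.rchar ≠ l ∧ (s : E ≃ₐ[F] E) ∈ inS F P.val}
    (hfin.subset fun χ hχ => ⟨hχ.1, hχ.2.1, fun P hP s hs => hχ.2.2 s ⟨P, hP, hs⟩⟩)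
    (fun n => by
      obtain ⟨T, hT1, hT2⟩ := hmany n
      refine ⟨T, hT1, fun χ hχ => ?_⟩
      obtain ⟨g1, g2, g3, g4⟩ := hT2 χ hχ
      exact ⟨g1, g2, fun s ⟨P, hP, hs⟩ => g3 P hP s hs, g4⟩)

/-- **ProbeEx** from cyclotomic surjectivity. -/
theorem probeEx_of (H : HCyc) : ProbeEx := ProbeFx658.probeEx_of (minusEx_of H)

end Crest.Agent.R018.ProbeHx658
end

-- ▼ part R018/MinusE_975
section

/-!
# Row 18, CORE paragraph 9: the cyclotomic input for all large `l` (helper975)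
-/

set_option autoImplicit false

open NumberField IntermediateField

namespace Crest.Agent.R018.MinusEx975

universe u v

theorem restrict_surjective {k : Type u} {E : Type v} [Field k] [Field E] [Algebra k E]
    (K L : IntermediateField k E) [Normal k K] [FiniteDimensional k K]
    [IsGalois L E] (h : K ⊓ L = ⊥) :
    Function.Surjective (restrictRestrictAlgEquivMapHom k K L E) := by
  suffices fixedField (restrictRestrictAlgEquivMapHom k K L E).range = ⊥ from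
     MonoidHom.range_eq_top.mp <|
      fixingSubgroup_fixedField (restrictRestrictAlgEquivMapHom k K L E).range ▸
        this ▸ fixingSubgroup_bot
  refine eq_bot_iff.mpr fun ⟨x, hx₁⟩ hx₂ ↦ ?_
  obtain ⟨⟨y, hy⟩, rfl⟩ : x ∈ Set.range (algebraMap L E) := by
    refine mem_bot.mp <| (InfiniteGalois.mem_bot_iff_fixed _).mpr fun φ ↦ ?_
    rw [← restrictRestrictAlgEquivMapHom_apply K L φ ⟨x, hx₁⟩]
    rw [mem_fixedField_iff] at hx₂
    exact congr_arg ((↑) : K → E) <| hx₂ (restrictRestrictAlgEquivMapHom k K L E φ) ⟨φ, rfl⟩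
  obtain ⟨z, rfl⟩ : y ∈ (⊥ : IntermediateField k E) := h ▸ mem_inf.mpr ⟨hx₁, hy⟩
  exact mem_bot.mp ⟨z, rfl⟩

variable {F : Type u} {E : Type v} [Field F] [NumberField F] [Field E] [CharZero E] [Algebra F E]

theorem inf_eq_bot_of_coprime (K₁ K₂ : IntermediateField ℚ E) [NumberField K₁] [NumberField K₂]
    (h : IsCoprime (discr K₁) (discr K₂)) : K₁ ⊓ K₂ = ⊥ := by
  have hfd : FiniteDimensional ℚ ↥(K₁ ⊓ K₂) := by
    have hle : (K₁ ⊓ K₂) ≤ K₁ := inf_le_left
    exact FiniteDimensional.of_injective (IntermediateField.inclusion hle).toLinearMap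
      (IntermediateField.inclusion_injective hle)
  have hnf : NumberField ↥(K₁ ⊓ K₂) := ⟨⟩
  have hu : IsUnit (discr ↥(K₁ ⊓ K₂)) :=
    h.isUnit_of_dvd' (NumberField.discr_dvd_discr _ _) (NumberField.discr_dvd_discr _ _)
  by_contra hne
  have : 1 < Module.finrank ℚ ↥(K₁ ⊓ K₂) := by
    refine Nat.one_lt_iff_ne_zero_and_ne_one.mpr ⟨Module.finrank_pos.ne', ?_⟩
    rwa [← IntermediateField.finrank_eq_one_iff] at hne
  have h2 := abs_discr_gt_two this
  rw [Int.isUnit_iff_abs_eq] at hu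
  omega

/-- power maps on roots of unity come from automorphisms of the cyclotomic field -/
theorem exists_sigma {K : Type v} [Field K] [CharZero K] (n : ℕ) [NeZero n]
    [hK : IsCyclotomicExtension {n} ℚ K] (a : ℕ) (ha : Nat.Coprime a n) (ζ : K) (hζ : ζ ^ n = 1) :
    ∃ σ : K ≃ₐ[ℚ] K, σ ζ = ζ ^ a := by
  have hirr : Irreducible (Polynomial.cyclotomic n ℚ) :=
    Polynomial.cyclotomic.irreducible_rat (NeZero.pos _)
  obtain ⟨σ, hσ⟩ := (IsCyclotomicExtension.autEquivPow K hirr).surjective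
    (ZMod.unitOfCoprime a ha)
  refine ⟨σ, ?_⟩
  have hz := IsCyclotomicExtension.zeta_spec n ℚ K
  have h4 : (hz.autToPow ℚ σ) = ZMod.unitOfCoprime a ha := hσ
  have h5 := hz.autToPow_spec ℚ σ
  rw [h4] at h5
  obtain ⟨j, -, hj⟩ := hz.eq_pow_of_pow_eq_one hζ
  rw [← hj, map_pow, ← h5, ← pow_mul, ← pow_mul, mul_comm]
  rw [ZMod.coe_unitOfCoprime, ZMod.val_natCast]
  rw [pow_mul' _ j, pow_mul' _ j, pow_eq_pow_mod a hz.pow_eq_one]

set_option backward.isDefEq.respectTransparency false in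
/-- all power maps on `μ_{l^n}` come from automorphisms over `L`, if `l ∤ discr L` -/
theorem exists_aut [Algebra.IsIntegral ℚ E] (L : IntermediateField ℚ E) [NumberField L]
    [IsGalois L E] (l : ℕ)
    (hl : l.Prime) (hd : ¬ (l : ℤ) ∣ discr L) (n a : ℕ) (ha : Nat.Coprime a l) {ζ : E}
    (hζ : IsPrimitiveRoot ζ (l ^ n)) : ∃ g : E ≃ₐ[L] E, g ζ = ζ ^ a := by
  have : Fact l.Prime := ⟨hl⟩
  have hne : NeZero (l ^ n) := ⟨pow_ne_zero _ hl.ne_zero⟩
  have hcyc : IsCyclotomicExtension {l ^ n} ℚ ℚ⟮ζ⟯ :=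
    hζ.intermediateField_adjoin_isCyclotomicExtension ℚ
  have hnf : NumberField ℚ⟮ζ⟯ := IsCyclotomicExtension.numberField {l ^ n} ℚ _
  have hgal : IsGalois ℚ ℚ⟮ζ⟯ := IsCyclotomicExtension.isGalois {l ^ n} ℚ _
  have hcop : IsCoprime (discr ℚ⟮ζ⟯) (discr L) := by
    have h1 := IsCyclotomicExtension.Rat.discr_prime_pow l n ℚ⟮ζ⟯
    rw [h1]
    refine IsCoprime.mul_left ?_ ?_
    · exact (isCoprime_one_left.neg_left).pow_left
    · exact (((Nat.prime_iff_prime_int.1 hl).coprime_iff_not_dvd).2 hd).pow_left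
  have hbot := inf_eq_bot_of_coprime ℚ⟮ζ⟯ L hcop
  have hsurj := restrict_surjective ℚ⟮ζ⟯ L hbot
  set ζ' : ℚ⟮ζ⟯ := AdjoinSimple.gen ℚ ζ with hζ'
  have hζ'p : IsPrimitiveRoot ζ' (l ^ n) := IsPrimitiveRoot.coe_submonoidClass_iff.mp hζ
  obtain ⟨σ, h3⟩ := exists_sigma (l ^ n) a (ha.pow_right n) ζ' hζ'p.pow_eq_one
  obtain ⟨g, hg⟩ := hsurj σ
  refine ⟨g, ?_⟩
  have h6 := restrictRestrictAlgEquivMapHom_apply (E := E) ℚ⟮ζ⟯ L g ζ'
  rw [hg, h3] at h6
  rw [← AdjoinSimple.coe_gen ℚ ζ, ← h6]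
  rfl

set_option backward.isDefEq.respectTransparency false in
/-- the cyclotomic input `hcyc` for all large `l` -/
theorem hcyc_large [IsGalois F E] (y : E) : ∃ L0 : ℕ, ∀ l : ℕ, l.Prime → L0 < l →
    (∀ n : ℕ, ∃ ζ : E, IsPrimitiveRoot ζ (l ^ n)) → ∀ n a : ℕ, Nat.Coprime a l →
      ∃ g : E ≃ₐ[F] E, g y = y ∧ ∀ ζ : E, ζ ^ (l ^ n) = 1 → g ζ = ζ ^ a := by
  have halg : Algebra.IsAlgebraic ℚ E := Algebra.IsAlgebraic.trans ℚ F E
  have hint : Algebra.IsIntegral ℚ E := Algebra.isAlgebraic_iff_isIntegral.1 halg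
  have hyint : IsIntegral F y := (Algebra.IsIntegral.isIntegral (R := ℚ) y).tower_top
  have hfin : FiniteDimensional F F⟮y⟯ := adjoin.finiteDimensional hyint
  have hnfM : NumberField F⟮y⟯ := NumberField.of_module_finite F F⟮y⟯
  set L : IntermediateField ℚ E := (F⟮y⟯).restrictScalars ℚ with hL
  have hnfL : NumberField L := hnfM
  have hgalL : IsGalois L E := inferInstanceAs (IsGalois F⟮y⟯ E)
  refine ⟨(discr L).natAbs, ?_⟩
  intro l hl hlt hprim n a ha
  obtain ⟨ζ, hζ⟩ := hprim n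
  have hd : ¬ (l : ℤ) ∣ discr L := by
    intro h
    have h1 : l ∣ (discr L).natAbs := Int.natCast_dvd.1 h
    have h2 := Nat.le_of_dvd (Int.natAbs_pos.2 (discr_ne_zero L)) h1
    omega
  obtain ⟨g, hg⟩ := exists_aut L l hl hd n a ha hζ
  have hne : NeZero (l ^ n) := ⟨pow_ne_zero _ hl.ne_zero⟩
  refine ⟨{ (g : E ≃+* E) with commutes' := ?_ }, ?_, ?_⟩
  · intro x
    exact g.commutes (⟨algebraMap F E x, (F⟮y⟯).algebraMap_mem x⟩ : L)
  · exact g.commutes (⟨y, mem_adjoin_simple_self F y⟩ : L)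
  · intro z hz
    obtain ⟨j, -, rfl⟩ := hζ.eq_pow_of_pow_eq_one hz
    change g (ζ ^ j) = (ζ ^ j) ^ a
    rw [map_pow, hg, ← pow_mul, ← pow_mul, mul_comm]

end Crest.Agent.R018.MinusEx975
end

-- ▼ part R018/ProbeEx_658
section

/-!
# Row 18: `ProbeEx` (helpers 975, 476, 658)
-/

set_option autoImplicit false

namespace Crest.Agent.R018.ProbeExx658

/-- **ProbeEx** of `Core_74`. -/
theorem probeEx_holds : Corex74.ProbeEx := by
  refine ProbeHx658.probeEx_of ?_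
  intro F E _ _ _ _ _ _ hprim y
  obtain ⟨L0, h⟩ := MinusEx975.hcyc_large (F := F) y
  exact ⟨L0, fun l hl hl0 => h l hl hl0 fun n => hprim _ (pow_ne_zero n hl.ne_zero)⟩

end Crest.Agent.R018.ProbeExx658
end

-- ▼ part R018/CC_656

/-!
# Row 18: consequence (C) = `Core_74.CC` (helper656)
-/

set_option autoImplicit false

open NumberField Pointwise
open Crest.NumberTheoryR

namespace Crest.Agent.R018.CCx656

open Crest.Agent.R018.EndDefx924 (Om)
open Crest.Agent.R018.Placesx484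
open Crest.Agent.R018.Corex74
open Crest.Agent.R018.BadPhix933
open Crest.Agent.R018.BadPhiBx933
open Crest.Agent.R018.CAx933

/-- only finitely many `q` are hit (for any odd `l`) by places of bounded residue characteristic -/
theorem finite_target' (hLoc : LocT) (hF5 : F5) (hF6 : F6) (D : Dat) (B : ℕ) :
    {q : ℕ | ∃ (P : Place Om) (Q : Place Sv) (l : ℕ), l.Prime ∧ l ≠ 2 ∧ Hit D l P ∧ Cor D P Q ∧
      P.rchar ≤ B ∧ Q.rchar = q}.Finite := by
  classical
  have hfin : Finite (BB ⧸ D.G) := Subgroup.quotient_finite_of_isOpen D.G D.isOpen_G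
  have h0 : ∀ p : ℕ, ∃ P0 : Place Om, p.Prime → P0.rchar = p := by
    intro p
    by_cases hp : p.Prime
    · obtain ⟨P0, h⟩ := ConsDx814.exists_place (E := Om) hp
      exact ⟨P0, fun _ => h⟩
    · obtain ⟨P0, h⟩ := ConsDx814.exists_place (E := Om) Nat.prime_two
      exact ⟨P0, fun h => absurd h hp⟩
  choose P0 hP0 using h0
  have h1 : ∀ P : Place Om, ∃ b : BB, b • P0 P.rchar = P := fun P =>
    hF5.2 _ _ (hP0 _ P.rchar_prime)
  choose b hb using h1
  let A : Set ℕ := {q : ℕ | ∃ (P : Place Om) (Q : Place Sv) (l : ℕ), l.Prime ∧ l ≠ 2 ∧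
      Hit D l P ∧ Cor D P Q ∧ P.rchar ≤ B ∧ Q.rchar = q}
  change A.Finite
  have h2 : ∀ q : A, ∃ (P : Place Om) (Q : Place Sv) (l : ℕ), l.Prime ∧ l ≠ 2 ∧ Hit D l P ∧
      Cor D P Q ∧ P.rchar ≤ B ∧ Q.rchar = (q : ℕ) := fun q => q.2
  choose P Q l hl hl2 hH hC hB hq using h2
  let Φ : A → Fin (B + 1) × (BB ⧸ D.G) := fun q =>
    (⟨(P q).rchar, Nat.lt_succ_of_le (hB q)⟩, QuotientGroup.mk (b (P q))⁻¹)
  have hΦ : Function.Injective Φ := by
    intro q q' h
    rw [Prod.ext_iff] at h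
    obtain ⟨h3, h4⟩ := h
    have h5 : (P q).rchar = (P q').rchar := congrArg Fin.val h3
    have h6 : (b (P q')) * (b (P q))⁻¹ ∈ D.G := by
      have := QuotientGroup.eq.1 h4
      have h7 := D.G.inv_mem this
      simpa using h7
    let s : D.G := ⟨_, h6⟩
    have h8 : (s : BB) • P q = P q' := by
      change (b (P q') * (b (P q))⁻¹) • P q = P q'
      have h12 : (b (P q))⁻¹ • P q = P0 (P q).rchar := by rw [inv_smul_eq_iff, hb]
      rw [mul_smul, h12, h5, hb]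
    have h9 := (hF6 D (l q) (P q) (Q q) s).2 (hC q)
    rw [h8] at h9
    have h10 := ConsDx814.cor_unique hLoc (hl q') (hl2 q') (hH q') (hC q') h9
    have h11 : (Q q').rchar = (Q q).rchar := by rw [h10, Place.rchar_smul]
    rw [hq, hq] at h11
    exact Subtype.ext h11.symm
  have : Finite A := Finite.of_injective Φ hΦ
  exact Set.toFinite A

/-- **(C)** -/
theorem cc_of (hNL : NDLevel) (hLG : LemmaG) (hPE : ProbeEx) (hLoc : LocT)
    (hF3 : F3) (hF4 : F4) (hF5 : F5) (hF6 : F6) (hF7 : F7) (hF9 : F9) : CC := by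
  classical
  intro D hND V' hV'n hV'o
  by_contra hcon
  push Not at hcon
  obtain ⟨i, hi⟩ := exists_I
  obtain ⟨V, hVn, hVo, hVV', hNDat, hVN⟩ := hNL D hND (V' ⊓ MulAction.stabilizer SG i)
    (by rw [Subgroup.coe_inf]; exact hV'o.inter (isOpen_stab i))
  have hVV : V ≤ V' := hVV'.trans inf_le_left
  have hinv : ∀ v ∈ V, v * v = 1 → v = 1 := fun v hv hvv =>
    eq_one_of_sq hvv hi ((hVV'.trans inf_le_right) hv)
  obtain ⟨x₁, x₂, hx₁, hx₂, hx₁₂⟩ := hF9 V hVn hVo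
  set W0 : Subgroup SG := V2 V x₁ ⊓ V2 V x₂ with hW0
  have hn1 : (V2 V x₁).Normal := V2_normal V x₁
  have hn2 : (V2 V x₂).Normal := V2_normal V x₂
  have hW0n : W0.Normal := inferInstance
  have hW0o : IsOpen (W0 : Set SG) := (isOpen_V2 V hVo x₁).inter (isOpen_V2 V hVo x₂)
  have hW0V : W0 ≤ V := inf_le_left.trans (V2_le V x₁)
  have hfin : Finite (SG ⧸ W0) := Subgroup.quotient_finite_of_isOpen W0 hW0o
  -- pigeonhole
  obtain ⟨⟨c1, c2⟩, hc⟩ := pigeonhole (C := (SG ⧸ W0) × (SG ⧸ W0))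
    (fun B c => ∃ (P : Place Om) (Q : Place Sv) (l : ℕ) (σ : D.G) (φ : SG), l.Prime ∧ l ≠ 2 ∧
      Hit D l P ∧ Cor D P Q ∧ B < Q.rchar ∧ FrobL D.G P (σ : BB) ∧ Act Q φ Q.rchar ∧
      (∀ j : ℕ, ((D.α σ) ^ j)⁻¹ * φ ∉ V') ∧
      (QuotientGroup.mk φ : SG ⧸ W0) = c.1 ∧ (QuotientGroup.mk (D.α σ) : SG ⧸ W0) = c.2)
    (fun B B' c hBB' ⟨P, Q, l, σ, φ, h1, h2, h3, h4, h5, h6⟩ =>
      ⟨P, Q, l, σ, φ, h1, h2, h3, h4, lt_of_le_of_lt hBB' h5, h6⟩)
    (fun B => by
      obtain ⟨P, Q, l, h1, h2, h3, h4, h5, σ, h6, φ, h7, h8⟩ := hcon B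
      exact ⟨(QuotientGroup.mk φ, QuotientGroup.mk (D.α σ)), P, Q, l, σ, φ, h1, h2, h3, h4, h5,
        h6, h7, h8, rfl, rfl⟩)
  obtain ⟨g, rfl⟩ := QuotientGroup.mk_surjective c1
  have hσP : ∀ (P : Place Om) (σ : D.G), FrobL D.G P (σ : BB) → (σ : BB) • P = P :=
    fun P σ hσ => act_stab hσ.2 (pow_ne_zero _ P.rchar_prime.ne_zero)
  obtain ⟨B3, hB3⟩ := hF3 W0 hW0o
  -- the exponent `f`
  obtain ⟨f, hf, hgen⟩ : ∃ f : ℕ, c2 = (QuotientGroup.mk (g ^ f) : SG ⧸ W0) ∧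
      ∀ n : ℕ, (g ^ (f * n))⁻¹ * g ∉ V := by
    obtain ⟨P, Q, l, σ, φ, h1, h2, h3, h4, h5, h6, h7, h8, h9, h10⟩ := hc B3
    obtain ⟨f, hf⟩ := hF4 W0 hW0n hW0o Q (hB3 Q h5) φ h7 (D.α σ) (h4 σ (hσP P σ h6))
    have h11 : (QuotientGroup.mk (g ^ f) : SG ⧸ W0) = QuotientGroup.mk (D.α σ) := by
      have h12 := QuotientGroup.eq.2 hf
      rw [QuotientGroup.mk_pow] at h12 ⊢
      simp only at h9
      rw [← h12, h9]
    refine ⟨f, ?_, fun n hn => h8 n (hVV ?_)⟩
    · simp only at h10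
      rw [h11, h10]
    · have h13 : ((D.α σ) ^ n)⁻¹ * φ =
          (((D.α σ) ^ n)⁻¹ * g ^ (f * n)) * ((g ^ (f * n))⁻¹ * g) * (g⁻¹ * φ) := by group
      rw [h13]
      refine V.mul_mem (V.mul_mem (hW0V ?_) hn) (hW0V ?_)
      · rw [← QuotientGroup.eq, pow_mul, QuotientGroup.mk_pow, QuotientGroup.mk_pow, h11]
      · exact QuotientGroup.eq.1 h9.symm
  -- the minimal exponent
  have hexo : ∃ k, 0 < k ∧ g ^ k ∈ V := exists_pow_mem V hVn hVo g
  set o := Nat.find hexo with ho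
  have ho0 : 0 < o := (Nat.find_spec hexo).1
  have hoV : g ^ o ∈ V := (Nat.find_spec hexo).2
  have homin : ∀ j, 0 < j → j < o → g ^ j ∉ V := fun j hj hjo hjV => Nat.find_min hexo hjo ⟨hj, hjV⟩
  set d := Nat.gcd f o with hd
  have hd0 : 0 < d := Nat.gcd_pos_of_pos_right _ ho0
  have hdo : d ∣ o := Nat.gcd_dvd_right _ _
  have hdf : d ∣ f := Nat.gcd_dvd_left _ _
  have hd2 : 2 ≤ d := by
    by_contra hlt
    have hd1 : Nat.gcd f o = 1 := by omega
    obtain ⟨n, hn⟩ : ∃ n, f * n ≡ 1 [MOD o] := by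
      obtain ⟨n, hn⟩ := Nat.exists_mul_mod_eq_of_coprime 1 hd1 ho0.ne'
      exact ⟨n, hn.2⟩
    apply hgen n
    have hgo : (QuotientGroup.mk g : SG ⧸ V) ^ o = 1 := by
      rw [← QuotientGroup.mk_pow]
      exact (QuotientGroup.eq_one_iff _).2 hoV
    rw [← QuotientGroup.eq, QuotientGroup.mk_pow]
    conv_rhs => rw [← pow_one (QuotientGroup.mk g : SG ⧸ V)]
    rw [pow_eq_pow_iff_modEq]
    exact hn.of_dvd (orderOf_dvd_of_pow_eq_one hgo)
  -- the sign trick
  obtain ⟨x, hx, hW0x, hfix⟩ := sign_trick V hx₁ hx₂ hx₁₂ (g ^ o) hoV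
  -- the probe
  obtain ⟨L0, hL0⟩ := hPE V hVo hinv x hx
  obtain ⟨l, hlL, hlp⟩ := Nat.exists_infinite_primes (L0 + 3)
  have : Fact l.Prime := ⟨hlp⟩
  have hl2 : l ≠ 2 := by omega
  obtain ⟨p⟩ := hL0 l (by omega)
  -- the bad `φ`
  set a : ℕ → ℤ_[l] := fun j => if d ∣ j then 1 else 0 with ha
  have haf : ∀ j, a (j + d) = a j := by
    intro j
    simp only [ha, Nat.dvd_add_self_right]
  have hao : ∀ j, a (j + o) = a j := by
    intro j
    simp only [ha]
    congr 1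
    exact propext (Nat.dvd_add_iff_left hdo).symm
  set c : ℕ → ℤ_[l] := fun j => a j - a (j + (d - 1)) with hcdef
  have hcf : ∀ j, c (j + d) = c j := by
    intro j
    simp only [hcdef]
    rw [haf, show j + d + (d - 1) = j + (d - 1) + d by ring, haf]
  have hco : ∀ j, c (j + o) = c j := by
    intro j
    simp only [hcdef]
    rw [hao, show j + o + (d - 1) = j + (d - 1) + o by ring, hao]
  have hcsum : ∑ j ∈ Finset.range o, c j = 0 := by
    simp only [hcdef]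
    rw [Finset.sum_sub_distrib, sum_shift a o hao (d - 1), sub_self]
  have hc0' : c 0 ≠ 0 := by
    have h1 : ¬ d ∣ (d - 1) := fun h => by
      have := Nat.le_of_dvd (by omega) h
      omega
    simp only [hcdef, ha, zero_add, dvd_zero, if_true, if_neg h1, sub_zero]
    exact one_ne_zero
  have hne : psum p g 1 o c ≠ 0 := psum_ne_zero hx p g 1 o c homin 0 ho0 hc0'
  obtain ⟨B1, hB1⟩ := lemmaG_unif hLG D V hVo hNDat hVN x hx l hl2 p (psum p g 1 o c)
    (psum_mem p g 1 o c) hne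
  -- the bounds
  obtain ⟨M, hM⟩ := (finite_target' hLoc hF5 hF6 D B1).bddAbove
  obtain ⟨P, Q, l', σ, φ, h1, h2, h3, h4, h5, h6, h7, h8, h9, h10⟩ := hc (max M l)
  have hQM : M < Q.rchar := lt_of_le_of_lt (le_max_left _ _) h5
  have hQl : l < Q.rchar := lt_of_le_of_lt (le_max_right _ _) h5
  have hP : B1 < P.rchar := by
    by_contra h
    have h11 : Q.rchar ≤ M := hM ⟨P, Q, l', h1, h2, h3, h4, not_lt.1 h, rfl⟩
    omega
  have hαQ : D.α σ • Q = Q := h4 σ (hσP P σ h6)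
  have hφg : φ⁻¹ * g ∈ W0 := QuotientGroup.eq.1 h9
  have hσg : (D.α σ)⁻¹ * g ^ f ∈ W0 := QuotientGroup.eq.1 (h10.trans hf)
  have hact := act_psum_mul p g 1 o c hoV hfix hco d hcf f hdf
  have hV2n : (V2 V x).Normal := V2_normal V x
  obtain ⟨k, hk0, hk⟩ := exists_pow_mem (V2 V x) hV2n (isOpen_V2 V hVo x) (D.α σ)
  refine hB1 P hP σ h6 (g ^ f) hact (hW0x hσg) k hk hk0 ?_
  have hkQ : ((D.α σ) ^ k) • Q = Q := by
    clear hk hk0
    induction k with
    | zero => simp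
    | succ k ih => rw [pow_succ, mul_smul, hαQ, ih]
  rw [psum_apply hF7 hVo p g 1 o c hQl.ne' h7 (hW0x hφg) (h := ⟨(D.α σ) ^ k, hk⟩) hkQ, hcsum,
    zero_mul]

end Crest.Agent.R018.CCx656
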