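import Mathlib

-- ▼ part R018/DegOneA_796
section

/-!
# Row 18: number of ideals of given norm (helper796)

* `aK K n` : number of ideals of `𝓞 K` of norm `n`
* `aK_mul` : multiplicativity for coprime arguments
* `aK_pow_le` : `aK K (p ^ e) ≤ (e + 1) ^ d`
-/

set_option autoImplicit false

open NumberField Ideal

namespace Crest.Agent.R018.DegOnex796

variable (K : Type*) [Field K] [NumberField K]

/-- number of integral ideals of norm `n` -/
noncomputable def aK (n : ℕ) : ℕ := Nat.card {I : Ideal (𝓞 K) // absNorm I = n}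

theorem aK_one : aK K 1 = 1 := by
  unfold aK
  rw [Nat.card_eq_one_iff_unique]
  refine ⟨⟨fun a b => ?_⟩, ⟨⟨⊤, absNorm_top⟩⟩⟩
  apply Subtype.ext
  rw [absNorm_eq_one_iff.mp a.2, absNorm_eq_one_iff.mp b.2]

variable {K}

omit [NumberField K] in
theorem key_mul {m n : ℕ} (hmn : m.Coprime n) (I : Ideal (𝓞 K)) (hI : ((m * n : ℕ) : 𝓞 K) ∈ I) :
    (I ⊔ span {(m : 𝓞 K)}) * (I ⊔ span {(n : 𝓞 K)}) = I := by
  apply le_antisymm
  · rw [Ideal.mul_le]
    intro r hr s hs
    rw [Submodule.mem_sup] at hr hs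
    obtain ⟨a, ha, b, hb, rfl⟩ := hr
    obtain ⟨c, hc, d, hd, rfl⟩ := hs
    rw [mem_span_singleton] at hb hd
    obtain ⟨b, rfl⟩ := hb
    obtain ⟨d, rfl⟩ := hd
    have h1 : (m : 𝓞 K) * b * ((n : 𝓞 K) * d) = b * d * ((m * n : ℕ) : 𝓞 K) := by
      push_cast; ring
    have e : (a + (m : 𝓞 K) * b) * (c + (n : 𝓞 K) * d)
        = (c + (n : 𝓞 K) * d) * a + ((m : 𝓞 K) * b) * c + b * d * ((m * n : ℕ) : 𝓞 K) := by
      push_cast; ring
    rw [e]
    exact I.add_mem (I.add_mem (I.mul_mem_left _ ha) (I.mul_mem_left _ hc)) (I.mul_mem_left _ hI)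
  · intro x hx
    have hb : (IsCoprime (m : ℤ) (n : ℤ)) := Nat.isCoprime_iff_coprime.mpr hmn
    obtain ⟨u, v, huv⟩ := hb
    have e : x = (m : 𝓞 K) * ((u : 𝓞 K) * x) + x * ((v : 𝓞 K) * (n : 𝓞 K)) := by
      have : ((u * m + v * n : ℤ) : 𝓞 K) = 1 := by rw [huv]; simp
      push_cast at this
      calc x = x * ((u : 𝓞 K) * m + v * n) := by rw [this, mul_one]
        _ = _ := by ring
    rw [e]
    refine Ideal.add_mem _ ?_ ?_
    · exact Ideal.mul_mem_mul (Ideal.mem_sup_right (mem_span_singleton_self _))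
        (Ideal.mem_sup_left (I.mul_mem_left _ hx))
    · exact Ideal.mul_mem_mul (Ideal.mem_sup_left hx)
        (Ideal.mem_sup_right (Ideal.mul_mem_left _ _ (mem_span_singleton_self _)))

omit [NumberField K] in
theorem key_inj {m n : ℕ} (hmn : m.Coprime n) (J J' : Ideal (𝓞 K))
    (hJ : (m : 𝓞 K) ∈ J) (hJ' : (n : 𝓞 K) ∈ J') :
    (J * J') ⊔ span {(m : 𝓞 K)} = J := by
  apply le_antisymm
  · refine sup_le Ideal.mul_le_left ?_
    rw [span_singleton_le_iff_mem]; exact hJ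
  · intro x hx
    have hb : (IsCoprime (m : ℤ) (n : ℤ)) := Nat.isCoprime_iff_coprime.mpr hmn
    obtain ⟨u, v, huv⟩ := hb
    have e : x = x * ((v : 𝓞 K) * (n : 𝓞 K)) + (x * u) * (m : 𝓞 K) := by
      have : ((u * m + v * n : ℤ) : 𝓞 K) = 1 := by rw [huv]; simp
      push_cast at this
      calc x = x * ((u : 𝓞 K) * m + v * n) := by rw [this, mul_one]
        _ = _ := by ring
    rw [e]
    refine Ideal.add_mem _ ?_ ?_
    · exact Ideal.mem_sup_left (Ideal.mul_mem_mul hx (J'.mul_mem_left _ hJ'))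
    · exact Ideal.mem_sup_right (Ideal.mul_mem_left _ _ (mem_span_singleton_self _))

theorem norm_sup_dvd (m : ℕ) (I : Ideal (𝓞 K)) :
    absNorm (I ⊔ span {(m : 𝓞 K)}) ∣ m ^ Module.finrank ℤ (𝓞 K) := by
  rw [← absNorm_span_natCast]
  exact absNorm_dvd_absNorm_of_le le_sup_right

variable (K)

theorem aK_mul {m n : ℕ} (hmn : m.Coprime n) : aK K (m * n) = aK K m * aK K n := by
  unfold aK
  rw [← Nat.card_prod]
  have key : ∀ I : Ideal (𝓞 K), absNorm I = m * n →
      absNorm (I ⊔ span {(m : 𝓞 K)}) = m ∧ absNorm (I ⊔ span {(n : 𝓞 K)}) = n := by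
    intro I hI
    have hmem : ((m * n : ℕ) : 𝓞 K) ∈ I := by rw [← hI]; exact absNorm_mem I
    have h1 := congrArg absNorm (key_mul hmn I hmem)
    rw [map_mul, hI] at h1
    have h2 := norm_sup_dvd m I
    have h3 := norm_sup_dvd n I
    set x := absNorm (I ⊔ span {(m : 𝓞 K)})
    set y := absNorm (I ⊔ span {(n : 𝓞 K)})
    set d := Module.finrank ℤ (𝓞 K)
    have cx : x.Coprime n := Nat.Coprime.coprime_dvd_left h2 (Nat.Coprime.pow_left _ hmn)
    have cy : y.Coprime m := Nat.Coprime.coprime_dvd_left h3 (Nat.Coprime.pow_left _ hmn.symm)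
    have hx : x ∣ m := cx.dvd_of_dvd_mul_right (by rw [← h1]; exact dvd_mul_right x y)
    have hy : y ∣ n := cy.dvd_of_dvd_mul_left (by rw [← h1]; exact dvd_mul_left y x)
    have hx' : m ∣ x := cy.symm.dvd_of_dvd_mul_right (by rw [h1]; exact dvd_mul_right m n)
    have hy' : n ∣ y := cx.symm.dvd_of_dvd_mul_left (by rw [h1]; exact dvd_mul_left n m)
    exact ⟨Nat.dvd_antisymm hx hx', Nat.dvd_antisymm hy hy'⟩
  refine Nat.card_congr
    { toFun := fun I => (⟨I.1 ⊔ span {(m : 𝓞 K)}, (key I.1 I.2).1⟩,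
        ⟨I.1 ⊔ span {(n : 𝓞 K)}, (key I.1 I.2).2⟩)
      invFun := fun J => ⟨J.1.1 * J.2.1, by rw [map_mul, J.1.2, J.2.2]⟩
      left_inv := fun I => Subtype.ext (key_mul hmn I.1
        (by have := absNorm_mem I.1; rwa [I.2] at this))
      right_inv := fun J => ?_ }
  have h1 : (m : 𝓞 K) ∈ J.1.1 := by
    have := absNorm_mem J.1.1; rwa [J.1.2] at this
  have h2 : (n : 𝓞 K) ∈ J.2.1 := by
    have := absNorm_mem J.2.1; rwa [J.2.2] at this
  refine Prod.ext (Subtype.ext (key_inj hmn _ _ h1 h2)) (Subtype.ext ?_)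
  show J.1.1 * J.2.1 ⊔ span {(n : 𝓞 K)} = J.2.1
  rw [mul_comm]
  exact key_inj hmn.symm _ _ h2 h1

open UniqueFactorizationMonoid

variable {K}

theorem pow_card_le (p : ℕ) (hp : p.Prime) {I : Ideal (𝓞 K)} {e : ℕ} (hI : absNorm I = p ^ e) :
    p ^ (Multiset.card (normalizedFactors I)) ≤ p ^ e := by
  have hI0 : I ≠ 0 := by
    rintro rfl
    rw [map_zero] at hI
    exact absurd hI.symm (pow_ne_zero _ hp.ne_zero)
  have h1 : (normalizedFactors I).prod = I := by
    rw [prod_normalizedFactors_eq hI0, normalize_eq]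
  have h2 : ((normalizedFactors I).map absNorm).prod = p ^ e := by
    rw [← hI]; conv_rhs => rw [← h1]
    rw [map_multiset_prod]
  rw [← h2]
  have h3 : ∀ x ∈ (normalizedFactors I).map absNorm, p ≤ x := by
    intro x hx
    rw [Multiset.mem_map] at hx
    obtain ⟨P, hP, rfl⟩ := hx
    have hd : absNorm P ∣ p ^ e := by
      rw [← hI]; exact absNorm_dvd_absNorm_of_le (Ideal.dvd_iff_le.mp (dvd_of_mem_normalizedFactors hP))
    obtain ⟨k, -, hk⟩ := (Nat.dvd_prime_pow hp).mp hd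
    have hk0 : k ≠ 0 := by
      rintro rfl
      rw [pow_zero, absNorm_eq_one_iff] at hk
      have := (prime_of_normalized_factor P hP).not_isUnit
      rw [hk] at this
      exact this (by rw [← one_eq_top]; exact isUnit_one)
    rw [hk]
    exact Nat.le_self_pow hk0 p
  have h4 := Multiset.pow_card_le_prod (s := (normalizedFactors I).map absNorm) (a := p) h3
  rwa [Multiset.card_map] at h4

theorem card_fac_le (p : ℕ) (hp : p.Prime) {I : Ideal (𝓞 K)} {e : ℕ} (hI : absNorm I = p ^ e) :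
    Multiset.card (normalizedFactors I) ≤ e :=
  (Nat.pow_le_pow_iff_right hp.one_lt).mp (pow_card_le p hp hI)

variable (K)

theorem aK_pow_le (p : ℕ) (hp : p.Prime) (e : ℕ) :
    aK K (p ^ e) ≤ (e + 1) ^ (Module.finrank ℤ (𝓞 K)) := by
  classical
  set d := Module.finrank ℤ (𝓞 K)
  set M := normalizedFactors (span {(p : 𝓞 K)})
  have hM : Multiset.card M ≤ d := card_fac_le p hp (absNorm_span_natCast p)
  have hp0 : (span {(p : 𝓞 K)}) ≠ 0 := by
    intro h
    have := absNorm_span_natCast (S := 𝓞 K) p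
    rw [h, map_zero] at this
    exact absurd this.symm (pow_ne_zero _ hp.ne_zero)
  let Φ : {I : Ideal (𝓞 K) // absNorm I = p ^ e} → (M.toFinset → Fin (e + 1)) := fun I P =>
    ⟨Multiset.count P.1 (normalizedFactors I.1), Nat.lt_succ_of_le
      ((Multiset.count_le_card _ _).trans (card_fac_le p hp I.2))⟩
  have hmem : ∀ I : {I : Ideal (𝓞 K) // absNorm I = p ^ e}, ∀ P ∈ normalizedFactors I.1,
      P ∈ M.toFinset := by
    intro I P hP
    rw [Multiset.mem_toFinset]
    have hprime := prime_of_normalized_factor P hP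
    have hd : absNorm P ∣ p ^ e := by
      have := I.2
      rw [← this]
      exact absNorm_dvd_absNorm_of_le (Ideal.dvd_iff_le.mp (dvd_of_mem_normalizedFactors hP))
    obtain ⟨k, -, hk⟩ := (Nat.dvd_prime_pow hp).mp hd
    have h1 : ((p ^ k : ℕ) : 𝓞 K) ∈ P := by rw [← hk]; exact absNorm_mem P
    push_cast at h1
    have hPP : P.IsPrime := Ideal.isPrime_of_prime hprime
    have h2 : (p : 𝓞 K) ∈ P := hPP.mem_of_pow_mem k h1
    rw [UniqueFactorizationMonoid.mem_normalizedFactors_iff hp0]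
    refine ⟨hprime, ?_⟩
    rw [Ideal.dvd_iff_le, span_singleton_le_iff_mem]
    exact h2
  have hinj : Function.Injective Φ := by
    intro I J hIJ
    have hI0 : ∀ I : {I : Ideal (𝓞 K) // absNorm I = p ^ e}, I.1 ≠ 0 := by
      intro I h
      have := I.2
      rw [h, map_zero] at this
      exact absurd this.symm (pow_ne_zero _ hp.ne_zero)
    have h1 : ∀ I : {I : Ideal (𝓞 K) // absNorm I = p ^ e},
        (normalizedFactors I.1).prod = I.1 := fun I => by
      rw [prod_normalizedFactors_eq (hI0 I), normalize_eq]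
    apply Subtype.ext
    rw [← h1 I, ← h1 J]
    congr 1
    ext P
    by_cases hP : P ∈ M.toFinset
    · have := congrFun hIJ ⟨P, hP⟩
      simpa [Φ] using this
    · rw [Multiset.count_eq_zero_of_notMem fun h => hP (hmem I P h),
        Multiset.count_eq_zero_of_notMem fun h => hP (hmem J P h)]
  calc aK K (p ^ e) ≤ Nat.card (M.toFinset → Fin (e + 1)) :=
        Nat.card_le_card_of_injective Φ hinj
    _ = (e + 1) ^ M.toFinset.card := by
        rw [Nat.card_fun, Nat.card_eq_fintype_card, Nat.card_eq_fintype_card, Fintype.card_fin,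
          Fintype.card_coe]
    _ ≤ (e + 1) ^ d := Nat.pow_le_pow_right (Nat.succ_pos _) ((Multiset.toFinset_card_le M).trans hM)

end Crest.Agent.R018.DegOnex796
end

-- ▼ part R018/DegOneB_796
section

/-!
# Row 18: sum over degree one primes (helper796), real Dirichlet series of the Dedekind zeta function
-/

set_option autoImplicit false

open NumberField Ideal Filter Topology

namespace Crest.Agent.R018.DegOnex796

variable (K : Type*) [Field K] [NumberField K]

/-- general term of the real Dirichlet series -/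
noncomputable def fs (s : ℝ) (n : ℕ) : ℝ := if n = 0 then 0 else (aK K n : ℝ) * (n : ℝ) ^ (-s)

theorem fs_zero (s : ℝ) : fs K s 0 = 0 := if_pos rfl

theorem fs_ne {n : ℕ} (hn : n ≠ 0) (s : ℝ) : fs K s n = (aK K n : ℝ) * (n : ℝ) ^ (-s) :=
  if_neg hn

theorem fs_one (s : ℝ) : fs K s 1 = 1 := by
  rw [fs_ne K one_ne_zero, aK_one]; simp

theorem fs_nonneg (s : ℝ) (n : ℕ) : 0 ≤ fs K s n := by
  unfold fs; split_ifs <;> positivity

theorem fs_mul (s : ℝ) {m n : ℕ} (h : m.Coprime n) : fs K s (m * n) = fs K s m * fs K s n := by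
  by_cases hm : m = 0
  · subst hm; simp [fs_zero]
  by_cases hn : n = 0
  · subst hn; simp [fs_zero]
  rw [fs_ne K (mul_ne_zero hm hn), fs_ne K hm, fs_ne K hn, aK_mul K h]
  push_cast
  rw [Real.mul_rpow (Nat.cast_nonneg _) (Nat.cast_nonneg _)]
  ring

theorem fs_anti {s t : ℝ} (h : s ≤ t) (n : ℕ) : fs K t n ≤ fs K s n := by
  unfold fs
  split_ifs with hn
  · exact le_rfl
  · apply mul_le_mul_of_nonneg_left _ (Nat.cast_nonneg _)
    apply Real.rpow_le_rpow_of_exponent_le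
    · exact_mod_cast Nat.one_le_iff_ne_zero.mpr hn
    · linarith

theorem term_eq (s : ℝ) (n : ℕ) :
    LSeries.term (fun n ↦ ((Nat.card {I : Ideal (𝓞 K) // absNorm I = n} : ℕ) : ℂ)) (s : ℂ) n
      = ((fs K s n : ℝ) : ℂ) := by
  unfold fs
  split_ifs with hn
  · subst hn; simp
  · rw [LSeries.term_of_ne_zero hn]
    rw [← Complex.ofReal_natCast n, ← Complex.ofReal_cpow (Nat.cast_nonneg _)]
    rw [Real.rpow_neg (Nat.cast_nonneg _)]
    push_cast
    rw [div_eq_mul_inv]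
    rfl

theorem tendsto_sum_div :
    Tendsto (fun n : ℕ ↦ (∑ k ∈ Finset.Icc 1 n,
      ((Nat.card {I : Ideal (𝓞 K) // absNorm I = k} : ℕ) : ℝ)) / n) atTop
      (𝓝 (dedekindZeta_residue K)) := by
  refine ((Ideal.tendsto_norm_le_div_atTop₀ K).comp tendsto_natCast_atTop_atTop).congr fun n ↦ ?_
  simp only [Function.comp_apply, Nat.cast_le, ← Nat.cast_sum]
  congr
  rw [← add_left_inj 1, ← card_norm_le_eq_card_norm_le_add_one,
    show Finset.Icc 1 n = Finset.Ioc 0 n from Finset.Icc_succ_left_eq_Ioc _ _,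
    show 1 = Nat.card {I : Ideal (𝓞 K) // absNorm I = 0} by simp [Ideal.absNorm_eq_zero_iff],
    Finset.sum_Ioc_add_eq_sum_Icc (n.zero_le),
    ← Finset.card_preimage_eq_sum_card_image_eq (fun k _ ↦ finite_setOfPred_absNorm_eq k)]
  simp [Set.coe_eq_subtype]

theorem summable_fs {s : ℝ} (hs : 1 < s) : Summable (fs K s) := by
  have h := LSeriesSummable_of_sum_norm_bigO_and_nonneg (s := (s : ℂ)) (r := 1)
    (f := fun n ↦ ((Nat.card {I : Ideal (𝓞 K) // absNorm I = n} : ℕ) : ℝ)) ?_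
    (fun _ => Nat.cast_nonneg _) zero_le_one (by simpa using hs)
  · have h2 : Summable (fun n => ((fs K s n : ℝ) : ℂ)) := by
      refine h.congr fun n => ?_
      rw [← term_eq K s n]
      simp only [Complex.ofReal_natCast]
    exact_mod_cast h2
  · have h := (tendsto_sum_div K).isBigO_one ℝ
    have h2 := h.mul (Asymptotics.isBigO_refl (fun n : ℕ => (n : ℝ)) atTop)
    refine (h2.congr' ?_ ?_)
    · filter_upwards [eventually_ne_atTop 0] with n hn
      have : (n : ℝ) ≠ 0 := Nat.cast_ne_zero.mpr hn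
      field_simp
    · filter_upwards with n
      simp

/-- the Dedekind zeta function as a real function -/
noncomputable def Zr (s : ℝ) : ℝ := ∑' n, fs K s n

theorem dedekindZeta_eq (s : ℝ) : dedekindZeta K (s : ℂ) = ((Zr K s : ℝ) : ℂ) := by
  unfold dedekindZeta Zr LSeries
  rw [Complex.ofReal_tsum]
  exact tsum_congr fun n => term_eq K s n

theorem tendsto_Zr :
    Tendsto (fun s : ℝ ↦ (s - 1) * Zr K s) (𝓝[>] 1) (𝓝 (dedekindZeta_residue K)) := by
  have h := tendsto_sub_one_mul_dedekindZeta_nhdsGT K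
  simp_rw [dedekindZeta_eq] at h
  have h2 := (Complex.continuous_re.tendsto _).comp h
  refine Tendsto.congr (fun s => ?_) h2
  simp [Function.comp]

theorem one_le_Zr {s : ℝ} (hs : 1 < s) : 1 ≤ Zr K s := by
  have := (summable_fs K hs).le_tsum 1 (fun n _ => fs_nonneg K s n)
  rwa [fs_one] at this

theorem Zr_anti {s t : ℝ} (hs : 1 < s) (h : s ≤ t) : Zr K t ≤ Zr K s :=
  (summable_fs K (hs.trans_le h)).tsum_le_tsum (fs_anti K h) (summable_fs K hs)

/-- `log ζ_K(s) - log (1/(s-1))` is bounded on `(1, 2]` -/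
theorem log_Zr_bdd : ∃ C : ℝ, ∀ s : ℝ, 1 < s → s ≤ 2 →
    |Real.log (Zr K s) - Real.log (1 / (s - 1))| ≤ C := by
  set ρ := dedekindZeta_residue K
  have hρ : 0 < ρ := dedekindZeta_residue_pos K
  have h := tendsto_Zr K
  have h1 : ∀ᶠ s in 𝓝[>] (1 : ℝ), (s - 1) * Zr K s ∈ Set.Ioo (ρ / 2) (2 * ρ) :=
    h (Ioo_mem_nhds (by linarith) (by linarith))
  rw [eventually_nhdsWithin_iff] at h1
  obtain ⟨δ, hδ, h2⟩ := Metric.eventually_nhds_iff.mp h1
  set δ' := min δ 1 / 2
  have hδ' : 0 < δ' := by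
    have : 0 < min δ 1 := lt_min hδ one_pos
    positivity
  have hδδ : δ' < δ := by
    have : min δ 1 ≤ δ := min_le_left _ _
    have : 0 < min δ 1 := lt_min hδ one_pos
    show min δ 1 / 2 < δ
    linarith
  have hδ1 : δ' < 1 := by
    have : min δ 1 ≤ 1 := min_le_right _ _
    show min δ 1 / 2 < 1
    linarith
  set a := min (ρ / 2) δ'
  set b := max (2 * ρ) (Zr K (1 + δ'))
  have ha : 0 < a := lt_min (by positivity) hδ'
  refine ⟨max |Real.log a| |Real.log b|, fun s hs1 hs2 => ?_⟩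
  have hZ : 0 < Zr K s := lt_of_lt_of_le one_pos (one_le_Zr K hs1)
  have hs0 : 0 < s - 1 := by linarith
  have key : (s - 1) * Zr K s ∈ Set.Icc a b := by
    by_cases hc : s < 1 + δ'
    · have := h2 (y := s) (by rw [Real.dist_eq, abs_lt]; constructor <;> linarith) hs1
      exact ⟨(min_le_left _ _).trans this.1.le, this.2.le.trans (le_max_left _ _)⟩
    · push Not at hc
      constructor
      · refine (min_le_right _ _).trans ?_
        calc δ' ≤ s - 1 := by linarith
          _ = (s - 1) * 1 := (mul_one _).symm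
          _ ≤ _ := mul_le_mul_of_nonneg_left (one_le_Zr K hs1) hs0.le
      · refine le_trans ?_ (le_max_right _ _)
        calc (s - 1) * Zr K s ≤ 1 * Zr K s :=
              mul_le_mul_of_nonneg_right (by linarith) hZ.le
          _ = Zr K s := one_mul _
          _ ≤ _ := Zr_anti K (by linarith) hc
  have e : Real.log (Zr K s) - Real.log (1 / (s - 1)) = Real.log ((s - 1) * Zr K s) := by
    rw [one_div, Real.log_inv, Real.log_mul hs0.ne' hZ.ne']; ring
  rw [e]
  have hb1 : Real.log a ≤ Real.log ((s - 1) * Zr K s) := Real.log_le_log ha key.1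
  have hb2 : Real.log ((s - 1) * Zr K s) ≤ Real.log b := Real.log_le_log (by positivity) key.2
  rw [abs_le]
  constructor
  · have : -|Real.log a| ≤ Real.log a := neg_abs_le _
    have := le_max_left |Real.log a| |Real.log b|
    linarith
  · have : Real.log b ≤ |Real.log b| := le_abs_self _
    have := le_max_right |Real.log a| |Real.log b|
    linarith

end Crest.Agent.R018.DegOnex796
end

-- ▼ part R018/DegOne_796

/-!
# Row 18: sum over degree one primes (helper796)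

* `bdd` : `∑ p, #{ideals of norm p} p ^ (-s) = log (1 / (s - 1)) + O(1)`, `1 < s ≤ 2`
* `summable_prime` : convergence for `s > 1`
-/

set_option autoImplicit false

open NumberField Ideal Filter Topology

namespace Crest.Agent.R018.DegOnex796

variable (K : Type*) [Field K] [NumberField K]

/-- the constant of the tail bound -/
noncomputable def Ct (d : ℕ) : ℝ := ∑' e : ℕ, (((e + 2 : ℕ) : ℝ) + 1) ^ d * (1 / 2 : ℝ) ^ e

theorem summable_Ct (d : ℕ) :
    Summable (fun e : ℕ => (((e + 2 : ℕ) : ℝ) + 1) ^ d * (1 / 2 : ℝ) ^ e) := by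
  have h := summable_pow_mul_geometric_of_norm_lt_one (R := ℝ) d (r := 1 / 2) (by norm_num)
  have h3 := ((summable_nat_add_iff 3).mpr h).mul_left 8
  refine h3.congr fun e => ?_
  push_cast
  rw [pow_add]
  ring

theorem Ct_nonneg (d : ℕ) : 0 ≤ Ct d := tsum_nonneg fun _ => by positivity

/-- degree of the ring of integers -/
noncomputable abbrev dK : ℕ := Module.finrank ℤ (𝓞 K)

theorem fs_pow_le {s : ℝ} (hs : 1 ≤ s) {p : ℕ} (hp : p.Prime) (e : ℕ) :
    fs K s (p ^ e) ≤ ((e : ℝ) + 1) ^ (dK K) * ((p : ℝ)⁻¹) ^ e := by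
  have hp0 : (0 : ℝ) < p := by exact_mod_cast hp.pos
  have hp1 : (1 : ℝ) ≤ p := by exact_mod_cast hp.one_lt.le
  rw [fs_ne K (pow_ne_zero _ hp.ne_zero)]
  have h1 : (aK K (p ^ e) : ℝ) ≤ ((e : ℝ) + 1) ^ (dK K) := by
    exact_mod_cast aK_pow_le K p hp e
  have h2 : (((p ^ e : ℕ) : ℝ)) ^ (-s) ≤ ((p : ℝ)⁻¹) ^ e := by
    have h3 : (((p ^ e : ℕ) : ℝ)) ^ (-s) ≤ (((p ^ e : ℕ) : ℝ)) ^ (-1 : ℝ) := by
      apply Real.rpow_le_rpow_of_exponent_le
      · exact_mod_cast Nat.one_le_iff_ne_zero.mpr (pow_ne_zero _ hp.ne_zero)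
      · linarith
    rw [Real.rpow_neg_one] at h3
    push_cast at h3
    push_cast
    rwa [inv_pow]
  exact mul_le_mul h1 h2 (by positivity) (by positivity)

omit [NumberField K] in
theorem tail_le {p : ℕ} (hp : p.Prime) (e : ℕ) :
    (((e + 2 : ℕ) : ℝ) + 1) ^ (dK K) * ((p : ℝ)⁻¹) ^ (e + 2) ≤
      ((p : ℝ)⁻¹) ^ 2 * ((((e + 2 : ℕ) : ℝ) + 1) ^ (dK K) * (1 / 2 : ℝ) ^ e) := by
  have hp0 : (0 : ℝ) < p := by exact_mod_cast hp.pos
  have hp2 : (2 : ℝ) ≤ p := by exact_mod_cast hp.two_le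
  have h1 : ((p : ℝ)⁻¹) ^ e ≤ (1 / 2 : ℝ) ^ e := by
    apply pow_le_pow_left₀ (by positivity)
    rw [one_div]
    exact inv_anti₀ (by norm_num) hp2
  calc _ = ((p : ℝ)⁻¹) ^ 2 * ((((e + 2 : ℕ) : ℝ) + 1) ^ (dK K) * ((p : ℝ)⁻¹) ^ e) := by
        rw [pow_add]; ring
    _ ≤ _ := by gcongr

theorem local_le {s : ℝ} (hs : 1 ≤ s) {p : ℕ} (hp : p.Prime) (e : ℕ) :
    fs K s (p ^ (e + 2)) ≤
      ((p : ℝ)⁻¹) ^ 2 * ((((e + 2 : ℕ) : ℝ) + 1) ^ (dK K) * (1 / 2 : ℝ) ^ e) :=
  le_trans (fs_pow_le K hs hp (e + 2)) (tail_le K hp e)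

theorem summable_local {s : ℝ} (hs : 1 ≤ s) {p : ℕ} (hp : p.Prime) :
    Summable (fun e => fs K s (p ^ e)) := by
  rw [← summable_nat_add_iff 2]
  refine Summable.of_nonneg_of_le (fun e => fs_nonneg K s _)
    (fun e => local_le K hs hp e) ((summable_Ct _).mul_left _)

/-- the local factor -/
noncomputable def Fp (s : ℝ) (p : ℕ) : ℝ := ∑' e, fs K s (p ^ e)

theorem Fp_bounds {s : ℝ} (hs : 1 ≤ s) {p : ℕ} (hp : p.Prime) :
    1 + fs K s p ≤ Fp K s p ∧ Fp K s p ≤ 1 + fs K s p + ((p : ℝ)⁻¹) ^ 2 * Ct (dK K) := by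
  have h := (summable_local K hs hp).sum_add_tsum_nat_add 2
  have e : Fp K s p = 1 + fs K s p + ∑' e, fs K s (p ^ (e + 2)) := by
    unfold Fp; rw [← h]
    simp [Finset.sum_range_succ, fs_one]
  rw [e]
  constructor
  · have : 0 ≤ ∑' e, fs K s (p ^ (e + 2)) := tsum_nonneg fun _ => fs_nonneg K s _
    linarith
  · have : ∑' e, fs K s (p ^ (e + 2)) ≤ ((p : ℝ)⁻¹) ^ 2 * Ct (dK K) := by
      unfold Ct
      rw [← tsum_mul_left]
      have hs1 : Summable (fun e : ℕ => fs K s (p ^ (e + 2))) :=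
        (summable_nat_add_iff (f := fun e : ℕ => fs K s (p ^ e)) 2).mpr (summable_local K hs hp)
      have hs2 : Summable (fun e : ℕ =>
          ((p : ℝ)⁻¹) ^ 2 * ((((e + 2 : ℕ) : ℝ) + 1) ^ (dK K) * (1 / 2 : ℝ) ^ e)) :=
        (summable_Ct (dK K)).mul_left _
      exact hs1.tsum_le_tsum (fun e => local_le K hs hp e) hs2
    linarith

theorem fs_prime_le {s : ℝ} (hs : 1 ≤ s) {p : ℕ} (hp : p.Prime) :
    fs K s p ≤ 2 ^ (dK K) * (p : ℝ)⁻¹ := by
  have := fs_pow_le K hs hp 1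
  rw [pow_one, pow_one] at this
  norm_num at this ⊢
  convert this using 3

/-- difference between the logarithm of the local factor and its main term -/
theorem log_Fp {s : ℝ} (hs : 1 ≤ s) {p : ℕ} (hp : p.Prime) :
    |Real.log (Fp K s p) - fs K s p| ≤
      ((Ct (dK K) + (2 ^ (dK K)) ^ 2)) * ((p : ℝ)⁻¹) ^ 2 := by
  obtain ⟨h1, h2⟩ := Fp_bounds K hs hp
  have hx : 0 ≤ fs K s p := fs_nonneg K s p
  have hxb := fs_prime_le K hs hp
  have hF : 0 < Fp K s p := by linarith
  have hC := Ct_nonneg (dK K)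
  have hsq : fs K s p ^ 2 ≤ (2 ^ (dK K)) ^ 2 * ((p : ℝ)⁻¹) ^ 2 := by
    rw [← mul_pow]; exact pow_le_pow_left₀ hx hxb 2
  have hCp : 0 ≤ ((p : ℝ)⁻¹) ^ 2 * Ct (dK K) := by positivity
  have hup : Real.log (Fp K s p) - fs K s p ≤ ((p : ℝ)⁻¹) ^ 2 * Ct (dK K) := by
    have := Real.log_le_sub_one_of_pos hF
    linarith
  have hlo : fs K s p - Real.log (Fp K s p) ≤ fs K s p ^ 2 := by
    have h3 : Real.log (1 + fs K s p) ≤ Real.log (Fp K s p) :=
      Real.log_le_log (by linarith) h1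
    have h4 := Real.one_sub_inv_le_log_of_pos (x := 1 + fs K s p) (by linarith)
    have h5 : fs K s p - fs K s p ^ 2 ≤ 1 - (1 + fs K s p)⁻¹ := by
      have : 1 - (1 + fs K s p)⁻¹ = fs K s p / (1 + fs K s p) := by
        field_simp; ring
      rw [this, le_div_iff₀ (by linarith)]
      nlinarith [pow_nonneg hx 3]
    linarith
  rw [abs_le]
  constructor
  · nlinarith
  · nlinarith [sq_nonneg (fs K s p), pow_nonneg (inv_nonneg.mpr (Nat.cast_nonneg (α := ℝ) p)) 2,
      pow_nonneg (pow_nonneg (zero_le_two (α := ℝ)) (dK K)) 2]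

theorem hasSum_log {s : ℝ} (hs : 1 < s) :
    HasSum (fun p : Nat.Primes => Real.log (Fp K s p)) (Real.log (Zr K s)) := by
  have h : HasProd (fun p : Nat.Primes => Fp K s p) (Zr K s) :=
    EulerProduct.eulerProduct_hasProd (fs_one K s) (fun {m n} h => fs_mul K s h)
      (by simp only [Real.norm_eq_abs]; exact (summable_fs K hs).abs) (fs_zero K s)
  have hZ : Zr K s ≠ 0 := (lt_of_lt_of_le one_pos (one_le_Zr K hs)).ne'
  have hpos : ∀ p : Nat.Primes, Fp K s p ≠ 0 := fun p => by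
    have := (Fp_bounds K hs.le p.2).1
    have := fs_nonneg K s p
    linarith
  have h2 := (Real.continuousAt_log hZ).tendsto.comp h
  refine Tendsto.congr (fun S => ?_) h2
  simp only [Function.comp]
  rw [Real.log_prod]
  exact fun p _ => hpos p

theorem summable_prime_fs {s : ℝ} (hs : 1 < s) : Summable (fun p : Nat.Primes => fs K s p) :=
  (summable_fs K hs).comp_injective Nat.Primes.coe_nat_injective

theorem summable_inv_sq : Summable (fun p : Nat.Primes => (((p : ℕ) : ℝ)⁻¹) ^ 2) := by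
  have h : Summable (fun n : ℕ => (((n : ℕ) : ℝ)⁻¹) ^ 2) := by
    simp [inv_pow]
  exact h.comp_injective Nat.Primes.coe_nat_injective

theorem prime_term (s : ℝ) (p : Nat.Primes) :
    fs K s p = (Nat.card {I : Ideal (𝓞 K) // absNorm I = (p : ℕ)} : ℝ) * ((p : ℕ) : ℝ) ^ (-s) :=
  fs_ne K p.2.ne_zero s

/-- convergence of the series over the primes for `s > 1` -/
theorem summable_prime {s : ℝ} (hs : 1 < s) : Summable (fun p : Nat.Primes =>
    (Nat.card {I : Ideal (𝓞 K) // absNorm I = (p : ℕ)} : ℝ) * ((p : ℕ) : ℝ) ^ (-s)) :=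
  (summable_prime_fs K hs).congr fun p => prime_term K s p

/-- **degree one primes** : `∑ p, #{I : N I = p} p ^ (-s) = log (1 / (s - 1)) + O(1)` -/
theorem bdd : ∃ C : ℝ, ∀ s : ℝ, 1 < s → s ≤ 2 →
    |∑' p : Nat.Primes, (Nat.card {I : Ideal (𝓞 K) // absNorm I = (p : ℕ)} : ℝ)
      * ((p : ℕ) : ℝ) ^ (-s) - Real.log (1 / (s - 1))| ≤ C := by
  obtain ⟨C, hC⟩ := log_Zr_bdd K
  set D := Ct (dK K) + (2 ^ (dK K)) ^ 2
  refine ⟨∑' p : Nat.Primes, D * (((p : ℕ) : ℝ)⁻¹) ^ 2 + C, fun s hs hs2 => ?_⟩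
  have e : ∑' p : Nat.Primes, (Nat.card {I : Ideal (𝓞 K) // absNorm I = (p : ℕ)} : ℝ)
      * ((p : ℕ) : ℝ) ^ (-s) = ∑' p : Nat.Primes, fs K s p :=
    tsum_congr fun p => (prime_term K s p).symm
  rw [e]
  have h1 := hasSum_log K hs
  have h2 := (summable_prime_fs K hs).hasSum
  have h3 := h1.sub h2
  have h4 : Summable (fun p : Nat.Primes => D * (((p : ℕ) : ℝ)⁻¹) ^ 2) :=
    summable_inv_sq.mul_left D
  have h5 : |Real.log (Zr K s) - ∑' p : Nat.Primes, fs K s p| ≤
      ∑' p : Nat.Primes, D * (((p : ℕ) : ℝ)⁻¹) ^ 2 := by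
    rw [← h3.tsum_eq]
    have := tsum_of_norm_bounded h4.hasSum
      (f := fun p : Nat.Primes => Real.log (Fp K s p) - fs K s p)
      (fun p => by rw [Real.norm_eq_abs]; exact log_Fp K hs.le p.2)
    simpa using this
  have h6 := hC s hs hs2
  have e2 : ∑' p : Nat.Primes, fs K s p - Real.log (1 / (s - 1)) =
      -(Real.log (Zr K s) - ∑' p : Nat.Primes, fs K s p) +
        (Real.log (Zr K s) - Real.log (1 / (s - 1))) := by ring
  rw [e2]
  calc _ ≤ |-(Real.log (Zr K s) - ∑' p : Nat.Primes, fs K s p)| +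
        |Real.log (Zr K s) - Real.log (1 / (s - 1))| := abs_add_le _ _
    _ ≤ _ := by rw [abs_neg]; exact add_le_add h5 h6

end Crest.Agent.R018.DegOnex796
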