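import Crest.Agent.R018.Core_74
import Crest.Agent.R018.GDef_791
import Crest.Agent.R018.TgtT_656
import Mathlib
import Crest.Agent.R018.DegThm_614
import Crest.Agent.R018.EndA_924

-- ▼ part R018/CoreF2_755
section

/-!
# F2 of the frozen interface `Core_74`: Frobenius lifts over `ℚ` (helper755)
-/

set_option autoImplicit false

open NumberField Pointwise
open Crest.NumberTheoryR

namespace Crest.Agent.R018.CoreF2x755

open Crest.Agent.R018.EndDefx924 (Om)
open Crest.Agent.R018.Placesx484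
open Crest.Agent.R018.Corex74

/-- the residue field of a place of `ℚ` has `p` elements -/
theorem card_rat (Q : Place ℚ) : Nat.card (𝓞 ℚ ⧸ Q.ideal) = Q.rchar := by
  haveI : Fact Q.rchar.Prime := ⟨Q.rchar_prime⟩
  haveI : CharP (𝓞 ℚ ⧸ Q.ideal) Q.rchar := by
    constructor
    intro x
    rw [← Place.natCast_mem_iff, ← map_natCast (Ideal.Quotient.mk Q.ideal),
      Ideal.Quotient.eq_zero_iff_mem]
  haveI : Nontrivial (𝓞 ℚ ⧸ Q.ideal) := Ideal.Quotient.nontrivial_iff.2 Q.isPrime.ne_top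
  have hinj : Function.Injective (ZMod.castHom (dvd_refl Q.rchar) (𝓞 ℚ ⧸ Q.ideal)) :=
    RingHom.injective _
  have hsurj : Function.Surjective (ZMod.castHom (dvd_refl Q.rchar) (𝓞 ℚ ⧸ Q.ideal)) := by
    intro y
    obtain ⟨x, rfl⟩ := Ideal.Quotient.mk_surjective y
    refine ⟨((Rat.ringOfIntegersEquiv x : ℤ) : ZMod Q.rchar), ?_⟩
    rw [map_intCast, ← map_intCast (Ideal.Quotient.mk Q.ideal)]
    congr 1
    apply Rat.ringOfIntegersEquiv.injective
    rw [map_intCast]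
    rfl
  rw [← Nat.card_congr (Equiv.ofBijective _ ⟨hinj, hsurj⟩), Nat.card_zmod]

/-- over `ℚ` the norm of the place below `P` is the residue characteristic -/
theorem qv_rat {E : Type*} [Field E] [CharZero E] (P : Place E) : P.qv ℚ = P.rchar := by
  rw [Place.qv_def, card_rat, Place.rchar_res]

/-- Frobenius lifts over `ℚ` -/
theorem exists_frob_rat {E : Type*} [Field E] [CharZero E] [IsGalois ℚ E] (P : Place E) :
    ∃ φ : E ≃ₐ[ℚ] E, φ • P = P ∧ Act P φ P.rchar := by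
  obtain ⟨φ, h1, h2⟩ := Place.exists_frob (F := ℚ) P
  refine ⟨φ, h1, fun x => ?_⟩
  have := h2 x
  rwa [qv_rat] at this

/-- **F2** -/
theorem F2_holds : F2 := ⟨fun Q => exists_frob_rat Q, fun P => exists_frob_rat P⟩

end Crest.Agent.R018.CoreF2x755
end

-- ▼ part R018/GAct_791
section

/-!
# Row 18, LEMMA G: the conjugation action and the eigenspaces (helper791)
-/

set_option autoImplicit false

noncomputable section

namespace Crest.Agent.R018.GActx791

open Crest.Agent.R018.GDefx791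

section act

variable {G : Type*} [Group G] {R : Type*} [CommRing R] (N : Subgroup G) [N.Normal]

theorem act_apply (g : G) (φ : N → R) (u : N) :
    act R N g φ u = φ (MulAut.conjNormal g⁻¹ u) := rfl

theorem act_one (φ : N → R) : act R N 1 φ = φ := by
  funext u
  rw [act_apply]
  congr 1
  simp

theorem act_mul (g h : G) (φ : N → R) : act R N (g * h) φ = act R N g (act R N h φ) := by
  funext u
  rw [act_apply, act_apply, act_apply, mul_inv_rev, map_mul]
  rfl





end act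

section V

variable {G : Type*} [Group G] [TopologicalSpace G] (l : ℕ) [Fact l.Prime] (N : Subgroup G)

variable {l N}

theorem V.map_mul {φ : N → ℤ_[l]} (h : φ ∈ V l N) (u v : N) : φ (u * v) = φ u + φ v := h.2 u v

theorem V.map_one {φ : N → ℤ_[l]} (h : φ ∈ V l N) : φ 1 = 0 := by
  have := h.2 1 1
  rw [mul_one] at this
  exact left_eq_add.1 this

theorem V.map_pow {φ : N → ℤ_[l]} (h : φ ∈ V l N) (u : N) (n : ℕ) : φ (u ^ n) = n * φ u := by
  induction n with
  | zero => simp [V.map_one h]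
  | succ n ih => rw [pow_succ, h.2, ih]; push_cast; ring

theorem V.map_inv {φ : N → ℤ_[l]} (h : φ ∈ V l N) (u : N) : φ u⁻¹ = - φ u := by
  have := h.2 u u⁻¹
  rw [mul_inv_cancel, V.map_one h] at this
  exact (neg_eq_of_add_eq_zero_right this.symm).symm

theorem V.map_eq_zero_of_pow {φ : N → ℤ_[l]} (h : φ ∈ V l N) (u : N) (n : ℕ) (hn : 0 < n)
    (h0 : φ (u ^ n) = 0) : φ u = 0 := by
  rw [V.map_pow h] at h0
  rcases mul_eq_zero.1 h0 with h1 | h1
  · exact absurd (Nat.cast_eq_zero.1 h1) hn.ne'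
  · exact h1

variable [N.Normal]

/-- an element of `N` acts trivially -/
theorem act_of_mem {φ : N → ℤ_[l]} (h : φ ∈ V l N) (g : G) (hg : g ∈ N) :
    act ℤ_[l] N g φ = φ := by
  funext u
  rw [act_apply]
  have h1 : (MulAut.conjNormal g⁻¹ u : N) = (⟨g, hg⟩ : N)⁻¹ * u * ⟨g, hg⟩ := by
    apply Subtype.ext
    simp
  rw [h1, h.2, h.2, V.map_inv h]
  ring

theorem continuous_conjNormal [IsTopologicalGroup G] (g : G) :
    Continuous (fun u : N => (MulAut.conjNormal g u : N)) := by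
  have h1 : (fun u : N => ((MulAut.conjNormal g u : N) : G)) = fun u : N => g * (u : G) * g⁻¹ := by
    funext u; exact MulAut.conjNormal_apply g u
  have h2 : Continuous fun u : N => g * (u : G) * g⁻¹ := by fun_prop
  rw [← h1] at h2
  exact continuous_induced_rng.2 h2

theorem act_mem_V [IsTopologicalGroup G] {φ : N → ℤ_[l]} (h : φ ∈ V l N) (g : G) :
    act ℤ_[l] N g φ ∈ V l N := by
  refine ⟨h.1.comp (continuous_conjNormal g⁻¹), fun u v => ?_⟩
  rw [act_apply, _root_.map_mul, h.2]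
  rfl

end V

section Eig

variable {G : Type*} [Group G] [TopologicalSpace G] {l : ℕ} [Fact l.Prime]
  {U21 U2 : Subgroup G} [U21.Normal] [U2.Normal] {χ : U21 →* ℤˣ}


theorem Eig.act {γ : G} {φ : U2 → ℤ_[l]} (h : φ ∈ Eig l U21 U2 χ γ) (a : U21) :
    act ℤ_[l] U2 (a : G) φ = (((χ (MulAut.conjNormal γ⁻¹ a) : ℤˣ) : ℤ) : ℤ_[l]) • φ := h.2 a

/-- `g` maps the eigenspace of `χ^γ` to the eigenspace of `χ^(g γ)` -/
theorem act_mem_Eig [IsTopologicalGroup G] {γ : G} {φ : U2 → ℤ_[l]}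
    (h : φ ∈ Eig l U21 U2 χ γ) (g : G) : GDefx791.act ℤ_[l] U2 g φ ∈ Eig l U21 U2 χ (g * γ) := by
  refine ⟨act_mem_V h.1 g, fun a => ?_⟩
  have h1 : (a : G) * g = g * ((MulAut.conjNormal g⁻¹ a : U21) : G) := by simp [mul_assoc]
  rw [← act_mul, h1, act_mul, h.2, map_smul, mul_inv_rev, _root_.map_mul]
  rfl

omit [TopologicalSpace G] in
theorem chi_conj_mem (a u : U21) : χ (MulAut.conjNormal (u : G)⁻¹ a) = χ a := by
  have h1 : (MulAut.conjNormal (u : G)⁻¹ a : U21) = u⁻¹ * a * u := by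
    apply Subtype.ext
    simp
  rw [h1, map_mul, map_mul, map_inv, mul_comm, ← mul_assoc, mul_inv_cancel, one_mul]

theorem Eig_congr {γ γ' : G} (h : γ⁻¹ * γ' ∈ U21) :
    Eig l U21 U2 χ γ = Eig l U21 U2 χ γ' := by
  have h1 : ∀ a : U21, χ (MulAut.conjNormal γ'⁻¹ a) = χ (MulAut.conjNormal γ⁻¹ a) := by
    intro a
    have h2 : γ'⁻¹ = (γ⁻¹ * γ')⁻¹ * γ⁻¹ := by group
    have h3 := chi_conj_mem (χ := χ) (MulAut.conjNormal γ⁻¹ a) ⟨_, h⟩
    rw [← h3, h2, _root_.map_mul]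
    rfl
  ext φ
  constructor
  · rintro ⟨h2, h3⟩
    exact ⟨h2, fun a => by rw [h3, h1]⟩
  · rintro ⟨h2, h3⟩
    exact ⟨h2, fun a => by rw [h3, h1]⟩

omit [TopologicalSpace G] in
/-- two conjugates of `χ` over distinct cosets are distinct -/
theorem exists_chi_ne (hχ : TrivStab U21 χ) {γ γ' : G} (h : γ⁻¹ * γ' ∉ U21) :
    ∃ a : U21, χ (MulAut.conjNormal γ⁻¹ a) ≠ χ (MulAut.conjNormal γ'⁻¹ a) := by
  by_contra hcon
  push Not at hcon
  apply h
  apply hχ
  intro b
  have h1 := hcon (MulAut.conjNormal γ b)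
  have h2 : (MulAut.conjNormal γ⁻¹ (MulAut.conjNormal γ b) : U21) = b := by
    rw [← MulAut.mul_apply, ← _root_.map_mul, inv_mul_cancel, _root_.map_one]; rfl
  have h3 : (MulAut.conjNormal γ'⁻¹ (MulAut.conjNormal γ b) : U21)
      = MulAut.conjNormal (γ⁻¹ * γ')⁻¹ b := by
    rw [← MulAut.mul_apply, ← _root_.map_mul]
    congr 2
    group
  rw [h2, h3] at h1
  exact h1.symm

theorem two_ne {ε ε' : ℤˣ} (h : ε ≠ ε') : (((ε : ℤ) : ℤ_[l]) - ((ε' : ℤ) : ℤ_[l])) ≠ 0 := by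
  rw [sub_ne_zero]
  intro h1
  apply h
  apply Units.ext
  exact_mod_cast h1

/-- **independence** of the eigenspaces over distinct cosets -/
theorem eig_indep (hχ : TrivStab U21 χ) {ι : Type*} (s : Finset ι) (γ : ι → G)
    (hγ : ∀ i ∈ s, ∀ j ∈ s, (γ i)⁻¹ * γ j ∈ U21 → i = j) (ψ : ι → (U2 → ℤ_[l]))
    (hψ : ∀ i ∈ s, ψ i ∈ Eig l U21 U2 χ (γ i)) (hsum : ∑ i ∈ s, ψ i = 0) :
    ∀ i ∈ s, ψ i = 0 := by
  classical
  induction s using Finset.induction_on generalizing ψ with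
  | empty => simp
  | insert j s hj ih =>
    rw [Finset.sum_insert hj] at hsum
    have key : ∀ i ∈ s, ψ i = 0 := by
      intro i hi
      have hne : (γ i)⁻¹ * γ j ∉ U21 := fun h1 => by
        have := hγ i (Finset.mem_insert_of_mem hi) j (Finset.mem_insert_self _ _) h1
        exact hj (this ▸ hi)
      obtain ⟨a, ha⟩ := exists_chi_ne hχ hne
      let c : ι → ℤ_[l] := fun i => (((χ (MulAut.conjNormal (γ i)⁻¹ a) : ℤˣ) : ℤ) : ℤ_[l])
      have h1 : ∑ i ∈ s, (c i - c j) • ψ i = 0 := by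
        have h2 := congrArg (GDefx791.act ℤ_[l] U2 (a : G)) hsum
        rw [map_add, map_sum, map_zero, (hψ j (Finset.mem_insert_self _ _)).2 a] at h2
        have h3 : ∑ i ∈ s, GDefx791.act ℤ_[l] U2 (a : G) (ψ i) = ∑ i ∈ s, c i • ψ i :=
          Finset.sum_congr rfl (fun i hi => (hψ i (Finset.mem_insert_of_mem hi)).2 a)
        rw [h3] at h2
        have h4 : c j • ψ j + c j • ∑ i ∈ s, ψ i = 0 := by rw [← smul_add, hsum, smul_zero]
        have h5 : ∑ i ∈ s, (c i - c j) • ψ i = (c j • ψ j + ∑ i ∈ s, c i • ψ i)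
            - (c j • ψ j + c j • ∑ i ∈ s, ψ i) := by
          rw [Finset.smul_sum, add_sub_add_left_eq_sub, ← Finset.sum_sub_distrib]
          exact Finset.sum_congr rfl (fun i _ => sub_smul _ _ _)
        rw [h5, h4, sub_zero]
        exact h2
      have h2 := ih (fun i hi j hj => hγ i (Finset.mem_insert_of_mem hi) j
        (Finset.mem_insert_of_mem hj)) (fun i => (c i - c j) • ψ i)
        (fun i hi => Submodule.smul_mem _ _ (hψ i (Finset.mem_insert_of_mem hi))) h1 i hi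
      exact (smul_eq_zero.1 h2).resolve_left (two_ne ha)
    intro i hi
    rcases Finset.mem_insert.1 hi with rfl | hi
    · rw [Finset.sum_eq_zero key, add_zero] at hsum
      exact hsum
    · exact key i hi

/-- every element of `W` is a finite sum of eigenvectors over distinct cosets -/
theorem exists_decomp {φ : U2 → ℤ_[l]} (hφ : φ ∈ W l U21 U2 χ) :
    ∃ (s : Finset (G ⧸ U21)) (ψ : G ⧸ U21 → (U2 → ℤ_[l])),
      (∀ q, ψ q ∈ Eig l U21 U2 χ q.out) ∧ φ = ∑ q ∈ s, ψ q := by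
  classical
  have h1 : W l U21 U2 χ = ⨆ q : G ⧸ U21, Eig l U21 U2 χ q.out := by
    apply le_antisymm
    · apply iSup_le
      intro γ
      refine le_trans (le_of_eq ?_) (le_iSup (fun q : G ⧸ U21 => Eig l U21 U2 χ q.out) (γ : G ⧸ U21))
      apply Eig_congr
      rw [← QuotientGroup.eq]
      exact (QuotientGroup.out_eq' _).symm
    · exact iSup_le fun q => le_iSup (fun γ : G => Eig l U21 U2 χ γ) q.out
  rw [h1, Submodule.mem_iSup_iff_exists_finsupp] at hφ
  obtain ⟨f, hf, hs⟩ := hφ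
  exact ⟨f.support, f, hf, hs.symm⟩

theorem W_le_V : W l U21 U2 χ ≤ V l U2 := iSup_le fun _ _ h => h.1

theorem act_mem_W [IsTopologicalGroup G] {φ : U2 → ℤ_[l]} (h : φ ∈ W l U21 U2 χ) (g : G) :
    GDefx791.act ℤ_[l] U2 g φ ∈ W l U21 U2 χ := by
  have h1 : W l U21 U2 χ ≤ (W l U21 U2 χ).comap (GDefx791.act ℤ_[l] U2 g) := by
    apply iSup_le
    intro γ φ hφ
    exact Submodule.mem_iSup_of_mem (g * γ) (act_mem_Eig hφ g)
  exact h1 h

/-- **`W^H = 0`** if `H` is normalized by `U21` and is not contained in `U21`. -/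
theorem eq_zero_of_fixed (hχ : TrivStab U21 χ) (H : Set G) (hmul : ∀ x ∈ H, ∀ y ∈ H, x * y ∈ H)
    (hinv : ∀ x ∈ H, x⁻¹ ∈ H) (hnorm : ∀ x ∈ H, ∀ a ∈ U21, a * x * a⁻¹ ∈ H)
    (κ : G) (hκ : κ ∈ H) (hκU : κ ∉ U21) {w : U2 → ℤ_[l]} (hw : w ∈ W l U21 U2 χ)
    (hfix : ∀ x ∈ H, GDefx791.act ℤ_[l] U2 x w = w) : w = 0 := by
  obtain ⟨s, ψ, hψ, rfl⟩ := exists_decomp hw
  have hdist : ∀ q ∈ s, ∀ q' ∈ s, (q.out)⁻¹ * q'.out ∈ U21 → q = q' := by
    intro q _ q' _ h
    rw [← QuotientGroup.eq, QuotientGroup.out_eq', QuotientGroup.out_eq'] at h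
    exact h
  apply Finset.sum_eq_zero
  intro q hq
  by_contra hne
  -- the commutators
  have hc : ∀ a : U21, χ (MulAut.conjNormal (q.out)⁻¹ (MulAut.conjNormal κ a * a⁻¹)) = 1 := by
    intro a
    have hcH : κ * (a : G) * κ⁻¹ * (a : G)⁻¹ ∈ H := by
      have h1 := hmul κ hκ _ (hnorm _ (hinv κ hκ) a a.2)
      simpa [mul_assoc] using h1
    have h2 := hfix _ hcH
    have hcoe : κ * (a : G) * κ⁻¹ * (a : G)⁻¹ = ((MulAut.conjNormal κ a * a⁻¹ : U21) : G) := by
      simp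
    rw [hcoe, map_sum] at h2
    have h3 : ∑ q ∈ s, ((((χ (MulAut.conjNormal (q.out)⁻¹ (MulAut.conjNormal κ a * a⁻¹)) : ℤˣ) : ℤ)
        : ℤ_[l]) - 1) • ψ q = 0 := by
      have h4 : ∀ q ∈ s, GDefx791.act ℤ_[l] U2 ((MulAut.conjNormal κ a * a⁻¹ : U21) : G) (ψ q)
          = (((χ (MulAut.conjNormal (q.out)⁻¹ (MulAut.conjNormal κ a * a⁻¹)) : ℤˣ) : ℤ)
        : ℤ_[l]) • ψ q := fun q _ => (hψ q).2 _
      rw [Finset.sum_congr rfl h4] at h2
      simp only [sub_smul, one_smul, Finset.sum_sub_distrib]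
      rw [h2, sub_self]
    have h5 := eig_indep hχ s (fun q => q.out) hdist _
      (fun q _ => Submodule.smul_mem _ _ (hψ q)) h3 q hq
    rcases smul_eq_zero.1 h5 with h6 | h6
    · by_contra h7
      exact two_ne (l := l) h7 (by simpa using h6)
    · exact absurd h6 hne
  have h1 : (q.out)⁻¹ * κ * q.out ∈ U21 := by
    apply hχ
    intro b
    have h2 := hc (MulAut.conjNormal (κ⁻¹ * q.out) b)
    rw [_root_.map_mul, _root_.map_mul] at h2
    have h3 : MulAut.conjNormal (q.out)⁻¹ (MulAut.conjNormal κ (MulAut.conjNormal (κ⁻¹ * q.out) b))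
        = b := by
      rw [← MulAut.mul_apply, ← MulAut.mul_apply, ← _root_.map_mul, ← _root_.map_mul]
      have : (q.out)⁻¹ * κ * (κ⁻¹ * q.out) = (1 : G) := by group
      rw [this, _root_.map_one]; rfl
    have h4 : MulAut.conjNormal (q.out)⁻¹ (MulAut.conjNormal (κ⁻¹ * q.out) b)⁻¹
        = (MulAut.conjNormal ((q.out)⁻¹ * κ * q.out)⁻¹ b)⁻¹ := by
      rw [map_inv]
      congr 1
      rw [← MulAut.mul_apply, ← _root_.map_mul]
      congr 2
      group
    rw [h3, h4, map_inv] at h2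
    exact (mul_inv_eq_one.1 h2).symm
  apply hκU
  have h2 := (inferInstance : U21.Normal).conj_mem _ h1 q.out
  simpa [mul_assoc] using h2

end Eig

end Crest.Agent.R018.GActx791
end
end

-- ▼ part R018/GLemA_791
section

/-!
# Row 18, LEMMA G: the group theoretic part (helper791)
-/

set_option autoImplicit false

noncomputable section

namespace Crest.Agent.R018.GLemAx791

open Crest.Agent.R018.GDefx791 Crest.Agent.R018.GActx791

section alg

variable {G : Type*} [Group G] (R : Type*) [CommRing R] (N : Subgroup G) [N.Normal]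

/-- `κ - 1` -/
def dd (κ : G) : (N → R) →ₗ[R] (N → R) := act R N κ - LinearMap.id

/-- `(κ n - 1) ⋯ (κ 1 - 1)` -/
def PP (κ : ℕ → G) : ℕ → (N → R) →ₗ[R] (N → R)
  | 0 => LinearMap.id
  | n + 1 => (dd R N (κ (n + 1))).comp (PP κ n)



theorem PP_succ (κ : ℕ → G) (n : ℕ) (b : N → R) :
    PP R N κ (n + 1) b = act R N (κ (n + 1)) (PP R N κ n b) - PP R N κ n b := rfl

theorem PP_congr (κ κ' : ℕ → G) (n : ℕ) (h : ∀ i, i ≤ n → κ i = κ' i) (b : N → R) :
    PP R N κ n b = PP R N κ' n b := by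
  induction n with
  | zero => rfl
  | succ n ih =>
    rw [PP_succ, PP_succ, ih (fun i hi => h i (hi.trans (Nat.le_succ n))), h (n + 1) le_rfl]

theorem PP_inv (κ : ℕ → G) (H : Set G) (n : ℕ)
    (hH : ∀ j, 1 ≤ j → j ≤ n → ∀ x ∈ H, (κ j)⁻¹ * x * κ j ∈ H) (b : N → R)
    (hb : ∀ x ∈ H, act R N x b = b) : ∀ x ∈ H, act R N x (PP R N κ n b) = PP R N κ n b := by
  induction n with
  | zero => exact hb
  | succ n ih =>
    intro x hx
    have h1 := ih (fun j h1 h2 => hH j h1 (h2.trans (Nat.le_succ n)))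
    rw [PP_succ, map_sub, h1 x hx, ← act_mul]
    have h2 : x * κ (n + 1) = κ (n + 1) * ((κ (n + 1))⁻¹ * x * κ (n + 1)) := by group
    rw [h2, act_mul, h1 _ (hH (n + 1) (Nat.le_add_left 1 n) le_rfl x hx)]

theorem PP_killed (κ : ℕ → G) (H : Set G) (i n : ℕ) (hi : 1 ≤ i) (hin : i ≤ n)
    (hκ : κ i ∈ H) (hH : ∀ j, 1 ≤ j → j < i → ∀ x ∈ H, (κ j)⁻¹ * x * κ j ∈ H) (b : N → R)
    (hb : ∀ x ∈ H, act R N x b = b) : PP R N κ n b = 0 := by
  induction n, hin using Nat.le_induction with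
  | base =>
    obtain ⟨m, rfl⟩ : ∃ m, i = m + 1 := ⟨i - 1, by omega⟩
    rw [PP_succ, PP_inv R N κ H m (fun j h1 h2 => hH j h1 (Nat.lt_succ_of_le h2)) b hb _ hκ,
      sub_self]
  | succ n _ ih => rw [PP_succ, ih, map_zero, sub_self]

/-- periodic sums -/
theorem sum_period {M : Type*} [AddCommGroup M] (F : ℕ → M) (f m : ℕ)
    (hF : ∀ i, F (i + f) = F i) :
    ∑ i ∈ Finset.range (f * m), F i = m • ∑ i ∈ Finset.range f, F i := by
  induction m with
  | zero => simp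
  | succ m ih =>
    rw [Nat.mul_succ, Finset.sum_range_add, ih, succ_nsmul]
    congr 1
    apply Finset.sum_congr rfl
    intro j _
    have h1 : ∀ m : ℕ, F (f * m + j) = F j := by
      intro m
      induction m with
      | zero => simp
      | succ m ih =>
        rw [← ih, ← hF (f * m + j)]
        congr 1
        ring
    exact h1 m

end alg

section T

variable {G : Type*} [Group G] {G₂ : Type*} [Group G₂] (R : Type*) [CommRing R]
  (G1 : Subgroup G) (α : G1 →* G₂) (N : Subgroup G) (hN : N ≤ G1)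
  (U2 : Subgroup G₂) (hNU : ∀ (n : G) (h : n ∈ N), α ⟨n, hN h⟩ ∈ U2)

/-- pull back along `α` -/
def T : (U2 → R) →ₗ[R] (N → R) where
  toFun φ := fun n => φ ⟨α ⟨n, hN n.2⟩, hNU n n.2⟩
  map_add' _ _ := rfl
  map_smul' _ _ := rfl

theorem T_apply (φ : U2 → R) (n : N) :
    T R G1 α N hN U2 hNU φ n = φ ⟨α ⟨n, hN n.2⟩, hNU n n.2⟩ := rfl

theorem act_T [N.Normal] [U2.Normal] (h : G1) (φ : U2 → R) :
    act R N (h : G) (T R G1 α N hN U2 hNU φ) = T R G1 α N hN U2 hNU (act R U2 (α h) φ) := by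
  funext n
  rw [act_apply, T_apply, T_apply, act_apply]
  congr 1
  apply Subtype.ext
  have h1 : (⟨((MulAut.conjNormal (h : G)⁻¹ n : N) : G), hN (MulAut.conjNormal (h : G)⁻¹ n : N).2⟩
      : G1) = h⁻¹ * ⟨n, hN n.2⟩ * h := by
    apply Subtype.ext
    simp
  have h2 : ((MulAut.conjNormal (α h)⁻¹ (⟨α ⟨n, hN n.2⟩, hNU n n.2⟩ : U2) : U2) : G₂)
      = (α h)⁻¹ * α ⟨n, hN n.2⟩ * α h := by simp
  rw [h2, ← map_inv, ← map_mul, ← map_mul]
  exact congrArg α h1

theorem T_PP [N.Normal] [U2.Normal] (κ : ℕ → G1) (n : ℕ) (φ : U2 → R) :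
    PP R N (fun i => (κ i : G)) n (T R G1 α N hN U2 hNU φ) =
      T R G1 α N hN U2 hNU (PP R U2 (fun i => α (κ i)) n φ) := by
  induction n with
  | zero => rfl
  | succ n ih => rw [PP_succ, PP_succ, ih, act_T, map_sub]

variable [TopologicalSpace G] [TopologicalSpace G₂] {l : ℕ} [Fact l.Prime]

theorem T_mem_V (hα : Continuous α) {φ : U2 → ℤ_[l]} (hφ : φ ∈ V l U2) :
    T ℤ_[l] G1 α N hN U2 hNU φ ∈ V l N := by
  constructor
  · have h1 : Continuous fun n : N => (⟨α ⟨n, hN n.2⟩, hNU n n.2⟩ : U2) :=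
      Continuous.subtype_mk (hα.comp (Continuous.subtype_mk continuous_subtype_val _)) _
    exact hφ.1.comp h1
  · intro u v
    rw [T_apply, T_apply, T_apply, ← hφ.2]
    congr 1
    apply Subtype.ext
    change α _ = α _ * α _
    rw [← map_mul]
    rfl

omit [TopologicalSpace G] in
theorem T_eq_zero (hfin : N.index ≠ 0) (hfin2 : α.range.index ≠ 0) {φ : U2 → ℤ_[l]}
    (hφ : φ ∈ V l U2) (h0 : T ℤ_[l] G1 α N hN U2 hNU φ = 0) : φ = 0 := by
  funext u
  obtain ⟨m, hm, _, ⟨g, hg⟩⟩ := Subgroup.exists_pow_mem_of_index_ne_zero hfin2 (u : G₂)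
  obtain ⟨n, hn, _, hn2⟩ := Subgroup.exists_pow_mem_of_index_ne_zero hfin (g : G)
  apply V.map_eq_zero_of_pow hφ u (m * n) (Nat.mul_pos hm hn)
  have h1 := congrFun h0 ⟨(g : G) ^ n, hn2⟩
  rw [T_apply] at h1
  refine Eq.trans ?_ h1
  congr 1
  apply Subtype.ext
  change (u : G₂) ^ (m * n) = α ⟨(g : G) ^ n, _⟩
  rw [pow_mul, ← hg, ← map_pow]
  rfl

end T

section main

variable {G : Type*} [Group G] {G₂ : Type*} [Group G₂] [TopologicalSpace G₂]
  [IsTopologicalGroup G₂] {l : ℕ} [Fact l.Prime]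
  (G1 : Subgroup G) (α : G1 →* G₂)

/-- the image under `α` of `b (K ⊓ N1) b⁻¹` -/
def HH (b : G) : Set G₂ :=
  {y | ∃ (k : G) (hk : k ∈ G1.normalCore), α ⟨k, G1.normalCore_le hk⟩ = 1 ∧
    α ⟨b * k * b⁻¹, conj_core G1 hk b⟩ = y}

omit [TopologicalSpace G₂] [IsTopologicalGroup G₂] in
theorem HH_mul (b : G) (x : G₂) (hx : x ∈ HH G1 α b) (y : G₂) (hy : y ∈ HH G1 α b) :
    x * y ∈ HH G1 α b := by
  obtain ⟨k, hk, h1, rfl⟩ := hx
  obtain ⟨k', hk', h1', rfl⟩ := hy
  refine ⟨k * k', mul_mem hk hk', ?_, ?_⟩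
  · have : (⟨k * k', G1.normalCore_le (mul_mem hk hk')⟩ : G1)
      = ⟨k, G1.normalCore_le hk⟩ * ⟨k', G1.normalCore_le hk'⟩ := rfl
    rw [this, map_mul, h1, h1', one_mul]
  · rw [← map_mul]
    congr 1
    apply Subtype.ext
    change b * (k * k') * b⁻¹ = (b * k * b⁻¹) * (b * k' * b⁻¹)
    group

omit [TopologicalSpace G₂] [IsTopologicalGroup G₂] in
theorem HH_inv (b : G) (x : G₂) (hx : x ∈ HH G1 α b) : x⁻¹ ∈ HH G1 α b := by
  obtain ⟨k, hk, h1, rfl⟩ := hx
  refine ⟨k⁻¹, inv_mem hk, ?_, ?_⟩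
  · have : (⟨k⁻¹, G1.normalCore_le (inv_mem hk)⟩ : G1) = (⟨k, G1.normalCore_le hk⟩)⁻¹ := rfl
    rw [this, map_inv, h1, inv_one]
  · rw [← map_inv]
    congr 1
    apply Subtype.ext
    change b * k⁻¹ * b⁻¹ = (b * k * b⁻¹)⁻¹
    group

omit [TopologicalSpace G₂] [IsTopologicalGroup G₂] in
theorem HH_conj (b n : G) (hn : n ∈ G1.normalCore) (x : G₂) (hx : x ∈ HH G1 α b) :
    α ⟨n, G1.normalCore_le hn⟩ * x * (α ⟨n, G1.normalCore_le hn⟩)⁻¹ ∈ HH G1 α b := by
  obtain ⟨k, hk, h1, rfl⟩ := hx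
  have hn' : b⁻¹ * n * b ∈ G1.normalCore := by
    have := (inferInstance : G1.normalCore.Normal).conj_mem n hn b⁻¹
    simpa using this
  have hk' : (b⁻¹ * n * b) * k * (b⁻¹ * n * b)⁻¹ ∈ G1.normalCore :=
    mul_mem (mul_mem hn' hk) (inv_mem hn')
  refine ⟨_, hk', ?_, ?_⟩
  · have : (⟨(b⁻¹ * n * b) * k * (b⁻¹ * n * b)⁻¹, G1.normalCore_le hk'⟩ : G1)
      = ⟨b⁻¹ * n * b, G1.normalCore_le hn'⟩ * ⟨k, G1.normalCore_le hk⟩ *
        (⟨b⁻¹ * n * b, G1.normalCore_le hn'⟩)⁻¹ := rfl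
    rw [this, map_mul, map_mul, map_inv, h1, mul_one, mul_inv_cancel]
  · rw [← map_inv, ← map_mul, ← map_mul]
    congr 1
    apply Subtype.ext
    change b * ((b⁻¹ * n * b) * k * (b⁻¹ * n * b)⁻¹) * b⁻¹ = n * (b * k * b⁻¹) * n⁻¹
    group

variable {U21 U2 : Subgroup G₂} [U21.Normal] [U2.Normal] {χ : U21 →* ℤˣ}

omit [IsTopologicalGroup G₂] in
/-- one step of the choice of the `κ`'s -/
theorem exists_move (hgood : Good G1 α U21) (hχ : TrivStab U21 χ) (b : G) (hb : b ∉ G1)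
    {w : U2 → ℤ_[l]} (hw : w ∈ W l U21 U2 χ) (hw0 : w ≠ 0) :
    ∃ (k : G) (hk : k ∈ G1.normalCore), α ⟨k, G1.normalCore_le hk⟩ = 1 ∧
      act ℤ_[l] U2 (α ⟨b * k * b⁻¹, conj_core G1 hk b⟩) w ≠ w := by
  by_contra hcon
  push Not at hcon
  obtain ⟨k, hk, h1, h2⟩ := hgood.1 b hb
  apply hw0
  refine eq_zero_of_fixed hχ (HH G1 α b) (HH_mul G1 α b) (HH_inv G1 α b) ?_ _
    ⟨k, hk, h1, rfl⟩ h2 hw ?_
  · intro x hx a ha
    obtain ⟨n, hn, rfl⟩ := hgood.2 a ha
    exact HH_conj G1 α b n hn x hx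
  · rintro x ⟨k, hk, h3, rfl⟩
    exact hcon k hk h3

/-- choice of `κ 1, …, κ (f - 1)` -/
theorem exists_kappa (hgood : Good G1 α U21) (hχ : TrivStab U21 χ) (g1 : G) (f : ℕ)
    (hf : ∀ j, 0 < j → j < f → g1 ^ j ∉ G1)
    {φ : U2 → ℤ_[l]} (hφ : φ ∈ W l U21 U2 χ) (hφ0 : φ ≠ 0) (n : ℕ) (hn : n < f) :
    ∃ κ : ℕ → G1, (∀ i, 1 ≤ i → i ≤ n → ∃ (k : G) (hk : k ∈ G1.normalCore),
      α ⟨k, G1.normalCore_le hk⟩ = 1 ∧ (κ i : G) = g1 ^ i * k * (g1 ^ i)⁻¹) ∧
      PP ℤ_[l] U2 (fun i => α (κ i)) n φ ∈ W l U21 U2 χ ∧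
      PP ℤ_[l] U2 (fun i => α (κ i)) n φ ≠ 0 := by
  induction n with
  | zero => exact ⟨fun _ => 1, fun i h1 h2 => absurd h2 (by omega), hφ, hφ0⟩
  | succ n ih =>
    obtain ⟨κ, hκ, hW, h0⟩ := ih (by omega)
    obtain ⟨k, hk, h1, h2⟩ := exists_move G1 α hgood hχ (g1 ^ (n + 1))
      (hf (n + 1) (by omega) hn) hW h0
    let κ' : ℕ → G1 := fun i => if i ≤ n then κ i
      else ⟨g1 ^ (n + 1) * k * (g1 ^ (n + 1))⁻¹, conj_core G1 hk _⟩
    have hκ' : ∀ i, i ≤ n → κ' i = κ i := fun i hi => if_pos hi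
    have hκ'' : κ' (n + 1) = ⟨g1 ^ (n + 1) * k * (g1 ^ (n + 1))⁻¹, conj_core G1 hk _⟩ :=
      if_neg (by omega)
    have hPP : PP ℤ_[l] U2 (fun i => α (κ' i)) n φ = PP ℤ_[l] U2 (fun i => α (κ i)) n φ :=
      PP_congr _ _ _ _ _ (fun i hi => by rw [hκ' i hi]) φ
    refine ⟨κ', ?_, ?_, ?_⟩
    · intro i hi1 hi2
      rcases Nat.lt_or_ge n i with h3 | h3
      · obtain rfl : i = n + 1 := by omega
        exact ⟨k, hk, h1, by rw [hκ'']⟩
      · rw [hκ' i h3]
        exact hκ i hi1 h3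
    · rw [PP_succ, hPP]
      exact sub_mem (act_mem_W hW _) hW
    · rw [PP_succ, hPP]
      simp only [hκ'']
      exact sub_ne_zero.2 h2

/-- **LEMMA G, group theoretic core.** -/
theorem core (N : Subgroup G) [N.Normal] (hN : N ≤ G1)
    (hNU : ∀ (n : G) (h : n ∈ N), α ⟨n, hN h⟩ ∈ U2) (hfin : N.index ≠ 0)
    (hfin2 : α.range.index ≠ 0)
    (hgood : Good G1 α U21) (hχ : TrivStab U21 χ) (g1 : G) (f : ℕ) (hf0 : 0 < f)
    (hf : ∀ j, 0 < j → j < f → g1 ^ j ∉ G1)
    {φ : U2 → ℤ_[l]} (hφ : φ ∈ W l U21 U2 χ) (hφ0 : φ ≠ 0)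
    (hinv : act ℤ_[l] N (g1 ^ f) (T ℤ_[l] G1 α N hN U2 hNU φ) = T ℤ_[l] G1 α N hN U2 hNU φ)
    (m : ℕ) (hm : 0 < m)
    (hsum : ∑ i ∈ Finset.range (f * m), act ℤ_[l] N (g1 ^ i) (T ℤ_[l] G1 α N hN U2 hNU φ) = 0) :
    False := by
  set a := T ℤ_[l] G1 α N hN U2 hNU φ with ha
  have h1 : ∑ i ∈ Finset.range f, act ℤ_[l] N (g1 ^ i) a = 0 := by
    have h2 := sum_period (fun i => act ℤ_[l] N (g1 ^ i) a) f m (fun i => by
      change act ℤ_[l] N (g1 ^ (i + f)) a = act ℤ_[l] N (g1 ^ i) a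
      rw [pow_add, act_mul, hinv])
    rw [h2] at hsum
    rcases smul_eq_zero.1 hsum with h3 | h3
    · omega
    · exact h3
  obtain ⟨f', rfl⟩ : ∃ f', f = f' + 1 := ⟨f - 1, by omega⟩
  obtain ⟨κ, hκ, hW, h0⟩ := exists_kappa G1 α hgood hχ g1 (f' + 1) hf hφ hφ0 f' (Nat.lt_succ_self _)
  apply h0
  apply T_eq_zero G1 α N hN U2 hNU hfin hfin2 (W_le_V hW)
  rw [← T_PP, ← ha]
  -- kill all the terms with `i ≥ 1`
  have h2 : ∀ i, 1 ≤ i → i ≤ f' → PP ℤ_[l] N (fun i => (κ i : G)) f' (act ℤ_[l] N (g1 ^ i) a) = 0 := by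
    intro i hi1 hi2
    refine PP_killed ℤ_[l] N (fun i => (κ i : G))
      {x | ∃ (k : G) (hk : k ∈ G1.normalCore), α ⟨k, G1.normalCore_le hk⟩ = 1 ∧
        x = g1 ^ i * k * (g1 ^ i)⁻¹} i f' hi1 hi2 (hκ i hi1 hi2) ?_ _ ?_
    · rintro j hj1 hj2 x ⟨k, hk, h3, rfl⟩
      obtain ⟨k', hk', _, h4⟩ := hκ j hj1 (by omega)
      have hκc : (κ j : G) ∈ G1.normalCore := by
        rw [h4]
        exact (inferInstance : G1.normalCore.Normal).conj_mem _ hk' _
      have hn' : (g1 ^ i)⁻¹ * (κ j : G)⁻¹ * g1 ^ i ∈ G1.normalCore := by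
        have := (inferInstance : G1.normalCore.Normal).conj_mem _ (inv_mem hκc) (g1 ^ i)⁻¹
        simpa using this
      refine ⟨((g1 ^ i)⁻¹ * (κ j : G)⁻¹ * g1 ^ i) * k * ((g1 ^ i)⁻¹ * (κ j : G)⁻¹ * g1 ^ i)⁻¹,
        mul_mem (mul_mem hn' hk) (inv_mem hn'), ?_, ?_⟩
      · have h5 : (⟨_, G1.normalCore_le (mul_mem (mul_mem hn' hk) (inv_mem hn'))⟩ : G1)
          = ⟨_, G1.normalCore_le hn'⟩ * ⟨k, G1.normalCore_le hk⟩ *
            (⟨_, G1.normalCore_le hn'⟩)⁻¹ := rfl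
        rw [h5, map_mul, map_mul, map_inv, h3, mul_one, mul_inv_cancel]
      · group
    · rintro x ⟨k, hk, h3, rfl⟩
      rw [← act_mul]
      have h4 : g1 ^ i * k * (g1 ^ i)⁻¹ * g1 ^ i = g1 ^ i * k := by group
      rw [h4, act_mul]
      congr 1
      have h5 := act_T ℤ_[l] G1 α N hN U2 hNU ⟨k, G1.normalCore_le hk⟩ φ
      rw [h3, act_one] at h5
      exact h5
  have h3 := congrArg (PP ℤ_[l] N (fun i => (κ i : G)) f') h1
  rw [map_sum, map_zero, Finset.sum_range_succ'] at h3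
  have h4 : ∑ i ∈ Finset.range f', PP ℤ_[l] N (fun i => (κ i : G)) f'
      (act ℤ_[l] N (g1 ^ (i + 1)) a) = 0 := by
    apply Finset.sum_eq_zero
    intro i hi
    exact h2 (i + 1) (by omega) (by have := Finset.mem_range.1 hi; omega)
  rw [h4, zero_add, pow_zero, act_one] at h3
  exact h3

end main

end Crest.Agent.R018.GLemAx791
end
end

-- ▼ part R018/GLem_791
section

/-!
# Row 18, LEMMA G: arithmetic assembly (helper791)

`lemmaG_gen : V3 l → LemmaG l G1 α` (interface `GDef_791`).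
-/

set_option autoImplicit false

noncomputable section

open NumberField Pointwise

namespace Crest.Agent.R018.GLemx791

open Crest.Agent.R018.GDefx791 Crest.Agent.R018.GActx791 Crest.Agent.R018.GLemAx791
open Crest.Agent.R018.Placesx484 Crest.Agent.R018.TgtTx656
open Crest.Agent.R018.EndDefx924 (Om)

theorem rchar_eq (S : Place Om) {p : ℕ} (hp : p.Prime) (h : (p : 𝓞 Om) ∈ S.ideal) : S.rchar = p :=
  (S.rchar_eq_of_mem hp h)

theorem exists_root (l : ℕ) [Fact l.Prime] (n : ℕ) : ∃ ζ : Om, IsPrimitiveRoot ζ (l ^ n) := by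
  have : NeZero ((l ^ n : ℕ) : Om) := ⟨by
    exact_mod_cast pow_ne_zero n (Fact.out : l.Prime).ne_zero⟩
  exact HasEnoughRootsOfUnity.exists_primitiveRoot Om (l ^ n)

/-- two elements acting as the same power modulo `S` differ by inertia -/
theorem inertia_of_pow (S : Place Om) {σ τ : B} {q : ℕ} (hq : q ≠ 0)
    (hσ : ∀ x : 𝓞 Om, σ • x - x ^ q ∈ S.ideal) (hτ : ∀ x : 𝓞 Om, τ • x - x ^ q ∈ S.ideal) :
    ∀ x : 𝓞 Om, (σ⁻¹ * τ) • x - x ∈ S.ideal := by
  intro x
  have hS := frob_stab S hq hσ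
  have h1 : τ • x - σ • x ∈ S.ideal := by
    have := S.ideal.sub_mem (hτ x) (hσ x)
    rwa [sub_sub_sub_cancel_right] at this
  have h2 : (σ⁻¹ * τ) • x - x = σ⁻¹ • (τ • x - σ • x) := by
    rw [smul_sub, mul_smul, inv_smul_smul]
  rw [h2]
  have h3 : σ⁻¹ • S = S := by rw [inv_smul_eq_iff, hS]
  have h4 := S.smul_mem_smul_ideal σ⁻¹ (x := τ • x - σ • x)
  rw [h3] at h4
  exact h4.2 h1

/-- pigeonhole -/
theorem exists_class {C : Type*} [Finite C] (P : C → ℕ → Prop)
    (hmono : ∀ c b b', b ≤ b' → P c b' → P c b) (h : ∀ b, ∃ c, P c b) : ∃ c, ∀ b, P c b := by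
  classical
  by_contra hcon
  push Not at hcon
  choose f hf using hcon
  have := Fintype.ofFinite C
  obtain ⟨c, hc⟩ := h (Finset.univ.sup f)
  exact hf c (hmono c _ _ (Finset.le_sup (Finset.mem_univ c)) hc)

variable {G₂ : Type*} [Group G₂] [TopologicalSpace G₂] [IsTopologicalGroup G₂] [CompactSpace G₂]

/-- **LEMMA G** for an arbitrary profinite target. -/
theorem lemmaG_gen (l : ℕ) [hl : Fact l.Prime] (hV3 : V3 l) (G1 : Subgroup B)
    (hG1 : IsOpen (G1 : Set B)) (α : G1 →* G₂) (hα : Continuous α)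
    (hop : IsOpen (α.range : Set G₂)) : LemmaG l G1 α := by
  intro U21 U2 _ _ hU21 hU2 hgood χ hχ φ hφ hφ0
  by_contra hcon
  push Not at hcon
  -- the level
  obtain ⟨N, hNn, hNo, hN, hNU⟩ : ∃ N : Subgroup B, N.Normal ∧ IsOpen (N : Set B) ∧
      ∃ hN : N ≤ G1, ∀ (n : B) (h : n ∈ N), α ⟨n, hN h⟩ ∈ U2 := by
    have hopen : IsOpen (Subtype.val '' (α ⁻¹' (U2 : Set G₂)) : Set B) :=
      hG1.isOpenMap_subtype_val _ (hU2.preimage hα)
    have h1 : (1 : B) ∈ (Subtype.val '' (α ⁻¹' (U2 : Set G₂)) : Set B) :=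
      ⟨1, by simp [U2.one_mem], rfl⟩
    obtain ⟨N, hN⟩ := ProfiniteGrp.exist_openNormalSubgroup_sub_open_nhds_of_one hopen h1
    refine ⟨N.toSubgroup, inferInstance, N.isOpen', ?_, ?_⟩
    · intro x hx
      obtain ⟨y, _, rfl⟩ := hN hx
      exact y.2
    · intro n hn
      obtain ⟨y, hy, h2⟩ := hN hn
      have : (⟨n, by rw [← h2]; exact y.2⟩ : G1) = y := Subtype.ext h2.symm
      change α ⟨n, _⟩ ∈ U2
      rw [this]
      exact hy
  have hNfin : Finite (B ⧸ N) := N.quotient_finite_of_isOpen hNo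
  have hidx : N.index ≠ 0 := (Subgroup.finiteIndex_of_finite_quotient (H := N)).index_ne_zero
  have hfin2 : α.range.index ≠ 0 := by
    have h1 : Finite (G₂ ⧸ α.range) := α.range.quotient_finite_of_isOpen hop
    exact (Subgroup.finiteIndex_of_finite_quotient (H := α.range)).index_ne_zero
  have hφV : φ ∈ V l U2 := W_le_V hφ
  set a := T ℤ_[l] G1 α N hN U2 hNU φ with ha
  have haV : a ∈ V l N := T_mem_V G1 α N hN U2 hNU hα hφV
  obtain ⟨B1, hB1⟩ := unram (F := ℚ) (E := Om) N hNo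
  -- the data
  let Q : B ⧸ N → ℕ → Prop := fun c B0 => ∃ (p : ℕ) (S : Place Om) (F : B) (k : ℕ) (σ : B)
    (hσ : IsFrobLift G1 S p k σ), B0 < p ∧ B1 < p ∧ l < p ∧ p.Prime ∧ (p : 𝓞 Om) ∈ S.ideal ∧
      (∀ x : 𝓞 Om, F • x - x ^ p ∈ S.ideal) ∧ (F : B ⧸ N) = c ∧
      act ℤ_[l] U2 (α ⟨σ, hσ.1⟩) φ = φ ∧
      ∃ m, 0 < m ∧ ∃ h : (α ⟨σ, hσ.1⟩) ^ m ∈ U2, φ ⟨_, h⟩ = 0
  obtain ⟨c, hc⟩ : ∃ c, ∀ B0, Q c B0 := by
    apply exists_class
    · rintro c b b' hb ⟨p, S, F, k, σ, hσ, h1, h2⟩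
      exact ⟨p, S, F, k, σ, hσ, hb.trans_lt h1, h2⟩
    · intro b
      obtain ⟨p, hp, hpp, S, hS, k, σ, hσ, h1, m, hm, h2, h3⟩ := hcon (max b (max B1 l))
      have hrc := rchar_eq S hpp hS
      obtain ⟨F, hF1, hF2⟩ := CoreF2x755.exists_frob_rat S
      rw [hrc] at hF2
      exact ⟨(F : B ⧸ N), p, S, F, k, σ, hσ, (le_max_left _ _).trans_lt hp,
        ((le_max_left _ _).trans (le_max_right _ _)).trans_lt hp,
        ((le_max_right _ _).trans (le_max_right _ _)).trans_lt hp, hpp, hS, hF2, rfl, h1, m, hm,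
        h2, h3⟩
  set g1 : B := c.out with hg1
  have hg1c : (g1 : B ⧸ N) = c := QuotientGroup.out_eq' c
  -- `f`
  have hex : ∃ j, 0 < j ∧ g1 ^ j ∈ G1 := by
    obtain ⟨n, hn, _, hn2⟩ := Subgroup.exists_pow_mem_of_index_ne_zero hidx g1
    exact ⟨n, hn, hN hn2⟩
  classical
  set f := Nat.find hex with hf
  obtain ⟨hf0, hfG⟩ := Nat.find_spec hex
  rw [← hf] at hf0 hfG
  have hfmin : ∀ j, 0 < j → j < f → g1 ^ j ∉ G1 := fun j h1 h2 h3 => Nat.find_min hex h2 ⟨h1, h3⟩
  have hn : g1 ^ N.index ∈ N := N.pow_index_mem g1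
  obtain ⟨m, hm⟩ : f ∣ N.index := by
    rw [Nat.dvd_iff_mod_eq_zero]
    by_contra hr
    have h1 := Nat.mod_lt N.index hf0
    apply hfmin (N.index % f) (Nat.pos_of_ne_zero hr) h1
    have h2 : g1 ^ (N.index % f) = ((g1 ^ f) ^ (N.index / f))⁻¹ * g1 ^ N.index := by
      conv_rhs => rw [← Nat.div_add_mod N.index f]
      rw [pow_add, pow_mul, ← mul_assoc]
      have : f * (N.index / f) / f = N.index / f := by
        rw [Nat.mul_div_cancel_left _ hf0]
      rw [Nat.div_add_mod]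
      group
    rw [h2]
    exact mul_mem (inv_mem (pow_mem hfG _)) (hN hn)
  have hm0 : 0 < m := by
    rcases Nat.eq_zero_or_pos m with h | h
    · rw [h, mul_zero] at hm
      exact absurd hm hidx
    · exact h
  -- facts about the data
  have hcong : ∀ F : B, (F : B ⧸ N) = c → ∀ j : ℕ, (F ^ j)⁻¹ * g1 ^ j ∈ N := by
    intro F hF j
    rw [← QuotientGroup.eq, QuotientGroup.mk_pow, QuotientGroup.mk_pow, hF, hg1c]
  have hkf : ∀ (p : ℕ) (S : Place Om) (F : B) (k : ℕ) (σ : B) (hσ : IsFrobLift G1 S p k σ),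
      B1 < p → p.Prime → (p : 𝓞 Om) ∈ S.ideal → (∀ x : 𝓞 Om, F • x - x ^ p ∈ S.ideal) →
      (F : B ⧸ N) = c → k = f ∧ (∀ j : ℕ, (σ ^ j)⁻¹ * F ^ (k * j) ∈ N) ∧
        (∀ j : ℕ, ∀ x : 𝓞 Om, ((σ ^ j)⁻¹ * F ^ (k * j)) • x - x ∈ S.ideal) := by
    intro p S F k σ hσ hpB hpp hS hF hFc
    have hrc := rchar_eq S hpp hS
    have hin : ∀ j : ℕ, ∀ x : 𝓞 Om, ((σ ^ j)⁻¹ * F ^ (k * j)) • x - x ∈ S.ideal := by
      intro j
      refine inertia_of_pow S (q := p ^ (k * j)) (pow_ne_zero _ hpp.ne_zero) ?_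
        (frob_pow_aux S hF (k * j))
      intro x
      have := frob_pow_aux S (q := p ^ k) hσ.2.2.1 j x
      rwa [← pow_mul] at this
    have hinN : ∀ j : ℕ, (σ ^ j)⁻¹ * F ^ (k * j) ∈ N := fun j =>
      hB1 S (by rw [hrc]; exact hpB) (hin j)
    refine ⟨?_, hinN, hin⟩
    have h1 : F ^ k ∈ G1 := by
      have h2 := hN (hinN 1)
      rw [pow_one, mul_one] at h2
      have h3 := mul_mem hσ.1 h2
      rwa [mul_inv_cancel_left] at h3
    have h4 : ∀ j, F ^ j ∈ G1 ↔ g1 ^ j ∈ G1 := by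
      intro j
      have h5 := hN (hcong F hFc j)
      constructor
      · intro h6
        have := mul_mem h6 h5
        rwa [mul_inv_cancel_left] at this
      · intro h6
        have := mul_mem h6 (inv_mem h5)
        rwa [mul_inv_rev, inv_inv, mul_inv_cancel_left] at this
    apply le_antisymm
    · by_contra hlt
      push Not at hlt
      exact hσ.2.2.2 f hf0 hlt (F ^ f) ((h4 f).2 hfG) (frob_pow_aux S hF f)
    · exact Nat.find_min' hex ⟨hσ.2.1, (h4 k).1 h1⟩
  -- invariance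
  have hinv : act ℤ_[l] N (g1 ^ f) a = a := by
    obtain ⟨p, S, F, k, σ, hσ, _, h2, _, h4, h5, h6, h7, h8, _⟩ := hc 0
    obtain ⟨hkf', h9, _⟩ := hkf p S F k σ hσ h2 h4 h5 h6 h7
    have h10 : g1 ^ f = σ * ((σ⁻¹ * F ^ f) * ((F ^ f)⁻¹ * g1 ^ f)) := by group
    have h11 := h9 1
    rw [pow_one, mul_one, hkf'] at h11
    rw [h10, act_mul, act_of_mem haV _ (mul_mem h11 (hcong F h7 f))]
    have h12 := act_T ℤ_[l] G1 α N hN U2 hNU ⟨σ, hσ.1⟩ φ
    rw [h8] at h12
    exact h12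
  -- the sum
  have hsum : ∑ i ∈ Finset.range (f * m), act ℤ_[l] N (g1 ^ i) a = 0 := by
    let A : N →* Multiplicative ℤ_[l] :=
      { toFun := fun n => Multiplicative.ofAdd (a n)
        map_one' := by rw [V.map_one haV]; rfl
        map_mul' := fun u v => by rw [haV.2]; rfl }
    have hA : Continuous A := haV.1
    have h1 := hV3 N hNo A hA g1 N.index (Nat.pos_of_ne_zero hidx) hn (fun B0 => by
      obtain ⟨p, S, F, k, σ, hσ, h1, h2, h3, h4, h5, h6, h7, h8, m0, hm0', h9, h10⟩ := hc B0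
      obtain ⟨hkf', h11, h12⟩ := hkf p S F k σ hσ h2 h4 h5 h6 h7
      refine ⟨p, h1, h4, S, F, h5, h6, ?_, ?_⟩
      · rw [← QuotientGroup.eq, hg1c, h7]
      · have hkm : N.index = k * m := by rw [hm, hkf']
        have hFN : F ^ N.index ∈ N := N.pow_index_mem F
        refine ⟨hFN, ?_⟩
        have hσN : σ ^ m ∈ N := by
          have h13 := mul_mem hFN (inv_mem (h11 m))
          rw [← hkm] at h13
          have h14 : F ^ N.index * ((σ ^ m)⁻¹ * F ^ N.index)⁻¹ = σ ^ m := by group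
          rwa [h14] at h13
        have hi := h11 m
        rw [← hkm] at hi
        have h15 : a ⟨_, hi⟩ = 0 := by
          refine inert S (l := l) ?_ (exists_root l) N hNo haV.1 haV.2 ⟨_, hi⟩ ?_
          · rw [rchar_eq S h4 h5]; exact h3.ne'
          · intro x
            have := h12 m x
            rw [← hkm] at this
            exact this
        have h16 : a ⟨_, hσN⟩ = 0 := by
          have h17 : a ⟨_, hσN⟩ = φ ⟨(α ⟨σ, hσ.1⟩) ^ m, by
              have := hNU _ hσN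
              rw [← map_pow]
              exact this⟩ := by
            rw [ha, T_apply]
            congr 1
            apply Subtype.ext
            change α ⟨σ ^ m, _⟩ = (α ⟨σ, hσ.1⟩) ^ m
            rw [← map_pow]
            rfl
          rw [h17]
          apply V.map_eq_zero_of_pow hφV _ m0 hm0'
          have h18 := V.map_pow hφV ⟨_, h9⟩ m
          rw [h10, mul_zero] at h18
          rw [← h18]
          congr 1
          apply Subtype.ext
          change ((α ⟨σ, hσ.1⟩) ^ m) ^ m0 = ((α ⟨σ, hσ.1⟩) ^ m0) ^ m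
          rw [← pow_mul, ← pow_mul, mul_comm]
        have h19 : (⟨F ^ N.index, hFN⟩ : N) = ⟨_, hσN⟩ * ⟨_, hi⟩ := by
          apply Subtype.ext
          change F ^ N.index = σ ^ m * ((σ ^ m)⁻¹ * F ^ N.index)
          group
        change Multiplicative.ofAdd (a ⟨F ^ N.index, hFN⟩) = 1
        rw [h19, haV.2, h15, h16, add_zero]
        rfl)
    rw [← hm]
    funext x
    have h2 := h1 x
    rw [Finset.sum_apply]
    have h3 : Multiplicative.toAdd (∏ i ∈ Finset.range N.index,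
        A (MulAut.conjNormal (g1 ^ i)⁻¹ x)) = 0 := by rw [h2]; rfl
    rw [toAdd_prod] at h3
    exact h3
  exact core G1 α N hN hNU hidx hfin2 hgood hχ g1 f hf0 hfmin hφ hφ0 hinv m hm0 hsum

end Crest.Agent.R018.GLemx791
end
end

-- ▼ part R018/Ver_568
section

/-!
Row 18: the transfer (Verlagerung) `G → A` of a homomorphism `ϕ : H → A`, `H ≤ G` of finite index
(helper568).

* `transfer_eq_prod`       : formula with an arbitrary section `t : G ⧸ H → G`
* `transfer_of_normal`     : `H` normal, `h ∈ H`: the product of all conjugates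
* `transfer_eq_one_of_mem` : if `D` acts transitively on `G ⧸ H` and `ϕ = 1` on `D ⊓ H` then the
  transfer is trivial on `D`
* `continuous_transfer`    : `H` open, `ϕ` continuous ⇒ the transfer is continuous
-/

set_option autoImplicit false

namespace Crest.Agent.R018.Verx568

open MonoidHom Subgroup Subgroup.leftTransversals

variable {G : Type*} [Group G] {H : Subgroup G} {A : Type*} [CommGroup A] (ϕ : H →* A)

theorem section_mem (t : G ⧸ H → G) (ht : ∀ q, (t q : G ⧸ H) = q) (g : G) (q : G ⧸ H) :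
    (t q)⁻¹ * (g * t (g⁻¹ • q)) ∈ H := by
  rw [← QuotientGroup.eq, ht]
  have h1 : ((g * t (g⁻¹ • q) : G) : G ⧸ H) = g • ((t (g⁻¹ • q) : G) : G ⧸ H) := rfl
  rw [h1, ht, smul_inv_smul]

/-- The transfer computed with an arbitrary section. -/
theorem transfer_eq_prod [H.FiniteIndex] [Fintype (G ⧸ H)] (t : G ⧸ H → G)
    (ht : ∀ q, (t q : G ⧸ H) = q) (g : G) :
    transfer ϕ g = ∏ q : G ⧸ H, ϕ ⟨(t q)⁻¹ * (g * t (g⁻¹ • q)), section_mem t ht g q⟩ := by
  classical
  let T : H.LeftTransversal := ⟨Set.range t, isComplement_range_left ht⟩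
  have hT : ∀ q, ((T.2.leftQuotientEquiv q : _) : G) = t q := fun q =>
    IsComplement.leftQuotientEquiv_apply ht q
  rw [transfer_def ϕ T g]
  unfold diff
  have h0 : ∀ (i j : Fintype (G ⧸ H)) (f f' : G ⧸ H → A), (∀ q, f q = f' q) →
      (@Finset.prod _ _ _ (@Finset.univ _ i) f) = (@Finset.prod _ _ _ (@Finset.univ _ j) f') := by
    intro i j f f' hf
    have : i = j := Subsingleton.elim _ _
    subst this
    exact Finset.prod_congr rfl (fun q _ => hf q)
  apply h0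
  intro q
  congr 1
  apply Subtype.ext
  change ((T.2.leftQuotientEquiv q : _) : G)⁻¹ * (((g • T).2.leftQuotientEquiv q : _) : G) = _
  rw [smul_apply_eq_smul_apply_inv_smul, hT, hT]
  rfl

/-- For `h ∈ H`, `H` normal, the transfer is the product over the conjugates. -/
theorem transfer_of_normal [H.Normal] [H.FiniteIndex] [Fintype (G ⧸ H)] (t : G ⧸ H → G)
    (ht : ∀ q, (t q : G ⧸ H) = q) (h : G) (hh : h ∈ H) :
    transfer ϕ h = ∏ q : G ⧸ H, ϕ ⟨(t q)⁻¹ * h * t q, by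
      have := Subgroup.Normal.conj_mem (inferInstance : H.Normal) h hh (t q)⁻¹
      simpa using this⟩ := by
  rw [transfer_eq_prod ϕ t ht]
  apply Finset.prod_congr rfl
  intro q _
  congr 1
  apply Subtype.ext
  change (t q)⁻¹ * (h * t (h⁻¹ • q)) = (t q)⁻¹ * h * t q
  have h1 : h⁻¹ • q = q := by
    obtain ⟨x, rfl⟩ := QuotientGroup.mk_surjective q
    change ((h⁻¹ * x : G) : G ⧸ H) = x
    rw [QuotientGroup.eq]
    have := Subgroup.Normal.conj_mem (inferInstance : H.Normal) h hh x⁻¹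
    simpa using this
  rw [h1, mul_assoc]

/-- If the section takes values in `D` and `ϕ = 1` on `D ⊓ H`, the transfer is `1` on `D`. -/
theorem transfer_eq_one_of_section [H.FiniteIndex] (D : Subgroup G) (t : G ⧸ H → G)
    (ht : ∀ q, (t q : G ⧸ H) = q) (htD : ∀ q, t q ∈ D)
    (hD : ∀ h (hh : h ∈ H), h ∈ D → ϕ ⟨h, hh⟩ = 1) (g : G) (hg : g ∈ D) :
    transfer ϕ g = 1 := by
  have : Fintype (G ⧸ H) := H.fintypeQuotientOfFiniteIndex
  rw [transfer_eq_prod ϕ t ht]
  apply Finset.prod_eq_one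
  intro q _
  exact hD _ _ (D.mul_mem (D.inv_mem (htD _)) (D.mul_mem hg (htD _)))

/-- If `G = D H` and `ϕ = 1` on `D ⊓ H`, the transfer is `1` on `D`. -/
theorem transfer_eq_one_of_mem [H.FiniteIndex] (D : Subgroup G)
    (hDH : ∀ g : G, ∃ d ∈ D, d⁻¹ * g ∈ H)
    (hD : ∀ h (hh : h ∈ H), h ∈ D → ϕ ⟨h, hh⟩ = 1) (g : G) (hg : g ∈ D) :
    transfer ϕ g = 1 := by
  have h1 : ∀ q : G ⧸ H, ∃ d : G, d ∈ D ∧ (d : G ⧸ H) = q := by
    intro q
    obtain ⟨x, rfl⟩ := QuotientGroup.mk_surjective q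
    obtain ⟨d, hd, hdx⟩ := hDH x
    exact ⟨d, hd, QuotientGroup.eq.2 hdx⟩
  choose t htD ht using h1
  exact transfer_eq_one_of_section ϕ D t ht htD hD g hg

section top

variable [TopologicalSpace G] [IsTopologicalGroup G] [TopologicalSpace A] [IsTopologicalGroup A]

/-- The transfer of a continuous homomorphism on an open subgroup of finite index is continuous. -/
theorem continuous_transfer [H.FiniteIndex] (hH : IsOpen (H : Set G)) (hϕ : Continuous ϕ) :
    Continuous (transfer ϕ) := by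
  classical
  have : Fintype (G ⧸ H) := H.fintypeQuotientOfFiniteIndex
  let t : G ⧸ H → G := Quotient.out
  have ht : ∀ q, (t q : G ⧸ H) = q := fun q => QuotientGroup.out_eq' q
  -- extension by one
  let ψ : G → A := fun g => if h : g ∈ H then ϕ ⟨g, h⟩ else 1
  have hψ : ContinuousAt ψ 1 := by
    have h1 : ContinuousOn ψ (H : Set G) := by
      rw [continuousOn_iff_continuous_domRestrict]
      have h2 : (H : Set G).domRestrict ψ = fun g : H => ϕ g := by
        funext g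
        simp only [Set.domRestrict_apply, ψ]
        exact dif_pos g.2
      rw [h2]
      exact hϕ
    exact h1.continuousAt (hH.mem_nhds H.one_mem)
  have hf : ContinuousAt (fun g : G => ∏ q : G ⧸ H, ψ ((t q)⁻¹ * g * t q)) 1 := by
    apply tendsto_finsetProd
    intro q _
    have h1 : ContinuousAt (fun g : G => (t q)⁻¹ * g * t q) 1 := by fun_prop
    have h2 : (t q)⁻¹ * 1 * t q = 1 := by group
    have h3 : ContinuousAt ψ ((fun g : G => (t q)⁻¹ * g * t q) 1) := by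
      change ContinuousAt ψ ((t q)⁻¹ * 1 * t q)
      rw [h2]; exact hψ
    exact ContinuousAt.comp (f := fun g : G => (t q)⁻¹ * g * t q) (x := 1) h3 h1
  apply continuous_of_continuousAt_one
  refine hf.congr ?_
  have hopen : ∀ᶠ g in nhds (1 : G), ∀ q : G ⧸ H, (t q)⁻¹ * g * t q ∈ H := by
    rw [Filter.eventually_all]
    intro q
    have h1 : ContinuousAt (fun g : G => (t q)⁻¹ * g * t q) 1 := by fun_prop
    have h2 : (t q)⁻¹ * 1 * t q = 1 := by group
    have h3 : (H : Set G) ∈ nhds ((t q)⁻¹ * 1 * t q) := by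
      rw [h2]; exact hH.mem_nhds H.one_mem
    exact h1.eventually h3
  filter_upwards [hopen] with g hg
  rw [transfer_eq_prod ϕ t ht]
  apply Finset.prod_congr rfl
  intro q _
  have h1 : g⁻¹ • q = q := by
    conv_lhs => rw [← ht q]
    conv_rhs => rw [← ht q]
    change ((g⁻¹ * t q : G) : G ⧸ H) = t q
    rw [QuotientGroup.eq, mul_inv_rev, inv_inv]
    exact hg q
  simp only [ψ]
  rw [dif_pos (hg q)]
  congr 1
  apply Subtype.ext
  change (t q)⁻¹ * g * t q = (t q)⁻¹ * (g * t (g⁻¹ • q))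
  rw [h1, mul_assoc]

end top

end Crest.Agent.R018.Verx568
end

-- ▼ part R018/V3G_793
section

/-!
Row 18, PROP TR, group theoretic half (helper793): `N` normal in `G`, `N ≤ H`, `H / N` generated by
`g1`; the transfer `H → A` of `a : N → A`.
-/

set_option autoImplicit false

namespace Crest.Agent.R018.V3Gx793

open MonoidHom Subgroup

variable {G : Type*} [Group G] {A : Type*} [CommGroup A]

/-- the homomorphism `a : N → A` on `N` as a subgroup of `H` -/
def aH {N : Subgroup G} (H : Subgroup G) (a : N →* A) : N.subgroupOf H →* A :=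
  a.comp
    { toFun := fun x => ⟨(x : H), Subgroup.mem_subgroupOf.1 x.2⟩
      map_one' := rfl
      map_mul' := fun _ _ => rfl }

theorem aH_apply {N : Subgroup G} (H : Subgroup G) (a : N →* A) (x : N.subgroupOf H) :
    aH H a x = a ⟨(x : H), Subgroup.mem_subgroupOf.1 x.2⟩ := rfl

theorem conj_mem {N : Subgroup G} [N.Normal] {x : G} (hx : x ∈ N) (g : G) : g⁻¹ * x * g ∈ N := by
  have := Subgroup.Normal.conj_mem (inferInstance : N.Normal) x hx g⁻¹
  simpa using this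

theorem a_conj_mem {N : Subgroup G} [N.Normal] (a : N →* A) {x : G} (hx : x ∈ N) {y : G}
    (hy : y ∈ N) : a ⟨y⁻¹ * x * y, conj_mem hx y⟩ = a ⟨x, hx⟩ := by
  have h1 : (⟨y⁻¹ * x * y, conj_mem hx y⟩ : N) = (⟨y, hy⟩ : N)⁻¹ * ⟨x, hx⟩ * ⟨y, hy⟩ := rfl
  rw [h1, map_mul, map_mul, map_inv, mul_right_comm, inv_mul_cancel, one_mul]

variable {N : Subgroup G} [N.Normal] {H : Subgroup G} {g1 : G}

/-- the transfer vanishes at `F`, `F ≡ g1` modulo `N`, as soon as `a (F ^ n) = 1` -/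
theorem transfer_frob [(N.subgroupOf H).FiniteIndex]
    (hH : ∀ h ∈ H, ∃ k : ℤ, (g1 ^ k)⁻¹ * h ∈ N) (a : N →* A)
    (htf : ∀ (x : A) (n : ℕ), 0 < n → x ^ n = 1 → x = 1)
    (F : G) (hFH : F ∈ H) (hF : g1⁻¹ * F ∈ N) (n : ℕ) (hn : 0 < n) (hFn : F ^ n ∈ N)
    (ha : a ⟨F ^ n, hFn⟩ = 1) : transfer (aH H a) ⟨F, hFH⟩ = 1 := by
  refine Verx568.transfer_eq_one_of_mem (aH H a) (Subgroup.zpowers ⟨F, hFH⟩) ?_ ?_ _
    (Subgroup.mem_zpowers _)
  · rintro ⟨h, hh⟩
    obtain ⟨k, hk⟩ := hH h hh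
    refine ⟨⟨F, hFH⟩ ^ k, Subgroup.zpow_mem_zpowers _ _, ?_⟩
    rw [Subgroup.mem_subgroupOf]
    have h1 : ((F : G) : G ⧸ N) = (g1 : G ⧸ N) := by
      rw [eq_comm, QuotientGroup.eq]; exact hF
    have h2 : ((F ^ k : G) : G ⧸ N) = ((g1 ^ k : G) : G ⧸ N) := by
      rw [QuotientGroup.mk_zpow, QuotientGroup.mk_zpow, h1]
    have h3 : ((g1 ^ k : G) : G ⧸ N) = (h : G ⧸ N) := QuotientGroup.eq.2 hk
    have h4 : ((F ^ k : G) : G ⧸ N) = (h : G ⧸ N) := h2.trans h3
    simpa using QuotientGroup.eq.1 h4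
  · rintro ⟨h, hh⟩ hhN ⟨k, hk⟩
    have hk' : F ^ k = h := congrArg Subtype.val hk
    have hhN' : h ∈ N := Subgroup.mem_subgroupOf.1 hhN
    rw [aH_apply]
    apply htf _ n hn
    have h1 : (⟨h, hhN'⟩ : N) ^ n = (⟨F ^ n, hFn⟩ : N) ^ k := by
      apply Subtype.ext
      push_cast
      rw [← hk', ← zpow_natCast, ← zpow_natCast, ← zpow_mul, ← zpow_mul, mul_comm]
    have h2 : a ⟨h, hhN'⟩ ^ n = 1 := by
      rw [← map_pow, h1, map_zpow, ha, one_zpow]
    exact h2

/-- the transfer of an element of `N` is a power of the product over `range n` -/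
theorem prod_eq_one [(N.subgroupOf H).FiniteIndex] (hNH : N ≤ H) (hg1 : g1 ∈ H)
    (hH : ∀ h ∈ H, ∃ k : ℤ, (g1 ^ k)⁻¹ * h ∈ N) (a : N →* A)
    (n : ℕ) (hn : 0 < n) (hg1n : g1 ^ n ∈ N) (x : G) (hx : x ∈ N)
    (hx1 : transfer (aH H a) ⟨x, hNH hx⟩ = 1) :
    ∏ i ∈ Finset.range n, a ⟨(g1 ^ i)⁻¹ * x * (g1 ^ i), conj_mem hx _⟩ = 1 := by
  classical
  have hex : ∃ o, 0 < o ∧ g1 ^ o ∈ N := ⟨n, hn, hg1n⟩
  set o := Nat.find hex with ho
  have ho0 : 0 < o := (Nat.find_spec hex).1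
  have hoN : g1 ^ o ∈ N := (Nat.find_spec hex).2
  have hmin : ∀ j, j < o → 0 < j → g1 ^ j ∉ N := fun j hj h0 h1 => Nat.find_min hex hj ⟨h0, h1⟩
  let c : ℕ → A := fun i => a ⟨(g1 ^ i)⁻¹ * x * (g1 ^ i), conj_mem hx _⟩
  -- periodicity
  have hper : ∀ i, c (i + o) = c i := by
    intro i
    have h1 := a_conj_mem a (conj_mem hx (g1 ^ i)) hoN
    refine Eq.trans ?_ h1
    simp only [c]
    congr 1
    apply Subtype.ext
    simp only [pow_add, mul_inv_rev, mul_assoc]
  -- o divides n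
  have hdvd : o ∣ n := by
    by_contra hnd
    have h1 : 0 < n % o := Nat.pos_of_ne_zero fun h => hnd (Nat.dvd_of_mod_eq_zero h)
    have h2 := Nat.mod_lt n ho0
    apply hmin _ h2 h1
    have h3 : g1 ^ n = (g1 ^ o) ^ (n / o) * g1 ^ (n % o) := by
      rw [← pow_mul, ← pow_add, Nat.div_add_mod]
    have h4 : g1 ^ (n % o) = ((g1 ^ o) ^ (n / o))⁻¹ * g1 ^ n := by
      rw [h3]; group
    rw [h4]
    exact N.mul_mem (N.inv_mem (N.pow_mem hoN _)) hg1n
  obtain ⟨m, hm⟩ := hdvd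
  have hrange : ∀ m, ∏ i ∈ Finset.range (o * m), c i = (∏ i ∈ Finset.range o, c i) ^ m := by
    intro m
    induction m with
    | zero => simp
    | succ m ih =>
      rw [Nat.mul_succ, Finset.prod_range_add, ih, pow_succ]
      congr 1
      refine Finset.prod_congr rfl fun i _ => ?_
      have : ∀ m, c (o * m + i) = c i := by
        intro m
        induction m with
        | zero => simp
        | succ m ih =>
          rw [Nat.mul_succ, add_right_comm, hper, ih]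
      exact this m
  change ∏ i ∈ Finset.range n, c i = 1
  rw [hm, hrange]
  -- now the transfer
  have : Fintype (H ⧸ N.subgroupOf H) := (N.subgroupOf H).fintypeQuotientOfFiniteIndex
  let t : H ⧸ N.subgroupOf H → H := Quotient.out
  have ht : ∀ q, (t q : H ⧸ N.subgroupOf H) = q := fun q => QuotientGroup.out_eq' q
  rw [Verx568.transfer_of_normal (aH H a) t ht ⟨x, hNH hx⟩ (Subgroup.mem_subgroupOf.2 hx)] at hx1
  let φ : Fin o → H ⧸ N.subgroupOf H := fun i => ((⟨g1, hg1⟩ ^ (i : ℕ) : H) : H ⧸ N.subgroupOf H)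
  have hφ : Function.Bijective φ := by
    constructor
    · have key : ∀ i j : Fin o, (i : ℕ) ≤ j → φ i = φ j → i = j := by
        intro i j hij h
        have h1 := QuotientGroup.eq.1 h
        rw [Subgroup.mem_subgroupOf] at h1
        have h2 : ((((⟨g1, hg1⟩ : H) ^ (i : ℕ))⁻¹ * (⟨g1, hg1⟩ : H) ^ (j : ℕ) : H) : G) =
            g1 ^ ((j : ℕ) - i) := by
          push_cast
          rw [inv_mul_eq_iff_eq_mul, ← pow_add]
          congr 1
          omega
        rw [h2] at h1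
        by_contra hne
        have h3 : (i : ℕ) ≠ j := fun h => hne (Fin.ext h)
        exact hmin _ (by omega) (by omega) h1
      intro i j h
      rcases le_total (i : ℕ) j with hij | hij
      · exact key i j hij h
      · exact (key j i hij h.symm).symm
    · intro q
      obtain ⟨⟨h, hh⟩, rfl⟩ := QuotientGroup.mk_surjective q
      obtain ⟨k, hk⟩ := hH h hh
      have hpos : (0 : ℤ) < o := by exact_mod_cast ho0
      have h1 := Int.emod_nonneg k hpos.ne'
      have h2 := Int.emod_lt_of_pos k hpos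
      refine ⟨⟨(k % o).toNat, by omega⟩, ?_⟩
      rw [QuotientGroup.eq, Subgroup.mem_subgroupOf]
      have h3 : g1 ^ k = (g1 ^ (o : ℕ)) ^ (k / o) * g1 ^ ((k % o).toNat) := by
        have h4 : ((k % o).toNat : ℤ) = k % o := Int.toNat_of_nonneg h1
        have h5 : g1 ^ ((k % o).toNat) = g1 ^ (k % (o : ℤ)) := by
          rw [← zpow_natCast, h4]
        rw [h5, ← zpow_natCast, ← zpow_mul, ← zpow_add, Int.mul_ediv_add_emod]
      have h6 : ((((⟨g1, hg1⟩ : H) ^ ((k % o).toNat))⁻¹ * (⟨h, hh⟩ : H) : H) : G) =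
          (g1 ^ ((k % o).toNat))⁻¹ * h := by
        push_cast; rfl
      change ((((⟨g1, hg1⟩ : H) ^ ((k % o).toNat))⁻¹ * (⟨h, hh⟩ : H) : H) : G) ∈ N
      rw [h6]
      have h7 : (g1 ^ ((k % o).toNat))⁻¹ * h =
          (((g1 ^ ((k % o).toNat))⁻¹ * ((g1 ^ (o : ℕ)) ^ (k / o))⁻¹ * (g1 ^ ((k % o).toNat))))⁻¹ *
            ((g1 ^ k)⁻¹ * h) := by
        rw [h3]; group
      rw [h7]
      refine N.mul_mem (N.inv_mem ?_) hk
      exact conj_mem (N.inv_mem (N.zpow_mem hoN _)) _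
  have hprod : ∏ i : Fin o, c i = 1 := by
    rw [← hx1]
    refine Fintype.prod_bijective φ hφ _ _ ?_
    intro i
    rw [aH_apply]
    have h1 : (t (φ i) : H ⧸ N.subgroupOf H) = ((⟨g1, hg1⟩ ^ (i : ℕ) : H) : H ⧸ N.subgroupOf H) :=
      ht _
    have h2 := QuotientGroup.eq.1 h1.symm
    rw [Subgroup.mem_subgroupOf] at h2
    set y : G := ((((⟨g1, hg1⟩ : H) ^ (i : ℕ))⁻¹ * t (φ i) : H) : G) with hy
    have h3 : ((t (φ i) : H) : G) = g1 ^ (i : ℕ) * y := by
      rw [hy]; push_cast; group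
    have h4 := a_conj_mem a (conj_mem hx (g1 ^ (i : ℕ))) h2
    simp only [c]
    rw [← h4]
    congr 1
    apply Subtype.ext
    change _ = (((t (φ i))⁻¹ * (⟨x, hNH hx⟩ : H) * t (φ i) : H) : G)
    push_cast
    rw [h3]
    group
  rw [← Finset.prod_range (fun i => c i)] at hprod
  rw [hprod, one_pow]

end Crest.Agent.R018.V3Gx793
end

-- ▼ part R018/V3_793
section

/-!
Row 18, PROP TR (`GDefx791.V3 l`) from the degree-one theorem (helper793).
-/

set_option autoImplicit false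

namespace Crest.Agent.R018.V3x793

open IsDedekindDomain NumberField Crest.Agent.R018.EndDefx924 Crest.Agent.R018.Placesx484
  Crest.Agent.R018.GDefx791 Crest.Agent.R018.WaldNFx614 Crest.Agent.R018.V3Gx793
  Crest.Agent.R018.EndAx924

/-! ### the restriction of scalars -/

section restrict

variable {k K : Type*} [Field k] [Field K] [Algebra k K]

/-- restriction of scalars as a homomorphism -/
def resHom (F : IntermediateField k K) : (K ≃ₐ[F] K) →* (K ≃ₐ[k] K) where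
  toFun σ := σ.restrictScalars k
  map_one' := rfl
  map_mul' _ _ := rfl

@[simp] theorem resHom_apply (F : IntermediateField k K) (σ : K ≃ₐ[F] K) (x : K) :
    resHom F σ x = σ x := rfl

theorem continuous_resHom [Algebra.IsIntegral k K] (F : IntermediateField k K)
    [FiniteDimensional k F] : Continuous (resHom F) := by
  apply continuous_of_continuousAt_one
  rw [ContinuousAt, map_one]
  intro s hs
  obtain ⟨E', hE', hs'⟩ := (krullTopology_mem_nhds_one_iff k K s).1 hs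
  rw [Filter.mem_map, krullTopology_mem_nhds_one_iff]
  have hle : F ≤ F ⊔ E' := le_sup_left
  refine ⟨IntermediateField.extendScalars hle, ?_, ?_⟩
  · have h1 : FiniteDimensional k (F ⊔ E' : IntermediateField k K) :=
      IntermediateField.finiteDimensional_sup F E'
    have h2 : FiniteDimensional k (IntermediateField.extendScalars hle) := h1
    exact FiniteDimensional.right k F _
  · intro σ hσ
    apply hs'
    rw [SetLike.mem_coe, IntermediateField.mem_fixingSubgroup_iff] at hσ ⊢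
    intro x hx
    have h1 : x ∈ IntermediateField.extendScalars hle := by
      rw [IntermediateField.mem_extendScalars]
      exact (le_sup_right : E' ≤ F ⊔ E') hx
    exact hσ x h1

end restrict

section prime

variable {F : Type*} [Field F] [NumberField F]

/-- the height one prime of a place of a number field -/
def toHOS (P : Place F) : HeightOneSpectrum (𝓞 F) := ⟨P.ideal, P.isPrime, P.ne_bot⟩

theorem absNorm_eq (w : HeightOneSpectrum (𝓞 F)) (p : ℕ) (hp : p.Prime)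
    (hpw : (p : 𝓞 F) ∈ w.asIdeal) (h : ∀ x : 𝓞 F, x - x ^ p ∈ w.asIdeal) :
    Ideal.absNorm w.asIdeal = p := by
  classical
  have hmax := w.isMaximal
  let : Field (𝓞 F ⧸ w.asIdeal) := Ideal.Quotient.field w.asIdeal
  have hfin : Finite (𝓞 F ⧸ w.asIdeal) := Ideal.finiteQuotientOfFreeOfNeBot w.asIdeal w.ne_bot
  have : Fintype (𝓞 F ⧸ w.asIdeal) := Fintype.ofFinite _
  have h1 : Ideal.absNorm w.asIdeal = Nat.card (𝓞 F ⧸ w.asIdeal) := by
    rw [Ideal.absNorm_apply, Submodule.cardQuot_apply]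
  rw [h1]
  apply le_antisymm
  · have hroot : ∀ x : 𝓞 F ⧸ w.asIdeal, x ^ p - x = 0 := by
      intro x
      obtain ⟨y, rfl⟩ := Ideal.Quotient.mk_surjective x
      have h2 := Ideal.Quotient.eq_zero_iff_mem.2 (h y)
      rw [map_sub, map_pow] at h2
      rw [sub_eq_zero] at h2 ⊢
      exact h2.symm
    have h3 : (Finset.univ : Finset (𝓞 F ⧸ w.asIdeal)) ⊆
        (Polynomial.X ^ p - Polynomial.X : Polynomial (𝓞 F ⧸ w.asIdeal)).roots.toFinset := by
      intro x _
      rw [Multiset.mem_toFinset, Polynomial.mem_roots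
        (FiniteField.X_pow_card_sub_X_ne_zero _ hp.one_lt)]
      simpa using hroot x
    have h4 := Finset.card_le_card h3
    rw [Finset.card_univ, ← Nat.card_eq_fintype_card] at h4
    refine h4.trans ((Multiset.toFinset_card_le _).trans ((Polynomial.card_roots' _).trans ?_))
    rw [FiniteField.X_pow_card_sub_X_natDegree_eq _ hp.one_lt]
  · have hp0 : ((p : ℕ) : 𝓞 F ⧸ w.asIdeal) = 0 := by
      have := Ideal.Quotient.eq_zero_iff_mem.2 hpw
      simpa using this
    have h5 : addOrderOf (1 : 𝓞 F ⧸ w.asIdeal) = p := by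
      have := Fact.mk hp
      apply addOrderOf_eq_prime _ one_ne_zero
      rw [nsmul_one]
      exact hp0
    have h6 : p ∣ Nat.card (𝓞 F ⧸ w.asIdeal) := by
      rw [← h5]; exact addOrderOf_dvd_natCard _
    exact Nat.le_of_dvd Nat.card_pos h6

theorem unram_of_not_dvd (w : HeightOneSpectrum (𝓞 F)) (p : ℕ) (hp : p.Prime)
    (hpw : (p : 𝓞 F) ∈ w.asIdeal) (hd : ¬ (p : ℤ) ∣ discr F) : (p : 𝓞 F) ∉ w.asIdeal ^ 2 := by
  intro h3
  have hcop : IsCoprime (p : ℤ) (discr F) :=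
    (Nat.prime_iff_prime_int.mp hp).coprime_iff_not_dvd.2 hd
  obtain ⟨a, b, hab⟩ := hcop
  set P := w.asIdeal with hP
  have hPp : P.IsPrime := w.isPrime
  have hmapspan : (Ideal.span {(p : ℤ)}).map (algebraMap ℤ (𝓞 F)) =
      Ideal.span {((p : ℤ) : 𝓞 F)} := by
    rw [Ideal.map_span, Set.image_singleton]; simp
  have hdvd : P ^ 2 ∣ (Ideal.span {(p : ℤ)}).map (algebraMap ℤ (𝓞 F)) := by
    rw [hmapspan, Ideal.dvd_span_singleton]; simpa using h3
  have hspne : Ideal.span {(p : ℤ)} ≠ ⊥ := by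
    simpa using hp.ne_zero
  have : (Ideal.span {(p : ℤ)}).IsMaximal :=
    PrincipalIdealRing.isMaximal_of_irreducible (Nat.prime_iff_prime_int.mp hp).irreducible
  have hd2 : P ∣ differentIdeal ℤ (𝓞 F) := by
    have := pow_sub_one_dvd_differentIdeal ℤ P 2 hspne hdvd
    simpa using this
  have hdmem : ((discr F : ℤ) : 𝓞 F) ∈ P :=
    (Ideal.dvd_iff_le.mp hd2) (discr_mem_differentIdeal F (𝓞 F))
  apply hPp.ne_top
  rw [Ideal.eq_top_iff_one]
  have h1 : (1 : 𝓞 F) = (a : 𝓞 F) * (p : 𝓞 F) + (b : 𝓞 F) * ((discr F : ℤ) : 𝓞 F) := by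
    have := congrArg (fun z : ℤ => (z : 𝓞 F)) hab
    push_cast at this
    exact this.symm
  rw [h1]
  exact P.add_mem (P.mul_mem_left _ hpw) (P.mul_mem_left _ hdmem)

theorem deg1_of (P : Place F) (p : ℕ) (hp : p.Prime) (hpw : (p : 𝓞 F) ∈ P.ideal)
    (h : ∀ x : 𝓞 F, x - x ^ p ∈ P.ideal) (hd : (discr F).natAbs < p) : Deg1 (toHOS P) p where
  prime := hp
  absNorm := absNorm_eq (toHOS P) p hp hpw h
  unram := by
    refine unram_of_not_dvd (toHOS P) p hp hpw ?_
    intro hdv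
    have h1 := Int.natAbs_dvd_natAbs.mpr hdv
    rw [Int.natAbs_natCast] at h1
    exact absurd (Nat.le_of_dvd (Int.natAbs_pos.mpr (discr_ne_zero F)) h1) (not_le.mpr hd)

end prime


/-! ### PROP TR -/

theorem mult_torsionfree (l : ℕ) [Fact l.Prime] (x : Multiplicative ℤ_[l]) (n : ℕ) (hn : 0 < n)
    (h : x ^ n = 1) : x = 1 := by
  have h1 : n • (Multiplicative.toAdd x) = 0 := by
    rw [← toAdd_pow, h]; rfl
  rw [nsmul_eq_mul] at h1
  rcases mul_eq_zero.1 h1 with h2 | h2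
  · exact absurd h2 (by exact_mod_cast hn.ne')
  · exact Multiplicative.toAdd.injective h2

theorem exists_primroot (n : ℕ) (hn : n ≠ 0) : ∃ ζ : Om, IsPrimitiveRoot ζ n := by
  have : NeZero (n : Om) := ⟨by exact_mod_cast hn⟩
  exact HasEnoughRootsOfUnity.exists_primitiveRoot Om n

theorem v3 (l : ℕ) [hl : Fact l.Prime] (hl2 : l ≠ 2) : V3 l := by
  intro N hNn hNo a ha g1 n hn hg1n hfrob x
  -- the group `H` generated by `N` and `g1`
  set H : Subgroup B := N ⊔ Subgroup.zpowers g1 with hHdef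
  have hNH : N ≤ H := le_sup_left
  have hg1H : g1 ∈ H := (le_sup_right : Subgroup.zpowers g1 ≤ H) (Subgroup.mem_zpowers g1)
  have hHmem : ∀ h ∈ H, ∃ k : ℤ, (g1 ^ k)⁻¹ * h ∈ N := by
    intro h hh
    rw [hHdef, sup_comm, Subgroup.mem_sup_of_normal_right] at hh
    obtain ⟨y, ⟨k, rfl⟩, z, hz, rfl⟩ := hh
    refine ⟨k, ?_⟩
    simpa using hz
  have hHo : IsOpen (H : Set B) := Subgroup.isOpen_mono hNH hNo
  have hHc : IsClosed (H : Set B) := Subgroup.isClosed_of_isOpen H hHo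
  -- the fixed field
  let F : IntermediateField ℚ Om := IntermediateField.fixedField H
  have hFfix : F.fixingSubgroup = H :=
    InfiniteGalois.fixingSubgroup_fixedField (⟨H, hHc⟩ : ClosedSubgroup B)
  have hFfd : FiniteDimensional ℚ F := by
    rw [← InfiniteGalois.isOpen_iff_finite]
    change IsOpen ((F.fixingSubgroup : Subgroup B) : Set B)
    rw [hFfix]
    exact hHo
  have hNF : NumberField F := { to_charZero := inferInstance, to_finiteDimensional := hFfd }
  -- finite index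
  have hfi : (N.subgroupOf H).FiniteIndex := by
    have h1 : Finite (B ⧸ N) := Subgroup.quotient_finite_of_isOpen N hNo
    have h2 : N.FiniteIndex := Subgroup.finiteIndex_of_finite_quotient
    infer_instance
  have hNHo : IsOpen ((N.subgroupOf H : Subgroup H) : Set H) := hNo.preimage continuous_subtype_val
  have hac : Continuous (aH H a) := by
    refine ha.comp ?_
    refine Continuous.subtype_mk ?_ _
    exact continuous_subtype_val.comp continuous_subtype_val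
  have htc : Continuous (MonoidHom.transfer (aH H a)) := Verx568.continuous_transfer _ hNHo hac
  -- the homomorphism `ρ : Gal(Om/F) → H`
  have hmem : ∀ σ : Om ≃ₐ[F] Om, resHom F σ ∈ H := by
    intro σ
    rw [← hFfix, IntermediateField.mem_fixingSubgroup_iff]
    intro y hy
    exact σ.commutes ⟨y, hy⟩
  let ρ : (Om ≃ₐ[F] Om) →* H := (resHom F).codRestrict H hmem
  have hρ : Continuous ρ := Continuous.subtype_mk (continuous_resHom F) _
  have hρs : ∀ h : H, ∃ σ : Om ≃ₐ[F] Om, ρ σ = h := by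
    intro h
    have h1 : (h : B) ∈ F.fixingSubgroup := by rw [hFfix]; exact h.2
    refine ⟨IntermediateField.fixingSubgroupEquiv F ⟨h, h1⟩, ?_⟩
    apply Subtype.ext
    ext y
    rfl
  let lam : (Om ≃ₐ[F] Om) →* Multiplicative ℤ_[l] := (MonoidHom.transfer (aH H a)).comp ρ
  have hlamc : Continuous lam := htc.comp hρ
  have hG : IsGalois F Om := inferInstance
  have hlam1 : lam = 1 := by
    refine DegThmx614.deg_one hl2 (fun m => exists_primroot _ (pow_ne_zero _ hl.out.ne_zero)) lam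
      hlamc ?_
    intro B0
    obtain ⟨p, hpB, hp, S, F0, hpS, hF0, hF0N, hF0n, haF0⟩ :=
      hfrob (max B0 (discr F).natAbs)
    have hF0H : F0 ∈ H := by
      have h1 : F0 = g1 * (g1⁻¹ * F0) := by group
      rw [h1]
      exact H.mul_mem hg1H (hNH hF0N)
    obtain ⟨s, hs⟩ := hρs ⟨F0, hF0H⟩
    have hsF0 : ∀ y : Om, s y = F0 y := by
      intro y
      have h1 : ((ρ s : H) : B) = F0 := by rw [hs]
      have h2 : ((ρ s : H) : B) y = s y := rfl
      rw [← h2, h1]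
    have hsF0' : ∀ y : 𝓞 Om, s • y = F0 • y := by
      intro y
      apply NumberField.RingOfIntegers.ext
      exact hsF0 y
    refine ⟨p, toHOS (S.res F), S, s, lt_of_le_of_lt (le_max_left _ _) hpB, ?_, rfl, ?_, ?_⟩
    · refine deg1_of (S.res F) p hp ?_ ?_ (lt_of_le_of_lt (le_max_right _ _) hpB)
      · rw [Place.mem_res]
        simpa using hpS
      · intro y
        rw [Place.mem_res, map_sub, map_pow]
        have h1 := hF0 (algebraMap (𝓞 F) (𝓞 Om) y)
        rw [← hsF0'] at h1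
        have h2 : s • (algebraMap (𝓞 F) (𝓞 Om) y) = algebraMap (𝓞 F) (𝓞 Om) y := by
          apply NumberField.RingOfIntegers.ext
          exact s.commutes y
        rwa [h2] at h1
    · intro y
      rw [hsF0']
      exact hF0 y
    · change MonoidHom.transfer (aH H a) (ρ s) = 1
      rw [hs]
      exact transfer_frob hHmem a (mult_torsionfree l) F0 hF0H hF0N n hn hF0n haF0
  -- conclusion
  obtain ⟨x, hx⟩ := x
  have h1 : MonoidHom.transfer (aH H a) ⟨x, hNH hx⟩ = 1 := by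
    obtain ⟨σ, hσ⟩ := hρs ⟨x, hNH hx⟩
    rw [← hσ]
    exact DFunLike.congr_fun hlam1 σ
  have h2 := prod_eq_one hNH hg1H hHmem a n hn hg1n x hx h1
  rw [← h2]
  rfl

end Crest.Agent.R018.V3x793
end

-- ▼ part R018/GLit_791

/-!
# Row 18: the literal `Core_74.LemmaG` (helper791)
-/

set_option autoImplicit false

noncomputable section

open NumberField Pointwise
open Crest.NumberTheoryR

namespace Crest.Agent.R018.GLitx791

open Crest.Agent.R018.EndDefx924 (Om)
open Crest.Agent.R018.Placesx484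
open Crest.Agent.R018.Corex74


theorem neg_ne {z : Sv} (h : z ≠ 0) : -z ≠ z := by
  intro h1
  apply h
  have h2 : (2 : Sv) * z = 0 := by linear_combination -h1
  rcases mul_eq_zero.1 h2 with h3 | h3
  · exact absurd h3 two_ne_zero
  · exact h3

section chi

variable {V : Subgroup SG} {x : Sv} (hx : Gen V x) (z : Sv) (hz : z ^ 2 = x)

include hx hz in
theorem root_ne_zero : z ≠ 0 := by
  rintro rfl
  apply hx.1
  rw [← hz]
  simp

include hx hz in
theorem root_cases (a : V) : (a : SG) z = z ∨ (a : SG) z = -z := by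
  have h1 : ((a : SG) z) ^ 2 = z ^ 2 := by
    rw [← map_pow, hz]
    exact hx.2.1 a a.2
  exact sq_eq_sq_iff_eq_or_eq_neg.1 h1

open Classical in
/-- the quadratic character of `√x` -/
def chi : V →* ℤˣ where
  toFun a := if (a : SG) z = z then 1 else -1
  map_one' := by simp
  map_mul' := by
    intro a b
    have h0 := neg_ne (root_ne_zero hx z hz)
    have hcoe : ((a * b : V) : SG) z = (a : SG) ((b : SG) z) := rfl
    rw [hcoe]
    rcases root_cases hx z hz a with ha | ha <;> rcases root_cases hx z hz b with hb | hb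
    · rw [hb, ha]; simp
    · rw [hb, map_neg, ha]; simp [h0]
    · rw [hb, ha]; simp [h0]
    · rw [hb, map_neg, ha]; simp [h0]

theorem chi_eq_one_iff (a : V) : chi hx z hz a = 1 ↔ (a : SG) z = z := by
  unfold chi
  simp only [MonoidHom.coe_mk, OneHom.coe_mk]
  constructor
  · intro h
    by_contra h1
    rw [if_neg h1] at h
    exact absurd h (by decide)
  · intro h
    rw [if_pos h]

theorem chi_eq_neg_one_iff (a : V) : chi hx z hz a = -1 ↔ (a : SG) z = -z := by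
  have h0 := neg_ne (root_ne_zero hx z hz)
  unfold chi
  simp only [MonoidHom.coe_mk, OneHom.coe_mk]
  constructor
  · intro h
    rcases root_cases hx z hz a with h1 | h1
    · rw [if_pos h1] at h
      exact absurd h (by decide)
    · exact h1
  · intro h
    rw [if_neg (by rw [h]; exact h0)]

theorem trivStab [V.Normal] : GDefx791.TrivStab V (chi hx z hz) := by
  intro g hg
  by_contra hgV
  -- `z * g z` is fixed by `V`
  have hne : g x ≠ x := fun h => hgV (hx.2.2.1 g h)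
  have hfix : ∀ v ∈ V, v (z * g z) = z * g z := by
    intro v hv
    have h1 := hg ⟨v, hv⟩
    have hcoe : ((MulAut.conjNormal g⁻¹ (⟨v, hv⟩ : V) : V) : SG) = g⁻¹ * v * g := by simp
    have hvg : v (g z) = g (((MulAut.conjNormal g⁻¹ (⟨v, hv⟩ : V) : V) : SG) z) := by
      rw [hcoe, AlgEquiv.mul_apply, AlgEquiv.mul_apply, ← AlgEquiv.mul_apply g, mul_inv_cancel]
      rfl
    rw [map_mul, hvg]
    rcases root_cases hx z hz ⟨v, hv⟩ with h2 | h2
    · have h3 : chi hx z hz (MulAut.conjNormal g⁻¹ (⟨v, hv⟩ : V)) = 1 := by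
        rw [h1]; exact (chi_eq_one_iff hx z hz _).2 h2
      rw [(chi_eq_one_iff hx z hz _).1 h3]
      change v z = z at h2
      rw [h2]
    · have h3 : chi hx z hz (MulAut.conjNormal g⁻¹ (⟨v, hv⟩ : V)) = -1 := by
        rw [h1]; exact (chi_eq_neg_one_iff hx z hz _).2 h2
      rw [(chi_eq_neg_one_iff hx z hz _).1 h3]
      change v z = -z at h2
      rw [h2, map_neg, neg_mul_neg]
  classical
  apply hx.2.2.2 {x, g x} ⟨x, Finset.mem_insert_self _ _⟩
  · intro y hy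
    rw [Finset.mem_insert, Finset.mem_singleton] at hy
    rcases hy with rfl | rfl
    · exact ⟨1, rfl⟩
    · exact ⟨g, rfl⟩
  · refine ⟨z * g z, hfix, ?_⟩
    rw [Finset.prod_insert (by rw [Finset.mem_singleton]; exact hne.symm), Finset.prod_singleton,
      mul_pow, hz, ← map_pow, hz]

end chi

section probe

variable {V : Subgroup SG} [V.Normal] {x : Sv} {l : ℕ} [Fact l.Prime]

instance : (V2 V x).Normal := V2_normal V x

theorem conj_coe (γ : SG) (n : V2 V x) (h : γ⁻¹ * (n : SG) * γ ∈ V2 V x) :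
    (⟨γ⁻¹ * n * γ, h⟩ : V2 V x) = MulAut.conjNormal γ⁻¹ n := by
  apply Subtype.ext
  simp

theorem act_eq (γ : SG) (f : V2 V x → ℤ_[l]) : act γ f = GDefx791.act ℤ_[l] (V2 V x) γ f := by
  funext n
  change f _ = f _
  rw [conj_coe]

/-- the probe as an additive function -/
def fn (p : Probe V x l) : V2 V x → ℤ_[l] := fun n => Multiplicative.toAdd (p.ψ n)

theorem tr_eq (p : Probe V x l) (γ : SG) : tr p γ = GDefx791.act ℤ_[l] (V2 V x) γ (fn p) := by
  funext n
  change Multiplicative.toAdd (p.ψ _) = Multiplicative.toAdd (p.ψ _)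
  rw [conj_coe]

theorem fn_mem_V (p : Probe V x l) : fn p ∈ GDefx791.V l (V2 V x) := by
  refine ⟨p.cont, fun u v => ?_⟩
  change Multiplicative.toAdd (p.ψ (u * v)) = _
  rw [map_mul]
  rfl

theorem fn_mem_Eig (hx : Gen V x) (z : Sv) (hz : z ^ 2 = x) (p : Probe V x l) :
    fn p ∈ GDefx791.Eig l V (V2 V x) (chi hx z hz) 1 := by
  refine ⟨fn_mem_V p, fun a => ?_⟩
  have h1 : (MulAut.conjNormal (1 : SG)⁻¹ a : V) = a := by
    rw [inv_one, map_one]; rfl
  rw [h1]
  have hz0 := root_ne_zero hx z hz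
  have hroot : ∀ w : Sv, w ^ 2 = x → w = z ∨ w = -z := fun w hw =>
    sq_eq_sq_iff_eq_or_eq_neg.1 (by rw [hw, hz])
  rcases root_cases hx z hz a with h2 | h2
  · rw [(chi_eq_one_iff hx z hz a).2 h2]
    have h3 := p.eig_pos a a.2 (fun w hw => by
      rcases hroot w hw with rfl | rfl
      · exact h2
      · rw [map_neg, h2])
    funext n
    have h4 := h3 n
    rw [conj_coe] at h4
    change Multiplicative.toAdd (p.ψ _) = _
    rw [h4]
    simp [fn]
  · rw [(chi_eq_neg_one_iff hx z hz a).2 h2]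
    have h3 := p.eig_neg a a.2 (fun w hw => by
      rcases hroot w hw with rfl | rfl
      · exact h2
      · rw [map_neg, h2])
    funext n
    have h4 := h3 n
    rw [conj_coe] at h4
    change Multiplicative.toAdd (p.ψ _) = _
    rw [h4]
    simp [fn]

theorem span_le_W (hx : Gen V x) (z : Sv) (hz : z ^ 2 = x) (p : Probe V x l) :
    Submodule.span ℤ_[l] (Set.range (tr p)) ≤ GDefx791.W l V (V2 V x) (chi hx z hz) := by
  rw [Submodule.span_le]
  rintro _ ⟨γ, rfl⟩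
  rw [tr_eq]
  have h1 := GActx791.act_mem_Eig (fn_mem_Eig hx z hz p) γ
  exact Submodule.mem_iSup_of_mem (γ * 1) h1

end probe

/-- `V₂(x)` is open -/
theorem isOpen_V2 {V : Subgroup SG} (hV : IsOpen (V : Set SG)) (x : Sv) :
    IsOpen (V2 V x : Set SG) := by
  classical
  -- the finitely many square roots of the conjugates of `x`
  have hint : ∀ y : Sv, IsIntegral ℚ y := fun y => Algebra.IsIntegral.isIntegral y
  let p : Polynomial ℚ := (minpoly ℚ x).comp (Polynomial.X ^ 2)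
  have hp : p ≠ 0 := by
    have h1 : (minpoly ℚ x).Monic := minpoly.monic (hint x)
    exact (h1.comp (Polynomial.monic_X_pow 2) (by simp)).ne_zero
  let T : Set Sv := p.rootSet Sv
  have hT : T.Finite := p.rootSet_finite Sv
  let L : IntermediateField ℚ Sv := IntermediateField.adjoin ℚ T
  have hL : FiniteDimensional ℚ L :=
    IntermediateField.finiteDimensional_adjoin (fun y _ => hint y) (S := T) |> fun h => by
      exact h
  have hLo : IsOpen (L.fixingSubgroup : Set SG) := L.fixingSubgroup_isOpen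
  have hle : V ⊓ L.fixingSubgroup ≤ V2 V x := by
    rintro g ⟨hgV, hgL⟩
    refine ⟨hgV, fun γ z hz => ?_⟩
    have hzT : z ∈ T := by
      rw [Polynomial.mem_rootSet]
      refine ⟨hp, ?_⟩
      change Polynomial.aeval z ((minpoly ℚ x).comp (Polynomial.X ^ 2)) = 0
      rw [Polynomial.aeval_comp, map_pow, Polynomial.aeval_X, hz]
      have : Polynomial.aeval (γ x) (minpoly ℚ x) = γ (Polynomial.aeval x (minpoly ℚ x)) :=
        Polynomial.aeval_algHom_apply (γ : Sv →ₐ[ℚ] Sv) x _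
      rw [this, minpoly.aeval, map_zero]
    exact hgL ⟨z, IntermediateField.subset_adjoin ℚ T hzT⟩
  exact Subgroup.isOpen_mono hle (hV.inter hLo)

/-- the literal from square roots -/
theorem lemmaG_of_sqrt (hsq : ∀ x : Sv, ∃ z : Sv, z ^ 2 = x) : LemmaG := by
  intro D V _ hV hND hsurj x hx l _ hl2 p φ hφ hφ0 g hg
  obtain ⟨z, hz⟩ := hsq x
  have hgood : GDefx791.Good D.G D.α V := by
    refine ⟨fun b hb => ?_, fun u hu => ?_⟩
    · obtain ⟨k, hk, h1, h2⟩ := hND b hb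
      exact ⟨k, hk, h1, h2⟩
    · obtain ⟨k, hk, h1⟩ := hsurj u hu
      exact ⟨k, hk, h1⟩
  have hrange : IsOpen (D.α.range : Set SG) := by
    rw [MonoidHom.coe_range]
    exact D.open_range
  have hG := GLemx791.lemmaG_gen l (V3x793.v3 l hl2) D.G D.isOpen_G D.α D.cont hrange
  obtain ⟨B0, hB0⟩ := hG V (V2 V x) hV (isOpen_V2 hV x) hgood (chi hx z hz) (trivStab hx z hz) φ
    (span_le_W hx z hz p hφ) hφ0
  refine ⟨B0, fun P hP σ hσ hσg k hk hk0 => ?_⟩
  -- the residue degree is attained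
  have hne : ({a | 0 < a ∧ ∃ g ∈ D.G, Act P g (P.rchar ^ a)} : Set ℕ).Nonempty := by
    obtain ⟨F, hF1, hF2⟩ := CoreF2x755.exists_frob_rat P
    have hfin : Finite (BB ⧸ D.G) := D.G.quotient_finite_of_isOpen D.isOpen_G
    have hidx : D.G.index ≠ 0 := (Subgroup.finiteIndex_of_finite_quotient (H := D.G)).index_ne_zero
    obtain ⟨n, hn, _, hn2⟩ := Subgroup.exists_pow_mem_of_index_ne_zero hidx F
    exact ⟨n, hn, F ^ n, hn2, TgtTx656.frob_pow_aux P hF2 n⟩
  have hlift : GDefx791.IsFrobLift D.G P P.rchar (fdeg D.G P) (σ : BB) := by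
    refine ⟨σ.2, (Nat.sInf_mem hne).1, hσ.2, ?_⟩
    intro j hj hj2 τ hτ hact
    exact Nat.notMem_of_lt_sInf hj2 ⟨hj, τ, hτ, hact⟩
  have hφV : φ ∈ GDefx791.V l (V2 V x) := GActx791.W_le_V (span_le_W hx z hz p hφ)
  have hact : GDefx791.act ℤ_[l] (V2 V x) (D.α ⟨(σ : BB), hlift.1⟩) φ = φ := by
    have h1 : g = D.α σ * ((D.α σ)⁻¹ * g) := by group
    rw [act_eq, h1, GActx791.act_mul, GActx791.act_of_mem hφV _ hσg] at hg
    exact hg
  exact hB0 P.rchar hP P.rchar_prime P P.rchar_mem (fdeg D.G P) (σ : BB) hlift hact k hk0 hk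

end Crest.Agent.R018.GLitx791
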